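import Vale.Agent.P304.Stmts

/-! Static properties of the fractional allocation. -/

namespace Vale.Agent.P304

open Finset
open scoped Classical

namespace Alloc

/-! ### The soft floor -/

lemma sig_ge (j : ℤ) (m : ℝ) : min (j : ℝ) (2 * m - j) ≤ sig m := by
  have h1 := Int.floor_add_fract m
  have h2 := le_max_left 0 (Int.fract m - 1 / 2)
  have h3 := le_max_right 0 (Int.fract m - 1 / 2)
  unfold sig
  rcases le_or_gt j ⌊m⌋ with h | h
  · have h4 : (j : ℝ) ≤ ⌊m⌋ := by exact_mod_cast h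
    exact (min_le_left _ _).trans (by linarith)
  · have h4 : (⌊m⌋ : ℝ) + 1 ≤ j := by exact_mod_cast h
    exact (min_le_right _ _).trans (by linarith)

lemma sig_ex (m : ℝ) : ∃ j : ℤ, sig m ≤ j ∧ sig m ≤ 2 * m - j := by
  have h1 := Int.floor_add_fract m
  have h2 := Int.fract_nonneg m
  have h3 := Int.fract_lt_one m
  unfold sig
  rcases le_total (Int.fract m - 1 / 2) 0 with h | h
  · rw [max_eq_left h]
    exact ⟨⌊m⌋, by linarith, by linarith⟩
  · rw [max_eq_right h]
    refine ⟨⌊m⌋ + 1, ?_, ?_⟩ <;> push_cast <;> linarith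

lemma sig_mono {a b : ℝ} (h : a ≤ b) : sig a ≤ sig b := by
  obtain ⟨j, h1, h2⟩ := sig_ex a
  exact (le_min h1 (by linarith)).trans (sig_ge j b)

lemma sig_add (a b : ℝ) : sig a + sig b ≤ sig (a + b) := by
  obtain ⟨i, h1, h2⟩ := sig_ex a
  obtain ⟨j, h3, h4⟩ := sig_ex b
  refine (le_min ?_ ?_).trans (sig_ge (i + j) (a + b)) <;> push_cast <;> linarith

lemma sig_le (m : ℝ) : sig m ≤ m := by
  obtain ⟨j, h1, h2⟩ := sig_ex m
  linarith

lemma le_sig {j : ℕ} {m : ℝ} (h : (j : ℝ) ≤ m) : (j : ℝ) ≤ sig m := by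
  have h1 := sig_ge (j : ℤ) m
  push_cast at h1
  exact (le_min le_rfl (by linarith)).trans h1

lemma sig_nonneg {m : ℝ} (h : 0 ≤ m) : 0 ≤ sig m := by
  have := le_sig (j := 0) (m := m) (by simpa using h)
  simpa using this

lemma sig_le_nat {n : ℕ} {m : ℝ} (h : m ≤ n + 1 / 2) : sig m ≤ n := by
  obtain ⟨j, h1, h2⟩ := sig_ex m
  rcases le_or_gt j (n : ℤ) with h3 | h3
  · have h4 : (j : ℝ) ≤ n := by exact_mod_cast h3
    linarith
  · have h4 : (n : ℝ) + 1 ≤ j := by exact_mod_cast h3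
    linarith

lemma sig_sum {ι : Type} (s : Finset ι) (x : ι → ℝ) : ∑ i ∈ s, sig (x i) ≤ sig (∑ i ∈ s, x i) := by
  induction s using Finset.induction_on with
  | empty => simpa using sig_nonneg le_rfl
  | insert a s ha ih =>
    rw [sum_insert ha, sum_insert ha]
    exact (add_le_add le_rfl ih).trans (sig_add _ _)

/-! ### The slot demand -/

noncomputable def AA (k : ℕ) (r : ℝ) : ℝ := 1 + r / (2 * k * RR k)

noncomputable def SS (k : ℕ) (r : ℝ) : ℝ := 4 - r / RR k

lemma hh_eq (k : ℕ) (r y : ℝ) : hh k r y = max 0 (AA k r - SS k r * y) := rfl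

lemma RR_pos (k : ℕ) : (0 : ℝ) < RR k := by
  have : 0 < RR k := by unfold RR; omega
  exact_mod_cast this

lemma AA_ge {k : ℕ} {r : ℝ} (h0 : 0 ≤ r) : 1 ≤ AA k r := by
  have := RR_pos k
  unfold AA
  have : 0 ≤ r / (2 * k * RR k) := by positivity
  linarith

lemma AA_le {k : ℕ} (hk : 2 ≤ k) {r : ℝ} (h1 : r ≤ RR k) : AA k r ≤ 5 / 4 := by
  have hR := RR_pos k
  have hk' : (2 : ℝ) ≤ k := by exact_mod_cast hk
  unfold AA
  have : r / (2 * k * RR k) ≤ 1 / 4 := by
    rw [div_le_iff₀ (by positivity)]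
    nlinarith
  linarith

lemma SS_ge {k : ℕ} {r : ℝ} (h1 : r ≤ RR k) : 3 ≤ SS k r := by
  have hR := RR_pos k
  unfold SS
  have : r / RR k ≤ 1 := (div_le_one hR).2 h1
  linarith

lemma SS_le {k : ℕ} {r : ℝ} (h0 : 0 ≤ r) : SS k r ≤ 4 := by
  have hR := RR_pos k
  unfold SS
  have : 0 ≤ r / RR k := by positivity
  linarith

lemma AA_half {k : ℕ} (hk : 2 ≤ k) (r : ℝ) :
    AA k (r - 1 / 2) = AA k r - 4 * (1 / (16 * RR k) * (1 / k)) := by
  have hR := RR_pos k
  have hk' : (0 : ℝ) < k := by exact_mod_cast (by omega : 0 < k)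
  unfold AA
  field_simp
  ring

lemma SS_half (k : ℕ) (r : ℝ) : SS k (r - 1 / 2) = SS k r + 8 * (1 / (16 * RR k)) := by
  have hR := RR_pos k
  unfold SS
  field_simp
  ring

lemma hh_up {k : ℕ} (hk : 2 ≤ k) {r y z : ℝ} (h0 : 0 ≤ r) (h1 : r ≤ RR k) (hz : 0 ≤ z)
    (h : |y - z| ≤ 1 / (16 * RR k) * (z + 1 / k)) : hh k (r - 1 / 2) z ≤ hh k r y := by
  have hR := RR_pos k
  have hk' : (0 : ℝ) < k := by exact_mod_cast (by omega : 0 < k)
  rw [hh_eq, hh_eq, AA_half hk, SS_half]
  refine max_le_max le_rfl ?_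
  have hs0 := SS_ge (k := k) h1
  have hs1 := SS_le (k := k) h0
  have hw : 0 ≤ 1 / (16 * RR k : ℝ) := by positivity
  have hi : 0 ≤ 1 / (k : ℝ) := by positivity
  generalize 1 / (16 * RR k : ℝ) = w at *
  generalize 1 / (k : ℝ) = v at *
  have h2 := (abs_le.1 h).2
  have h3 : SS k r * (y - z) ≤ SS k r * (w * (z + v)) :=
    mul_le_mul_of_nonneg_left h2 (by linarith)
  have h4 : SS k r * (w * (z + v)) ≤ 4 * (w * (z + v)) :=
    mul_le_mul_of_nonneg_right hs1 (by positivity)
  have h5 : 0 ≤ w * z := by positivity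
  nlinarith

lemma hh_down {k : ℕ} (hk : 2 ≤ k) {r y z : ℝ} (h0 : 1 ≤ r) (h1 : r ≤ RR k) (hz : 0 ≤ z)
    (h : |y - z| ≤ 1 / (16 * RR k) * (z + 1 / k)) : hh k (r - 1) y ≤ hh k (r - 1 / 2) z := by
  have hR := RR_pos k
  have hk' : (0 : ℝ) < k := by exact_mod_cast (by omega : 0 < k)
  have e : r - 1 = r - 1 / 2 - 1 / 2 := by ring
  have hs0 := SS_ge (k := k) (r := r - 1) (by linarith)
  have hs1 := SS_le (k := k) (r := r - 1) (by linarith)
  rw [e, SS_half] at hs0 hs1
  rw [hh_eq, hh_eq, e, AA_half hk (r - 1 / 2), SS_half k (r - 1 / 2)]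
  refine max_le_max le_rfl ?_
  have hw : 0 ≤ 1 / (16 * RR k : ℝ) := by positivity
  have hi : 0 ≤ 1 / (k : ℝ) := by positivity
  generalize 1 / (16 * RR k : ℝ) = w at *
  generalize 1 / (k : ℝ) = v at *
  have h2 := (abs_le.1 h).1
  have h3 : (SS k (r - 1 / 2) + 8 * w) * (z - y) ≤ (SS k (r - 1 / 2) + 8 * w) * (w * (z + v)) :=
    mul_le_mul_of_nonneg_left (by linarith) (by linarith)
  have h4 : (SS k (r - 1 / 2) + 8 * w) * (w * (z + v)) ≤ 4 * (w * (z + v)) :=
    mul_le_mul_of_nonneg_right hs1 (by positivity)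
  have h5 : 0 ≤ w * z := by positivity
  nlinarith

lemma card_le_add (S : Finset ℕ) (n : ℕ) : S.card ≤ n + (S.filter fun i => n ≤ i).card := by
  have h1 := Finset.card_filter_add_card_filter_not (s := S) (fun i => n ≤ i)
  have h2 : (S.filter fun i => ¬ n ≤ i).card ≤ (range n).card := by
    refine card_le_card fun i hi => ?_
    have := (mem_filter.1 hi).2
    exact mem_range.2 (by omega)
  rw [card_range] at h2
  omega

lemma card_range_le (J n : ℕ) : ((range J).filter fun i => n ≤ i).card ≤ J - n := by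
  rw [← Nat.card_Ico]
  refine card_le_card fun i hi => ?_
  have h1 := (mem_filter.1 hi).2
  have h2 := mem_range.1 (mem_filter.1 hi).1
  exact mem_Ico.2 ⟨h1, h2⟩

/-! ### The data -/

structure Hyp (k : ℕ) (L Ω : Type) [Fintype L] [Fintype Ω] (a : TD L) (q : Ω → ℝ)
    (N : Ω → List (Option L) → ℕ) : Prop where
  hk : 2 ≤ k
  q0 : ∀ ω, 0 ≤ q ω
  q1 : ∑ ω, q ω = 1
  root : ∀ ω, N ω [] = k
  cons : ∀ ω u, ∑ c : L, N ω (some c :: u) = N ω u
  none : ∀ ω u, N ω (none :: u) = 0
  nu0 : ∀ u, 0 ≤ a.nu u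
  nu1 : ∀ u, |∑ ω, q ω * N ω u - a.nu u| ≤ 1 / 20 * (a.nu u + 1 / 8)
  yy0 : ∀ u i, 0 ≤ a.yy u i
  yy1 : ∀ u i, |∑ ω, q ω * (if N ω u ≤ i then 1 else 0) - a.yy u i| ≤
      1 / (16 * RR k) * (a.yy u i + 1 / k)

variable {k : ℕ} {L Ω : Type} [Fintype L] [Fintype Ω] {a : TD L} {q : Ω → ℝ}
  {N : Ω → List (Option L) → ℕ}

/-- true mean -/
noncomputable def mn (q : Ω → ℝ) (N : Ω → List (Option L) → ℕ) (u : List (Option L)) : ℝ :=
  ∑ ω, q ω * N ω u

/-- true distribution function -/
noncomputable def df (q : Ω → ℝ) (N : Ω → List (Option L) → ℕ) (u : List (Option L)) (i : ℕ) :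
    ℝ :=
  ∑ ω, q ω * (if N ω u ≤ i then 1 else 0)

/-- true demand -/
noncomputable def HH (k : ℕ) (q : Ω → ℝ) (N : Ω → List (Option L) → ℕ) (r : ℝ)
    (u : List (Option L)) : ℝ :=
  ∑ i ∈ range k, hh k r (df q N u i)

omit [Fintype L] in
lemma HH_nonneg (r : ℝ) (u : List (Option L)) : 0 ≤ HH k q N r u :=
  sum_nonneg fun _ _ => le_max_left _ _

omit [Fintype L] in
lemma sum_df (S : Finset ℕ) (u : List (Option L)) :
    ∑ i ∈ S, df q N u i = ∑ ω, q ω * ((S.filter fun i => N ω u ≤ i).card : ℝ) := by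
  unfold df
  rw [sum_comm]
  refine sum_congr rfl fun ω _ => ?_
  rw [← mul_sum, sum_boole]

namespace Hyp

variable (h : Hyp k L Ω a q N)
include h

lemma N_child (ω : Ω) (c : L) (u : List (Option L)) : N ω (some c :: u) ≤ N ω u := by
  rw [← h.cons ω u]
  exact single_le_sum (f := fun c => N ω (some c :: u)) (fun _ _ => Nat.zero_le _) (mem_univ c)

lemma N_le (ω : Ω) (u : List (Option L)) : N ω u ≤ k := by
  induction u with
  | nil => exact (h.root ω).le
  | cons x u ih =>
    cases x with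
    | none => rw [h.none]; exact Nat.zero_le _
    | some c => exact (h.N_child ω c u).trans ih

lemma mn_nonneg (u : List (Option L)) : 0 ≤ mn q N u :=
  sum_nonneg fun ω _ => mul_nonneg (h.q0 ω) (Nat.cast_nonneg _)

lemma mn_cons (u : List (Option L)) : ∑ c, mn q N (some c :: u) = mn q N u := by
  unfold mn
  rw [sum_comm]
  refine sum_congr rfl fun ω _ => ?_
  rw [← mul_sum, ← h.cons ω u, Nat.cast_sum]

lemma mn_root : mn q N [] = k := by
  unfold mn
  simp only [h.root, ← sum_mul, h.q1, one_mul]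

lemma mn_none (u : List (Option L)) : mn q N (Option.none :: u) = 0 := by
  unfold mn
  simp [h.none]

lemma mn_up (u : List (Option L)) : mn q N u ≤ 21 / 20 * a.nu u + 1 / 160 := by
  have := (abs_le.1 (h.nu1 u)).2
  unfold mn
  linarith

lemma mn_down (u : List (Option L)) : 19 / 20 * a.nu u - 1 / 160 ≤ mn q N u := by
  have := (abs_le.1 (h.nu1 u)).1
  unfold mn
  linarith

lemma df_nonneg (u : List (Option L)) (i : ℕ) : 0 ≤ df q N u i :=
  sum_nonneg fun ω _ => mul_nonneg (h.q0 ω) (by split_ifs <;> norm_num)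

lemma df_le (u : List (Option L)) (i : ℕ) : df q N u i ≤ 1 := by
  rw [← h.q1]
  refine sum_le_sum fun ω _ => ?_
  have := h.q0 ω
  split_ifs <;> linarith

lemma df_big (u : List (Option L)) {i : ℕ} (hi : k ≤ i) : df q N u i = 1 := by
  rw [← h.q1]
  refine sum_congr rfl fun ω _ => ?_
  rw [if_pos ((h.N_le ω u).trans hi), mul_one]

lemma HH_le {r : ℝ} (h0 : 0 ≤ r) (h1 : r ≤ RR k) (u : List (Option L)) :
    HH k q N r u ≤ AA k r * mn q N u := by
  have ha0 := AA_ge (k := k) h0
  have ha1 := AA_le h.hk h1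
  have hs0 := SS_ge h1
  have h2 : HH k q N r u ≤ ∑ i ∈ range k, AA k r * (1 - df q N u i) := by
    refine sum_le_sum fun i _ => ?_
    have h3 := h.df_nonneg u i
    have h4 := h.df_le u i
    rw [hh_eq]
    exact max_le (mul_nonneg (by linarith) (by linarith)) (by nlinarith)
  refine h2.trans ?_
  rw [← mul_sum, sum_sub_distrib, sum_df]
  refine mul_le_mul_of_nonneg_left ?_ (by linarith)
  have h5 : ∑ i ∈ range k, (1 : ℝ) = ∑ ω, q ω * k := by
    rw [← sum_mul, h.q1]
    simp
  rw [h5, ← sum_sub_distrib]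
  refine sum_le_sum fun ω _ => ?_
  rw [← mul_sub]
  refine mul_le_mul_of_nonneg_left ?_ (h.q0 ω)
  have h6 := card_le_add (range k) (N ω u)
  rw [card_range] at h6
  have h7 : (k : ℝ) ≤ N ω u + (((range k).filter fun i => N ω u ≤ i).card : ℝ) := by
    exact_mod_cast h6
  linarith

lemma HH_le' {r : ℝ} (h0 : 0 ≤ r) (h1 : r ≤ RR k) (u : List (Option L)) :
    HH k q N r u ≤ 5 / 4 * mn q N u :=
  (h.HH_le h0 h1 u).trans (mul_le_mul_of_nonneg_right (AA_le h.hk h1) (h.mn_nonneg u))

lemma HH_ge {r : ℝ} (h1 : r ≤ RR k) (u : List (Option L)) (J : ℕ) :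
    ∑ i ∈ range J, (AA k r - SS k r * df q N u i) ≤ HH k q N r u := by
  have ha1 := AA_le h.hk h1
  have hs0 := SS_ge h1
  calc ∑ i ∈ range J, (AA k r - SS k r * df q N u i)
      ≤ ∑ i ∈ range J, hh k r (df q N u i) := sum_le_sum fun i _ => le_max_right _ _
    _ ≤ ∑ i ∈ range (J + k), hh k r (df q N u i) :=
        sum_le_sum_of_subset_of_nonneg (range_subset_range.2 (by omega))
          fun _ _ _ => le_max_left _ _
    _ = HH k q N r u := by
        symm
        refine sum_subset (range_subset_range.2 (by omega)) fun i _ hi => ?_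
        rw [h.df_big u (by simpa using hi), hh_eq]
        exact max_eq_left (by linarith)

lemma HH_sup {r : ℝ} (h1 : r ≤ RR k) (u : List (Option L)) :
    ∑ c, HH k q N r (some c :: u) ≤ HH k q N r u := by
  have hs0 := SS_ge h1
  let T : L → Finset ℕ := fun c =>
    (range k).filter fun i => 0 < AA k r - SS k r * df q N (some c :: u) i
  have h2 : ∀ c, HH k q N r (some c :: u) =
      AA k r * (T c).card - SS k r * ∑ i ∈ T c, df q N (some c :: u) i := by
    intro c
    have h3 : HH k q N r (some c :: u) =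
        ∑ i ∈ T c, (AA k r - SS k r * df q N (some c :: u) i) := by
      rw [sum_filter]
      refine sum_congr rfl fun i _ => ?_
      rw [hh_eq]
      split_ifs with h4
      · exact max_eq_right h4.le
      · exact max_eq_left (not_lt.1 h4)
    rw [h3, sum_sub_distrib, ← mul_sum, sum_const, nsmul_eq_mul, mul_comm]
  refine le_trans ?_ (h.HH_ge h1 u (∑ c, (T c).card))
  rw [sum_sub_distrib, ← mul_sum, sum_const, nsmul_eq_mul, card_range, sum_congr rfl fun c _ => h2 c,
    sum_sub_distrib, ← mul_sum, ← mul_sum, Nat.cast_sum, mul_comm _ (AA k r)]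
  refine sub_le_sub_left (mul_le_mul_of_nonneg_left ?_ (by linarith)) _
  simp only [sum_df]
  rw [sum_comm]
  refine sum_le_sum fun ω _ => ?_
  rw [← mul_sum]
  refine mul_le_mul_of_nonneg_left ?_ (h.q0 ω)
  have h5 := card_range_le (∑ c, (T c).card) (N ω u)
  have h6 : ∑ c, (T c).card ≤ ∑ c, (N ω (some c :: u) +
      ((T c).filter fun i => N ω (some c :: u) ≤ i).card) :=
    sum_le_sum fun c _ => card_le_add _ _
  rw [sum_add_distrib, h.cons] at h6
  have h7 : ((range (∑ c, (T c).card)).filter fun i => N ω u ≤ i).card ≤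
      ∑ c, ((T c).filter fun i => N ω (some c :: u) ≤ i).card := by omega
  exact_mod_cast h7

lemma heavy_unique (c c' : L) (u : List (Option L)) (h1 : a.Heavy c u) (h2 : a.Heavy c' u) :
    c = c' := by
  by_contra hne
  have h3 : mn q N (some c :: u) + mn q N (some c' :: u) ≤ mn q N u := by
    rw [← h.mn_cons u, ← sum_pair (f := fun c => mn q N (some c :: u)) hne]
    exact sum_le_sum_of_subset_of_nonneg (subset_univ _) fun _ _ _ => h.mn_nonneg _
  have h4 := h.mn_down (some c :: u)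
  have h5 := h.mn_down (some c' :: u)
  have h6 := h.mn_up u
  obtain ⟨h7, h8⟩ := h1
  obtain ⟨h9, h10⟩ := h2
  linarith

omit h [Fintype L] in
lemma light_nonneg (c : L) (u : List (Option L)) : 0 ≤ a.lightZ k c u := by
  unfold TD.lightZ
  split_ifs
  · exact sig_nonneg (sum_nonneg fun _ _ => le_max_left _ _)
  · exact le_rfl

lemma light_M {u : List (Option L)} (hc : a.cnt u ≤ RR k) (c : L) :
    ∑ i ∈ range k, hh k (RR k - a.cnt u - 1 / 2) (a.yy (some c :: u) i) ≤
      HH k q N (RR k - a.cnt u) (some c :: u) := by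
  have h1 : (a.cnt u : ℝ) ≤ RR k := by exact_mod_cast hc
  have h2 : (0 : ℝ) ≤ a.cnt u := Nat.cast_nonneg _
  exact sum_le_sum fun i _ => hh_up h.hk (by linarith) (by linarith) (h.yy0 _ i) (h.yy1 _ i)

lemma light_le {u : List (Option L)} (hc : a.cnt u ≤ RR k) (c : L) :
    a.lightZ k c u ≤ sig (HH k q N (RR k - a.cnt u) (some c :: u)) := by
  unfold TD.lightZ
  split_ifs
  · exact sig_mono (h.light_M hc c)
  · exact sig_nonneg (HH_nonneg _ _)

lemma light_ge {u : List (Option L)} (hc : a.cnt u + 1 ≤ RR k) (c : L) :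
    sig (HH k q N (RR k - (a.cnt u + 1 : ℕ)) (some c :: u)) ≤ a.lightZ k c u := by
  have h1 : (a.cnt u : ℝ) + 1 ≤ RR k := by exact_mod_cast hc
  have h2 : (0 : ℝ) ≤ a.cnt u := Nat.cast_nonneg _
  unfold TD.lightZ
  rw [if_pos hc]
  refine sig_mono ?_
  have e : (RR k : ℝ) - (a.cnt u + 1 : ℕ) = RR k - a.cnt u - 1 := by push_cast; ring
  rw [e]
  exact sum_le_sum fun i _ => hh_down h.hk (by linarith) (by linarith) (h.yy0 _ i) (h.yy1 _ i)

lemma light_pos {c : L} {u : List (Option L)} (hp : 0 < a.lightZ k c u) :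
    1 / 4 ≤ a.nu (some c :: u) ∧ a.lightZ k c u ≤ 2 * a.nu (some c :: u) := by
  have hc : a.cnt u + 1 ≤ RR k := by
    by_contra hc
    unfold TD.lightZ at hp
    rw [if_neg hc] at hp
    exact lt_irrefl _ hp
  have hc' : a.cnt u ≤ RR k := by omega
  have h1 : (a.cnt u : ℝ) ≤ RR k := by exact_mod_cast hc'
  have h2 : (0 : ℝ) ≤ a.cnt u := Nat.cast_nonneg _
  have h3 := h.light_le hc' c
  have h4 := h.HH_le' (r := RR k - a.cnt u) (by linarith) (by linarith) (some c :: u)
  have h5 := h.mn_up (some c :: u)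
  have h6 : 1 / 2 < HH k q N (RR k - a.cnt u) (some c :: u) := by
    by_contra h7
    have h8 := sig_le_nat (n := 0) (m := HH k q N (RR k - a.cnt u) (some c :: u))
      (by simpa using h7)
    simp only [Nat.cast_zero] at h8
    linarith
  have h9 := sig_le (HH k q N (RR k - a.cnt u) (some c :: u))
  constructor <;> linarith

/-- residue bounds at a node satisfying the invariant -/
lemma residue {u : List (Option L)} (h0 : 0 ≤ a.Z k u)
    (h1 : a.cnt u ≤ RR k → sig (HH k q N (RR k - a.cnt u) u) ≤ a.Z k u) :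
    (∑ c', if a.Heavy c' u then 0 else a.lightZ k c' u) ≤ a.Z k u ∧
      (a.cnt u ≤ RR k → ∀ c, a.Heavy c u → sig (HH k q N (RR k - a.cnt u) (some c :: u)) +
        (∑ c', if a.Heavy c' u then 0 else a.lightZ k c' u) ≤ a.Z k u) := by
  have h2 : (0 : ℝ) ≤ a.cnt u := Nat.cast_nonneg _
  have key : a.cnt u ≤ RR k → ∑ c, sig (HH k q N (RR k - a.cnt u) (some c :: u)) ≤ a.Z k u :=
    fun hc => ((sig_sum _ _).trans (sig_mono (h.HH_sup (by linarith) u))).trans (h1 hc)
  constructor
  · by_cases hc : a.cnt u ≤ RR k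
    · refine le_trans (sum_le_sum fun c _ => ?_) (key hc)
      split_ifs
      · exact sig_nonneg (HH_nonneg _ _)
      · exact h.light_le hc c
    · refine le_trans (le_of_eq (sum_eq_zero fun c _ => ?_)) h0
      split_ifs
      · rfl
      · unfold TD.lightZ
        rw [if_neg (by omega)]
  · intro hc c hv
    refine le_trans ?_ (key hc)
    rw [← add_sum_erase _ _ (mem_univ c), ← add_sum_erase _ _ (mem_univ c), if_pos hv, zero_add]
    refine add_le_add le_rfl (sum_le_sum fun c' _ => ?_)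
    split_ifs
    · exact sig_nonneg (HH_nonneg _ _)
    · exact h.light_le hc c'

lemma inv (u : List (Option L)) :
    0 ≤ a.Z k u ∧ (a.cnt u ≤ RR k → sig (HH k q N (RR k - a.cnt u) u) ≤ a.Z k u) := by
  induction u with
  | nil =>
    refine ⟨Nat.cast_nonneg k, fun _ => sig_le_nat ?_⟩
    have hR := RR_pos k
    have hk' : (0 : ℝ) < k := by exact_mod_cast (by have := h.hk; omega : 0 < k)
    have h1 := h.HH_le (r := RR k) hR.le le_rfl []
    have h2 : AA k (RR k) * k = k + 1 / 2 := by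
      unfold AA
      field_simp
    rw [h.mn_root, h2] at h1
    simpa [TD.cnt] using h1
  | cons x u ih =>
    obtain ⟨r1, r2⟩ := h.residue ih.1 ih.2
    cases x with
    | none =>
      have h0 : 0 ≤ a.Z k (Option.none :: u) := by
        rw [TD.Z, sub_nonneg]
        by_cases hv : ∃ c, a.Heavy c u
        · obtain ⟨c, hc⟩ := hv
          have h1 : a.realZ k (a.Z k u) c u ≤
              a.Z k u - ∑ c', if a.Heavy c' u then 0 else a.lightZ k c' u := by
            rw [TD.realZ, if_pos hc]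
            exact min_le_left _ _
          have h2 : ∑ c' ∈ univ.erase c, a.realZ k (a.Z k u) c' u =
              ∑ c', if a.Heavy c' u then 0 else a.lightZ k c' u := by
            rw [← add_sum_erase _ _ (mem_univ c), if_pos hc, zero_add]
            refine sum_congr rfl fun c' hc' => ?_
            have h3 : ¬ a.Heavy c' u := fun h4 =>
              (mem_erase.1 hc').1 (h.heavy_unique c' c u h4 hc)
            rw [TD.realZ, if_neg h3, if_neg h3]
          rw [← add_sum_erase _ _ (mem_univ c), h2]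
          linarith
        · refine le_trans (le_of_eq (sum_congr rfl fun c _ => ?_)) r1
          have h3 : ¬ a.Heavy c u := fun h4 => hv ⟨c, h4⟩
          rw [TD.realZ, if_neg h3, if_neg h3]
      refine ⟨h0, fun hc => ?_⟩
      have h1 : (a.cnt (Option.none :: u) : ℝ) ≤ RR k := by exact_mod_cast hc
      have h2 : (0 : ℝ) ≤ a.cnt (Option.none :: u) := Nat.cast_nonneg _
      have h3 := h.HH_le' (r := RR k - a.cnt (Option.none :: u)) (by linarith) (by linarith)
        (Option.none :: u)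
      rw [h.mn_none] at h3
      exact (sig_le _).trans (by linarith)
    | some c =>
      by_cases hv : a.Heavy c u
      · rw [TD.Z, TD.realZ, if_pos hv, TD.cnt, if_pos hv]
        refine ⟨le_min (by linarith) (by linarith [h.nu0 (some c :: u)]), fun hc => le_min ?_ ?_⟩
        · linarith [r2 hc c hv]
        · have h1 : (a.cnt u : ℝ) ≤ RR k := by exact_mod_cast hc
          have h2 : (0 : ℝ) ≤ a.cnt u := Nat.cast_nonneg _
          have h3 := h.HH_le' (r := RR k - a.cnt u) (by linarith) (by linarith) (some c :: u)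
          have h4 := h.mn_up (some c :: u)
          have h5 := hv.1
          exact (sig_le _).trans (by linarith)
      · rw [TD.Z, TD.realZ, if_neg hv, TD.cnt, if_neg hv]
        exact ⟨light_nonneg c u, fun hc => h.light_ge hc c⟩

lemma good : a.Good k where
  nu_nonneg := h.nu0
  z_nonneg u := (h.inv u).1
  z_le c u := by
    rw [TD.Z, TD.realZ]
    split_ifs with hv
    · exact min_le_right _ _
    · rcases (light_nonneg (a := a) (k := k) c u).eq_or_lt with h1 | h1
      · rw [← h1]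
        linarith [h.nu0 (some c :: u)]
      · exact (h.light_pos h1).2
  z_pos c u := by
    rw [TD.Z, TD.realZ]
    split_ifs with hv
    · exact fun _ => hv.1
    · exact fun h1 => (h.light_pos h1).1
  heavy_unique := h.heavy_unique

lemma exists_pos : ∃ ω, 0 < q ω := by
  by_contra h1
  have h2 : ∑ ω, q ω ≤ 0 := sum_nonpos fun ω _ => not_lt.1 fun h3 => h1 ⟨ω, h3⟩
  rw [h.q1] at h2
  linarith

lemma one_le_mn {u : List (Option L)} (h1 : ∀ ω, 0 < q ω → 1 ≤ N ω u) : 1 ≤ mn q N u := by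
  rw [← h.q1]
  refine sum_le_sum fun ω _ => ?_
  rcases (h.q0 ω).eq_or_lt with h2 | h2
  · rw [← h2, zero_mul]
  · have h3 : (1 : ℝ) ≤ N ω u := by exact_mod_cast h1 ω h2
    nlinarith

lemma decay (u : List (Option L)) (h1 : ∀ ω, 0 < q ω → 1 ≤ N ω u) :
    mn q N u ≤ (7 / 10) ^ a.cnt u * k := by
  induction u with
  | nil => simp [h.mn_root, TD.cnt]
  | cons x u ih =>
    cases x with
    | none =>
      obtain ⟨ω, hω⟩ := h.exists_pos
      have := h1 ω hω
      rw [h.none] at this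
      omega
    | some c =>
      have h2 : ∀ ω, 0 < q ω → 1 ≤ N ω u := fun ω hω => (h1 ω hω).trans (h.N_child ω c u)
      have h3 := ih h2
      rw [TD.cnt]
      split_ifs with hv
      · refine le_trans ?_ h3
        rw [← h.mn_cons u]
        exact single_le_sum (f := fun c => mn q N (some c :: u)) (fun _ _ => h.mn_nonneg _)
          (mem_univ c)
      · have h4 := h.one_le_mn h1
        have h5 := h.one_le_mn h2
        have h6 := h.mn_up (some c :: u)
        have h7 := h.mn_down u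
        have h8 : a.nu (some c :: u) ≤ 3 / 5 * a.nu u := by
          by_contra h9
          exact hv ⟨by linarith, not_le.1 h9⟩
        rw [pow_succ]
        linarith

lemma cnt_le (u : List (Option L)) (h1 : ∀ ω, 0 < q ω → 1 ≤ N ω u) : a.cnt u ≤ RR k := by
  by_contra hc
  have h2 := (h.one_le_mn h1).trans (h.decay u h1)
  have h3 : (7 / 10 : ℝ) ^ a.cnt u ≤ (7 / 10) ^ (2 * (Nat.log 2 k + 1)) :=
    pow_le_pow_of_le_one (by norm_num) (by norm_num) (by unfold RR at hc; omega)
  have h4 : (7 / 10 : ℝ) ^ (2 * (Nat.log 2 k + 1)) ≤ (1 / 2) ^ (Nat.log 2 k + 1) := by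
    rw [pow_mul]
    exact pow_le_pow_left₀ (by norm_num) (by norm_num) _
  have h5 : (k : ℝ) < 2 ^ (Nat.log 2 k + 1) := by
    exact_mod_cast Nat.lt_pow_succ_log_self (by norm_num : 1 < 2) k
  have h6 : (1 / 2 : ℝ) ^ (Nat.log 2 k + 1) * 2 ^ (Nat.log 2 k + 1) = 1 := by
    rw [← mul_pow]
    norm_num
  have h7 : (0 : ℝ) < (1 / 2) ^ (Nat.log 2 k + 1) := by positivity
  have h8 : (7 / 10 : ℝ) ^ a.cnt u * k ≤ (1 / 2) ^ (Nat.log 2 k + 1) * k :=
    mul_le_mul_of_nonneg_right (h3.trans h4) (Nat.cast_nonneg k)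
  have h9 := mul_lt_mul_of_pos_left h5 h7
  linarith

lemma req (u : List (Option L)) (j : ℕ) (hj : 1 ≤ j) (h1 : ∀ ω, 0 < q ω → j ≤ N ω u) :
    (j : ℝ) ≤ a.Z k u := by
  have hc := h.cnt_le u fun ω hω => hj.trans (h1 ω hω)
  have h2 : (a.cnt u : ℝ) ≤ RR k := by exact_mod_cast hc
  have h3 : (0 : ℝ) ≤ a.cnt u := Nat.cast_nonneg _
  refine le_trans (le_sig (le_trans ?_ (h.HH_ge (by linarith) u j))) ((h.inv u).2 hc)
  have h4 : (j : ℝ) = ∑ i ∈ range j, (1 : ℝ) := by simp
  rw [h4]
  refine sum_le_sum fun i hi => ?_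
  have h5 : df q N u i = 0 := by
    refine sum_eq_zero fun ω _ => ?_
    rcases (h.q0 ω).eq_or_lt with h6 | h6
    · rw [← h6, zero_mul]
    · have h7 := h1 ω h6
      have h8 := mem_range.1 hi
      rw [if_neg (by omega), mul_zero]
  rw [h5, mul_zero, sub_zero]
  exact AA_ge (by linarith)

end Hyp

end Alloc

theorem alloc : AllocStmt := by
  intro k L Ω _ _ a q N h1 h2 h3 h4 h5 h6 h7 h8 h9 h10
  have h : Alloc.Hyp k L Ω a q N := ⟨h1, h2, h3, h4, h5, h6, h7, h8, h9, h10⟩
  exact ⟨h.good, h.req⟩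

end Vale.Agent.P304
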