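import Vale.Agent.P304.ServeAux

/-! P304: from the game to an arbitrary finite prior. -/

namespace Vale.Agent.P304

open Finset ServeAux
open scoped Classical

theorem bayes_of_game (h : GameStmt) : BayesStmt := by
  obtain ⟨C, hC, h⟩ := h
  refine ⟨C + 5, by linarith, ?_⟩
  intro k hk Y _ _ Ω _ p hp hp1 s σ c y0
  have hsum : ∀ f : Ω → ℝ, ∑ ω : {ω // 0 < p ω}, p ω * f ω = ∑ ω, p ω * f ω := by
    intro f
    rw [← sum_subtype (univ.filter fun ω => 0 < p ω) (by simp) fun ω => p ω * f ω]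
    refine sum_filter_of_ne fun ω _ hne => (hp ω).lt_of_ne' fun h0 => hne ?_
    rw [h0, zero_mul]
  let G : Game k Y {ω // 0 < p ω} :=
    { p := fun ω => p ω
      p_pos := fun ω => ω.2
      p_sum := by simpa [hp1] using hsum fun _ => 1
      s0 := y0
      idx := fun t ω => c ω (t + 1)
      req := fun t ω => if h : t < (σ ω).length then (σ ω)[t] else
        fin (fun l => c ω l.length) [] (fun _ => y0) (σ ω) (c ω (t + 1)) }
  have hreq1 : ∀ t (ω : {ω // 0 < p ω}) (h : t < (σ ω).length), G.req t ω = (σ ω)[t] :=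
    fun t ω h => dif_pos h
  have hreq2 : ∀ t (ω : {ω // 0 < p ω}), ¬ t < (σ ω).length →
      G.req t ω = fin (fun l => c ω l.length) [] (fun _ => y0) (σ ω) (c ω (t + 1)) :=
    fun t ω h => dif_neg h
  have hidx : ∀ t (ω : {ω // 0 < p ω}), G.idx t ω = c ω (t + 1) := fun _ _ => rfl
  have h1 : ∀ (ω : {ω // 0 < p ω}) t,
      G.o t ω = fin (fun l => c ω l.length) [] (fun _ => y0) ((σ ω).take t) ∧
      ∑ j ∈ range t, G.ell j ω = cost (fun l => c ω l.length) (fun _ => y0) ((σ ω).take t) := by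
    intro ω t
    induction t with
    | zero => exact ⟨rfl, rfl⟩
    | succ t ih =>
      rw [sum_range_succ, G.o_succ, Game.ell, ih.1, ih.2, hidx]
      by_cases ht : t < (σ ω).length
      · rw [List.take_succ_eq_append_getElem ht, hreq1 t ω ht, fin_snoc, cost, cost, serve_snoc]
        simp [Nat.min_eq_left (Nat.succ_le_of_lt ht)]
      · rw [hreq2 t ω ht, List.take_of_length_le (not_lt.1 ht),
          List.take_of_length_le ((not_lt.1 ht).trans (Nat.le_succ t))]
        simp
  have h2 : ∀ (ω : {ω // 0 < p ω}) t, ∃ pad, (G.hist t ω).reverse = (σ ω).take t ++ pad ∧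
      (t ≤ (σ ω).length → pad = []) := by
    intro ω t
    induction t with
    | zero => exact ⟨[], rfl, fun _ => rfl⟩
    | succ t ih =>
      obtain ⟨pad, h3, h4⟩ := ih
      rw [G.hist_succ, List.reverse_cons, h3]
      by_cases ht : t < (σ ω).length
      · refine ⟨[], ?_, fun _ => rfl⟩
        rw [h4 ht.le, List.take_succ_eq_append_getElem ht, hreq1 t ω ht]
        simp
      · refine ⟨pad ++ [G.req t ω], ?_, fun h => absurd h ht⟩
        rw [List.take_of_length_le (not_lt.1 ht),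
          List.take_of_length_le ((not_lt.1 ht).trans (Nat.le_succ t)), List.append_assoc]
  set T := univ.sup fun ω => (σ ω).length with hT
  have hT' : ∀ ω, (σ ω).length ≤ T := fun ω => le_sup (f := fun ω => (σ ω).length) (mem_univ ω)
  obtain ⟨A, hA⟩ := h k hk Y _ G T
  refine ⟨A, ?_⟩
  have h3 : ∑ ω, p ω * cost A (fun _ => y0) (σ ω) ≤ G.onCost A T := by
    rw [← hsum]
    refine G.E_mono (X := fun ω => cost A (fun _ => y0) (σ ω)) fun ω => ?_
    obtain ⟨pad, h3, -⟩ := h2 ω T
    rw [h3, List.take_of_length_le (hT' ω)]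
    exact cost_le_append _ _ _ _
  have h4 : (G.E fun ω => ∑ t ∈ range T, G.ell t ω) =
      ∑ ω, p ω * cost (fun l => c ω l.length) (fun _ => y0) (σ ω) := by
    rw [← hsum]
    refine sum_congr rfl fun ω _ => ?_
    change p ω * (∑ t ∈ range T, G.ell t ω) = _
    rw [(h1 ω T).2, List.take_of_length_le (hT' ω)]
  have h5 : ∀ (f g : Ω → ℝ) (D : ℝ), (∀ ω, f ω ≤ g ω + D) →
      ∑ ω, p ω * f ω ≤ ∑ ω, p ω * g ω + D := by
    intro f g D hfg
    refine (sum_le_sum fun ω _ => mul_le_mul_of_nonneg_left (hfg ω) (hp ω)).trans (le_of_eq ?_)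
    simp only [mul_add, sum_add_distrib, ← sum_mul, hp1, one_mul]
  have h6 := h5 (fun ω => cost A s (σ ω)) (fun ω => cost A (fun _ => y0) (σ ω)) _
    fun ω => serve_le A (σ ω) [] s fun _ => y0
  have h7 := h5 (fun ω => cost (fun l => c ω l.length) (fun _ => y0) (σ ω))
    (fun ω => cost (fun l => c ω l.length) s (σ ω)) _
    fun ω => serve_le _ (σ ω) [] (fun _ => y0) s
  simp only [dist_comm y0] at h7
  have h8 : 0 ≤ ∑ ω, p ω * cost (fun l => c ω l.length) s (σ ω) :=
    sum_nonneg fun ω _ => mul_nonneg (hp ω) (cost_nonneg _ _ _)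
  have h9 : 0 ≤ ∑ i, dist (s i) y0 := sum_nonneg fun _ _ => dist_nonneg
  have hL : (0.69 : ℝ) ≤ Real.log k :=
    le_trans (by linarith [Real.log_two_gt_d9])
      (Real.log_le_log two_pos (by exact_mod_cast hk : (2 : ℝ) ≤ k))
  have hL4 : (0.2 : ℝ) ≤ Real.log k ^ 4 :=
    le_trans (by norm_num) (pow_le_pow_left₀ (by norm_num) hL 4)
  rw [h4] at hA
  have h10 := mul_le_mul_of_nonneg_left h7 (show 0 ≤ C * Real.log k ^ 4 by positivity)
  nlinarith [mul_le_mul_of_nonneg_right hL4 h8, mul_le_mul_of_nonneg_right hL4 h9]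

end Vale.Agent.P304
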