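import Vale.Agent.P304.ServeAux

/-! P304: minimax and compactness. -/

namespace Vale.Agent.P304

open Finset MeasureTheory ServeAux
open scoped Classical BoundedContinuousFunction

namespace Cpt

theorem minimax {Ω : Type*} [TopologicalSpace Ω] [MeasurableSpace Ω] [BorelSpace Ω] [T2Space Ω]
    [Nonempty Ω] {n : ℕ} (f : Fin n → Ω →ᵇ ℝ) (b : Fin n → ℝ)
    (h : ∀ p : Fin n → ℝ, (∀ i, 0 ≤ p i) → ∑ i, p i = 1 → ∃ ω, ∑ i, p i * (f i ω - b i) ≤ 0) :
    ∃ P : ProbabilityMeasure Ω, ∀ i, ∫ ω, f i ω ∂P ≤ b i + 1 := by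
  by_contra hcon
  set K : Set (Fin n → ℝ) :=
    {v | ∃ P : Measure Ω, IsProbabilityMeasure P ∧ ∀ i, v i = ∫ ω, f i ω ∂P - b i} with hK
  have hKc : Convex ℝ K := by
    rintro v ⟨P, hP, hv⟩ w ⟨Q, hQ, hw⟩ a c ha hc hac
    refine ⟨ENNReal.ofReal a • P + ENNReal.ofReal c • Q, ⟨?_⟩, fun i => ?_⟩
    · simp only [Measure.coe_add, Measure.coe_smul, Pi.add_apply, Pi.smul_apply, measure_univ,
        smul_eq_mul, mul_one]
      rw [← ENNReal.ofReal_add ha hc, hac, ENNReal.ofReal_one]
    · rw [integral_add_measure (((f i).integrable P).smul_measure ENNReal.ofReal_ne_top)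
        (((f i).integrable Q).smul_measure ENNReal.ofReal_ne_top), integral_smul_measure,
        integral_smul_measure, ENNReal.toReal_ofReal ha, ENNReal.toReal_ofReal hc]
      simp only [Pi.add_apply, Pi.smul_apply, smul_eq_mul, hv i, hw i]
      linear_combination (-b i) * hac
  have hd : Disjoint (Set.pi Set.univ fun _ : Fin n => Set.Iio (1 : ℝ)) K := by
    refine Set.disjoint_left.2 ?_
    rintro v hv ⟨P, hP, hv'⟩
    refine hcon ⟨⟨P, hP⟩, fun i => ?_⟩
    have h1 : v i < 1 := hv i trivial
    have h2 := hv' i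
    change ∫ ω, f i ω ∂P ≤ b i + 1
    linarith
  obtain ⟨φ, u, h1, h2⟩ := geometric_hahn_banach_open (convex_pi fun _ _ => convex_Iio _)
    (isOpen_set_pi Set.finite_univ fun _ _ => isOpen_Iio) hKc hd
  set a : Fin n → ℝ := fun i => φ (Pi.single i 1) with ha
  have hφ : ∀ x : Fin n → ℝ, φ x = ∑ i, a i * x i := by
    intro x
    conv_lhs => rw [← univ_sum_single x, map_sum]
    refine sum_congr rfl fun i _ => ?_
    rw [show Pi.single i (x i) = x i • (Pi.single i 1 : Fin n → ℝ) by
      rw [← Pi.single_smul, smul_eq_mul, mul_one], map_smul, smul_eq_mul, mul_comm]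
  have hu : 0 < u := by simpa using h1 0 fun _ _ => by simp
  have ha0 : ∀ i, 0 ≤ a i := by
    intro i
    by_contra hi
    push Not at hi
    have h3 := h1 ((u / a i) • Pi.single i 1) fun j _ => by
      have : u / a i < 0 := div_neg_of_pos_of_neg hu hi
      by_cases hj : j = i
      · subst hj; simp; linarith
      · simp [hj]
    rw [map_smul, smul_eq_mul] at h3
    change u / a i * a i < u at h3
    rw [div_mul_cancel₀ _ hi.ne] at h3
    exact lt_irrefl _ h3
  have h3 : ∀ ω, u ≤ ∑ i, a i * (f i ω - b i) := fun ω => by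
    rw [← hφ]
    exact h2 _ ⟨Measure.dirac ω, inferInstance, fun i => by rw [integral_dirac]⟩
  rcases (sum_nonneg fun i (_ : i ∈ univ) => ha0 i).eq_or_lt with hs | hs
  · have h4 := (sum_eq_zero_iff_of_nonneg fun i _ => ha0 i).1 hs.symm
    have h5 := h3 (Classical.arbitrary Ω)
    rw [sum_eq_zero fun i hi => by rw [h4 i hi, zero_mul]] at h5
    linarith
  · obtain ⟨ω, hω⟩ := h (fun i => a i / ∑ j, a j) (fun i => div_nonneg (ha0 i) hs.le)
      (by rw [← sum_div, div_self hs.ne'])
    simp only [div_mul_eq_mul_div, ← sum_div] at hω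
    have h4 := div_pos (hu.trans_le (h3 ω)) hs
    linarith

theorem compact {Ω ι : Type*} [TopologicalSpace Ω] [MeasurableSpace Ω] [BorelSpace Ω] [T2Space Ω]
    [CompactSpace Ω] [Nonempty Ω] (f : ι → Ω →ᵇ ℝ) (b : ι → ℝ)
    (h : ∀ (n : ℕ) (σ : Fin n → ι) (p : Fin n → ℝ), (∀ i, 0 ≤ p i) → ∑ i, p i = 1 →
      ∃ ω, ∑ i, p i * (f (σ i) ω - b (σ i)) ≤ 0) :
    ∃ P : ProbabilityMeasure Ω, ∀ i, ∫ ω, f i ω ∂P ≤ b i + 1 := by
  obtain ⟨P, hP⟩ := CompactSpace.iInter_nonempty
    (t := fun i => {P : ProbabilityMeasure Ω | ∫ ω, f i ω ∂P ≤ b i + 1})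
    (fun i => isClosed_le (ProbabilityMeasure.continuous_integral_boundedContinuousFunction (f i))
      continuous_const) fun F => by
      obtain ⟨P, hP⟩ := minimax (fun i => f (F.equivFin.symm i)) (fun i => b (F.equivFin.symm i))
        (h _ fun i => F.equivFin.symm i)
      refine ⟨P, Set.mem_iInter₂.2 fun i hi => ?_⟩
      simpa using hP (F.equivFin ⟨i, hi⟩)
  exact ⟨P, Set.mem_iInter.1 hP⟩

theorem continuous_serve {X : Type*} [MetricSpace X] {k : ℕ} (σ : List X) :
    ∀ (past : List X) (C : Fin k → X), Continuous fun A : List X → Fin k => serve A past C σ := by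
  induction σ with
  | nil => exact fun _ _ => continuous_const
  | cons r σ ih =>
    intro past C
    have h1 : Continuous fun q : Fin k × (List X → Fin k) =>
        dist (C q.1) r + serve q.2 (past ++ [r]) (Function.update C q.1 r) σ :=
      continuous_prod_of_discrete_left.2 fun j =>
        (continuous_const (y := dist (C j) r)).add (ih (past ++ [r]) (Function.update C j r))
    have h2 : Continuous fun A : List X → Fin k => (A (past ++ [r]), A) :=
      (continuous_apply (past ++ [r])).prodMk continuous_id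
    exact h1.comp h2

theorem serve_map {X Y : Type*} [MetricSpace X] [MetricSpace Y] {k : ℕ} (e : Y → X)
    (he : ∀ a b, dist (e a) (e b) = dist a b) (A : List X → Fin k) (A' : List Y → Fin k)
    (hA : ∀ l, A (l.map e) = A' l) (σ : List Y) : ∀ (past : List Y) (C : Fin k → Y),
    serve A (past.map e) (fun i => e (C i)) (σ.map e) = serve A' past C σ := by
  induction σ with
  | nil => exact fun _ _ => rfl
  | cons r σ ih =>
    intro past C
    have h1 : past.map e ++ [e r] = (past ++ [r]).map e := by simp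
    simp only [List.map_cons, serve, h1, hA, he, ← ih]
    refine congrArg _ (congrArg (fun C => serve A _ C _) ?_)
    funext i
    exact (Function.apply_update (fun _ => e) C _ r i).symm

end Cpt

open Cpt

theorem main_of_bayes.{u} (h : BayesStmt) : MainStmt.{u} := by
  obtain ⟨C, hC, h⟩ := h
  refine ⟨C, fun k hk X _ s => ?_⟩
  have i0 : Fin k := ⟨0, by omega⟩
  have : Nonempty (Fin k) := ⟨i0⟩
  have hc : ∀ σ : List X, ∃ c : ℕ → Fin k, cost (fun l => c l.length) s σ < opt s σ + 1 :=
    fun σ => exists_lt_of_ciInf_lt (lt_add_one (opt s σ))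
  choose c hc using hc
  have hCL : 0 ≤ C * Real.log k ^ 4 := by positivity
  have ha : ∀ (n : ℕ) (σ : Fin n → List X) (p : Fin n → ℝ), (∀ i, 0 ≤ p i) → ∑ i, p i = 1 →
      ∃ A : List X → Fin k, ∑ i, p i * (cost A s (σ i) - (C * Real.log k ^ 4 * opt s (σ i) +
        C * Real.log k ^ 4 * (1 + ∑ j, dist (s j) (s i0)))) ≤ 0 := by
    intro n σ p hp hp1
    set Z : Finset X := univ.image s ∪ univ.biUnion fun i => (σ i).toFinset with hZ
    set e : Fin Z.card → X := fun j => Z.equivFin.symm j with he
    have hei : Function.Injective e := Subtype.val_injective.comp Z.equivFin.symm.injective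
    have hsZ : ∀ j, s j ∈ Z := fun j => mem_union_left _ (mem_image_of_mem _ (mem_univ j))
    have : Nonempty (Fin Z.card) := ⟨Z.equivFin ⟨_, hsZ i0⟩⟩
    obtain ⟨ret, hret⟩ := hei.hasLeftInverse
    have hre : ∀ x ∈ Z, e (ret x) = x := by
      intro x hx
      have h1 : e (Z.equivFin ⟨x, hx⟩) = x := by simp [he]
      rw [← h1, hret]
    have hσ : ∀ i, ((σ i).map ret).map e = σ i := by
      intro i
      rw [List.map_map]
      conv_rhs => rw [← List.map_id (σ i)]
      exact List.map_congr_left fun x hx => hre x (mem_union_right _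
        (mem_biUnion.2 ⟨i, mem_univ _, List.mem_toFinset.2 hx⟩))
    have hs : (fun j => e (ret (s j))) = s := funext fun j => hre _ (hsZ j)
    let : MetricSpace (Fin Z.card) := MetricSpace.induced e hei inferInstance
    have hd : ∀ a b : Fin Z.card, dist (e a) (e b) = dist a b := fun _ _ => rfl
    obtain ⟨A, hA⟩ := h k hk (Fin Z.card) (Fin n) p hp hp1 (fun j => ret (s j))
      (fun i => (σ i).map ret) (fun i => c (σ i)) (ret (s i0))
    have h1 : ∀ (A : List X → Fin k) (A' : List (Fin Z.card) → Fin k),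
        (∀ l, A (l.map e) = A' l) → ∀ i,
        cost A' (fun j => ret (s j)) ((σ i).map ret) = cost A s (σ i) := by
      intro A A' hA i
      have := serve_map e hd A A' hA ((σ i).map ret) [] fun j => ret (s j)
      rw [hs, hσ] at this
      exact this.symm
    refine ⟨fun l => A (l.map ret), ?_⟩
    simp only [h1 (fun l => A (l.map ret)) A fun l => by
      rw [List.map_map, hret.comp_eq_id, List.map_id]] at hA
    have h2 : ∀ i, cost (fun l => c (σ i) l.length) (fun j => ret (s j)) ((σ i).map ret) =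
        cost (fun l => c (σ i) l.length) s (σ i) := fun i =>
      h1 (fun l => c (σ i) l.length) _ (fun l => by rw [List.length_map]) i
    simp only [h2, ← hd, hre _ (hsZ _)] at hA
    have h3 : ∑ i, p i * cost (fun l => c (σ i) l.length) s (σ i) ≤
        ∑ i, p i * opt s (σ i) + 1 := by
      refine (sum_le_sum fun i _ => mul_le_mul_of_nonneg_left (hc (σ i)).le (hp i)).trans
        (le_of_eq ?_)
      simp only [mul_add, sum_add_distrib, mul_one, hp1]
    have h4 := mul_le_mul_of_nonneg_left h3 hCL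
    simp only [mul_sub, mul_add (p _), sum_sub_distrib, sum_add_distrib, ← sum_mul, hp1,
      mul_left_comm (p _) (C * Real.log k ^ 4) (opt s _), ← mul_sum]
    linarith
  let : MeasurableSpace (List X → Fin k) := borel _
  have : BorelSpace (List X → Fin k) := ⟨rfl⟩
  obtain ⟨P, hP⟩ := compact (Ω := List X → Fin k) (fun σ => BoundedContinuousFunction.mkOfCompact
    ⟨fun A => cost A s σ, continuous_serve σ [] s⟩) (fun σ => C * Real.log k ^ 4 * opt s σ +
      C * Real.log k ^ 4 * (1 + ∑ j, dist (s j) (s i0))) ha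
  refine ⟨List X → Fin k, borel _, P, P.2, fun A => A,
    C * Real.log k ^ 4 * (1 + ∑ j, dist (s j) (s i0)) + 1,
    fun l => (continuous_apply l).measurable, fun σ => ⟨?_, ?_⟩⟩
  · exact (BoundedContinuousFunction.mkOfCompact
      ⟨fun A => cost A s σ, continuous_serve σ [] s⟩).integrable _
  · rw [← add_assoc]
    exact hP σ

end Vale.Agent.P304
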