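import Vale.Agent.P304.Stmts

/-! One update of the cores. -/

namespace Vale.Agent.P304

open Finset
open scoped Classical

namespace CoreStep

theorem ff_nonneg {s : ℝ} (h : 0 ≤ s) : 0 ≤ ff s := le_min (by positivity) (by positivity)

theorem one_le_ff {s : ℝ} (h : 1 ≤ s) (h' : s ≤ 32768) : 1 ≤ ff s :=
  le_min (by nlinarith) ((one_le_div (by linarith)).2 h')

theorem chi_nonneg (s : ℝ) : 0 ≤ chi s := le_max_left _ _

theorem chi_le (s : ℝ) : chi s ≤ 1 := max_le zero_le_one (min_le_left _ _)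

theorem chi_one {s : ℝ} (h : s ≤ 10) : chi s = 1 := by
  rw [chi, min_eq_left (by linarith), max_eq_right zero_le_one]

theorem chi_zero {s : ℝ} (h : 11 ≤ s) : chi s = 0 :=
  max_eq_left ((min_le_right _ _).trans (by linarith))

variable {Y : Type} [Fintype Y] [MetricSpace Y] {μ : Y → ℝ} (hμ : ∀ y, 0 ≤ μ y)

/-- mass of the open unit ball -/
noncomputable def blob (μ : Y → ℝ) (b : Y) : ℝ := ∑ y, μ y * if dist y b < 1 then 1 else 0

/-- the closed ball of radius `11` -/
noncomputable def zone (a : Y) : Finset Y := univ.filter fun y => dist y a ≤ 11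

theorem mem_zone {a y : Y} : y ∈ zone a ↔ dist y a ≤ 11 := by simp [zone]

include hμ

omit [MetricSpace Y] in
theorem cmp {f g h : Y → ℝ} (H : ∀ y, f y ≤ g y + h y) :
    ∑ y, μ y * f y ≤ ∑ y, μ y * g y + ∑ y, μ y * h y := by
  rw [← sum_add_distrib]
  exact sum_le_sum fun y _ => by rw [← mul_add]; exact mul_le_mul_of_nonneg_left (H y) (hμ y)

omit [MetricSpace Y] in
theorem mass_le (Z : Finset Y) {g : Y → ℝ} (h0 : ∀ y, 0 ≤ g y) (h1 : ∀ y ∈ Z, 1 ≤ g y) :
    ∑ y ∈ Z, μ y ≤ ∑ y, μ y * g y :=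
  (sum_le_sum fun y hy => le_mul_of_one_le_right (hμ y) (h1 y hy)).trans
    (sum_le_sum_of_subset_of_nonneg (subset_univ Z) fun y _ _ => mul_nonneg (hμ y) (h0 y))

theorem mm_nonneg (a : Y) : 0 ≤ mm μ a := sum_nonneg fun y _ => mul_nonneg (hμ y) (chi_nonneg _)

theorem FF_nonneg (b : Y) : 0 ≤ FF μ b :=
  sum_nonneg fun y _ => mul_nonneg (hμ y) (ff_nonneg dist_nonneg)

theorem FF_le_WW (a : Y) : FF μ (bst μ a) ≤ WW μ a :=
  le_mul_of_one_le_left (FF_nonneg hμ _) (le_add_of_nonneg_right dist_nonneg)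

theorem mm_le {a b : Y} (h : dist a b ≤ 8) : mm μ a ≤ blob μ b + FF μ b :=
  cmp hμ fun y => by
    have h1 := dist_triangle y a b
    split_ifs with h2
    · exact (chi_le _).trans (le_add_of_nonneg_right (ff_nonneg dist_nonneg))
    rw [zero_add]
    rcases le_total 11 (dist y a) with h3 | h3
    · rw [chi_zero h3]; exact ff_nonneg dist_nonneg
    · exact (chi_le _).trans (one_le_ff (not_lt.1 h2) (by linarith))

theorem zone_le {a b : Y} (h : dist a b ≤ 8) : ∑ y ∈ zone a, μ y ≤ mm μ a + FF μ b := by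
  refine (mass_le hμ _ (g := fun y => chi (dist y a) + ff (dist y b))
    (fun y => add_nonneg (chi_nonneg _) (ff_nonneg dist_nonneg)) fun y hy => ?_).trans
    (cmp hμ fun y => le_rfl)
  have h1 := dist_triangle y a b
  have h2 := dist_triangle_right y a b
  rw [mem_zone] at hy
  rcases le_total (dist y a) 10 with h3 | h3
  · rw [chi_one h3]; exact le_add_of_nonneg_right (ff_nonneg dist_nonneg)
  · exact le_add_of_nonneg_of_le (chi_nonneg _) (one_le_ff (by linarith) (by linarith))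

theorem blob_le {b b' : Y} (h : 2 ≤ dist b b') (h' : dist b b' ≤ 200) : blob μ b' ≤ FF μ b :=
  sum_le_sum fun y _ => mul_le_mul_of_nonneg_left (by
    have h1 := dist_triangle_left b b' y
    have h2 := dist_triangle_right y b b'
    split_ifs with h3
    · exact one_le_ff (by linarith) (by linarith)
    · exact ff_nonneg dist_nonneg) (hμ y)

theorem killed {a : Y} (h : ¬ Valid μ a) : ∑ y ∈ zone a, μ y ≤ th μ a := by
  have h1 := zone_le hμ (bst_dist μ a)
  have h2 := FF_le_WW hμ a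
  have h3 := FF_nonneg hμ (bst μ a)
  have h4 := mm_nonneg hμ a
  rw [th]
  rcases not_and_or.1 h with h5 | h5 <;> linarith [not_le.1 h5]

theorem far {a a' : Y} (h : Valid μ a) (h' : Valid μ a') (hd : 18 < dist a a') :
    100 < dist a a' := by
  by_contra h0
  have h1 := bst_dist μ a
  have h2 := bst_dist μ a'
  have h3 := dist_triangle4 (bst μ a) a a' (bst μ a')
  have h4 := dist_triangle4_right a a' (bst μ a) (bst μ a')
  rw [dist_comm (bst μ a) a] at h3
  have h5 := blob_le hμ (b := bst μ a) (b' := bst μ a') (by linarith) (by linarith)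
  rw [dist_comm (bst μ a) (bst μ a')] at h3 h4
  have h6 := blob_le hμ (b := bst μ a') (b' := bst μ a) (by linarith) (by linarith)
  linarith [mm_le hμ h1, mm_le hμ h2, FF_le_WW hμ a, FF_le_WW hμ a', h.1, h.2, h'.2]

theorem near {a x : Y} (h : Valid μ a) (hx : Hvy μ x) (hd : dist x a ≤ 50) :
    dist x (bst μ a) ≤ 2 := by
  by_contra h0
  have h1 := bst_dist μ a
  have h2 := dist_triangle x a (bst μ a)
  have h5 := blob_le hμ (b := x) (b' := bst μ a) (by linarith) (by linarith)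
  rw [dist_comm x (bst μ a)] at h0 h2
  have h6 := blob_le hμ (b := bst μ a) (b' := x) (by linarith) (by linarith)
  linarith [mm_le hμ h1, mm_le hμ (a := x) (b := x) (by simp), FF_le_WW hμ a, h.2, hx.1, hx.2]

omit hμ in
theorem WW_self (x : Y) : WW μ x ≤ FF μ x := by simpa using WW_le μ x x (by simp)

omit hμ in
theorem valid_of_hvy {x : Y} (hx : Hvy μ x) : Valid μ x :=
  ⟨by linarith [hx.1], by linarith [hx.1, hx.2, WW_self (μ := μ) x]⟩

theorem birth {x : Y} (hx : Hvy μ x) : th μ x + ∑ y ∈ zone x, μ y ≤ 0 := by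
  rw [th]
  linarith [hx.1, hx.2, WW_self (μ := μ) x, zone_le hμ (a := x) (b := x) (by simp)]

theorem recentre {a x : Y} (h1 : 7 < dist x a) (h2 : dist x (bst μ a) ≤ 2) :
    th μ x + ∑ y ∈ (zone a ∪ zone x).filter (fun y => 1 ≤ dist y (bst μ a)), μ y ≤ th μ a := by
  have h3 := bst_dist μ a
  have h4 := FF_nonneg hμ (bst μ a)
  have h5 := dist_triangle_right x a (bst μ a)
  have h6 := WW_le μ x (bst μ a) (by linarith)
  have h7 : mm μ a ≤ mm μ x + FF μ (bst μ a) := cmp hμ fun y => by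
    have h8 := dist_triangle y a (bst μ a)
    have h9 := dist_triangle_right y x (bst μ a)
    rcases le_total (dist y (bst μ a)) 1 with h10 | h10
    · rw [chi_one (s := dist y x) (by linarith)]
      exact (chi_le _).trans (le_add_of_nonneg_right (ff_nonneg dist_nonneg))
    rcases le_total 11 (dist y a) with h11 | h11
    · rw [chi_zero h11]; exact add_nonneg (chi_nonneg _) (ff_nonneg dist_nonneg)
    · exact le_add_of_nonneg_of_le (chi_nonneg _)
        ((chi_le _).trans (one_le_ff h10 (by linarith)))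
  have h8 : ∑ y ∈ (zone a ∪ zone x).filter (fun y => 1 ≤ dist y (bst μ a)), μ y ≤
      FF μ (bst μ a) := mass_le hμ _ (fun y => ff_nonneg dist_nonneg) fun y hy => by
    obtain ⟨h9, h10⟩ := mem_filter.1 hy
    have h11 := dist_triangle y a (bst μ a)
    have h12 := dist_triangle y x (bst μ a)
    refine one_le_ff h10 ?_
    rcases mem_union.1 h9 with h13 | h13 <;> linarith [mem_zone.1 h13]
  have h9 : (1 + dist x (bst μ a)) * FF μ (bst μ a) ≤ 3 * FF μ (bst μ a) :=
    mul_le_mul_of_nonneg_right (by linarith) h4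
  have h10 : 6 * FF μ (bst μ a) ≤ WW μ a := mul_le_mul_of_nonneg_right (by linarith) h4
  rw [th, th]
  linarith

theorem step (S : Finset Y) (tag : Y → ℕ) (x : Y) (n : ℕ) (hS : Sep S) (hi : Set.InjOn tag S)
    (hn : ∀ a ∈ S, tag a < n) (hv : ∀ a ∈ S, Valid μ a) :
    ∃ (S' : Finset Y) (tag' : Y → ℕ) (Zn : Finset Y), Sep S' ∧ Set.InjOn tag' S' ∧
      (∀ a' ∈ S', tag' a' = n ∨ ∃ a ∈ S, tag a = tag' a') ∧ (∀ a ∈ S', Valid μ a) ∧
      (Hvy μ x → ∃ a ∈ S', dist x a ≤ 7) ∧ CoreRel S tag S' tag' Zn ∧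
      ∑ a ∈ S', th μ a + ∑ y ∈ Zn, μ y ≤ ∑ a ∈ S, th μ a := by
  by_cases h0 : Hvy μ x → ∃ a ∈ S, dist x a ≤ 7
  · refine ⟨S, tag, ∅, hS, hi, fun a ha => Or.inr ⟨a, ha, rfl⟩, hv, h0, ⟨fun a ha a' ha' h => ?_,
      fun y _ a ha _ => ⟨a, ha, rfl, Or.inl rfl⟩, fun y _ a ha _ => ⟨a, ha, rfl, Or.inl rfl⟩⟩,
      by simp⟩
    rw [hi ha ha' h, dist_self]; norm_num
  push Not at h0
  obtain ⟨hx, h0⟩ := h0
  have hxS : x ∉ S := fun h => by linarith [h0 x h, dist_self x]
  have hu : ∀ m, ∀ a ∈ S, Function.update tag x m a = tag a := fun m a ha =>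
    Function.update_of_ne (ne_of_mem_of_not_mem ha hxS) _ _
  have gen : ∀ (T : Finset Y) (m : ℕ), T ⊆ S → (∀ a ∈ T, 50 < dist x a) → (∀ a ∈ T, tag a ≠ m) →
      Sep (insert x T) ∧ Set.InjOn (Function.update tag x m) (insert x T : Finset Y) ∧
        (∀ a ∈ insert x T, Valid μ a) ∧ ∃ a ∈ insert x T, dist x a ≤ 7 := fun T m h1 h2 h3 => by
    refine ⟨fun a ha a' ha' h => ?_, fun a ha a' ha' h => ?_, fun a ha => ?_, x,
      mem_insert_self _ _, by simp⟩
    · rcases mem_insert.1 ha with e | e <;> rcases mem_insert.1 ha' with e' | e'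
      · exact absurd (e.trans e'.symm) h
      · rw [e]; exact h2 _ e'
      · rw [e', dist_comm]; exact h2 _ e
      · exact hS _ (h1 e) _ (h1 e') h
    · rcases mem_insert.1 ha with e | e <;> rcases mem_insert.1 ha' with e' | e'
      · exact e.trans e'.symm
      · rw [e, Function.update_self, hu _ _ (h1 e')] at h
        exact absurd h.symm (h3 _ e')
      · rw [e', Function.update_self, hu _ _ (h1 e)] at h
        exact absurd h (h3 _ e)
      · rw [hu _ _ (h1 e), hu _ _ (h1 e')] at h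
        exact hi (h1 e) (h1 e') h
    · rcases mem_insert.1 ha with rfl | ha
      exacts [valid_of_hvy hx, hv _ (h1 ha)]
  by_cases h1 : ∀ a ∈ S, 50 < dist x a
  · obtain ⟨g1, g2, g3, g4⟩ := gen S n Subset.rfl h1 fun a ha => (hn a ha).ne
    refine ⟨_, _, zone x, g1, g2, fun a ha => ?_, g3, fun _ => g4, ⟨fun a ha a' ha' h => ?_,
      fun y _ a ha _ => ⟨a, mem_insert_of_mem ha, (hu _ _ ha).symm, Or.inl rfl⟩,
      fun y hy a ha h => ?_⟩, ?_⟩
    · rcases mem_insert.1 ha with rfl | ha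
      exacts [Or.inl (Function.update_self _ _ _), Or.inr ⟨a, ha, (hu _ _ ha).symm⟩]
    · rcases mem_insert.1 ha' with rfl | ha'
      · rw [Function.update_self] at h
        exact absurd h (hn a ha).ne
      · rw [hi ha ha' (h.trans (hu _ _ ha')), dist_self]; norm_num
    · rcases mem_insert.1 ha with rfl | ha
      exacts [absurd (mem_zone.2 h) hy, ⟨a, ha, (hu _ _ ha).symm, Or.inl rfl⟩]
    · rw [sum_insert hxS]
      linarith [birth hμ hx]
  push Not at h1
  obtain ⟨a₀, ha₀, h1⟩ := h1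
  have h2 := near hμ (hv _ ha₀) hx h1
  obtain ⟨g1, g2, g3, g4⟩ := gen (S.erase a₀) (tag a₀) (erase_subset _ _) (fun a ha => by
      obtain ⟨h3, h4⟩ := mem_erase.1 ha
      have h5 := far hμ (hv _ h4) (hv _ ha₀) (by linarith [hS _ h4 _ ha₀ h3])
      linarith [dist_triangle_left a a₀ x])
    fun a ha h => (mem_erase.1 ha).1 (hi (mem_erase.1 ha).2 ha₀ h)
  have h3 : ∀ y, y ∉ (zone a₀ ∪ zone x).filter (fun y => 1 ≤ dist y (bst μ a₀)) →
      dist y a₀ ≤ 11 ∨ dist y x ≤ 11 → 4 ≤ dist y a₀ ∧ dist y a₀ ≤ 9 ∧ dist y x ≤ 3 := by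
    intro y hy h
    have h4 : dist y (bst μ a₀) < 1 := not_le.1 fun h4 =>
      hy (mem_filter.2 ⟨mem_union.2 (h.imp mem_zone.2 mem_zone.2), h4⟩)
    have h5 := h0 _ ha₀
    have h6 := bst_dist μ a₀
    have h7 := dist_triangle_right y x (bst μ a₀)
    have h8 := dist_triangle_right y a₀ (bst μ a₀)
    have h9 := dist_triangle_left x a₀ y
    exact ⟨by linarith, by linarith, by linarith⟩
  refine ⟨_, _, (zone a₀ ∪ zone x).filter (fun y => 1 ≤ dist y (bst μ a₀)), g1, g2,
    fun a ha => Or.inr ?_, g3, fun _ => g4, ⟨fun a ha a' ha' h => ?_,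
    fun y hy a ha h => ?_, fun y hy a ha h => ?_⟩, ?_⟩
  · rcases mem_insert.1 ha with rfl | ha
    exacts [⟨a₀, ha₀, by simp⟩,
      ⟨a, mem_of_mem_erase ha, (hu _ _ (mem_of_mem_erase ha)).symm⟩]
  · rcases mem_insert.1 ha' with rfl | ha'
    · rw [Function.update_self] at h
      rwa [hi ha ha₀ h, dist_comm]
    · rw [hi ha (mem_of_mem_erase ha') (h.trans (hu _ _ (mem_of_mem_erase ha'))), dist_self]
      norm_num
  · rcases eq_or_ne a a₀ with rfl | h4
    · exact ⟨x, mem_insert_self _ _, by simp,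
        Or.inr (h3 y hy (Or.inl h))⟩
    · exact ⟨a, mem_insert_of_mem (mem_erase.2 ⟨h4, ha⟩), (hu _ _ ha).symm, Or.inl rfl⟩
  · rcases mem_insert.1 ha with rfl | ha
    · exact ⟨a₀, ha₀, by simp, Or.inr (h3 y hy (Or.inr h))⟩
    · exact ⟨a, mem_of_mem_erase ha, (hu _ _ (mem_of_mem_erase ha)).symm, Or.inl rfl⟩
  · rw [sum_insert fun h => hxS (mem_of_mem_erase h), ← add_sum_erase S _ ha₀]
    linarith [recentre hμ (h0 _ ha₀) h2]

end CoreStep

open CoreStep in
theorem coreStep : CoreStepStmt := by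
  intro Y _ _ μ S tag x n hμ hS hi hn
  have hs : S.filter (Valid μ) ⊆ S := filter_subset _ _
  obtain ⟨S', tag', Zn, h1, h2, h3, h4, h5, h6, h7⟩ := step hμ (S.filter (Valid μ)) tag x n
    (fun a ha a' ha' => hS a (hs ha) a' (hs ha')) (hi.mono hs) (fun a ha => hn a (hs ha))
    fun a ha => (mem_filter.1 ha).2
  refine ⟨S', tag', Zn ∪ (S.filter fun a => ¬ Valid μ a).biUnion zone, h1, h2, fun a ha => ?_, h4,
    h5, ⟨fun a ha a' ha' h => ?_, fun y hy a ha h => ?_, fun y hy a ha h => ?_⟩, ?_⟩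
  · rcases h3 a ha with h | ⟨b, hb, h⟩
    exacts [h.le, h ▸ (hn b (hs hb)).le]
  · rcases h3 a' ha' with h8 | ⟨b, hb, h8⟩
    · exact absurd (h.trans h8) (hn a ha).ne
    · exact h6.shift a (hi (hs hb) ha (h8.trans h.symm) ▸ hb) a' ha' h
  · refine h6.fwd y (fun h8 => hy (mem_union_left _ h8)) a (mem_filter.2 ⟨ha, ?_⟩) h
    by_contra h8
    exact hy (mem_union_right _ (mem_biUnion.2 ⟨a, mem_filter.2 ⟨ha, h8⟩, mem_zone.2 h⟩))
  · obtain ⟨b, hb, h8⟩ := h6.bwd y (fun h8 => hy (mem_union_left _ h8)) a ha h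
    exact ⟨b, hs hb, h8⟩
  · have h8 : ∀ T : Finset Y, ∑ y ∈ Zn ∪ T.biUnion zone, μ y ≤
        ∑ y ∈ Zn, μ y + ∑ a ∈ T, ∑ y ∈ zone a, μ y := fun T => by
      induction T using Finset.induction_on with
      | empty => simp
      | insert a T ha ih =>
        have h9 := sum_union_inter (s₁ := zone a) (s₂ := Zn ∪ T.biUnion zone) (f := μ)
        rw [biUnion_insert, union_left_comm, sum_insert ha]
        linarith [sum_nonneg fun y (_ : y ∈ zone a ∩ (Zn ∪ T.biUnion zone)) => hμ y]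
    have h9 := sum_le_sum fun a (ha : a ∈ S.filter fun a => ¬ Valid μ a) =>
      killed hμ (mem_filter.1 ha).2
    linarith [h8 (S.filter fun a => ¬ Valid μ a), sum_filter_add_sum_filter_not S (Valid μ) (th μ)]

end Vale.Agent.P304
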