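import Vale.Agent.P304.NonHvy

/-! The core process and its potential. -/

namespace Vale.Agent.P304

open Finset
open scoped Classical

namespace Cores

open NonHvy

variable {k : ℕ} {Y Ω : Type} [Fintype Y] [MetricSpace Y] [Fintype Ω] (G : Game k Y Ω)

/-- the potential for a fixed configuration and fixed centres -/
noncomputable def pot (S : Finset Y) (b : Y → Y) (c : Fin k → Y) : ℝ :=
  ∑ a ∈ S, (40 * (1 + dist a (b a)) * ∑ i, ff (dist (c i) (b a)) -
    8 * ∑ i, chi (dist (c i) a) + 3)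

theorem ce_pot {l : List Y} (hl : G.Reach l) {C : Ω → Fin k → Y} {m : Y → ℝ}
    (hm : ∀ g : Y → ℝ, ∑ y, m y * g y = G.ce l fun ω => ∑ i, g (C ω i)) (S : Finset Y)
    (b : Y → Y) : G.ce l (fun ω => pot S b (C ω)) =
      ∑ a ∈ S, (40 * ((1 + dist a (b a)) * FF m (b a)) - 8 * mm m a + 3) := by
  unfold pot
  rw [G.ce_sum]
  refine sum_congr rfl fun a _ => ?_
  rw [G.ce_add, G.ce_sub, G.ce_mul, G.ce_mul, G.ce_const hl, FF, mm,
    hm fun y => ff (dist y (b a)), hm fun y => chi (dist y a), mul_assoc]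

theorem th_le_pot {l : List Y} (hl : G.Reach l) {C : Ω → Fin k → Y} {m : Y → ℝ}
    (hm : ∀ g : Y → ℝ, ∑ y, m y * g y = G.ce l fun ω => ∑ i, g (C ω i)) (S : Finset Y)
    {b : Y → Y} (hb : ∀ a, dist a (b a) ≤ 8) :
    ∑ a ∈ S, th m a ≤ G.ce l fun ω => pot S b (C ω) := by
  rw [ce_pot G hl hm]
  refine sum_le_sum fun a _ => ?_
  have := WW_le m a (b a) (hb a)
  unfold th
  linarith

theorem pot_succ (μ : Y → ℝ) (S : Finset Y) (t : ℕ) (ω : Ω) :
    pot S (bst μ) (G.o (t + 1) ω) =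
      pot S (bst μ) (G.o t ω) + mvc μ S (G.o t ω (G.idx t ω)) (G.req t ω) := by
  unfold pot mvc
  rw [← sum_add_distrib]
  refine sum_congr rfl fun a _ => ?_
  rw [G.sum_o_succ t ω fun y => ff (dist y (bst μ a)), G.sum_o_succ t ω fun y => chi (dist y a)]
  ring

theorem jensen (S : List Y → Finset Y) (t : ℕ) :
    (G.E fun ω => ∑ a ∈ S (G.hist t ω), th (G.mu (G.hist (t + 1) ω)) a) ≤
      G.E fun ω => ∑ a ∈ S (G.hist t ω), th (G.nu (G.hist t ω)) a := by
  have h1 := G.E_ce (t + 1) fun l ω => pot (S l.tail) (bst (G.nu l.tail)) (G.o t ω)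
  have h2 := G.E_ce t fun l ω => pot (S l) (bst (G.nu l)) (G.o t ω)
  refine (G.E_mono fun ω => ?_).trans (h1.trans (h2.symm.trans ?_)).le
  · refine th_le_pot G (G.reach_hist (t + 1) ω) (fun g => ?_) _ (bst_dist _)
    rw [G.sum_mu_mul, G.hist_length, Nat.add_sub_cancel]
  · congr 1
    funext ω
    refine ce_pot G (G.reach_hist t ω) (fun g => ?_) _ _
    rw [G.sum_nu_mul, G.hist_length]

theorem move (S : List Y → Finset Y) (t : ℕ) :
    (G.E fun ω => ∑ a ∈ S (G.hist (t + 1) ω), th (G.nu (G.hist (t + 1) ω)) a) ≤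
      (G.E fun ω => ∑ a ∈ S (G.hist (t + 1) ω), th (G.mu (G.hist (t + 1) ω)) a) +
        G.E fun ω => mvc (G.mu (G.hist (t + 1) ω)) (S (G.hist (t + 1) ω))
          (G.o t ω (G.idx t ω)) (G.req t ω) := by
  rw [← G.E_ce (t + 1) fun l ω => mvc (G.mu l) (S l) (G.o t ω (G.idx t ω)) (G.req t ω),
    ← G.E_add]
  refine G.E_mono fun ω => ?_
  have hl := G.reach_hist (t + 1) ω
  refine (th_le_pot G hl (C := G.o (t + 1)) (fun g => ?_) _
    (bst_dist (G.mu (G.hist (t + 1) ω)))).trans_eq ?_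
  · rw [G.sum_nu_mul, G.hist_length]
  · simp only [pot_succ]
    rw [G.ce_add, ce_pot G hl (C := G.o t) (m := G.mu (G.hist (t + 1) ω)) fun g => ?_]
    · rfl
    · rw [G.sum_mu_mul, G.hist_length, Nat.add_sub_cancel]

omit [MetricSpace Y] in
theorem zone (Zn : List Y → Finset Y) (t : ℕ) :
    (G.E fun ω => ∑ i, if G.o t ω i ∈ Zn (G.hist (t + 1) ω) then (1 : ℝ) else 0) =
      G.E fun ω => ∑ y ∈ Zn (G.hist (t + 1) ω), G.mu (G.hist (t + 1) ω) y := by
  rw [← G.E_ce (t + 1) fun l ω => ∑ i, if G.o t ω i ∈ Zn l then (1 : ℝ) else 0]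
  congr 1
  funext ω
  have := G.sum_mu_mul (G.hist (t + 1) ω) fun y => if y ∈ Zn (G.hist (t + 1) ω) then 1 else 0
  rw [G.hist_length, Nat.add_sub_cancel] at this
  rw [← this]
  simp

theorem start : ∑ a ∈ {G.s0}, th (G.nu []) a ≤ 3 - 8 * k := by
  refine (th_le_pot G G.reach_nil (G.sum_nu_mul []) _ (b := id) fun a => by simp).trans_eq ?_
  rw [← G.ce_const G.reach_nil (3 - 8 * k)]
  refine G.ce_congr fun ω _ => ?_
  have h1 : ff 0 = 0 := by simp [ff]
  have h2 : chi 0 = 1 := by norm_num [chi]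
  simp [pot, h1, h2]
  ring

omit [Fintype Y] in
theorem sum_chi_le {S : Finset Y} (hS : Sep S) (y : Y) : ∑ a ∈ S, chi (dist y a) ≤ 1 := by
  by_cases h : ∃ a ∈ S, dist y a < 11
  · obtain ⟨a, ha, h⟩ := h
    rw [sum_eq_single_of_mem a ha fun a' ha' hne => ?_]
    · exact max_le zero_le_one (min_le_left _ _)
    · have h1 := hS a' ha' a ha hne
      have h2 := dist_triangle_left a' a y
      exact max_eq_left ((min_le_right _ _).trans (by linarith))
  · push Not at h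
    refine (sum_eq_zero fun a ha => ?_).trans_le zero_le_one
    exact max_eq_left ((min_le_right _ _).trans (by linarith [h a ha]))

theorem finish (hk : 2 ≤ k) {S : Finset Y} (hS : Sep S) {m : Y → ℝ} (hm : ∀ y, 0 ≤ m y)
    (hs : ∑ y, m y ≤ k) : 3 - 8 * (k : ℝ) ≤ ∑ a ∈ S, th m a := by
  have hk' : (2 : ℝ) ≤ k := by exact_mod_cast hk
  rcases S.eq_empty_or_nonempty with rfl | hne
  · rw [sum_empty]
    linarith
  have h1 : ∑ a ∈ S, mm m a ≤ k := by
    unfold mm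
    rw [sum_comm]
    refine (sum_le_sum fun y _ => ?_).trans hs
    rw [← mul_sum]
    exact mul_le_of_le_one_right (hm y) (sum_chi_le hS y)
  have h2 : ∑ a ∈ S, (3 - 8 * mm m a) ≤ ∑ a ∈ S, th m a := sum_le_sum fun a _ => by
    have : 0 ≤ WW m a := mul_nonneg (by positivity)
      (sum_nonneg fun y _ => mul_nonneg (hm y) (ff_nonneg dist_nonneg))
    unfold th
    linarith
  rw [sum_sub_distrib, ← mul_sum, sum_const, nsmul_eq_mul] at h2
  have h3 : (1 : ℝ) ≤ S.card := by exact_mod_cast hne.card_pos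
  linarith

end Cores

open Cores NonHvy

theorem cores (h1 : CoreStepStmt) (h2 : MoveGenStmt) (h3 : MoveHvyStmt) (h4 : NonHvyStmt) :
    CoresStmt := by
  obtain ⟨C₂, hC₂, h2⟩ := h2
  obtain ⟨C₃, hC₃, h3⟩ := h3
  obtain ⟨C₄, hC₄, h4⟩ := h4
  refine ⟨C₂ + 2 * C₃ + C₂ * C₄, by positivity, fun k hk Y Ω _ _ _ G T => ?_⟩
  choose! S' tag' Zn' hst using h1 Y
  obtain ⟨st, st0, st1⟩ : ∃ st : List Y → Finset Y × (Y → ℕ), st [] = ({G.s0}, fun _ => 0) ∧
      ∀ r l, st (r :: l) = (S' (G.mu (r :: l)) (st l).1 (st l).2 r (l.length + 1),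
        tag' (G.mu (r :: l)) (st l).1 (st l).2 r (l.length + 1)) :=
    ⟨fun l => l.rec ({G.s0}, fun _ => 0) fun r l p =>
      (S' (G.mu (r :: l)) p.1 p.2 r (l.length + 1), tag' (G.mu (r :: l)) p.1 p.2 r (l.length + 1)),
      rfl, fun _ _ => rfl⟩
  obtain ⟨Zn, hZn⟩ : ∃ Zn : List Y → Finset Y,
      ∀ r l, Zn (r :: l) = Zn' (G.mu (r :: l)) (st l).1 (st l).2 r (l.length + 1) :=
    ⟨fun l => l.casesOn ∅ fun r l => Zn' (G.mu (r :: l)) (st l).1 (st l).2 r (l.length + 1),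
      fun _ _ => rfl⟩
  have hinv : ∀ l, Sep (st l).1 ∧ Set.InjOn (st l).2 (st l).1 ∧
      ∀ a ∈ (st l).1, (st l).2 a ≤ l.length := by
    intro l
    induction l with
    | nil =>
      rw [st0]
      exact ⟨fun a ha a' ha' h =>
        absurd ((mem_singleton.1 ha).trans (mem_singleton.1 ha').symm) h,
        fun a ha a' ha' _ => (mem_singleton.1 ha).trans (mem_singleton.1 ha').symm,
        fun _ _ => le_rfl⟩
    | cons r l ih =>
      obtain ⟨g1, g2, g3, -⟩ := hst (G.mu (r :: l)) _ _ r (l.length + 1) (G.mu_nonneg _) ih.1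
        ih.2.1 fun a ha => Nat.lt_succ_of_le (ih.2.2 a ha)
      rw [st1]
      exact ⟨g1, g2, g3⟩
  have hstep : ∀ r l, (∀ a ∈ (st (r :: l)).1, Valid (G.mu (r :: l)) a) ∧
      (Hvy (G.mu (r :: l)) r → ∃ a ∈ (st (r :: l)).1, dist r a ≤ 7) ∧
      CoreRel (st l).1 (st l).2 (st (r :: l)).1 (st (r :: l)).2 (Zn (r :: l)) ∧
      ∑ a ∈ (st (r :: l)).1, th (G.mu (r :: l)) a + ∑ y ∈ Zn (r :: l), G.mu (r :: l) y ≤
        ∑ a ∈ (st l).1, th (G.mu (r :: l)) a := fun r l => by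
    rw [st1, hZn]
    exact (hst (G.mu (r :: l)) _ _ r (l.length + 1) (G.mu_nonneg _) (hinv l).1
      (hinv l).2.1 fun a ha => Nat.lt_succ_of_le ((hinv l).2.2 a ha)).2.2.2
  refine ⟨fun l => (st l).1, fun l => (st l).2, Zn, congrArg Prod.fst st0, fun l => (hinv l).1,
    fun l => (hinv l).2.1, fun l => (hinv l).2.2, fun r l => (hstep r l).2.2.1,
    fun r l => (hstep r l).2.1, ?_⟩
  have hL : 1 / 2 ≤ Real.log k := by
    have : Real.log 2 ≤ Real.log k := Real.log_le_log (by norm_num) (by exact_mod_cast hk)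
    linarith [Real.log_two_gt_d9]
  set L := Real.log k
  have hmv : ∀ t ω, mvc (G.mu (G.hist (t + 1) ω)) (st (G.hist (t + 1) ω)).1
      (G.o t ω (G.idx t ω)) (G.req t ω) ≤ (C₂ + 2 * C₃) * L * G.charge 1 t ω +
        C₂ * L * if Hvy (G.mu (G.hist (t + 1) ω)) (G.req t ω) then 0 else min 1 (G.ell t ω) := by
    intro t ω
    obtain ⟨g1, g2, -⟩ := hstep (G.req t ω) (G.hist t ω)
    rw [← G.hist_succ] at g1 g2
    have g3 := h2 k hk Y _ _ (G.o t ω (G.idx t ω)) (G.req t ω) (G.mu_nonneg _) (G.sum_mu_le _)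
      (hinv (G.hist (t + 1) ω)).1 g1
    have g0 := charge_nonneg G t ω
    have g4 : 0 ≤ C₂ * L * G.charge 1 t ω := by positivity
    have g5 : 0 ≤ C₃ * (L * G.charge 1 t ω) := by positivity
    split_ifs with hH
    · rcases le_total (G.ell t ω) 1 with he | he
      · have g6 := (h3 Y _ _ (G.o t ω (G.idx t ω)) (G.req t ω) (G.mu_nonneg _)
          (hinv (G.hist (t + 1) ω)).1 g1 hH (g2 hH) he).trans
          (mul_le_mul_of_nonneg_left (qq_le_charge G t ω) hC₃)
        have g7 := mul_le_mul_of_nonneg_left (mul_le_mul_of_nonneg_right hL g0) hC₃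
        exact g6.trans (by linarith)
      · have g6 := sq_le_charge G t ω
        rw [min_eq_left (by nlinarith)] at g6
        have g7 := mul_le_mul_of_nonneg_left ((min_le_left 1 (G.ell t ω)).trans g6)
          (by positivity : 0 ≤ C₂ * L)
        exact (g3.trans g7).trans (by linarith)
    · exact g3.trans (by change _ * min 1 (G.ell t ω) ≤ _; linarith)
  let Θ : ℕ → ℝ := fun t => G.E fun ω => ∑ a ∈ (st (G.hist t ω)).1, th (G.nu (G.hist t ω)) a
  have hΘ : ∀ t, (G.E fun ω => ∑ i, if G.o t ω i ∈ Zn (G.hist (t + 1) ω) then (1 : ℝ) else 0) ≤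
      (Θ t - Θ (t + 1)) + (C₂ + 2 * C₃ + C₂ * C₄) * L * G.E (G.charge 1 t) := by
    intro t
    have g1 := jensen G (fun l => (st l).1) t
    have g2 := move G (fun l => (st l).1) t
    have g3 := G.E_mono fun ω => (hstep (G.req t ω) (G.hist t ω)).2.2.2
    have g4 := G.E_mono (hmv t)
    have g5 := mul_le_mul_of_nonneg_left (h4 k Y Ω G t) (by positivity : 0 ≤ C₂ * L)
    rw [G.E_add] at g3
    rw [G.E_add, G.E_mul, G.E_mul] at g4
    rw [zone]
    simp only [← G.hist_succ] at g3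
    simp only [Θ]
    linarith
  rw [G.E_sum, G.E_sum, mul_sum]
  refine (sum_le_sum fun t _ => hΘ t).trans ?_
  rw [sum_add_distrib, sum_range_sub']
  have g1 : Θ 0 ≤ 3 - 8 * k := (G.E_mono fun _ => by
    rw [G.hist_zero, st0]
    exact start G).trans_eq (G.E_const _)
  have g2 : 3 - 8 * (k : ℝ) ≤ Θ T := (G.E_const _).symm.trans_le
    (G.E_mono fun ω => finish hk (hinv _).1 (G.nu_nonneg _) (G.sum_nu_le _))
  linarith

end Vale.Agent.P304
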