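import Vale.Agent.P304.Stmts

/-! Truncated geometric radii: the cut law. -/

namespace Vale.Agent.P304

open Finset
open scoped Classical

namespace CutAux

/-- radii read off a finite vector of samples -/
noncomputable def radF {J : Type} (ρ : J → ℝ) {n : ℕ} (ξ : Fin n → J) (j : ℕ) : ℝ :=
  if h : j < n then ρ (ξ ⟨j, h⟩) else 2

theorem radF_zero {J : Type} (ρ : J → ℝ) {n : ℕ} (h : J) (t : Fin n → J) :
    radF ρ (Fin.cons h t : Fin (n + 1) → J) 0 = ρ h := by
  unfold radF
  rw [dif_pos (Nat.succ_pos n)]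
  rfl

theorem radF_succ {J : Type} (ρ : J → ℝ) {n : ℕ} (h : J) (t : Fin n → J) (j : ℕ) :
    radF ρ (Fin.cons h t : Fin (n + 1) → J) (j + 1) = radF ρ t j := by
  unfold radF
  by_cases hj : j < n
  · rw [dif_pos (Nat.succ_lt_succ hj), dif_pos hj]
    rfl
  · rw [dif_neg hj, dif_neg (fun h' => hj (Nat.lt_of_succ_lt_succ h'))]

theorem cov_shift {Y : Type} [MetricSpace Y] (rad rad' : ℕ → ℝ) (h : ∀ j, rad (j + 1) = rad' j)
    (c : List Y) (j : ℕ) (y : Y) : cov rad (j + 1) c y = cov rad' j c y := by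
  induction c generalizing j with
  | nil => rfl
  | cons z c ih =>
    unfold cov
    rw [h j, ih (j + 1)]

theorem sum_prod_one {J : Type} [Fintype J] (q : J → ℝ) (hq : ∑ j, q j = 1) (n : ℕ) :
    ∑ ξ : Fin n → J, ∏ i, q (ξ i) = 1 := by
  have h := Finset.prod_univ_sum (fun _ : Fin n => (univ : Finset J)) (fun _ j => q j)
  rw [Fintype.piFinset_univ] at h
  rw [← h]
  simp [hq]

theorem sum_head {J : Type} [Fintype J] (q : J → ℝ) (n : ℕ) (F : (Fin (n + 1) → J) → ℝ) :
    ∑ ξ : Fin (n + 1) → J, (∏ i, q (ξ i)) * F ξ =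
      ∑ h : J, q h * ∑ t : Fin n → J, (∏ i, q (t i)) * F (Fin.cons h t) := by
  rw [← (Fin.consEquiv (fun _ : Fin (n + 1) => J)).sum_comp, Fintype.sum_prod_type]
  refine Finset.sum_congr rfl fun h _ => ?_
  rw [Finset.mul_sum]
  refine Finset.sum_congr rfl fun t _ => ?_
  have e1 : (Fin.consEquiv (fun _ : Fin (n + 1) => J)) (h, t) = Fin.cons h t := rfl
  rw [e1, Fin.prod_univ_succ]
  simp only [Fin.cons_zero, Fin.cons_succ]
  ring

/-- the list induction -/
theorem cov_bound {J : Type} [Fintype J] (q ρ : J → ℝ) (hq0 : ∀ j, 0 ≤ q j)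
    (hq : ∑ j, q j = 1) (hρ : ∀ j, 2 ≤ ρ j) (K δ e : ℝ) (hK : 0 ≤ K) (hδ : 0 ≤ δ)
    (hcut : ∀ a b : ℝ, b - a ≤ e →
      ∑ j, q j * (if a ≤ ρ j ∧ ρ j < b then 1 else 0) ≤
        K * (∑ j, q j * (if a ≤ ρ j then 1 else 0) + δ))
    {Y : Type} [MetricSpace Y] (x z : Y) (hxz : dist x z ≤ e) (n : ℕ) :
    ∀ c : List Y, c.length ≤ n → (∃ y ∈ c, dist x y ≤ 2 ∧ dist z y ≤ 2) →
      ∑ ξ : Fin n → J, (∏ i, q (ξ i)) *
        (if cov (radF ρ ξ) 0 c x = cov (radF ρ ξ) 0 c z then 0 else 1) ≤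
          K * (1 + δ * c.length) := by
  induction n with
  | zero =>
    intro c hc hy
    obtain ⟨y, hy, -⟩ := hy
    have : c = [] := List.length_eq_zero_iff.mp (Nat.le_zero.mp hc)
    subst this
    cases hy
  | succ n ih =>
    intro c hc hy
    cases c with
    | nil =>
      obtain ⟨y, hy, -⟩ := hy
      cases hy
    | cons y c =>
      rw [sum_head]
      have hlen : c.length ≤ n := Nat.le_of_succ_le_succ hc
      have hcov : ∀ (h : J) (t : Fin n → J) (u : Y),
          cov (radF ρ (Fin.cons h t : Fin (n + 1) → J)) 0 (y :: c) u =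
            if dist u y ≤ ρ h then y else cov (radF ρ t) 0 c u := by
        intro h t u
        have e1 := cov_shift (radF ρ (Fin.cons h t : Fin (n + 1) → J)) (radF ρ t)
          (radF_succ ρ h t) c 0 u
        rw [← e1, ← radF_zero ρ h t]
        rfl
      have hw : ∀ t : Fin n → J, 0 ≤ ∏ i, q (t i) := fun t => Finset.prod_nonneg fun i _ => hq0 _
      have hc0 : (0 : ℝ) ≤ c.length := Nat.cast_nonneg _
      by_cases hhead : dist x y ≤ 2 ∧ dist z y ≤ 2
      · have hz : ∑ h : J, q h * ∑ t : Fin n → J, (∏ i, q (t i)) *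
            (if cov (radF ρ (Fin.cons h t : Fin (n + 1) → J)) 0 (y :: c) x =
              cov (radF ρ (Fin.cons h t : Fin (n + 1) → J)) 0 (y :: c) z then (0 : ℝ) else 1) = 0 := by
          refine Finset.sum_eq_zero fun h _ => ?_
          have : ∑ t : Fin n → J, (∏ i, q (t i)) *
            (if cov (radF ρ (Fin.cons h t : Fin (n + 1) → J)) 0 (y :: c) x =
              cov (radF ρ (Fin.cons h t : Fin (n + 1) → J)) 0 (y :: c) z then (0 : ℝ) else 1) = 0 := by
            refine Finset.sum_eq_zero fun t _ => ?_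
            rw [hcov, hcov, if_pos (hhead.1.trans (hρ h)), if_pos (hhead.2.trans (hρ h)),
              if_pos rfl, mul_zero]
          rw [this, mul_zero]
        rw [hz]
        positivity
      · have hy' : ∃ y' ∈ c, dist x y' ≤ 2 ∧ dist z y' ≤ 2 := by
          obtain ⟨y', hy', h2⟩ := hy
          rcases List.mem_cons.mp hy' with rfl | hy'
          · exact absurd h2 hhead
          · exact ⟨y', hy', h2⟩
        have hih := ih c hlen hy'
        set a := min (dist x y) (dist z y) with ha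
        set b := max (dist x y) (dist z y) with hb
        have hab : b - a ≤ e := by
          have h1 : dist x y ≤ dist x z + dist z y := dist_triangle _ _ _
          have h2 : dist z y ≤ dist z x + dist x y := dist_triangle _ _ _
          rw [dist_comm z x] at h2
          have h3 : 0 ≤ dist x z := dist_nonneg
          rcases le_total (dist x y) (dist z y) with h | h
          · rw [hb, ha, max_eq_right h, min_eq_left h]; linarith
          · rw [hb, ha, max_eq_left h, min_eq_right h]; linarith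
        have hB : 0 ≤ K * (1 + δ * c.length) := by positivity
        have hstep : ∀ h : J, ∑ t : Fin n → J, (∏ i, q (t i)) *
            (if cov (radF ρ (Fin.cons h t : Fin (n + 1) → J)) 0 (y :: c) x =
              cov (radF ρ (Fin.cons h t : Fin (n + 1) → J)) 0 (y :: c) z then (0 : ℝ) else 1) ≤
            (if a ≤ ρ h ∧ ρ h < b then 1 else 0) +
              (1 - if a ≤ ρ h then 1 else 0) * (K * (1 + δ * c.length)) := by
          intro h
          by_cases h1 : a ≤ ρ h
          · rw [if_pos h1, sub_self, zero_mul, add_zero]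
            by_cases h2 : ρ h < b
            · rw [if_pos ⟨h1, h2⟩]
              refine le_trans (Finset.sum_le_sum fun t _ => ?_) (sum_prod_one q hq n).le
              refine mul_le_of_le_one_right (hw t) ?_
              split_ifs <;> norm_num
            · rw [if_neg (fun h' => h2 h'.2)]
              refine le_of_eq (Finset.sum_eq_zero fun t _ => ?_)
              have h3 : b ≤ ρ h := not_lt.mp h2
              rw [hcov, hcov, if_pos ((le_max_left _ _).trans h3),
                if_pos ((le_max_right _ _).trans h3), if_pos rfl, mul_zero]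
          · rw [if_neg h1, if_neg (fun h' => h1 h'.1), sub_zero, one_mul, zero_add]
            refine le_trans (le_of_eq (Finset.sum_congr rfl fun t _ => ?_)) hih
            rw [hcov, hcov, if_neg (fun h' => h1 ((min_le_left _ _).trans h')),
              if_neg (fun h' => h1 ((min_le_right _ _).trans h'))]
        refine le_trans (Finset.sum_le_sum fun h _ =>
          mul_le_mul_of_nonneg_left (hstep h) (hq0 h)) ?_
        have hP0 : 0 ≤ ∑ j, q j * (if a ≤ ρ j then (1 : ℝ) else 0) :=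
          Finset.sum_nonneg fun j _ => mul_nonneg (hq0 j) (by split_ifs <;> norm_num)
        have e2 : ∑ h : J, q h * ((if a ≤ ρ h ∧ ρ h < b then (1 : ℝ) else 0) +
              (1 - if a ≤ ρ h then 1 else 0) * (K * (1 + δ * c.length))) =
            ∑ h : J, q h * (if a ≤ ρ h ∧ ρ h < b then (1 : ℝ) else 0) +
              (1 - ∑ j, q j * (if a ≤ ρ j then (1 : ℝ) else 0)) * (K * (1 + δ * c.length)) := by
          have e3 : (1 - ∑ j, q j * (if a ≤ ρ j then (1 : ℝ) else 0)) =
              ∑ j, q j * (1 - if a ≤ ρ j then (1 : ℝ) else 0) := by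
            simp only [mul_sub, mul_one, Finset.sum_sub_distrib, hq]
          rw [e3, Finset.sum_mul, ← Finset.sum_add_distrib]
          refine Finset.sum_congr rfl fun h _ => ?_
          ring
        rw [e2]
        have h4 := hcut a b hab
        set P := ∑ j, q j * (if a ≤ ρ j then (1 : ℝ) else 0) with hP
        have h5 : 0 ≤ P * (K * (δ * c.length)) := by positivity
        rw [List.length_cons]
        push_cast
        nlinarith

theorem geo_Ico (θ : ℝ) (j0 n : ℕ) (h : j0 ≤ n) :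
    ∑ j ∈ Ico j0 n, (1 - θ) * θ ^ j = θ ^ j0 - θ ^ n := by
  induction n, h using Nat.le_induction with
  | base => simp
  | succ n hn ih =>
    rw [Finset.sum_Ico_succ_top hn, ih]
    ring

/-- the one-dimensional cut estimate, over natural indices -/
theorem one_cut (θ D L e : ℝ) (N : ℕ) (h0 : 0 ≤ θ) (h1 : θ ≤ 1) (hD : 0 < D) (hN : 0 < N)
    (hL : N * (1 - θ) ≤ L) (he : 1 ≤ e * N) (a b : ℝ) (hab : b - a ≤ e) :
    ∑ j ∈ range N, (1 - θ) * θ ^ j / D *
        (if a ≤ 2 + (j : ℝ) / N ∧ 2 + (j : ℝ) / N < b then 1 else 0) ≤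
      2 * e * L * (∑ j ∈ range N, (1 - θ) * θ ^ j / D * (if a ≤ 2 + (j : ℝ) / N then 1 else 0) +
        θ ^ N / D) := by
  have hNr : (0 : ℝ) < N := Nat.cast_pos.mpr hN
  have h1θ : 0 ≤ 1 - θ := sub_nonneg.mpr h1
  have he0 : 0 < e := by
    by_contra hc
    have : e * N ≤ 0 := mul_nonpos_of_nonpos_of_nonneg (not_lt.mp hc) hNr.le
    linarith
  have hL0 : 0 ≤ L := le_trans (mul_nonneg hNr.le h1θ) hL
  have hq : ∀ j : ℕ, 0 ≤ (1 - θ) * θ ^ j / D := fun j => by positivity
  have hT0 : 0 ≤ ∑ j ∈ range N, (1 - θ) * θ ^ j / D *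
      (if a ≤ 2 + (j : ℝ) / N then (1 : ℝ) else 0) :=
    Finset.sum_nonneg fun j _ => mul_nonneg (hq j) (by split_ifs <;> norm_num)
  set S := (range N).filter fun j : ℕ => a ≤ 2 + (j : ℝ) / N ∧ 2 + (j : ℝ) / N < b with hS
  have e1 : ∑ j ∈ range N, (1 - θ) * θ ^ j / D *
        (if a ≤ 2 + (j : ℝ) / N ∧ 2 + (j : ℝ) / N < b then (1 : ℝ) else 0) =
      ∑ j ∈ S, (1 - θ) * θ ^ j / D := by
    rw [hS, Finset.sum_filter]
    refine Finset.sum_congr rfl fun j _ => ?_
    split_ifs <;> simp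
  rw [e1]
  rcases S.eq_empty_or_nonempty with hE | hE
  · rw [hE, Finset.sum_empty]
    positivity
  · set j0 := S.min' hE with hj0
    have hj0S : j0 ∈ S := S.min'_mem hE
    have hj0' := Finset.mem_filter.mp hj0S
    have hj0N : j0 < N := Finset.mem_range.mp hj0'.1
    have hsub : S ⊆ Ico j0 (j0 + ⌈e * N⌉₊) := by
      intro j hj
      have hj' := Finset.mem_filter.mp hj
      refine Finset.mem_Ico.mpr ⟨S.min'_le j hj, ?_⟩
      have h2 : (j : ℝ) / N < (j0 : ℝ) / N + e := by linarith [hj'.2.2, hj0'.2.1]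
      have h3 : (j : ℝ) < j0 + e * N := by
        have := mul_lt_mul_of_pos_right h2 hNr
        rwa [add_mul, div_mul_cancel₀ _ hNr.ne', div_mul_cancel₀ _ hNr.ne'] at this
      have h4 : e * N ≤ (⌈e * N⌉₊ : ℝ) := Nat.le_ceil _
      have h5 : (j : ℝ) < ((j0 + ⌈e * N⌉₊ : ℕ) : ℝ) := by
        push_cast
        linarith
      exact_mod_cast h5
    have hcard : (S.card : ℝ) ≤ 2 * e * N := by
      have h2 := Finset.card_le_card hsub
      rw [Nat.card_Ico, Nat.add_sub_cancel_left] at h2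
      have h3 : (S.card : ℝ) ≤ (⌈e * N⌉₊ : ℝ) := by exact_mod_cast h2
      have h4 : (⌈e * N⌉₊ : ℝ) < e * N + 1 := Nat.ceil_lt_add_one (by positivity)
      linarith
    have hle : ∑ j ∈ S, (1 - θ) * θ ^ j / D ≤ S.card • ((1 - θ) * θ ^ j0 / D) := by
      refine Finset.sum_le_card_nsmul _ _ _ fun j hj => ?_
      refine div_le_div_of_nonneg_right ?_ hD.le
      exact mul_le_mul_of_nonneg_left (pow_le_pow_of_le_one h0 h1 (S.min'_le j hj)) h1θ
    rw [nsmul_eq_mul] at hle
    have htail : (θ ^ j0 - θ ^ N) / D ≤ ∑ j ∈ range N, (1 - θ) * θ ^ j / D *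
        (if a ≤ 2 + (j : ℝ) / N then (1 : ℝ) else 0) := by
      rw [← geo_Ico θ j0 N hj0N.le, Finset.sum_div]
      have e2 : ∑ j ∈ Ico j0 N, (1 - θ) * θ ^ j / D = ∑ j ∈ Ico j0 N, (1 - θ) * θ ^ j / D *
          (if a ≤ 2 + (j : ℝ) / N then (1 : ℝ) else 0) := by
        refine Finset.sum_congr rfl fun j hj => ?_
        have h2 : (j0 : ℝ) ≤ j := by exact_mod_cast (Finset.mem_Ico.mp hj).1
        have h3 : (j0 : ℝ) / N ≤ (j : ℝ) / N := div_le_div_of_nonneg_right h2 hNr.le
        rw [if_pos (by linarith [hj0'.2.1]), mul_one]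
      rw [e2]
      refine Finset.sum_le_sum_of_subset_of_nonneg ?_ fun j _ _ =>
        mul_nonneg (hq j) (by split_ifs <;> norm_num)
      intro j hj
      exact Finset.mem_range.mpr (Finset.mem_Ico.mp hj).2
    have hX : 0 ≤ θ ^ j0 / D := by positivity
    have h6 : θ ^ j0 / D ≤ ∑ j ∈ range N, (1 - θ) * θ ^ j / D *
        (if a ≤ 2 + (j : ℝ) / N then (1 : ℝ) else 0) + θ ^ N / D := by
      rw [sub_div] at htail
      linarith
    calc ∑ j ∈ S, (1 - θ) * θ ^ j / D ≤ S.card * ((1 - θ) * θ ^ j0 / D) := hle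
      _ ≤ 2 * e * N * ((1 - θ) * θ ^ j0 / D) := mul_le_mul_of_nonneg_right hcard (hq j0)
      _ = 2 * e * (N * (1 - θ)) * (θ ^ j0 / D) := by ring
      _ ≤ 2 * e * L * (θ ^ j0 / D) :=
        mul_le_mul_of_nonneg_right (mul_le_mul_of_nonneg_left hL (by positivity)) hX
      _ ≤ _ := mul_le_mul_of_nonneg_left h6 (by positivity)

/-- the one-dimensional law -/
theorem one_law (M : ℕ) (η : ℝ) (hM : 1 ≤ M) (hη : 0 < η) :
    ∃ (N : ℕ) (q ρ : Fin N → ℝ), (∀ j, 0 ≤ q j) ∧ ∑ j, q j = 1 ∧ (∀ j, 2 ≤ ρ j ∧ ρ j ≤ 3) ∧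
      ∀ e a b : ℝ, η ≤ e → b - a ≤ e →
        ∑ j, q j * (if a ≤ ρ j ∧ ρ j < b then 1 else 0) ≤
          2 * e * Real.log (M + 1) * (∑ j, q j * (if a ≤ ρ j then 1 else 0) + 1 / M) := by
  obtain ⟨N, hN⟩ := exists_nat_gt (1 / η)
  have hNr : (0 : ℝ) < N := lt_trans (by positivity) hN
  have hN0 : 0 < N := Nat.cast_pos.mp hNr
  have hMr : (1 : ℝ) ≤ M := by exact_mod_cast hM
  have hηN : 1 ≤ η * N := by
    rw [div_lt_iff₀ hη] at hN
    linarith
  set L := Real.log (M + 1) with hL
  have hL0 : 0 < L := Real.log_pos (by linarith)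
  set θ := Real.exp (-(L / N)) with hθ
  have h0 : 0 ≤ θ := (Real.exp_pos _).le
  have h1 : θ ≤ 1 := Real.exp_le_one_iff.mpr (neg_nonpos.mpr (by positivity))
  have hθN : θ ^ N = 1 / (M + 1) := by
    rw [hθ, ← Real.exp_nat_mul]
    have : (N : ℝ) * -(L / N) = -L := by field_simp
    rw [this, Real.exp_neg, hL, Real.exp_log (by linarith), one_div]
  have hD : 0 < 1 - θ ^ N := by
    rw [hθN, sub_pos, div_lt_one (by linarith)]
    linarith
  have hNL : N * (1 - θ) ≤ L := by
    have h2 : -(L / N) + 1 ≤ θ := Real.add_one_le_exp _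
    have h3 : 1 - θ ≤ L / N := by linarith
    calc N * (1 - θ) ≤ N * (L / N) := mul_le_mul_of_nonneg_left h3 hNr.le
      _ = L := by field_simp
  have hδ : θ ^ N / (1 - θ ^ N) = 1 / M := by
    rw [hθN]
    have h2 : (M : ℝ) ≠ 0 := by linarith
    have h3 : (M : ℝ) + 1 ≠ 0 := by linarith
    have h4 : 1 - 1 / ((M : ℝ) + 1) = M / (M + 1) := by
      field_simp
      ring
    rw [h4]
    field_simp
  have h1θ : 0 ≤ 1 - θ := sub_nonneg.mpr h1
  refine ⟨N, fun j => (1 - θ) * θ ^ (j : ℕ) / (1 - θ ^ N), fun j => 2 + ((j : ℕ) : ℝ) / N,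
    fun j => by positivity, ?_, fun j => ⟨?_, ?_⟩, ?_⟩
  · rw [Fin.sum_univ_eq_sum_range (fun j => (1 - θ) * θ ^ j / (1 - θ ^ N)) N, ← Finset.sum_div,
      Finset.range_eq_Ico, geo_Ico θ 0 N (Nat.zero_le _), pow_zero, div_self hD.ne']
  · have : (0 : ℝ) ≤ ((j : ℕ) : ℝ) / N := by positivity
    linarith
  · have h2 : ((j : ℕ) : ℝ) ≤ N := by exact_mod_cast j.2.le
    have : ((j : ℕ) : ℝ) / N ≤ 1 := (div_le_one hNr).mpr h2
    linarith
  · intro e a b he hab
    have heN : 1 ≤ e * N := le_trans hηN (mul_le_mul_of_nonneg_right he hNr.le)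
    have h := one_cut θ (1 - θ ^ N) L e N h0 h1 hD hN0 hNL heN a b hab
    rw [hδ] at h
    rw [Fin.sum_univ_eq_sum_range (fun j => (1 - θ) * θ ^ j / (1 - θ ^ N) *
        (if a ≤ 2 + (j : ℝ) / N ∧ 2 + (j : ℝ) / N < b then (1 : ℝ) else 0)) N,
      Fin.sum_univ_eq_sum_range (fun j => (1 - θ) * θ ^ j / (1 - θ ^ N) *
        (if a ≤ 2 + (j : ℝ) / N then (1 : ℝ) else 0)) N]
    exact h

end CutAux

open CutAux in
theorem cutLaw : CutStmt := by
  intro M η hM hη
  obtain ⟨N, q, ρ, hq0, hq, hρ, hcut⟩ := one_law M η hM hη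
  have hMr : (1 : ℝ) ≤ M := by exact_mod_cast hM
  have hL0 : 0 < Real.log (M + 1) := Real.log_pos (by linarith)
  have hrad : ∀ (ξ : Fin (M + 1) → Fin N) (j : ℕ), 2 ≤ radF ρ ξ j ∧ radF ρ ξ j ≤ 3 := by
    intro ξ j
    unfold radF
    split_ifs
    · exact hρ _
    · norm_num
  refine ⟨Fin (M + 1) → Fin N, inferInstance, fun ξ => ∏ i, q (ξ i), fun ξ => 8 + radF ρ ξ 0,
    fun ξ => radF ρ ξ, fun ξ => Finset.prod_nonneg fun i _ => hq0 _, sum_prod_one q hq _,
    fun ξ => ⟨by linarith [(hrad ξ 0).1], by linarith [(hrad ξ 0).2]⟩, hrad, ?_, ?_⟩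
  · intro a b e he hab
    have he0 : 0 < e := lt_of_lt_of_le hη he
    rw [sum_head]
    have hab' : (max a b - 8) - (min a b - 8) ≤ e := by
      have h1 := (abs_le.mp hab).1
      have h2 := (abs_le.mp hab).2
      rcases le_total a b with h | h
      · rw [max_eq_right h, min_eq_left h]; linarith
      · rw [max_eq_left h, min_eq_right h]; linarith
    have h1 := hcut e (min a b - 8) (max a b - 8) he hab'
    have h2 : ∑ j, q j * (if min a b - 8 ≤ ρ j then (1 : ℝ) else 0) ≤ 1 := by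
      refine le_trans (Finset.sum_le_sum fun j _ => mul_le_of_le_one_right (hq0 j) ?_) hq.le
      split_ifs <;> norm_num
    have h3 : (1 : ℝ) / M ≤ 1 := (div_le_one (by linarith)).mpr hMr
    have h4 : 2 * e * Real.log (M + 1) *
        (∑ j, q j * (if min a b - 8 ≤ ρ j then (1 : ℝ) else 0) + 1 / M) ≤
        2 * e * Real.log (M + 1) * 2 :=
      mul_le_mul_of_nonneg_left (by linarith) (by positivity)
    have h5 : 0 ≤ e * Real.log (M + 1) := by positivity
    refine le_trans (Finset.sum_le_sum fun h _ => mul_le_mul_of_nonneg_left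
      (?_ : _ ≤ (if min a b - 8 ≤ ρ h ∧ ρ h < max a b - 8 then (1 : ℝ) else 0)) (hq0 h))
      (by nlinarith)
    simp only [radF_zero]
    rw [← Finset.sum_mul, sum_prod_one q hq, one_mul]
    by_cases h6 : (a ≤ 8 + ρ h ↔ b ≤ 8 + ρ h)
    · rw [if_pos h6]
      split_ifs <;> norm_num
    · rw [if_neg h6, if_pos]
      by_cases h7 : a ≤ 8 + ρ h
      · have h8 : ¬ b ≤ 8 + ρ h := fun h9 => h6 ⟨fun _ => h9, fun _ => h7⟩
        exact ⟨by linarith [min_le_left a b], by linarith [le_max_right a b, not_le.mp h8]⟩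
      · have h8 : b ≤ 8 + ρ h := by
          by_contra h9
          exact h6 ⟨fun h10 => absurd h10 h7, fun h10 => absurd h10 h9⟩
        exact ⟨by linarith [min_le_right a b], by linarith [le_max_left a b, not_le.mp h7]⟩
  · intro Y _ c x z hc hxz hy
    have hd0 : 0 < dist x z := lt_of_lt_of_le hη hxz
    have h1 := cov_bound q ρ hq0 hq (fun j => (hρ j).1) (2 * dist x z * Real.log (M + 1)) (1 / M)
      (dist x z) (by positivity) (by positivity) (fun a b hab => hcut _ a b hxz hab) x z le_rfl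
      (M + 1) c (Nat.le_succ_of_le hc) hy
    refine le_trans h1 ?_
    have h2 : (c.length : ℝ) ≤ M := by exact_mod_cast hc
    have h3 : (1 : ℝ) / M * c.length ≤ 1 := by
      rw [one_div, inv_mul_le_iff₀ (by linarith)]
      linarith
    have h4 : 2 * dist x z * Real.log (M + 1) * (1 + 1 / M * c.length) ≤
        2 * dist x z * Real.log (M + 1) * 2 :=
      mul_le_mul_of_nonneg_left (by linarith) (by positivity)
    have h5 : 0 ≤ dist x z * Real.log (M + 1) := by positivity
    nlinarith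

end Vale.Agent.P304
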