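import Mathlib

namespace Vale.Agent.P304

/-- Total movement of the deterministic online policy `A` while it serves a list of requests.
`past` is the list of requests seen so far (oldest first) and `C` is the current position of the
`k` labelled servers.  When the request `r` arrives, the policy sees `past ++ [r]`, chooses the
server `A (past ++ [r])`, moves it to `r` (the others stay) and pays the distance moved. -/
noncomputable def serve {X : Type*} [MetricSpace X] {k : ℕ} (A : List X → Fin k) :
    List X → (Fin k → X) → List X → ℝ
  | _, _, [] => 0
  | past, C, r :: σ =>
      dist (C (A (past ++ [r]))) r +
        serve A (past ++ [r]) (Function.update C (A (past ++ [r])) r) σ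

/-- `cost A s σ`: total movement of the deterministic online policy `A` on the request sequence
`σ`, starting from the initial positions `s`. -/
noncomputable def cost {X : Type*} [MetricSpace X] {k : ℕ} (A : List X → Fin k)
    (s : Fin k → X) (σ : List X) : ℝ :=
  serve A [] s σ

/-- `opt s σ`: the offline optimum, the least total movement over all choices `c` of the server
`c t` that serves the `t`-th request of `σ`. -/
noncomputable def opt {X : Type*} [MetricSpace X] {k : ℕ} (s : Fin k → X) (σ : List X) : ℝ :=
  ⨅ c : ℕ → Fin k, cost (fun l => c l.length) s σ

end Vale.Agent.P304
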