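import Vale.Agent.P304.ServeAux

/-! P304: derandomization by dynamic programming and a lazy policy. -/

namespace Vale.Agent.P304

open Finset ServeAux
open scoped Classical

namespace Derand

variable {k : ℕ} {Y Ω S : Type} [Fintype Y] [Fintype Ω] (G : Game k Y Ω)

/-- unnormalised future cost below the history `l` -/
noncomputable def R (h : List Y → ℝ) (n : ℕ) (l : List Y) : ℝ :=
  ∑ ω, if G.hist l.length ω = l then
    G.p ω * ∑ j ∈ range n, h (G.hist (l.length + j + 1) ω) else 0

omit [Fintype Y] in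
theorem R_zero (h : List Y → ℝ) (l : List Y) : R G h 0 l = 0 := by simp [R]

omit [Fintype Y] in
theorem R_nil (h : List Y → ℝ) (n : ℕ) :
    R G h n [] = G.E fun ω => ∑ j ∈ range n, h (G.hist (j + 1) ω) := by simp [R, Game.E]

theorem R_succ (h : List Y → ℝ) (n : ℕ) (l : List Y) :
    R G h (n + 1) l = ∑ r, (G.mass (r :: l) * h (r :: l) + R G h n (r :: l)) := by
  simp only [R, Game.mass, sum_mul, ← sum_add_distrib]
  rw [sum_comm]
  refine sum_congr rfl fun ω _ => ?_
  simp only [List.length_cons, G.hist_succ l.length ω, List.cons.injEq]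
  by_cases hl : G.hist l.length ω = l
  · rw [if_pos hl, sum_eq_single (G.req l.length ω), if_pos ⟨rfl, hl⟩, if_pos ⟨rfl, hl⟩,
      sum_range_succ', add_zero, G.hist_succ l.length ω, hl, mul_add, add_comm]
    · refine congrArg _ (congrArg _ (sum_congr rfl fun j _ => ?_))
      rw [show l.length + (j + 1) + 1 = l.length + 1 + j + 1 by ring]
    · intro r _ hr
      rw [if_neg fun h => hr h.1.symm, if_neg fun h => hr h.1.symm, zero_mul, add_zero]
    · exact fun h => absurd (mem_univ _) h
  · simp [hl]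

omit [Fintype Y] in
theorem mass_eq_zero {l : List Y} (h : ¬ G.Reach l) : G.mass l = 0 :=
  sum_eq_zero fun ω _ => if_neg fun h' => h ⟨ω, h'⟩

omit [Fintype Y] in
theorem R_eq_zero (h : List Y → ℝ) (n : ℕ) {l : List Y} (hl : ¬ G.Reach l) : R G h n l = 0 :=
  sum_eq_zero fun ω _ => if_neg fun h' => hl ⟨ω, h'⟩

/-- the value function -/
noncomputable def V (d : List Y → S → S → ℝ) (am : List Y → (S → ℝ) → S) : ℕ → List Y → S → ℝ
  | 0, _, _ => 0
  | n + 1, l, x => ∑ r, (fun y => G.mass (r :: l) * d (r :: l) x y + V d am n (r :: l) y)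
      (am (r :: l) fun y => G.mass (r :: l) * d (r :: l) x y + V d am n (r :: l) y)

theorem V_eq_zero (d : List Y → S → S → ℝ) (am : List Y → (S → ℝ) → S) (n : ℕ) :
    ∀ (l : List Y) (x : S), ¬ G.Reach l → V G d am n l x = 0 := by
  induction n with
  | zero => exact fun _ _ _ => rfl
  | succ n ih =>
    intro l x hl
    refine sum_eq_zero fun r _ => ?_
    have h : ¬ G.Reach (r :: l) := fun h => hl (G.reach_tail h)
    simp only [mass_eq_zero G h, ih _ _ h, zero_mul, add_zero]

/-- the optimal virtual strategy -/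
noncomputable def g (d : List Y → S → S → ℝ) (am : List Y → (S → ℝ) → S) (T : ℕ) (S0 : S) :
    List Y → S
  | [] => S0
  | r :: l => am (r :: l) fun y => G.mass (r :: l) * d (r :: l) (g d am T S0 l) y +
      V G d am (T - (l.length + 1)) (r :: l) y

theorem R_g (d : List Y → S → S → ℝ) (am : List Y → (S → ℝ) → S) (T : ℕ) (S0 : S) (n : ℕ) :
    ∀ l : List Y, l.length + n = T →
      R G (fun l' => d l' (g G d am T S0 l'.tail) (g G d am T S0 l')) n l =
        V G d am n l (g G d am T S0 l) := by
  induction n with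
  | zero => exact fun l _ => R_zero G _ l
  | succ n ih =>
    intro l hl
    rw [R_succ, V]
    refine sum_congr rfl fun r _ => ?_
    rw [ih (r :: l) (by simp; omega)]
    have : T - (l.length + 1) = n := by omega
    simp only [List.tail_cons, g, this]

end Derand

open Derand

theorem derand : DerandStmt := by
  intro k Y Ω S _ _ _ _ G T pos Bal c S0 hpos hbal hstep
  obtain ⟨ω0⟩ := G.nonempty
  have ham : ∀ (l : List Y) (f : S → ℝ), ∃ y, ∀ y', (∃ i, pos l y' i = l.headD G.s0) →
      (∃ i, pos l y i = l.headD G.s0) ∧ f y ≤ f y' := by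
    intro l f
    by_cases h : ∃ y', ∃ i, pos l y' i = l.headD G.s0
    · obtain ⟨y0, hy0⟩ := h
      obtain ⟨y, hy, hmin⟩ := exists_min_image
        (univ.filter fun y' => ∃ i, pos l y' i = l.headD G.s0) f
        ⟨y0, mem_filter.2 ⟨mem_univ _, hy0⟩⟩
      exact ⟨y, fun y' hy' => ⟨(mem_filter.1 hy).2, hmin y' (mem_filter.2 ⟨mem_univ _, hy'⟩)⟩⟩
    · exact ⟨S0, fun y' hy' => absurd ⟨y', hy'⟩ h⟩
  choose am ham using ham
  set d : List Y → S → S → ℝ := fun l' x y => ∑ i, dist (pos l'.tail x i) (pos l' y i) with hd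
  have hV : ∀ n t, t + n ≤ T → ∀ ω π, Bal (G.hist t ω) π →
      ∑ x, π x * V G d am n (G.hist t ω) x ≤ R G c n (G.hist t ω) := by
    intro n
    induction n with
    | zero => intro t _ ω π _; simp [V, R_zero]
    | succ n ih =>
      intro t ht ω π hπ
      rw [R_succ]
      simp only [V, mul_sum]
      rw [sum_comm]
      refine sum_le_sum fun r _ => ?_
      by_cases hr : G.Reach (r :: G.hist t ω)
      · obtain ⟨ω', hω'⟩ := hr
        rw [List.length_cons, G.hist_length] at hω'
        have h1 : G.hist t ω' = G.hist t ω := (List.cons.inj hω').2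
        have h2 : G.req t ω' = r := (List.cons.inj hω').1
        obtain ⟨γ, hγ0, hγ1, hγ2, hγ3, hγ4⟩ := hstep t (by omega) ω' π (h1 ▸ hπ)
        have h3 := ih (t + 1) (by omega) ω' _ hγ2
        rw [hω'] at hγ3 hγ4 h3
        rw [h1] at hγ4
        rw [h2] at hγ3
        have h4 := mul_le_mul_of_nonneg_left hγ4 (G.mass_nonneg (r :: G.hist t ω))
        refine le_trans ?_ (add_le_add h4 h3)
        simp only [sum_mul, mul_sum]
        rw [sum_comm (f := fun y x => γ x y * V G d am n (r :: G.hist t ω) y), ← sum_add_distrib]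
        refine sum_le_sum fun x _ => ?_
        rw [← hγ1 x, sum_mul, ← sum_add_distrib]
        refine sum_le_sum fun y _ => ?_
        rcases (hγ0 x y).eq_or_lt with h0 | h0
        · simp [← h0]
        · have h5 := (ham (r :: G.hist t ω) (fun y => G.mass (r :: G.hist t ω) *
            d (r :: G.hist t ω) x y + V G d am n (r :: G.hist t ω) y) y (hγ3 x y h0)).2
          refine (mul_le_mul_of_nonneg_left h5 h0.le).trans (le_of_eq ?_)
          simp only [hd, List.tail_cons, ← mul_sum]
          ring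
      · simp [mass_eq_zero G hr, V_eq_zero G d am n _ _ hr, R_eq_zero G c n hr]
  have hex : ∀ ω t, t ≤ T → ∃ π, Bal (G.hist t ω) π ∧ ∑ x, π x = 1 := by
    intro ω t
    induction t with
    | zero => exact fun _ => ⟨_, hbal, by simp⟩
    | succ t ih =>
      intro ht
      obtain ⟨π, h1, h2⟩ := ih (by omega)
      obtain ⟨γ, -, hγ1, hγ2, -, -⟩ := hstep t (by omega) ω π h1
      exact ⟨_, hγ2, by rw [sum_comm]; simp only [hγ1, h2]⟩
  have hgood : ∀ ω t, t < T → ∃ i,
      pos (G.hist (t + 1) ω) (g G d am T S0 (G.hist (t + 1) ω)) i = G.req t ω := by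
    intro ω t ht
    obtain ⟨π, h1, h2⟩ := hex ω t ht.le
    obtain ⟨γ, hγ0, hγ1, -, hγ3, -⟩ := hstep t ht ω π h1
    obtain ⟨x, y, hxy⟩ : ∃ x y, 0 < γ x y := by
      by_contra hc
      push Not at hc
      have : ∑ x, π x ≤ 0 := sum_nonpos fun x _ => hγ1 x ▸ sum_nonpos fun y _ => hc x y
      linarith
    exact (ham (G.hist (t + 1) ω) _ y (hγ3 x y hxy)).1
  have hA : ∀ l : List Y, ∃ j : Fin k, (∃ i, pos l (g G d am T S0 l) i = l.headD G.s0) →
      pos l (g G d am T S0 l) j = l.headD G.s0 := by
    intro l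
    by_cases h : ∃ i, pos l (g G d am T S0 l) i = l.headD G.s0
    · exact ⟨h.choose, fun _ => h.choose_spec⟩
    · exact ⟨G.idx 0 ω0, fun h' => absurd h' h⟩
  choose A hA using hA
  refine ⟨fun l => A l.reverse, ?_⟩
  have hlazy : ∀ ω t, t ≤ T → cost (fun l => A l.reverse) (fun _ => G.s0) (G.hist t ω).reverse +
      ∑ i, dist (fin (fun l => A l.reverse) [] (fun _ => G.s0) (G.hist t ω).reverse i)
        (pos (G.hist t ω) (g G d am T S0 (G.hist t ω)) i) ≤
      ∑ j ∈ range t, d (G.hist (j + 1) ω) (g G d am T S0 (G.hist (j + 1) ω).tail)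
        (g G d am T S0 (G.hist (j + 1) ω)) := by
    intro ω t
    induction t with
    | zero => intro _; simp [cost, serve, fin, g, hpos]
    | succ t ih =>
      intro ht
      have h1 := ih (by omega)
      have h2 : pos (G.hist (t + 1) ω) (g G d am T S0 (G.hist (t + 1) ω)) (A (G.hist (t + 1) ω)) =
          G.req t ω := hA _ (hgood ω t ht)
      have h3 : (G.hist (t + 1) ω).reverse = (G.hist t ω).reverse ++ [G.req t ω] := by
        rw [G.hist_succ, List.reverse_cons]
      have h4 : ([] ++ (G.hist t ω).reverse ++ [G.req t ω]).reverse = G.hist (t + 1) ω := by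
        rw [List.nil_append, ← h3, List.reverse_reverse]
      have h5 : (G.hist (t + 1) ω).tail = G.hist t ω := rfl
      rw [sum_range_succ, h3, cost, serve_snoc, fin_snoc, h4]
      have h6 := sum_dist_update (fin (fun l => A l.reverse) [] (fun _ => G.s0) (G.hist t ω).reverse)
        (pos (G.hist (t + 1) ω) (g G d am T S0 (G.hist (t + 1) ω))) (A (G.hist (t + 1) ω))
        (G.req t ω)
      rw [h2, dist_self] at h6
      have h7 : ∑ i, dist (fin (fun l => A l.reverse) [] (fun _ => G.s0) (G.hist t ω).reverse i)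
          (pos (G.hist (t + 1) ω) (g G d am T S0 (G.hist (t + 1) ω)) i) ≤
          ∑ i, dist (fin (fun l => A l.reverse) [] (fun _ => G.s0) (G.hist t ω).reverse i)
            (pos (G.hist t ω) (g G d am T S0 (G.hist t ω)) i) +
          d (G.hist (t + 1) ω) (g G d am T S0 (G.hist (t + 1) ω).tail)
            (g G d am T S0 (G.hist (t + 1) ω)) := by
        simp only [hd, h5, ← sum_add_distrib]
        exact sum_le_sum fun i _ => dist_triangle _ _ _
      unfold cost at h1
      linarith
  have h1 := hV T 0 (by omega) ω0 _ hbal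
  have h2 := R_g G d am T S0 T [] (by simp)
  simp only [G.hist_zero, ite_mul, one_mul, zero_mul, sum_ite_eq', mem_univ, if_true] at h1
  rw [R_nil] at h1 h2
  refine le_trans ?_ h1
  refine le_trans (G.E_mono fun ω => ?_) h2.le
  exact le_trans (le_add_of_nonneg_right (sum_nonneg fun _ _ => dist_nonneg)) (hlazy ω T le_rfl)

end Vale.Agent.P304
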