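import Vale.Agent.P304.StmtsE

/-! Adding weight at one point. -/

namespace Vale.Agent.P304

open Finset
open scoped Classical

namespace EAdd

theorem log_sub_le {A B : ℝ} (hA : 0 < A) (hB : 0 < B) :
    Real.log B - Real.log A ≤ (B - A) / A := by
  rw [← Real.log_div hB.ne' hA.ne', sub_div, div_self hA.ne']
  exact Real.log_le_sub_one_of_pos (div_pos hB hA)

theorem step {b R s d e : ℝ} (hb : 0 < b) (hR : 0 < R) (hs : 0 ≤ s) (hd : 0 < d) (he : 0 ≤ e) :
    e / (b + e + d * (R + s)) - b / R / (b / R + d) * (s / R) ≤
      Real.log ((4 + d) / (b / R + d)) - Real.log ((4 + d) / ((b + e) / (R + s) + d)) := by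
  rw [Real.log_div (by positivity) (by positivity), Real.log_div (by positivity) (by positivity)]
  have h1 := log_sub_le (A := (b + e) / (R + s) + d) (B := b / (R + s) + d) (by positivity)
    (by positivity)
  have h2 := log_sub_le (A := b / (R + s) + d) (B := b / R + d) (by positivity) (by positivity)
  have e1 : (b / (R + s) + d - ((b + e) / (R + s) + d)) / ((b + e) / (R + s) + d) =
      -(e / (b + e + d * (R + s))) := by
    field_simp
    ring
  have e2 : (b / R + d - (b / (R + s) + d)) / (b / (R + s) + d) =
      b * s / R / (b + d * (R + s)) := by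
    field_simp
    ring
  have e3 : b / R / (b / R + d) * (s / R) = b * s / R / (b + d * R) := by
    field_simp
  have h3 : b * s / R / (b + d * (R + s)) ≤ b * s / R / (b + d * R) :=
    div_le_div_of_nonneg_left (by positivity) (by positivity) (by nlinarith [mul_nonneg hd.le hs])
  rw [e1] at h1
  rw [e2] at h2
  rw [e3]
  linarith

end EAdd

theorem addS (hE : EBasicStmt) : AddStmt := by
  intro P Y _ _ hP m w hm hw hS x r hr1 hr2
  have E := hE P Y hP
  have hw0 : ∀ a, 0 ≤ w a := fun a => (hw a).le
  have hN : (0 : ℝ) < P.N := by exact_mod_cast lt_of_lt_of_le (by norm_num) hP.N_ge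
  have hr0 : 0 < r := lt_of_lt_of_le (by positivity) hr1
  have hd := E.δ_pos
  have hd1 : P.δ ≤ 1 / 2 := E.δ_le.trans (by norm_num)
  have hRx := E.Ref_pos w x hw
  have hbx := E.bm_pos w x r hw hr0.le
  set t := bm w x r + 4 * P.δ * Ref w x with ht
  have ht0 : 0 < t := by positivity
  set w' : Y → ℝ := fun a => w a + t * if a = x then 1 else 0 with hw'
  have hle : ∀ a, w a ≤ w' a := fun a => le_add_of_nonneg_right (by split_ifs <;> positivity)
  have hw'p : Pos w' := fun a => (hw a).trans_le (hle a)
  have hb : ∀ y ρ, bm w' y ρ = bm w y ρ + t * if dist y x ≤ ρ then 1 else 0 := fun y ρ => by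
    rw [hw', E.bm_add, E.bm_smul, E.bm_single]
  have hR : ∀ y, Ref w' y = Ref w y + t * kap (dist y x) := fun y => by
    rw [hw', E.Ref_add]
    simp [Ref]
  have key : ∀ y, (if dist x y ≤ r / 4 then r ^ 3 / 256 else 0) + rel P w w' y -
      vv P w y * (t * kap (dist y x) / Ref w y) ≤ phi P w y - phi P w' y := by
    intro y
    have hRy := E.Ref_pos w y hw
    have hk0 := E.kap_pos _ (dist_nonneg (x := y) (y := x))
    have hk1 := E.kap_le _ (dist_nonneg (x := y) (y := x))
    have hk2 : P.δ * (t * kap (dist y x)) ≤ t / 2 := by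
      have := mul_le_mul hd1 hk1 hk0.le (by norm_num)
      nlinarith
    have hRl := E.Ref_lip w y x hw0
    have h1 : (if dist x y ≤ r / 4 then r ^ 3 / 256 else 0) ≤ ∑ j ∈ P.I,
        if dist x y ≤ r / 4 ∧ r / 4 ≤ P.r j ∧ P.r j ≤ 3 * r / 4 then P.g j / 4 else 0 := by
      split_ifs with h
      · have h2 := E.sum_g_ge (r / 4) (3 * r / 4) (by positivity) (by linarith) (by linarith)
        have h3 : 1 / (P.N : ℝ) ≤ r / 4 := by
          rw [show 1 / (P.N : ℝ) = 4 / P.N / 4 by ring]
          linarith
        have h4 := mul_le_mul_of_nonneg_left (show r / 4 ≤ 3 * r / 4 - r / 4 - 1 / P.N by linarith)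
          (sq_nonneg (r / 4))
        simp only [h, true_and]
        refine le_trans (by nlinarith) ((div_le_div_of_nonneg_right (h4.trans h2)
          (by norm_num : (0 : ℝ) ≤ 4)).trans_eq ?_)
        rw [sum_div]
        exact sum_congr rfl fun j _ => by split_ifs <;> simp
      · simp [h]
    have h2 : rel P w w' y = ∑ j ∈ P.I,
        if j ∈ P.I' then 1 / P.N * tv (bal w y (P.r j)) (bal w' y (P.r j)) else 0 := by
      rw [rel, mul_sum, ← sum_filter, filter_mem_eq_inter, inter_eq_right.2 E.I'_sub]
    rw [h2, phi, phi, vv, sum_mul, ← sum_sub_distrib]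
    refine le_trans (sub_le_sub_right (add_le_add_left h1 _) _) ?_
    rw [← sum_add_distrib, ← sum_sub_distrib]
    refine sum_le_sum fun j hj => ?_
    have hg := E.g_nonneg j
    have hbj := E.bm_pos w y (P.r j) hw (E.r_pos j hj).le
    have h3 := mul_le_mul_of_nonneg_left (EAdd.step (s := t * kap (dist y x))
      (e := t * if dist y x ≤ P.r j then 1 else 0) hbj hRy (by positivity) hd
      (by split_ifs <;> positivity)) hg
    rw [hb, hR, ← mul_sub, mul_assoc]
    rw [mul_sub] at h3
    refine le_trans (sub_le_sub_right ?_ _) h3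
    by_cases hc : dist y x ≤ P.r j
    · rw [if_pos hc, mul_one]
      by_cases hI : j ∈ P.I'
      · have hr := E.r_I' j hI
        rw [if_neg (fun h => by linarith [h.2.2]), if_pos hI, zero_add]
        have h4 : tv (bal w y (P.r j)) (bal w' y (P.r j)) ≤
            1 - bm w y (P.r j) / (bm w y (P.r j) + t) := by
          have e := hb y (P.r j)
          rw [if_pos hc, mul_one] at e
          refine E.tv_le _ _ _ _ (fun a => ?_) (fun _ => le_rfl) (fun a => ?_) hbj
            (E.bm_pos w' y _ hw'p (E.r_pos j hj).le) (le_add_of_nonneg_right ht0.le) e.le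
          · unfold bal
            split_ifs
            exacts [hw0 a, le_rfl]
          · unfold bal
            split_ifs
            exacts [hle a, le_rfl]
        have h5 : P.δ * Ref w y ≤ t := by
          have := mul_le_mul_of_nonneg_right (show 1 + dist y x ≤ 4 by linarith [E.r_le j hj]) hRx.le
          have := mul_le_mul_of_nonneg_left (hRl.trans this) hd.le
          linarith
        have h6 : 1 - bm w y (P.r j) / (bm w y (P.r j) + t) ≤ 4 *
            (t / (bm w y (P.r j) + t + P.δ * (Ref w y + t * kap (dist y x)))) := by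
          rw [one_sub_div (by positivity), add_sub_cancel_left, ← mul_div_assoc,
            div_le_div_iff₀ (by positivity) (by positivity)]
          nlinarith [mul_le_mul_of_nonneg_left h5 ht0.le, mul_le_mul_of_nonneg_left hk2 ht0.le,
            mul_pos ht0 hbj, mul_pos ht0 ht0]
        have h7 : 1 / (P.N : ℝ) * 4 ≤ P.g j := by
          rw [Par.g, one_div_mul_eq_div]
          exact div_le_div_of_nonneg_right (by nlinarith) hN.le
        refine (mul_le_mul_of_nonneg_left (h4.trans h6) (by positivity)).trans ?_
        rw [← mul_assoc]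
        exact mul_le_mul_of_nonneg_right h7 (by positivity)
      · rw [if_neg hI, add_zero]
        split_ifs with h
        · have h4 := E.bm_mono w y x (P.r j) r hw0 (by rw [dist_comm]; linarith [h.1, h.2.2])
          have h5 : P.δ * Ref w y ≤ 4 * P.δ * Ref w x := by
            have := mul_le_mul_of_nonneg_right
              (show 1 + dist y x ≤ 4 by rw [dist_comm]; linarith [h.1]) hRx.le
            have := mul_le_mul_of_nonneg_left (hRl.trans this) hd.le
            linarith
          rw [div_eq_mul_one_div]
          refine mul_le_mul_of_nonneg_left ?_ hg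
          rw [div_le_div_iff₀ (by norm_num) (by positivity)]
          linarith
        · positivity
    · have e : bal w' y (P.r j) = bal w y (P.r j) := funext fun a => by
        unfold bal
        split_ifs with h
        · simp only [hw']
          rw [if_neg fun e : a = x => hc (e ▸ h), mul_zero, add_zero]
        · rfl
      rw [if_neg hc, e, E.tv_self, if_neg fun h => hc (by rw [dist_comm]; linarith [h.1, h.2.1])]
      simp
  have h1 := sum_le_sum fun y (_ : y ∈ univ) => mul_le_mul_of_nonneg_left (key y) (hm y)
  have h2 := hS w' hw'p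
  have e1 : r ^ 3 / 256 * bm m x (r / 4) =
      ∑ y, m y * if dist x y ≤ r / 4 then r ^ 3 / 256 else 0 := by
    rw [bm, mul_sum]
    exact sum_congr rfl fun y _ => by unfold bal; split_ifs <;> ring
  have e2 : t * Kv P m w x = ∑ y, m y * (vv P w y * (t * kap (dist y x) / Ref w y)) := by
    rw [Kv, mul_sum]
    exact sum_congr rfl fun y _ => by ring
  simp only [mul_sub, mul_add, sum_sub_distrib, sum_add_distrib] at h1
  rw [e1, e2]
  unfold Out Rel at h2
  linarith

end Vale.Agent.P304
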