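import Vale.Agent.P304.StmtsE

/-! Elementary facts at unit scale. -/

namespace Vale.Agent.P304

open Finset
open scoped Classical

namespace EB

/-! ### Parameters -/

theorem δ_pos {P : Par} (hk : 2 ≤ P.k) : 0 < P.δ := by
  have : (0 : ℝ) < P.k := by exact_mod_cast (by omega : 0 < P.k)
  unfold Par.δ
  positivity

theorem δ_k {P : Par} (hk : 2 ≤ P.k) : P.δ * P.k = 1 / 10 ^ 7 := by
  have : (0 : ℝ) < P.k := by exact_mod_cast (by omega : 0 < P.k)
  unfold Par.δ
  field_simp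

theorem δ_le {P : Par} (hk : 2 ≤ P.k) : P.δ ≤ 1 / 10 ^ 7 := by
  have h : (1 : ℝ) ≤ P.k := by exact_mod_cast (by omega : 1 ≤ P.k)
  rw [← δ_k hk]
  exact le_mul_of_one_le_right (δ_pos hk).le h

theorem log_δ {P : Par} (hk : 2 ≤ P.k) : Real.log (5 / P.δ) ≤ 28 * Real.log P.k := by
  have h : (2 : ℝ) ≤ P.k := by exact_mod_cast hk
  have h1 : (2 : ℝ) ^ 27 ≤ (P.k : ℝ) ^ 27 := pow_le_pow_left₀ (by norm_num) h 27
  have h2 : Real.log ((P.k : ℝ) ^ 28) = 28 * Real.log P.k := by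
    rw [Real.log_pow]
    norm_num
  rw [← h2]
  refine Real.log_le_log (div_pos (by norm_num) (δ_pos hk)) ?_
  have h3 : 5 / P.δ = 5 * 10 ^ 7 * P.k := by
    unfold Par.δ
    rw [div_div_eq_mul_div, div_one, mul_assoc]
  rw [h3, pow_succ (P.k : ℝ) 27]
  exact mul_le_mul_of_nonneg_right (le_trans (by norm_num) h1) (by linarith)

theorem log_k {P : Par} (hk : 2 ≤ P.k) : 69 / 100 ≤ Real.log P.k := by
  have h : (2 : ℝ) ≤ P.k := by exact_mod_cast hk
  linarith [Real.log_le_log (by norm_num) h, Real.log_two_gt_d9]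

theorem r_nonneg (P : Par) (j : ℕ) : 0 ≤ P.r j := by
  unfold Par.r
  positivity

theorem g_nonneg (P : Par) (j : ℕ) : 0 ≤ P.g j := by
  unfold Par.g
  positivity

theorem r_le_iff {P : Par} (hN : (0 : ℝ) < P.N) (j : ℕ) (R : ℝ) : P.r j ≤ R ↔ j ≤ R * P.N :=
  div_le_iff₀ hN

theorem le_r_iff {P : Par} (hN : (0 : ℝ) < P.N) (j : ℕ) (R : ℝ) : R ≤ P.r j ↔ R * P.N ≤ j :=
  le_div_iff₀ hN

theorem r_le {P : Par} (hN : (0 : ℝ) < P.N) (j : ℕ) (hj : j ∈ P.I) : P.r j ≤ 3 := by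
  rw [r_le_iff hN]
  exact_mod_cast (mem_Icc.1 hj).2

theorem sum_le_card {P : Par} (hN : (0 : ℝ) < P.N) (p : ℕ → Prop) {β c : ℝ} {T : Finset ℕ}
    (h : ∀ j ∈ P.I, p j → j ∈ T ∧ P.r j ≤ β) (hc : (T.card : ℝ) ≤ c * P.N) :
    ∑ j ∈ P.I, (if p j then P.g j else 0) ≤ c * β ^ 2 := by
  rw [← sum_filter]
  have h1 := sum_le_card_nsmul (P.I.filter p) P.g (β ^ 2 / P.N) fun j hj =>
    div_le_div_of_nonneg_right (pow_le_pow_left₀ (r_nonneg P j)
      (h j (mem_filter.1 hj).1 (mem_filter.1 hj).2).2 2) hN.le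
  have h2 : ((P.I.filter p).card : ℝ) ≤ T.card := by
    exact_mod_cast card_le_card fun j hj => (h j (mem_filter.1 hj).1 (mem_filter.1 hj).2).1
  rw [nsmul_eq_mul] at h1
  refine h1.trans ((mul_le_mul_of_nonneg_right (h2.trans hc) (by positivity)).trans_eq ?_)
  field_simp

theorem sum_g_le {P : Par} (hN : (0 : ℝ) < P.N) (R : ℝ) (hR : 0 ≤ R) :
    ∑ j ∈ P.I, (if P.r j ≤ R then P.g j else 0) ≤ R ^ 3 := by
  refine (sum_le_card hN (fun j => P.r j ≤ R) (β := R) (c := R) (T := Icc 1 ⌊R * P.N⌋₊)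
    (fun j hj h => ⟨mem_Icc.2 ⟨(mem_Icc.1 hj).1, Nat.le_floor ((r_le_iff hN j R).1 h)⟩, h⟩)
    ?_).trans_eq (by ring)
  rw [Nat.card_Icc, Nat.add_sub_cancel]
  exact Nat.floor_le (by positivity)

theorem sum_g {P : Par} (hN : (0 : ℝ) < P.N) : ∑ j ∈ P.I, P.g j ≤ 27 := by
  have h := sum_g_le hN 3 (by norm_num)
  rw [sum_congr rfl fun j hj => if_pos (r_le hN j hj)] at h
  linarith

theorem sum_g_mid {P : Par} (hN : (0 : ℝ) < P.N) (α β : ℝ) (h0 : 0 ≤ α) (h1 : α ≤ β) :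
    ∑ j ∈ P.I, (if α < P.r j ∧ P.r j ≤ β then P.g j else 0) ≤ (β - α + 1 / P.N) * β ^ 2 := by
  have h2 : 0 ≤ α * P.N := by positivity
  have h3 : α * P.N ≤ β * P.N := mul_le_mul_of_nonneg_right h1 hN.le
  have h4 := sum_le_card hN (fun j => α < P.r j ∧ P.r j ≤ β) (β := β) (c := β - α + 1 / P.N)
    (T := Ioc ⌊α * P.N⌋₊ ⌊β * P.N⌋₊) (fun j _ h => ⟨mem_Ioc.2
      ⟨(Nat.floor_lt h2).2 ((lt_div_iff₀ hN).1 h.1), Nat.le_floor ((r_le_iff hN j β).1 h.2)⟩, h.2⟩)
    (by
      rw [Nat.card_Ioc, Nat.cast_sub (Nat.floor_mono h3), add_mul, sub_mul,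
        one_div_mul_cancel hN.ne']
      linarith [Nat.floor_le (h2.trans h3), Nat.lt_floor_add_one (α * P.N)])
  refine le_trans (le_of_eq (sum_congr rfl fun j _ => ?_)) h4
  split_ifs <;> rfl

theorem sum_g_ge {P : Par} (hN : (0 : ℝ) < P.N) (α β : ℝ) (h0 : 0 < α) (h1 : α ≤ β)
    (h2 : β ≤ 3) :
    α ^ 2 * (β - α - 1 / P.N) ≤ ∑ j ∈ P.I, (if α ≤ P.r j ∧ P.r j ≤ β then P.g j else 0) := by
  have h3 : 0 < α * P.N := by positivity
  have h4 : α * P.N ≤ β * P.N := mul_le_mul_of_nonneg_right h1 hN.le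
  have h5 : Icc ⌈α * P.N⌉₊ ⌊β * P.N⌋₊ ⊆ P.I.filter fun j => α ≤ P.r j ∧ P.r j ≤ β := by
    intro j hj
    obtain ⟨a1, a2⟩ := mem_Icc.1 hj
    have a3 := (Nat.le_floor_iff (h3.le.trans h4)).1 a2
    refine mem_filter.2 ⟨mem_Icc.2 ⟨(Nat.ceil_pos.2 h3).trans_le a1, ?_⟩,
      (le_r_iff hN j α).2 (Nat.ceil_le.1 a1), (r_le_iff hN j β).2 a3⟩
    exact_mod_cast a3.trans (mul_le_mul_of_nonneg_right h2 hN.le)
  have h6 := card_nsmul_le_sum (P.I.filter fun j => α ≤ P.r j ∧ P.r j ≤ β) P.g (α ^ 2 / P.N)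
    fun j hj => div_le_div_of_nonneg_right (pow_le_pow_left₀ h0.le (mem_filter.1 hj).2.1 2) hN.le
  have h7 : (β - α - 1 / P.N) * P.N ≤ (P.I.filter fun j => α ≤ P.r j ∧ P.r j ≤ β).card := by
    have a1 := card_le_card h5
    rw [Nat.card_Icc] at a1
    have a2 : ((⌊β * P.N⌋₊ + 1 : ℕ) : ℝ) ≤
        ((P.I.filter fun j => α ≤ P.r j ∧ P.r j ≤ β).card + ⌈α * P.N⌉₊ : ℕ) :=
      Nat.cast_le.2 (by omega)
    push_cast at a2
    rw [sub_mul, sub_mul, one_div_mul_cancel hN.ne']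
    linarith [Nat.lt_floor_add_one (β * P.N), Nat.ceil_lt_add_one h3.le]
  rw [← sum_filter]
  rw [nsmul_eq_mul] at h6
  refine le_trans (le_of_eq ?_) ((mul_le_mul_of_nonneg_right h7 (by positivity)).trans h6)
  field_simp

/-! ### Scalar functions -/

theorem kap_pos (s : ℝ) (h : 0 ≤ s) : 0 < kap s := by
  unfold kap
  positivity

theorem kap_mul (s : ℝ) (h : 0 ≤ s) : (1 + s) * kap s = 1 := by
  unfold kap
  field_simp

theorem kap_shift (s s' d : ℝ) (h : 0 ≤ s) (h' : 0 ≤ s') (hd : 0 ≤ d) (h1 : s' ≤ s + d) :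
    kap s ≤ (1 + d) * kap s' := by
  unfold kap
  rw [mul_one_div, div_le_div_iff₀ (by linarith) (by linarith)]
  nlinarith [mul_nonneg h hd]

theorem kap_ff (s : ℝ) (h : 1 ≤ s) : 2 * kap s ≤ ff s := by
  unfold kap ff
  rw [mul_one_div]
  refine le_min (le_trans ((div_le_one (by linarith)).2 (by linarith)) (one_le_pow₀ h)) ?_
  rw [div_le_div_iff₀ (by linarith) (by linarith)]
  linarith

theorem sm_symm (e : ℝ) : sm (1 - e) = 1 - sm e := by
  unfold sm
  ring

theorem sm_lo (e : ℝ) (h : e ≤ 1) : e ^ 2 ≤ sm e :=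
  le_mul_of_one_le_right (sq_nonneg e) (by linarith)

theorem sm_hi (e : ℝ) (h : 0 ≤ e) : sm e ≤ 3 * e ^ 2 := by
  unfold sm
  nlinarith [mul_nonneg (sq_nonneg e) h]

theorem sm_sub (e e' : ℝ) :
    sm e' - sm e = (e' - e) * (3 * (e + e') - 2 * (e ^ 2 + e * e' + e' ^ 2)) := by
  unfold sm
  ring

theorem sm_mono (e e' : ℝ) (h0 : 0 ≤ e) (h : e ≤ e') (h1 : e' ≤ 1) : sm e ≤ sm e' := by
  rw [← sub_nonneg, sm_sub]
  refine mul_nonneg (by linarith) ?_
  nlinarith [mul_nonneg h0 (sub_nonneg.2 (h.trans h1)), mul_nonneg (h0.trans h) (sub_nonneg.2 h1),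
    mul_nonneg h0 (sub_nonneg.2 h1), mul_nonneg (h0.trans h) (sub_nonneg.2 (h.trans h1))]

theorem sm_lip (e e' : ℝ) (h0 : 0 ≤ e) (h : e ≤ e') : sm e' - sm e ≤ 6 * e' * (e' - e) := by
  rw [sm_sub, mul_comm]
  refine mul_le_mul_of_nonneg_right ?_ (by linarith)
  nlinarith [mul_nonneg h0 (h0.trans h), sq_nonneg e, sq_nonneg e']

theorem log_step {A σ σ' u δ : ℝ} (hA : 0 < A) (h0 : 0 ≤ σ) (h1 : 0 ≤ σ') (hu : 0 ≤ u)
    (hδ : 0 < δ) (h : σ ≤ (1 + u) * σ') :
    Real.log (A / (σ' + δ)) ≤ Real.log (A / (σ + δ)) + σ / (σ + δ) * u := by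
  have a1 : 0 < σ + δ := by linarith
  have a2 : 0 < σ' + δ := by linarith
  have a3 := Real.log_le_sub_one_of_pos (div_pos a1 a2)
  have a4 : σ - σ' ≤ u * σ := by
    rcases le_total σ σ' with c | c
    · linarith [mul_nonneg hu h0]
    · linarith [mul_le_mul_of_nonneg_left c hu]
  have a5 : (σ + δ) / (σ' + δ) - 1 ≤ σ / (σ + δ) * u := by
    rw [div_sub_one a2.ne', div_mul_eq_mul_div, div_le_div_iff₀ a2 a1]
    nlinarith [mul_le_mul_of_nonneg_left a4 hδ.le, mul_le_mul_of_nonneg_left h h0]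
  rw [Real.log_div a1.ne' a2.ne'] at a3
  rw [Real.log_div hA.ne' a1.ne', Real.log_div hA.ne' a2.ne']
  linarith

theorem log_mem {P : Par} (hk : 2 ≤ P.k) {A σ : ℝ} (h0 : 0 ≤ σ) (h1 : σ ≤ A) (h2 : A ≤ 4) :
    0 ≤ Real.log ((A + P.δ) / (σ + P.δ)) ∧
      Real.log ((A + P.δ) / (σ + P.δ)) ≤ 28 * Real.log P.k := by
  have a1 := δ_pos hk
  have a2 := δ_le hk
  refine ⟨Real.log_nonneg ((one_le_div (by linarith)).2 (by linarith)),
    le_trans (Real.log_le_log (div_pos (by linarith) (by linarith)) ?_) (log_δ hk)⟩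
  exact div_le_div₀ (by norm_num) (by linarith) a1 (by linarith)

/-! ### Balls and reference weights -/

section

variable {Y : Type} [Fintype Y] [MetricSpace Y]

theorem bm_nonneg (w : Y → ℝ) (y : Y) (r : ℝ) (h : ∀ a, 0 ≤ w a) : 0 ≤ bm w y r :=
  sum_nonneg fun a _ => by
    unfold bal
    split_ifs
    exacts [h a, le_rfl]

theorem bm_pos (w : Y → ℝ) (y : Y) (r : ℝ) (h : Pos w) (hr : 0 ≤ r) : 0 < bm w y r := by
  refine sum_pos' (fun a _ => ?_) ⟨y, mem_univ y, ?_⟩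
  · unfold bal
    split_ifs
    exacts [(h a).le, le_rfl]
  · unfold bal
    rw [if_pos (by rwa [dist_self])]
    exact h y

theorem bm_mono (w : Y → ℝ) (y y' : Y) (r r' : ℝ) (h : ∀ a, 0 ≤ w a) (hr : r + dist y y' ≤ r') :
    bm w y r ≤ bm w y' r' := by
  refine sum_le_sum fun a _ => ?_
  unfold bal
  split_ifs with h1 h2 h2
  · exact le_rfl
  · exact absurd (by linarith [dist_triangle_left y' a y]) h2
  · exact h a
  · exact le_rfl

theorem bm_mono_w (w w' : Y → ℝ) (y : Y) (r : ℝ) (h : ∀ a, dist y a ≤ r → w a ≤ w' a) :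
    bm w y r ≤ bm w' y r := by
  refine sum_le_sum fun a _ => ?_
  unfold bal
  split_ifs with h1
  exacts [h a h1, le_rfl]

theorem bm_add (w w' : Y → ℝ) (y : Y) (r : ℝ) :
    bm (fun a => w a + w' a) y r = bm w y r + bm w' y r := by
  unfold bm bal
  rw [← sum_add_distrib]
  exact sum_congr rfl fun a _ => by split_ifs <;> simp

theorem bm_smul (w : Y → ℝ) (y : Y) (r c : ℝ) : bm (fun a => c * w a) y r = c * bm w y r := by
  unfold bm bal
  rw [mul_sum]
  exact sum_congr rfl fun a _ => by split_ifs <;> simp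

theorem bm_single (b y : Y) (r : ℝ) :
    bm (fun a => if a = b then 1 else 0) y r = if dist y b ≤ r then 1 else 0 := by
  unfold bm bal
  rw [sum_eq_single b (fun a _ ha => by simp only [if_neg ha, ite_self])
    fun h => absurd (mem_univ b) h]
  simp only [if_true]

theorem bm_le_sum (w : Y → ℝ) (y : Y) (r : ℝ) (h : ∀ a, 0 ≤ w a) : bm w y r ≤ ∑ a, w a := by
  refine sum_le_sum fun a _ => ?_
  unfold bal
  split_ifs
  exacts [le_rfl, h a]

theorem bm_le_Ref (w : Y → ℝ) (y : Y) (r : ℝ) (h : ∀ a, 0 ≤ w a) (hr : 0 ≤ r) :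
    bm w y r ≤ (1 + r) * Ref w y := by
  unfold bm Ref bal
  rw [mul_sum]
  refine sum_le_sum fun a _ => ?_
  have h1 := kap_pos _ (dist_nonneg (x := y) (y := a))
  split_ifs with h2
  · rw [mul_left_comm]
    exact le_mul_of_one_le_right (h a) ((kap_mul _ (dist_nonneg (x := y) (y := a))).symm.trans_le
      (mul_le_mul_of_nonneg_right (by linarith) h1.le))
  · exact mul_nonneg (by linarith) (mul_nonneg (h a) h1.le)

theorem Ref_nonneg (w : Y → ℝ) (y : Y) (h : ∀ a, 0 ≤ w a) : 0 ≤ Ref w y :=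
  sum_nonneg fun a _ => mul_nonneg (h a) (kap_pos _ dist_nonneg).le

theorem Ref_pos (w : Y → ℝ) (y : Y) (h : Pos w) : 0 < Ref w y :=
  sum_pos (fun a _ => mul_pos (h a) (kap_pos _ dist_nonneg)) ⟨y, mem_univ y⟩

theorem Ref_lip (w : Y → ℝ) (y y' : Y) (h : ∀ a, 0 ≤ w a) :
    Ref w y ≤ (1 + dist y y') * Ref w y' := by
  unfold Ref
  rw [mul_sum]
  refine sum_le_sum fun a _ => ?_
  rw [mul_left_comm]
  exact mul_le_mul_of_nonneg_left (kap_shift _ _ _ dist_nonneg dist_nonneg dist_nonneg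
    (by linarith [dist_triangle_left y' a y])) (h a)

theorem Ref_add (w w' : Y → ℝ) (y : Y) : Ref (fun a => w a + w' a) y = Ref w y + Ref w' y := by
  unfold Ref
  simp only [add_mul, sum_add_distrib]

theorem sig_mem {P : Par} (hN : (0 : ℝ) < P.N) (w : Y → ℝ) (y : Y) (h : Pos w) {j : ℕ}
    (hj : j ∈ P.I) : 0 ≤ bm w y (P.r j) / Ref w y ∧ bm w y (P.r j) / Ref w y ≤ 4 := by
  have h1 := Ref_pos w y h
  refine ⟨div_nonneg (bm_nonneg w y _ fun a => (h a).le) h1.le, (div_le_iff₀ h1).2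
    ((bm_le_Ref w y _ (fun a => (h a).le) (r_nonneg P j)).trans ?_)⟩
  exact mul_le_mul_of_nonneg_right (by linarith [r_le hN j hj]) h1.le

theorem phi_le {P : Par} (hk : 2 ≤ P.k) (hN : (0 : ℝ) < P.N) (w : Y → ℝ) (y : Y) (h : Pos w) :
    phi P w y ≤ 756 * Real.log P.k := by
  refine (sum_le_sum fun j hj => mul_le_mul_of_nonneg_left (log_mem hk (sig_mem hN w y h hj).1
    (sig_mem hN w y h hj).2 le_rfl).2 (g_nonneg P j)).trans ?_
  rw [← sum_mul]
  nlinarith [sum_g hN, log_k hk]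

theorem phi_add {P : Par} (hk : 2 ≤ P.k) (w v : Y → ℝ) (y : Y) (h : Pos w)
    (hv : ∀ a, 0 ≤ v a) :
    phi P (fun a => w a + v a) y ≤ phi P w y + vv P w y * Ref v y / Ref w y := by
  unfold phi vv
  rw [mul_div_assoc, sum_mul, ← sum_add_distrib]
  refine sum_le_sum fun j _ => ?_
  rw [mul_assoc, ← mul_add, bm_add, Ref_add]
  have h1 := Ref_pos w y h
  have h2 := Ref_nonneg v y hv
  have h3 := bm_nonneg w y (P.r j) fun a => (h a).le
  have h4 := bm_nonneg v y (P.r j) hv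
  refine mul_le_mul_of_nonneg_left (log_step (by linarith [δ_pos hk]) (by positivity)
    (by positivity) (by positivity) (δ_pos hk) ?_) (g_nonneg P j)
  rw [show (1 + Ref v y / Ref w y) * ((bm w y (P.r j) + bm v y (P.r j)) / (Ref w y + Ref v y)) =
    (bm w y (P.r j) + bm v y (P.r j)) / Ref w y by field_simp]
  exact div_le_div_of_nonneg_right (by linarith) h1.le

theorem vv_nonneg {P : Par} (hk : 2 ≤ P.k) (hN : (0 : ℝ) < P.N) (w : Y → ℝ) (y : Y)
    (h : Pos w) : 0 ≤ vv P w y :=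
  sum_nonneg fun j hj => mul_nonneg (g_nonneg P j) (div_nonneg (sig_mem hN w y h hj).1
    (add_nonneg (sig_mem hN w y h hj).1 (δ_pos hk).le))

theorem vv_le {P : Par} (hk : 2 ≤ P.k) (hN : (0 : ℝ) < P.N) (w : Y → ℝ) (y : Y) (h : Pos w) :
    vv P w y ≤ 27 :=
  le_trans (sum_le_sum fun j hj => mul_le_of_le_one_right (g_nonneg P j)
    (div_le_one_of_le₀ (le_add_of_nonneg_right (δ_pos hk).le)
      (add_nonneg (sig_mem hN w y h hj).1 (δ_pos hk).le))) (sum_g hN)

theorem pin_log {P : Par} (hk : 2 ≤ P.k) {p : Y → ℝ} (hp : Simplex p) (y : Y) (r : ℝ) :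
    0 ≤ Real.log ((1 + P.δ) / (bm p y r + P.δ)) ∧
      Real.log ((1 + P.δ) / (bm p y r + P.δ)) ≤ 28 * Real.log P.k :=
  log_mem hk (bm_nonneg p y r hp.1) ((bm_le_sum p y r hp.1).trans_eq hp.2) (by norm_num)

theorem pin_le_sum {P : Par} (hk : 2 ≤ P.k) (b : Y) {p : Y → ℝ} (hp : Simplex p) (y : Y) :
    pin P b p y ≤ (∑ j ∈ P.I, if P.r j ≤ 3 * dist y b then P.g j else 0) *
      (28 * Real.log P.k) := by
  rw [sum_mul]
  refine sum_le_sum fun j _ => ?_
  split_ifs
  · exact mul_le_mul_of_nonneg_left (pin_log hk hp y _).2 (g_nonneg P j)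
  · rw [zero_mul]

omit [Fintype Y] in
theorem wi_nonneg (a y : Y) : 0 ≤ wi a y :=
  (sq_nonneg _).trans (sm_lo _ (max_le zero_le_one (min_le_left _ _)))

omit [Fintype Y] in
theorem wi_compl (a y : Y) : 1 - wi a y = sm (max 0 (min 1 (dist y a - 9))) := by
  unfold wi
  rw [← sm_symm]
  refine congrArg sm ?_
  simp only [max_def, min_def]
  split_ifs <;> linarith

omit [Fintype Y] in
theorem wi_le (a y : Y) : wi a y ≤ 1 := by
  rw [← sub_nonneg, wi_compl]
  exact (sq_nonneg _).trans (sm_lo _ (max_le zero_le_one (min_le_left _ _)))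

omit [Fintype Y] in
theorem wi_zero (a y : Y) (h : 10 ≤ dist y a) : wi a y = 0 := by
  unfold wi
  rw [max_eq_left (min_le_of_right_le (by linarith))]
  norm_num [sm]

omit [Fintype Y] in
theorem cd_one (S : Finset Y) (y : Y) (h : ∀ a ∈ S, 10 ≤ dist y a) : cd S y = 1 := by
  unfold cd
  rw [sum_eq_zero fun a ha => wi_zero a y (h a ha), sub_zero]

omit [Fintype Y] in
theorem cd_near (S : Finset Y) (y : Y) (hS : Sep S) (a : Y) (ha : a ∈ S) (h : dist y a ≤ 40) :
    cd S y = 1 - wi a y := by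
  unfold cd
  rw [sum_eq_single_of_mem a ha fun a' ha' hne => wi_zero a' y (by
    linarith [hS a' ha' a ha hne, dist_triangle_left a' a y])]

omit [MetricSpace Y] in
theorem tv_nonneg (w w' : Y → ℝ) : 0 ≤ tv w w' :=
  mul_nonneg (by norm_num) (sum_nonneg fun _ _ => abs_nonneg _)

omit [MetricSpace Y] in
theorem tv_self (w : Y → ℝ) : tv w w = 0 := by
  simp [tv]

omit [MetricSpace Y] in
theorem tv_triangle (w w' w'' : Y → ℝ) : tv w w'' ≤ tv w w' + tv w' w'' := by
  unfold tv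
  rw [← mul_add, ← sum_add_distrib]
  exact mul_le_mul_of_nonneg_left (sum_le_sum fun a _ => abs_sub_le _ _ _) (by norm_num)

omit [MetricSpace Y] in
theorem tv_le (w w' v : Y → ℝ) (M : ℝ) (h0 : ∀ a, 0 ≤ v a) (h1 : ∀ a, v a ≤ w a)
    (h2 : ∀ a, v a ≤ w' a) (h3 : 0 < ∑ a, w a) (h4 : 0 < ∑ a, w' a) (h5 : ∑ a, w a ≤ M)
    (h6 : ∑ a, w' a ≤ M) : tv w w' ≤ 1 - (∑ a, v a) / M := by
  have h7 : ∀ a, |w a / ∑ c, w c - w' a / ∑ c, w' c| ≤
      w a / ∑ c, w c + w' a / ∑ c, w' c - 2 * (v a / M) := fun a => by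
    have a1 := div_le_div₀ ((h0 a).trans (h1 a)) (h1 a) h3 h5
    have a2 := div_le_div₀ ((h0 a).trans (h2 a)) (h2 a) h4 h6
    exact abs_le.2 ⟨by linarith, by linarith⟩
  have h8 := sum_le_sum fun a (_ : a ∈ univ) => h7 a
  rw [sum_sub_distrib, sum_add_distrib, ← mul_sum, ← sum_div, ← sum_div, ← sum_div,
    div_self h3.ne', div_self h4.ne'] at h8
  unfold tv
  linarith

end

end EB

theorem ebasic : EBasicStmt := by
  intro P Y _ _ hP
  have hk := hP.k_ge
  have hN : (0 : ℝ) < P.N := by exact_mod_cast lt_of_lt_of_le (by norm_num) hP.N_ge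
  have hk' : (2 : ℝ) ≤ P.k := by exact_mod_cast hk
  have hI : P.I' ⊆ P.I := fun j hj =>
    mem_Icc.2 ⟨Nat.succ_le_of_lt ((Nat.zero_le _).trans_lt (mem_Ioc.1 hj).1), (mem_Ioc.1 hj).2⟩
  have hL := EB.log_k hk
  exact
    { δ_pos := EB.δ_pos hk
      δ_le := EB.δ_le hk
      δ_k := EB.δ_k hk
      ε_le := hP.ε_le.trans (one_div_le_one_div_of_le (by norm_num) (by nlinarith))
      log_δ := EB.log_δ hk
      log_k := hL
      g_nonneg := EB.g_nonneg P
      r_pos := fun j hj => div_pos (Nat.cast_pos.2 (mem_Icc.1 hj).1) hN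
      r_le := EB.r_le hN
      I'_sub := hI
      I'_card := by
        rw [Par.I', Nat.card_Ioc]
        omega
      r_I' := fun j hj => (lt_div_iff₀ hN).2 (by exact_mod_cast (mem_Ioc.1 hj).1)
      sum_g := EB.sum_g hN
      sum_g_le := EB.sum_g_le hN
      sum_g_mid := EB.sum_g_mid hN
      sum_g_ge := EB.sum_g_ge hN
      kap_pos := EB.kap_pos
      kap_le := fun s hs => (div_le_one (by linarith)).2 (by linarith)
      kap_shift := EB.kap_shift
      kap_ff := EB.kap_ff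
      sm_symm := EB.sm_symm
      sm_lo := EB.sm_lo
      sm_hi := EB.sm_hi
      sm_mono := EB.sm_mono
      sm_lip := fun e e' h0 h _ => EB.sm_lip e e' h0 h
      bm_nonneg := EB.bm_nonneg
      bm_pos := EB.bm_pos
      bm_mono := EB.bm_mono
      bm_mono_w := EB.bm_mono_w
      bm_add := EB.bm_add
      bm_smul := EB.bm_smul
      bm_single := EB.bm_single
      bm_le_sum := EB.bm_le_sum
      bm_le_Ref := EB.bm_le_Ref
      Mb_eq := fun μ x r => by simp only [Mb, bm, bal, dist_comm x]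
      Ref_nonneg := EB.Ref_nonneg
      Ref_pos := EB.Ref_pos
      Ref_lip := EB.Ref_lip
      Ref_add := EB.Ref_add
      phi_nonneg := fun w y h => sum_nonneg fun j hj => mul_nonneg (EB.g_nonneg P j)
        (EB.log_mem hk (EB.sig_mem hN w y h hj).1 (EB.sig_mem hN w y h hj).2 le_rfl).1
      phi_le := EB.phi_le hk hN
      phi_add := EB.phi_add hk
      vv_nonneg := EB.vv_nonneg hk hN
      vv_le := EB.vv_le hk hN
      Kv_nonneg := fun m w x hm hw => sum_nonneg fun y _ => div_nonneg (mul_nonneg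
        (mul_nonneg (hm y) (EB.vv_nonneg hk hN w y hw)) (EB.kap_pos _ dist_nonneg).le)
        (EB.Ref_pos w y hw).le
      pin_nonneg := fun b p y hp => sum_nonneg fun j _ => by
        split_ifs
        exacts [mul_nonneg (EB.g_nonneg P j) (EB.pin_log hk hp y _).1, le_rfl]
      pin_le := fun b p y hp => by
        have h1 : (∑ j ∈ P.I, if P.r j ≤ 3 * dist y b then P.g j else 0) ≤ 27 :=
          le_trans (sum_le_sum fun j _ => by
            split_ifs
            exacts [le_rfl, EB.g_nonneg P j]) (EB.sum_g hN)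
        nlinarith [EB.pin_le_sum hk b hp y]
      pin_le' := fun b p y hp => by
        have h1 := EB.sum_g_le hN (3 * dist y b) (by positivity)
        refine (EB.pin_le_sum hk b hp y).trans
          ((mul_le_mul_of_nonneg_right h1 (by linarith)).trans_eq (by ring))
      wi_nonneg := EB.wi_nonneg
      wi_le := EB.wi_le
      wi_one := fun a y h => by
        unfold wi
        rw [min_eq_left (by linarith), max_eq_right zero_le_one]
        norm_num [sm]
      wi_zero := EB.wi_zero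
      wi_chi := fun a y => by
        rcases le_total 10 (dist y a) with h | h
        · rw [EB.wi_zero a y h]
          exact le_max_left _ _
        · exact (EB.wi_le a y).trans (le_max_of_le_right (le_min le_rfl (by linarith)))
      wi_compl := EB.wi_compl
      cd_nonneg := fun S y hS => by
        by_cases h : ∃ a ∈ S, dist y a ≤ 40
        · obtain ⟨a, ha, h⟩ := h
          rw [EB.cd_near S y hS a ha h]
          exact sub_nonneg.2 (EB.wi_le a y)
        · rw [EB.cd_one S y fun a ha => by linarith [not_le.1 fun h' => h ⟨a, ha, h'⟩]]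
          exact zero_le_one
      cd_le := fun S y => sub_le_self _ (sum_nonneg fun a _ => EB.wi_nonneg a y)
      cd_one := EB.cd_one
      cd_near := EB.cd_near
      tv_nonneg := EB.tv_nonneg
      tv_self := EB.tv_self
      tv_comm := fun w w' => by simp only [tv, abs_sub_comm]
      tv_triangle := EB.tv_triangle
      tv_le := EB.tv_le
      rel_nonneg := fun w w' y => mul_nonneg (by positivity) (sum_nonneg fun j _ => EB.tv_nonneg _ _)
      rel_self := fun w y => by simp only [rel, EB.tv_self, sum_const_zero, mul_zero]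
      rel_triangle := fun w w' w'' y => by
        unfold rel
        rw [← mul_add, ← sum_add_distrib]
        exact mul_le_mul_of_nonneg_left (sum_le_sum fun j _ => EB.tv_triangle _ _ _)
          (by positivity)
      rel_congr := fun w w' y h => by
        unfold rel
        rw [sum_eq_zero fun j hj => ?_, mul_zero]
        have h1 : bal w y (P.r j) = bal w' y (P.r j) := funext fun a => by
          unfold bal
          split_ifs with h2
          exacts [h a (h2.trans (EB.r_le hN j (hI hj))), rfl]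
        rw [h1, EB.tv_self] }

end Vale.Agent.P304
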