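import Vale.Agent.P304.StmtsE

namespace Vale.Agent.P304

open Finset
open scoped Classical

namespace EClock

/-- the step function -/
noncomputable def stp (t u : ℝ) : ℝ := if u ≤ t then 1 else 0

lemma stp_anti (t : ℝ) : Antitone (stp t) := by
  intro u v h
  unfold stp
  split_ifs with h1 h2
  · exact le_rfl
  · exact absurd (h.trans h1) h2
  · exact zero_le_one
  · exact le_rfl

lemma stp_int (t a b : ℝ) : IntervalIntegrable (stp t) MeasureTheory.volume a b :=
  (stp_anti t).intervalIntegrable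

lemma stp_integral {t M : ℝ} (h0 : 0 ≤ t) (hM : t ≤ M) : ∫ u in (0 : ℝ)..M, stp t u = t := by
  rw [← intervalIntegral.integral_add_adjacent_intervals (stp_int t 0 t) (stp_int t t M)]
  have e1 : ∫ u in (0 : ℝ)..t, stp t u = ∫ _u in (0 : ℝ)..t, (1 : ℝ) := by
    refine intervalIntegral.integral_congr fun u hu => ?_
    rw [Set.uIcc_of_le h0] at hu
    exact if_pos hu.2
  have e2 : ∫ u in t..M, stp t u = ∫ _u in t..M, (0 : ℝ) := by
    refine intervalIntegral.integral_congr_ae (Filter.Eventually.of_forall fun u hu => ?_)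
    rw [Set.uIoc_of_le hM] at hu
    exact if_neg (not_le.2 hu.1)
  rw [e1, e2]
  simp

lemma layer {J : Type} [Fintype J] (α β s t : J → ℝ) {M : ℝ} (hM : 0 < M)
    (hs : ∀ j, 0 ≤ s j ∧ s j ≤ M) (ht : ∀ j, 0 ≤ t j ∧ t j ≤ M)
    (h : ∀ u, 0 < u → u ≤ M → 0 < ∑ j, (α j * stp (s j) u - β j * stp (t j) u)) :
    0 < ∑ j, (α j * s j - β j * t j) := by
  have hi : ∀ j, IntervalIntegrable (fun u => α j * stp (s j) u - β j * stp (t j) u)
      MeasureTheory.volume 0 M := fun j =>
    ((stp_int _ _ _).const_mul _).sub ((stp_int _ _ _).const_mul _)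
  have e : ∫ u in (0 : ℝ)..M, ∑ j, (α j * stp (s j) u - β j * stp (t j) u) =
      ∑ j, (α j * s j - β j * t j) := by
    rw [intervalIntegral.integral_finsetSum fun j _ => hi j]
    refine sum_congr rfl fun j _ => ?_
    rw [intervalIntegral.integral_sub ((stp_int _ _ _).const_mul _) ((stp_int _ _ _).const_mul _),
      intervalIntegral.integral_const_mul, intervalIntegral.integral_const_mul,
      stp_integral (hs j).1 (hs j).2, stp_integral (ht j).1 (ht j).2]
  rw [← e]
  refine intervalIntegral.intervalIntegral_pos_of_pos_on ?_ (fun u hu => h u hu.1 hu.2.le) hM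
  have := IntervalIntegrable.sum (μ := MeasureTheory.volume) (a := 0) (b := M) univ
    (f := fun j u => α j * stp (s j) u - β j * stp (t j) u) fun j _ => hi j
  refine this.congr_ae ?_
  exact Filter.Eventually.of_forall fun u => by simp

variable {Y J : Type} [Fintype Y] [Fintype J]

/-- the normalised vector -/
noncomputable def nv (v : Y → ℝ) (a : Y) : ℝ := v a / ∑ c, v c

/-- nonnegative with positive sum -/
def Good (v : Y → ℝ) : Prop := (∀ a, 0 ≤ v a) ∧ 0 < ∑ a, v a

lemma nv_nonneg {v : Y → ℝ} (h : Good v) (a : Y) : 0 ≤ nv v a := div_nonneg (h.1 a) h.2.le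

lemma sum_nv {v : Y → ℝ} (h : Good v) : ∑ a, nv v a = 1 := by
  unfold nv
  rw [← sum_div, div_self h.2.ne']

lemma pair {v v' : Y → ℝ} (h : Good v) (h' : Good v') :
    ∑ a, ((1 - 2 * tv v v') * max (nv v a) (nv v' a) - min (nv v a) (nv v' a)) ≤ 0 := by
  have e0 : ∑ a, |nv v a - nv v' a| = 2 * tv v v' := by
    unfold tv nv
    ring
  have e1 : ∑ a, max (nv v a) (nv v' a) = 1 + tv v v' := by
    have : ∀ a, max (nv v a) (nv v' a) = (nv v a + nv v' a + |nv v a - nv v' a|) / 2 := fun a => by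
      rcases le_total (nv v a) (nv v' a) with k | k
      · rw [max_eq_right k, abs_of_nonpos (by linarith)]
        ring
      · rw [max_eq_left k, abs_of_nonneg (by linarith)]
        ring
    simp_rw [this]
    rw [← sum_div, sum_add_distrib, sum_add_distrib, sum_nv h, sum_nv h', e0]
    ring
  have e2 : ∑ a, min (nv v a) (nv v' a) = 1 - tv v v' := by
    have : ∀ a, min (nv v a) (nv v' a) = (nv v a + nv v' a - |nv v a - nv v' a|) / 2 := fun a => by
      rcases le_total (nv v a) (nv v' a) with k | k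
      · rw [min_eq_left k, abs_of_nonpos (by linarith)]
        ring
      · rw [min_eq_right k, abs_of_nonneg (by linarith)]
        ring
    simp_rw [this]
    rw [← sum_div, sum_sub_distrib, sum_add_distrib, sum_nv h, sum_nv h', e0]
    ring
  rw [sum_sub_distrib, ← mul_sum, e1, e2]
  nlinarith [sq_nonneg (tv v v')]

/-- the pessimistic estimator of one pair -/
noncomputable def cst (U : Finset (Y → ℝ)) (f : (Y → ℝ) → Y) (v v' : Y → ℝ) : ℝ :=
  if v ∈ U then (if v' ∈ U then 2 * tv v v' else 1)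
  else (if v' ∈ U then 1 else if f v = f v' then 0 else 1)

/-- upper threshold -/
noncomputable def hi (U : Finset (Y → ℝ)) (v v' : Y → ℝ) (a : Y) : ℝ :=
  if v ∈ U ∧ v' ∈ U then max (nv v a) (nv v' a) else 0

/-- lower threshold -/
noncomputable def lo (U : Finset (Y → ℝ)) (v v' : Y → ℝ) (a : Y) : ℝ :=
  if v ∈ U ∧ v' ∈ U then min (nv v a) (nv v' a) else 0

lemma cst_step (U : Finset (Y → ℝ)) (f : (Y → ℝ) → Y) (v v' : Y → ℝ) (a : Y) {u : ℝ}
    (hu : 0 < u) :
    cst (U.filter fun x => ¬ u ≤ nv x a) (fun x => if x ∈ U ∧ u ≤ nv x a then a else f x) v v' ≤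
      cst U f v v' + ((1 - 2 * tv v v') * stp (hi U v v' a) u - stp (lo U v v' a) u) := by
  unfold cst hi lo
  by_cases h1 : v ∈ U <;> by_cases h2 : v' ∈ U <;> by_cases h3 : u ≤ nv v a <;>
    by_cases h4 : u ≤ nv v' a <;>
    simp only [mem_filter, h1, h2, h3, h4, stp, le_max_iff, le_min_iff, and_self, and_true,
      and_false, or_true, true_or, or_self, not_true, not_false_iff,
      if_true, if_false, if_neg (not_le.2 hu)] <;>
    first
      | linarith
      | (split_ifs <;> linarith)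

lemma exists_step (w w' : J → Y → ℝ) (c : J → ℝ) (hc : ∀ j, 0 ≤ c j) (U : Finset (Y → ℝ))
    (hU : ∀ v ∈ U, Good v) (hne : U.Nonempty) :
    ∃ (a : Y) (u : ℝ), 0 < u ∧ (∃ v ∈ U, u ≤ nv v a) ∧
      ∑ j, (c j * (1 - 2 * tv (w j) (w' j)) * stp (hi U (w j) (w' j) a) u -
        c j * stp (lo U (w j) (w' j) a) u) ≤ 0 := by
  by_contra hcon
  push Not at hcon
  have hmax : ∀ a, ∃ v ∈ U, ∀ x ∈ U, nv x a ≤ nv v a := fun a =>
    exists_max_image U (fun x => nv x a) hne
  choose m hm hm' using hmax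
  have hb : ∀ j a, (0 ≤ hi U (w j) (w' j) a ∧ hi U (w j) (w' j) a ≤ nv (m a) a) ∧
      (0 ≤ lo U (w j) (w' j) a ∧ lo U (w j) (w' j) a ≤ nv (m a) a) := fun j a => by
    have k0 := nv_nonneg (hU _ (hm a)) a
    unfold hi lo
    split_ifs with h
    · have k1 := nv_nonneg (hU _ h.1) a
      have k2 := nv_nonneg (hU _ h.2) a
      exact ⟨⟨le_max_of_le_left k1, max_le (hm' a _ h.1) (hm' a _ h.2)⟩,
        ⟨le_min k1 k2, (min_le_left _ _).trans (hm' a _ h.1)⟩⟩
    · exact ⟨⟨le_rfl, k0⟩, ⟨le_rfl, k0⟩⟩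
  have hpos : ∀ a, 0 < nv (m a) a → 0 < ∑ j, (c j * (1 - 2 * tv (w j) (w' j)) *
      hi U (w j) (w' j) a - c j * lo U (w j) (w' j) a) := fun a ha =>
    layer _ _ _ _ ha (fun j => (hb j a).1) (fun j => (hb j a).2)
      fun u hu hu' => hcon a u hu ⟨m a, hm a, hu'⟩
  have hnn : ∀ a, 0 ≤ ∑ j, (c j * (1 - 2 * tv (w j) (w' j)) *
      hi U (w j) (w' j) a - c j * lo U (w j) (w' j) a) := fun a => by
    rcases (nv_nonneg (hU _ (hm a)) a).eq_or_lt with k | k
    · refine (sum_eq_zero fun j _ => ?_).ge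
      obtain ⟨⟨k1, k2⟩, k3, k4⟩ := hb j a
      rw [le_antisymm (k2.trans k.ge) k1, le_antisymm (k4.trans k.ge) k3]
      ring
    · exact (hpos a k).le
  obtain ⟨v, hv⟩ := hne
  obtain ⟨a, -, ha⟩ : ∃ a ∈ (univ : Finset Y), (0 : ℝ) < nv v a := by
    refine exists_lt_of_sum_lt (f := fun _ => 0) ?_
    rw [sum_nv (hU v hv)]
    simp
  have h1 := sum_pos' (s := univ) (fun a _ => hnn a)
    ⟨a, mem_univ a, hpos a (ha.trans_le (hm' a v hv))⟩
  rw [sum_comm] at h1
  refine absurd h1 (not_lt.2 (sum_nonpos fun j _ => ?_))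
  have e : ∑ a, (c j * (1 - 2 * tv (w j) (w' j)) * hi U (w j) (w' j) a -
      c j * lo U (w j) (w' j) a) = c j * ∑ a, ((1 - 2 * tv (w j) (w' j)) * hi U (w j) (w' j) a -
      lo U (w j) (w' j) a) := by
    rw [mul_sum]
    exact sum_congr rfl fun a _ => by ring
  rw [e]
  refine mul_nonpos_of_nonneg_of_nonpos (hc j) ?_
  unfold hi lo
  by_cases h : w j ∈ U ∧ w' j ∈ U
  · simp only [if_pos h]
    exact pair (hU _ h.1) (hU _ h.2)
  · simp [if_neg h]

lemma main (w w' : J → Y → ℝ) (c : J → ℝ) (hc : ∀ j, 0 ≤ c j) (U : Finset (Y → ℝ)) :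
    (∀ v ∈ U, Good v) → ∀ f : (Y → ℝ) → Y, ∃ f' : (Y → ℝ) → Y, (∀ v, v ∉ U → f' v = f v) ∧
      (∀ v ∈ U, 0 < v (f' v)) ∧
      ∑ j, c j * (if f' (w j) = f' (w' j) then 0 else 1) ≤ ∑ j, c j * cst U f (w j) (w' j) := by
  induction U using Finset.strongInduction with
  | H U ih =>
    intro hU f
    rcases U.eq_empty_or_nonempty with rfl | hne
    · exact ⟨f, fun _ _ => rfl, fun v hv => absurd hv (notMem_empty v), by simp [cst]⟩
    obtain ⟨a, u, hu, ⟨v0, hv0, hv0'⟩, hle⟩ := exists_step w w' c hc U hU hne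
    have hss : U.filter (fun x => ¬ u ≤ nv x a) ⊂ U :=
      filter_ssubset.2 ⟨v0, hv0, not_not.2 hv0'⟩
    obtain ⟨f', h1, h2, h3⟩ := ih _ hss (fun v hv => hU v (mem_filter.1 hv).1)
      (fun x => if x ∈ U ∧ u ≤ nv x a then a else f x)
    refine ⟨f', fun v hv => ?_, fun v hv => ?_, h3.trans ?_⟩
    · rw [h1 v fun h => hv (mem_filter.1 h).1, if_neg fun h => hv h.1]
    · by_cases h : u ≤ nv v a
      · rw [h1 v fun h' => (mem_filter.1 h').2 h, if_pos ⟨hv, h⟩]
        exact (div_pos_iff_of_pos_right (hU v hv).2).1 (hu.trans_le h)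
      · exact h2 v (mem_filter.2 ⟨hv, h⟩)
    · refine le_trans (sum_le_sum fun j _ =>
        mul_le_mul_of_nonneg_left (cst_step U f (w j) (w' j) a hu) (hc j)) ?_
      have e : ∑ j, c j * (cst U f (w j) (w' j) + ((1 - 2 * tv (w j) (w' j)) *
          stp (hi U (w j) (w' j) a) u - stp (lo U (w j) (w' j) a) u)) =
          ∑ j, c j * cst U f (w j) (w' j) + ∑ j, (c j * (1 - 2 * tv (w j) (w' j)) *
            stp (hi U (w j) (w' j) a) u - c j * stp (lo U (w j) (w' j) a) u) := by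
        rw [← sum_add_distrib]
        exact sum_congr rfl fun j _ => by ring
      rw [e]
      linarith

end EClock

open EClock in
theorem clock : ClockStmt := by
  intro Y J _ _ _ w w' c hc hw hw' hs hs'
  have h0 : ∀ v : Y → ℝ, ∃ a, 0 < ∑ a, v a → 0 < v a := fun v => by
    by_cases h : 0 < ∑ a, v a
    · obtain ⟨a, -, ha⟩ := exists_lt_of_sum_lt (s := univ) (f := fun _ => (0 : ℝ)) (g := v)
        (by simpa using h)
      exact ⟨a, fun _ => ha⟩
    · exact ⟨Classical.arbitrary Y, fun h' => absurd h' h⟩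
  choose f hf using h0
  obtain ⟨f', h1, h2, h3⟩ := main w w' c hc (univ.image w ∪ univ.image w') (fun v hv => by
    rcases mem_union.1 hv with h | h
    · obtain ⟨j, -, rfl⟩ := mem_image.1 h
      exact ⟨hw j, hs j⟩
    · obtain ⟨j, -, rfl⟩ := mem_image.1 h
      exact ⟨hw' j, hs' j⟩) f
  refine ⟨f', fun v _ hv => ?_, h3.trans (le_of_eq (sum_congr rfl fun j _ => ?_))⟩
  · by_cases h : v ∈ univ.image w ∪ univ.image w'
    · exact h2 v h
    · rw [h1 v h]
      exact hf v hv
  · rw [cst, if_pos (mem_union_left _ (mem_image_of_mem _ (mem_univ j))),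
      if_pos (mem_union_right _ (mem_image_of_mem _ (mem_univ j)))]

end Vale.Agent.P304
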