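import Vale.Agent.P304.StmtsE
import Vale.Agent.P304.Cores

/-! The core and weight process and its potential. -/

namespace Vale.Agent.P304

open Finset
open scoped Classical

namespace ECores

variable {P : Par} {Y Ω : Type} [Fintype Y] [MetricSpace Y] [Fintype Ω] (G : Game P.k Y Ω)

/-- the potential for a fixed configuration, fixed centres and fixed virtual weights -/
noncomputable def pot (P : Par) (S : Finset Y) (w : Y → ℝ) (q : Y → Y × (Y → ℝ))
    (c : Fin P.k → Y) : ℝ :=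
  ∑ i, cd S (c i) * phi P w (c i) +
    ∑ a ∈ S, (4000000 * (1 + dist a (q a).1) * (∑ i, ff (dist (c i) (q a).1) + P.ε) +
      ∑ i, wi a (c i) * pin P (q a).1 (q a).2 (c i) - 800000 * ∑ i, chi (dist (c i) a) + 300000)

theorem ce_pot {l : List Y} (hl : G.Reach l) {C : Ω → Fin P.k → Y} {m : Y → ℝ}
    (hm : ∀ g : Y → ℝ, ∑ y, m y * g y = G.ce l fun ω => ∑ i, g (C ω i)) (S : Finset Y)
    (w : Y → ℝ) (q : Y → Y × (Y → ℝ)) : G.ce l (fun ω => pot P S w q (C ω)) =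
      Out P (mo m S) w +
        ∑ a ∈ S, (JJ P m a (q a).1 (q a).2 - 800000 * mm m a + 300000) := by
  unfold pot
  rw [G.ce_add, G.ce_sum, G.ce_sum, ← G.ce_sum, ← hm fun y => cd S y * phi P w y]
  congr 1
  · exact sum_congr rfl fun y _ => (mul_assoc _ _ _).symm
  refine sum_congr rfl fun a _ => ?_
  rw [G.ce_add, G.ce_sub, G.ce_add, G.ce_mul, G.ce_mul, G.ce_add, G.ce_const hl, G.ce_const hl,
    JJ, FF, mm, hm fun y => ff (dist y (q a).1), hm fun y => chi (dist y a),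
    ← hm fun y => wi a y * pin P (q a).1 (q a).2 y]
  simp only [mul_assoc]

theorem le_pot {l : List Y} (hl : G.Reach l) {C : Ω → Fin P.k → Y} {m : Y → ℝ}
    (hO : ∀ a, IsOpt P m a (op P m a).1 (op P m a).2)
    (hm : ∀ g : Y → ℝ, ∑ y, m y * g y = G.ce l fun ω => ∑ i, g (C ω i)) (S : Finset Y)
    (w : Y → ℝ) {q : Y → Y × (Y → ℝ)} (hq : ∀ a, dist a (q a).1 ≤ 8 ∧ Simplex (q a).2) :
    Pot P m S w ≤ G.ce l fun ω => pot P S w q (C ω) := by
  rw [ce_pot G hl hm]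
  refine add_le_add le_rfl (sum_le_sum fun a _ => ?_)
  have := (hO a).2.2 _ _ (hq a).1 (hq a).2
  unfold th2
  linarith

theorem pot_succ (μ : Y → ℝ) (S : Finset Y) (w : Y → ℝ) (t : ℕ) (ω : Ω) :
    pot P S w (op P μ) (G.o (t + 1) ω) =
      pot P S w (op P μ) (G.o t ω) + mv2 P μ S w (G.o t ω (G.idx t ω)) (G.req t ω) := by
  unfold pot mv2
  rw [G.sum_o_succ t ω fun y => cd S y * phi P w y, add_add_add_comm, ← sum_add_distrib]
  congr 1
  refine sum_congr rfl fun a _ => ?_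
  rw [G.sum_o_succ t ω fun y => ff (dist y (op P μ a).1),
    G.sum_o_succ t ω fun y => chi (dist y a),
    G.sum_o_succ t ω fun y => wi a y * pin P (op P μ a).1 (op P μ a).2 y]
  ring

variable (hO : ∀ (m : Y → ℝ) a, IsOpt P m a (op P m a).1 (op P m a).2)
include hO

theorem jensen (S : List Y → Finset Y) (w : List Y → Y → ℝ) (t : ℕ) :
    (G.E fun ω => Pot P (G.mu (G.hist (t + 1) ω)) (S (G.hist t ω)) (w (G.hist t ω))) ≤
      G.E fun ω => Pot P (G.nu (G.hist t ω)) (S (G.hist t ω)) (w (G.hist t ω)) := by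
  have h1 := G.E_ce (t + 1) fun l ω => pot P (S l.tail) (w l.tail) (op P (G.nu l.tail)) (G.o t ω)
  have h2 := G.E_ce t fun l ω => pot P (S l) (w l) (op P (G.nu l)) (G.o t ω)
  refine (G.E_mono fun ω => ?_).trans (h1.trans (h2.symm.trans ?_)).le
  · refine le_pot G (G.reach_hist (t + 1) ω) (hO _) (fun g => ?_) _ _
      fun a => ⟨(hO _ a).1, (hO _ a).2.1⟩
    rw [G.sum_mu_mul, G.hist_length, Nat.add_sub_cancel]
  · congr 1
    funext ω
    refine ce_pot G (G.reach_hist t ω) (fun g => ?_) _ _ _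
    rw [G.sum_nu_mul, G.hist_length]

theorem move (S : List Y → Finset Y) (w : List Y → Y → ℝ) (t : ℕ) :
    (G.E fun ω => Pot P (G.nu (G.hist (t + 1) ω)) (S (G.hist (t + 1) ω)) (w (G.hist (t + 1) ω))) ≤
      (G.E fun ω =>
        Pot P (G.mu (G.hist (t + 1) ω)) (S (G.hist (t + 1) ω)) (w (G.hist (t + 1) ω))) +
        G.E fun ω => mv2 P (G.mu (G.hist (t + 1) ω)) (S (G.hist (t + 1) ω))
          (w (G.hist (t + 1) ω)) (G.o t ω (G.idx t ω)) (G.req t ω) := by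
  rw [← G.E_ce (t + 1) fun l ω => mv2 P (G.mu l) (S l) (w l) (G.o t ω (G.idx t ω)) (G.req t ω),
    ← G.E_add]
  refine G.E_mono fun ω => ?_
  have hl := G.reach_hist (t + 1) ω
  refine (le_pot G hl (C := G.o (t + 1)) (hO _) (fun g => ?_) _ _
    (q := op P (G.mu (G.hist (t + 1) ω))) fun a => ⟨(hO _ a).1, (hO _ a).2.1⟩).trans_eq ?_
  · rw [G.sum_nu_mul, G.hist_length]
  · simp only [pot_succ]
    rw [G.ce_add, ce_pot G hl (C := G.o t) (m := G.mu (G.hist (t + 1) ω)) fun g => ?_]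
    · rfl
    · rw [G.sum_mu_mul, G.hist_length, Nat.add_sub_cancel]

omit hO [MetricSpace Y] in
theorem zone (f : List Y → Y → ℝ) (t : ℕ) :
    (G.E fun ω => ∑ i, f (G.hist (t + 1) ω) (G.o t ω i)) =
      G.E fun ω => ∑ y, G.mu (G.hist (t + 1) ω) y * f (G.hist (t + 1) ω) y := by
  rw [← G.E_ce (t + 1) fun l ω => ∑ i, f l (G.o t ω i)]
  congr 1
  funext ω
  rw [G.sum_mu_mul, G.hist_length, Nat.add_sub_cancel]

theorem start (E : EFacts P Y) (w : Y → ℝ) :
    Pot P (G.nu []) {G.s0} w ≤ 4000000 * P.ε + 300000 - 800000 * P.k := by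
  have hs : ∀ a : Y, Simplex fun c => if c = a then (1 : ℝ) else 0 := fun a =>
    ⟨fun c => by positivity, by simp⟩
  refine (le_pot G G.reach_nil (hO _) (G.sum_nu_mul []) _ w
    (q := fun a => (a, fun c => if c = a then 1 else 0)) fun a => ⟨by simp, hs a⟩).trans_eq ?_
  rw [← G.ce_const G.reach_nil (4000000 * P.ε + 300000 - 800000 * P.k)]
  refine G.ce_congr fun ω _ => ?_
  have h1 : ff 0 = 0 := by simp [ff]
  have h2 : chi 0 = 1 := by norm_num [chi]
  have h3 : wi G.s0 G.s0 = 1 := E.wi_one _ _ (by simp)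
  have h4 : pin P G.s0 (fun c => if c = G.s0 then 1 else 0) G.s0 = 0 :=
    le_antisymm (by simpa using E.pin_le' G.s0 _ G.s0 (hs G.s0)) (E.pin_nonneg _ _ _ (hs _))
  simp [pot, cd, h1, h2, h3, h4]
  ring

theorem finish (hP : P.OK Y) (E : EFacts P Y) {S : Finset Y} (hS : Sep S) {w : Y → ℝ} (hw : Pos w)
    {m : Y → ℝ} (hm : ∀ y, 0 ≤ m y) (Ge : Geo m) (hs : ∑ y, m y ≤ P.k) :
    4000000 * P.ε + 300000 - 800000 * P.k ≤ Pot P m S w := by
  have hk' : (2 : ℝ) ≤ P.k := by exact_mod_cast hP.k_ge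
  have h0 : 0 ≤ Out P (mo m S) w := sum_nonneg fun y _ =>
    mul_nonneg (mul_nonneg (hm y) (E.cd_nonneg S y hS)) (E.phi_nonneg w y hw)
  have e0 := hP.ε_pos
  have e1 := E.ε_le
  unfold Pot
  rcases S.eq_empty_or_nonempty with rfl | hne
  · rw [sum_empty]
    linarith
  have h1 : ∑ a ∈ S, mm m a ≤ P.k := by
    unfold mm
    rw [sum_comm]
    refine (sum_le_sum fun y _ => ?_).trans hs
    rw [← mul_sum]
    exact mul_le_of_le_one_right (hm y) (Cores.sum_chi_le hS y)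
  have h2 : ∑ a ∈ S, (4000000 * P.ε + 300000 - 800000 * mm m a) ≤ ∑ a ∈ S, th2 P m a :=
    sum_le_sum fun a _ => by
      have a1 := Ge.FF_nonneg (op P m a).1
      have a2 : 0 ≤ ∑ y, m y * wi a y * pin P (op P m a).1 (op P m a).2 y := sum_nonneg fun y _ =>
        mul_nonneg (mul_nonneg (hm y) (E.wi_nonneg a y)) (E.pin_nonneg _ _ y (hO m a).2.1)
      have a3 : 0 ≤ dist a (op P m a).1 * (FF m (op P m a).1 + P.ε) := by positivity
      unfold th2 JJ
      linarith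
  rw [sum_sub_distrib, ← mul_sum, sum_const, nsmul_eq_mul] at h2
  have h3 : (1 : ℝ) ≤ S.card := by exact_mod_cast hne.card_pos
  nlinarith

end ECores

open ECores

theorem cores2 (hE : EBasicStmt) (hG : GeoStmt) (h0 : OptStmt) (h1 : Step2Stmt) (h2 : Move2Stmt)
    (h3 : LoStmt) : Cores2Stmt := by
  obtain ⟨C, hC, h2⟩ := h2
  refine ⟨33 * C, by positivity, fun P Y Ω _ _ _ G T H hP hH => ?_⟩
  have E := hE P Y hP
  have hO := h0 P Y hP
  choose! S' tag' Zn' w' hst using h1 P Y hP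
  obtain ⟨st, st0, st1⟩ : ∃ st : List Y → Finset Y × (Y → ℕ) × (Y → ℝ),
      st [] = ({G.s0}, fun _ => 0, fun _ => 1) ∧
      ∀ r l, st (r :: l) = (S' (G.mu (r :: l)) (st l).2.2 (st l).1 (st l).2.1 r (l.length + 1),
        tag' (G.mu (r :: l)) (st l).2.2 (st l).1 (st l).2.1 r (l.length + 1),
        w' (G.mu (r :: l)) (st l).2.2 (st l).1 (st l).2.1 r (l.length + 1)) :=
    ⟨fun l => l.rec ({G.s0}, fun _ => 0, fun _ => 1) fun r l p =>
      (S' (G.mu (r :: l)) p.2.2 p.1 p.2.1 r (l.length + 1),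
        tag' (G.mu (r :: l)) p.2.2 p.1 p.2.1 r (l.length + 1),
        w' (G.mu (r :: l)) p.2.2 p.1 p.2.1 r (l.length + 1)), rfl, fun _ _ => rfl⟩
  obtain ⟨Zn, hZn⟩ : ∃ Zn : List Y → Finset Y,
      ∀ r l, Zn (r :: l) = Zn' (G.mu (r :: l)) (st l).2.2 (st l).1 (st l).2.1 r (l.length + 1) :=
    ⟨fun l => l.casesOn ∅ fun r l =>
      Zn' (G.mu (r :: l)) (st l).2.2 (st l).1 (st l).2.1 r (l.length + 1), fun _ _ => rfl⟩
  have hinv : ∀ l, Sep (st l).1 ∧ Set.InjOn (st l).2.1 (st l).1 ∧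
      (∀ a ∈ (st l).1, (st l).2.1 a ≤ l.length) ∧ Pos (st l).2.2 := by
    intro l
    induction l with
    | nil =>
      rw [st0]
      exact ⟨fun a ha a' ha' h =>
        absurd ((mem_singleton.1 ha).trans (mem_singleton.1 ha').symm) h,
        fun a ha a' ha' _ => (mem_singleton.1 ha).trans (mem_singleton.1 ha').symm,
        fun _ _ => le_rfl, fun _ => one_pos⟩
    | cons r l ih =>
      obtain ⟨g1, g2, g3, -, -, -, g4, -⟩ := hst (G.mu (r :: l)) _ _ _ r (l.length + 1)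
        (G.mu_nonneg _) ih.1 ih.2.1 (fun a ha => Nat.lt_succ_of_le (ih.2.2.1 a ha)) ih.2.2.2
      rw [st1]
      exact ⟨g1, g2, g3, g4⟩
  have hstep : ∀ r l, (∀ a ∈ (st (r :: l)).1, Val (G.mu (r :: l)) a (op P (G.mu (r :: l)) a).1) ∧
      (Hvy (G.mu (r :: l)) r → ∃ a ∈ (st (r :: l)).1, dist r a ≤ 7) ∧
      CoreRel (st l).1 (st l).2.1 (st (r :: l)).1 (st (r :: l)).2.1 (Zn (r :: l)) ∧
      Pos (st (r :: l)).2.2 ∧ KKT P (mo (G.mu (r :: l)) (st (r :: l)).1) (st (r :: l)).2.2 ∧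
      Pot P (G.mu (r :: l)) (st (r :: l)).1 (st (r :: l)).2.2 +
        ∑ y, G.mu (r :: l) y * (if y ∈ Zn (r :: l) then 1 else
          if ∀ a ∈ (st l).1, 10 ≤ dist y a then rel P (st l).2.2 (st (r :: l)).2.2 y else 0) ≤
        Pot P (G.mu (r :: l)) (st l).1 (st l).2.2 := fun r l => by
    rw [st1, hZn]
    exact (hst (G.mu (r :: l)) _ _ _ r (l.length + 1) (G.mu_nonneg _) (hinv l).1
      (hinv l).2.1 (fun a ha => Nat.lt_succ_of_le ((hinv l).2.2.1 a ha)) (hinv l).2.2.2).2.2.2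
  refine ⟨fun l => (st l).1, fun l => (st l).2.1, Zn, fun l => (st l).2.2, fun l => (hinv l).1,
    fun l => (hinv l).2.1, fun l => (hinv l).2.2.1, fun r l => (hstep r l).2.2.1,
    fun r l => (hstep r l).2.1, fun l => (hinv l).2.2.2, fun r l => (hstep r l).2.2.2.2.1, ?_⟩
  have hL : 0 ≤ Real.log P.k := by linarith [E.log_k]
  have hmv : ∀ t ω, mv2 P (G.mu (G.hist (t + 1) ω)) (st (G.hist (t + 1) ω)).1
      (st (G.hist (t + 1) ω)).2.2 (G.o t ω (G.idx t ω)) (G.req t ω) ≤ C * G.ch2 H 1 t ω +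
        C * Real.log P.k *
          if bm (G.mu (G.hist (t + 1) ω)) (G.req t ω) (1 / 4) < 1 / 2 then 1 else 0 := by
    intro t ω
    obtain ⟨g1, g2, -, g3, g4, -⟩ := hstep (G.req t ω) (G.hist t ω)
    have g5 := hH (G.req t ω) (G.hist t ω)
    rw [← G.hist_succ] at g1 g2 g3 g4 g5
    refine (h2 P Y hP _ _ _ (G.o t ω (G.idx t ω)) (G.req t ω) _ (G.mu_nonneg _) (G.sum_mu_le _)
      (hinv (G.hist (t + 1) ω)).1 g1 g2 g3 g4 g5).trans_eq ?_
    simp only [Game.ch2, Game.ell, div_one]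
    ring
  have hlo : ∀ t ω, Real.log P.k * min 1 (G.ell t ω ^ 2) ≤ G.ch2 H 1 t ω := fun t ω => by
    have a1 := (hH (G.req t ω) (G.hist t ω)).q
    have a2 := (hG Y _ (G.mu_nonneg (G.req t ω :: G.hist t ω))).qq_nonneg (G.req t ω)
    have a3 : 0 ≤ G.ell t ω * H (G.req t ω :: G.hist t ω) :=
      mul_nonneg (G.ell_nonneg t ω) (by linarith [hP.ε_pos])
    simp only [Game.ch2, div_one, G.hist_succ]
    linarith
  let Θ : ℕ → ℝ := fun t => G.E fun ω =>
    Pot P (G.nu (G.hist t ω)) (st (G.hist t ω)).1 (st (G.hist t ω)).2.2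
  have hΘ : ∀ t, (G.E fun ω => ∑ i, if G.o t ω i ∈ Zn (G.hist (t + 1) ω) then (1 : ℝ) else
      if ∀ a ∈ (st (G.hist t ω)).1, 10 ≤ dist (G.o t ω i) a then
        rel P (st (G.hist t ω)).2.2 (st (G.hist (t + 1) ω)).2.2 (G.o t ω i) else 0) ≤
      (Θ t - Θ (t + 1)) + 33 * C * G.E (G.ch2 H 1 t) := by
    intro t
    have g1 := jensen G hO (fun l => (st l).1) (fun l => (st l).2.2) t
    have g2 := move G hO (fun l => (st l).1) (fun l => (st l).2.2) t
    let f : List Y → Y → ℝ := fun l y => if y ∈ Zn l then (1 : ℝ) else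
      if ∀ a ∈ (st l.tail).1, 10 ≤ dist y a then rel P (st l.tail).2.2 (st l).2.2 y else 0
    have g3 : (G.E fun ω => Pot P (G.mu (G.hist (t + 1) ω)) (st (G.hist (t + 1) ω)).1
        (st (G.hist (t + 1) ω)).2.2 + ∑ y, G.mu (G.hist (t + 1) ω) y * f (G.hist (t + 1) ω) y) ≤
        G.E fun ω => Pot P (G.mu (G.hist (t + 1) ω)) (st (G.hist t ω)).1 (st (G.hist t ω)).2.2 :=
      G.E_mono fun ω => (hstep (G.req t ω) (G.hist t ω)).2.2.2.2.2
    have g4 := G.E_mono (hmv t)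
    have g5 := mul_le_mul_of_nonneg_left (h3 P.k Y Ω G t) (mul_nonneg hC hL)
    have g6 := mul_le_mul_of_nonneg_left (G.E_mono (hlo t)) hC
    rw [G.E_add] at g3
    rw [G.E_add, G.E_mul, G.E_mul] at g4
    rw [G.E_mul] at g6
    refine (zone G f t).trans_le ?_
    simp only [Θ]
    linarith
  rw [G.E_sum, G.E_sum, mul_sum]
  refine (sum_le_sum fun t _ => hΘ t).trans ?_
  rw [sum_add_distrib, sum_range_sub']
  have g1 : Θ 0 ≤ 4000000 * P.ε + 300000 - 800000 * P.k := (G.E_mono fun _ => by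
    rw [G.hist_zero, st0]
    exact start G hO E _).trans_eq (G.E_const _)
  have g2 : 4000000 * P.ε + 300000 - 800000 * P.k ≤ Θ T := (G.E_const _).symm.trans_le
    (G.E_mono fun ω => finish hO hP E (hinv _).1 (hinv _).2.2.2 (G.nu_nonneg _)
      (hG Y _ (G.nu_nonneg _)) (G.sum_nu_le _))
  linarith

end Vale.Agent.P304
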