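import Vale.Agent.P304.Stmts

/-! Steps whose request is not heavy are paid by the charge. -/

namespace Vale.Agent.P304

open Finset
open scoped Classical

namespace NonHvy

theorem chi_nonneg (s : ℝ) : 0 ≤ chi s := le_max_left _ _

theorem psi_nonneg {s : ℝ} (h : 0 ≤ s) : 0 ≤ psi s := le_min h (by positivity)

theorem ff_nonneg {s : ℝ} (h : 0 ≤ s) : 0 ≤ ff s := le_min (by positivity) (by positivity)

theorem ff_le_psi {s : ℝ} (h : 0 ≤ s) : ff s ≤ 32768 * psi s := by
  unfold ff psi
  rw [mul_min_of_nonneg _ _ (by norm_num : (0 : ℝ) ≤ 32768)]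
  refine le_min ?_ ((min_le_right _ _).trans (by rw [mul_one_div]))
  rcases le_total s 1 with h1 | h1
  · exact (min_le_left _ _).trans (by nlinarith)
  · refine (min_le_right _ _).trans ?_
    rw [div_le_iff₀ (by linarith)]
    nlinarith

theorem one_le_chi {s : ℝ} (h : 0 ≤ s) : 1 ≤ chi s + min 1 (s ^ 2) := by
  rcases le_total s 1 with h1 | h1
  · have : 1 ≤ chi s := le_max_of_le_right (le_min le_rfl (by linarith))
    have h2 : 0 ≤ min 1 (s ^ 2) := le_min zero_le_one (by positivity)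
    linarith
  · rw [min_eq_left (by nlinarith)]
    linarith [chi_nonneg s]

theorem qq_nonneg {Y : Type} [Fintype Y] {μ dx : Y → ℝ} (hμ : ∀ y, 0 ≤ μ y)
    (hd : ∀ y, 0 ≤ dx y) : 0 ≤ qq μ dx := by
  unfold qq
  split_ifs with h
  · exact le_min zero_le_one (div_nonneg
      (sum_nonneg fun y _ => mul_nonneg (hμ y) (psi_nonneg (hd y))) (by linarith))
  · exact le_rfl

variable {k : ℕ} {Y Ω : Type} [Fintype Y] [MetricSpace Y] [Fintype Ω] (G : Game k Y Ω)

theorem charge_one (t : ℕ) (ω : Ω) : G.charge 1 t ω = min 1 (G.ell t ω ^ 2) +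
    G.ell t ω * qq (G.mu (G.hist (t + 1) ω)) fun y => dist y (G.req t ω) := by
  simp only [Game.charge, div_one]

theorem sq_le_charge (t : ℕ) (ω : Ω) : min 1 (G.ell t ω ^ 2) ≤ G.charge 1 t ω := by
  rw [charge_one]
  exact le_add_of_nonneg_right (mul_nonneg (G.ell_nonneg t ω)
    (qq_nonneg (G.mu_nonneg _) fun _ => dist_nonneg))

theorem qq_le_charge (t : ℕ) (ω : Ω) :
    (G.ell t ω * qq (G.mu (G.hist (t + 1) ω)) fun y => dist y (G.req t ω)) ≤ G.charge 1 t ω := by
  rw [charge_one]
  exact le_add_of_nonneg_left (le_min zero_le_one (by positivity))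

theorem charge_nonneg (t : ℕ) (ω : Ω) : 0 ≤ G.charge 1 t ω :=
  (le_min zero_le_one (by positivity)).trans (sq_le_charge G t ω)

omit [Fintype Y] [MetricSpace Y] in
theorem req_eq {t : ℕ} {ω ω' : Ω}
    (h : G.hist (G.hist (t + 1) ω).length ω' = G.hist (t + 1) ω) :
    G.hist (t + 1) ω' = G.hist (t + 1) ω ∧ G.req t ω' = G.req t ω := by
  rw [G.hist_length] at h
  exact ⟨h, (List.cons.inj h).1⟩

end NonHvy

open NonHvy

theorem nonHvy : NonHvyStmt := by
  refine ⟨1638400, by norm_num, fun k Y Ω _ _ _ G t => ?_⟩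
  rw [← G.E_mul]
  refine G.E_le_of_ce (t + 1)
    (fun l ω => if Hvy (G.mu l) (G.req t ω) then 0 else min 1 (G.ell t ω))
    (fun _ ω => 1638400 * G.charge 1 t ω) fun ω => ?_
  set μ := G.mu (G.hist (t + 1) ω) with hμ
  by_cases h1 : 1 / 2 ≤ mm μ (G.req t ω)
  · refine G.ce_mono fun ω' h => ?_
    obtain ⟨e1, e2⟩ := req_eq G h
    have h0 := charge_nonneg G t ω'
    split_ifs with h2
    · positivity
    have h3 : mm μ (G.req t ω') / 50 < FF μ (G.req t ω') :=
      not_le.1 fun h3 => h2 ⟨e2 ▸ h1, h3⟩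
    have h4 : FF μ (G.req t ω') ≤ 32768 * ∑ y, μ y * psi (dist y (G.req t ω')) := by
      rw [mul_sum]
      refine sum_le_sum fun y _ => ?_
      have := mul_le_mul_of_nonneg_left (ff_le_psi (dist_nonneg (x := y) (y := G.req t ω')))
        (G.mu_nonneg (G.hist (t + 1) ω) y)
      linarith
    rw [← e2] at h1
    have h5 : 1 / 1638400 ≤ qq μ fun y => dist y (G.req t ω') := by
      unfold qq
      rw [if_pos (by exact h1)]
      refine le_min (by norm_num) ?_
      rw [le_div_iff₀ (by change 0 < mm μ _; linarith)]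
      change _ * mm μ _ ≤ _
      linarith
    have h6 := qq_le_charge G t ω'
    rw [e1] at h6
    have h7 := mul_le_mul_of_nonneg_left h5 (G.ell_nonneg t ω')
    have h8 := min_le_right 1 (G.ell t ω')
    linarith
  · have h2 : G.ce (G.hist (t + 1) ω) (fun ω' => chi (G.ell t ω')) ≤ mm μ (G.req t ω) := by
      rw [mm, hμ, G.sum_mu_mul _ fun y => chi (dist y (G.req t ω))]
      refine G.ce_mono fun ω' h => ?_
      rw [G.hist_length, ← (req_eq G h).2]
      exact single_le_sum (f := fun i => chi (dist (G.o t ω' i) (G.req t ω')))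
        (fun _ _ => chi_nonneg _) (mem_univ _)
    have h3 : 1 ≤ G.ce (G.hist (t + 1) ω) (fun ω' => chi (G.ell t ω') + G.charge 1 t ω') := by
      refine (G.ce_const (G.reach_hist (t + 1) ω) 1).symm.trans_le (G.ce_mono fun ω' _ => ?_)
      linarith [one_le_chi (G.ell_nonneg t ω'), sq_le_charge G t ω']
    rw [G.ce_add] at h3
    rw [G.ce_mul]
    refine (G.ce_le_const zero_le_one fun ω' _ => ?_).trans (by linarith)
    split_ifs
    · exact zero_le_one
    · exact min_le_left _ _

end Vale.Agent.P304
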