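import Vale.Agent.P304.StmtsE
import Vale.Agent.P304.NonHvy

/-! The cut probability outside the cores, and the steps with little mass near the request. -/

namespace Vale.Agent.P304

open Finset
open scoped Classical

namespace ECut

theorem tele (f : ℕ → ℝ) (hf : Monotone f) (a n d : ℕ) :
    ∑ j ∈ range n, (f (a + j + d) - f (a + j)) ≤ d * (f (a + n + d) - f a) := by
  induction d with
  | zero => simp
  | succ d ih =>
    have h1 : ∑ j ∈ range n, (f (a + j + (d + 1)) - f (a + j)) =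
        ∑ j ∈ range n, (f (a + d + (j + 1)) - f (a + d + j)) +
          ∑ j ∈ range n, (f (a + j + d) - f (a + j)) := by
      rw [← sum_add_distrib]
      refine sum_congr rfl fun j _ => ?_
      rw [show a + d + (j + 1) = a + j + (d + 1) by ring, show a + d + j = a + j + d by ring]
      ring
    rw [h1, sum_range_sub (fun j => f (a + d + j))]
    have h2 : f (a + d + n) ≤ f (a + n + (d + 1)) := hf (by omega)
    have h3 : f a ≤ f (a + d + 0) := hf (by omega)
    have h4 : f (a + n + d) ≤ f (a + n + (d + 1)) := hf (by omega)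
    have h5 := mul_le_mul_of_nonneg_left h4 (Nat.cast_nonneg (α := ℝ) d)
    push_cast
    nlinarith

variable {Y : Type} [Fintype Y] [MetricSpace Y] {P : Par}

theorem ratio (hP : P.OK Y) (E : EFacts P Y) {μ w : Y → ℝ} {S : Finset Y} {x : Y} {H : ℝ}
    (hμ : ∀ y, 0 ≤ μ y) (hk : ∑ y, μ y ≤ P.k) (hS : Sep S) (hw : Pos w)
    (hK : KKT P (mo μ S) w) (hH : EtaOK P.k P.ε μ (fun y => dist y x) H)
    (hm : 1 / 2 ≤ bm μ x (1 / 4)) (hx : ∀ a ∈ S, 41 / 4 ≤ dist x a) (hH0 : 0 ≤ H) :
    Real.log (bm w x 5) - Real.log (bm w x 1) ≤ 345088 * (1 + H) := by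
  have hN : (64 : ℝ) ≤ P.N := by exact_mod_cast hP.N_ge
  have hk2 : (2 : ℝ) ≤ P.k := by exact_mod_cast hP.k_ge
  have hmo0 : ∀ y, 0 ≤ mo μ S y := fun y => mul_nonneg (hμ y) (E.cd_nonneg S y hS)
  have hmo1 : ∀ y, mo μ S y ≤ μ y := fun y => mul_le_of_le_one_right (hμ y) (E.cd_le S y)
  have h1 : bm μ x (1 / 4) ≤ bm (mo μ S) x (1 / 4) := by
    refine E.bm_mono_w _ _ _ _ fun a ha => ?_
    have : cd S a = 1 := E.cd_one S a fun b hb => by
      have h1 := hx b hb
      have h2 := dist_triangle x a b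
      linarith
    rw [mo, this, mul_one]
  have h2 := hK.add x 1 (by rw [div_le_one (by linarith)]; linarith) (by norm_num)
  have h3 := hK.glob x
  have h4 := hK.loc x
  have h5 : ∑ y, mo μ S y * kap (dist y x) ≤ P.k :=
    (sum_le_sum fun y _ => (mul_le_of_le_one_right (hmo0 y) (E.kap_le _ dist_nonneg)).trans
      (hmo1 y)).trans hk
  have h6 : bm (mo μ S) x 8 ≤ bm μ x 32 :=
    (E.bm_mono_w _ _ _ _ fun a _ => hmo1 a).trans (E.bm_mono μ x x 8 32 hμ (by simp; norm_num))
  have h7 : bm μ x (1 / 4) ≤ bm μ x 32 := E.bm_mono μ x x _ _ hμ (by simp; norm_num)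
  have h8 := hH.e1 (1 / 4) (by norm_num) (by norm_num)
  rw [E.Mb_eq, E.Mb_eq] at h8
  have hA := E.bm_pos w x 1 hw (by norm_num)
  have hB := E.bm_pos w x 5 hw (by norm_num)
  have hε := E.ε_le
  have hε0 := hP.ε_pos
  have hδ := E.δ_pos
  have hδ1 := E.δ_le
  have hδk := E.δ_k
  have hK0 := E.Kv_nonneg (mo μ S) w x hmo0 hw
  set K := Kv P (mo μ S) w x
  set A := bm w x 1
  set B := bm w x 5
  set m := bm μ x (1 / 4)
  set M := bm μ x 32
  have hk3 : 1 / (P.k : ℝ) ≤ 1 / 2 := one_div_le_one_div_of_le (by norm_num) hk2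
  have hk4 : 0 < 1 / (P.k : ℝ) := by positivity
  have h9 : 4 * P.δ * (Ref w x * K) ≤ 4 * P.δ * (251 * P.k + 2 * P.ε) :=
    mul_le_mul_of_nonneg_left (by linarith) (by positivity)
  have h10 : P.δ * P.ε ≤ 1 / 10 ^ 7 * (1 / 1600) := mul_le_mul hδ1 hε hε0.le (by norm_num)
  have h11 : m / 512 ≤ A * K := by nlinarith
  have h12 : B * K ≤ 337 * (M + 1 / P.k) := by linarith
  have h13 : B / A ≤ 345088 * ((M + 1 / P.k) / (m + 1 / P.k)) := by
    rw [← mul_div_assoc, div_le_div_iff₀ hA (by linarith)]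
    have h14 : m + 1 / P.k ≤ 1024 * (A * K) := by linarith
    have h15 := mul_le_mul_of_nonneg_left h14 hB.le
    have h16 := mul_le_mul_of_nonneg_left h12 hA.le
    nlinarith
  rw [← Real.log_div hB.ne' hA.ne']
  have h17 := Real.log_le_log (div_pos hB hA) h13
  rw [Real.log_mul (by norm_num) (div_pos (by linarith) (by linarith)).ne'] at h17
  have h18 := Real.log_le_self (show (0 : ℝ) ≤ 345088 by norm_num)
  linarith

theorem one_tv (E : EFacts P Y) {w : Y → ℝ} (hw : Pos w) {z x : Y} {r r1 r2 : ℝ} (h0 : 0 ≤ r1)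
    (h1 : r1 + dist z x ≤ r) (h2 : r + dist z x ≤ r2) :
    tv (bal w z r) (bal w x r) ≤ Real.log (bm w x r2) - Real.log (bm w x r1) := by
  have hd := dist_nonneg (x := z) (y := x)
  have hw0 : ∀ a, 0 ≤ w a := fun a => (hw a).le
  have hA := E.bm_pos w x r1 hw h0
  have hB := E.bm_pos w x r2 hw (by linarith)
  have h3 := E.tv_le (bal w z r) (bal w x r) (bal w x r1) (bm w x r2)
    (fun a => by unfold bal; split_ifs; exacts [hw0 a, le_rfl])
    (fun a => by
      unfold bal
      have := dist_triangle z x a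
      split_ifs with h h'
      exacts [le_rfl, absurd (by linarith) h', hw0 a, le_rfl])
    (fun a => by
      unfold bal
      split_ifs with h h'
      exacts [le_rfl, absurd (by linarith) h', hw0 a, le_rfl])
    (E.bm_pos w z r hw (by linarith)) (E.bm_pos w x r hw (by linarith))
    (E.bm_mono w z x r r2 hw0 h2) (E.bm_mono w x x r r2 hw0 (by simp; linarith))
  have h4 := Real.one_sub_inv_le_log_of_pos (div_pos hB hA)
  rw [inv_div, Real.log_div hB.ne' hA.ne'] at h4
  exact h3.trans h4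

end ECut

open ECut

theorem cut2 (hE : EBasicStmt) : Cut2Stmt := by
  refine ⟨3 * 345088, by norm_num,
    fun P Y _ _ hP μ w S z x H hμ hk hS hw hK hH hz hm hx => ?_⟩
  have E := hE P Y hP
  have hH0 : 0 ≤ H := by
    have h1 := hH.q
    have h2 : 0 ≤ qq μ fun y => dist y x := NonHvy.qq_nonneg hμ fun _ => dist_nonneg
    linarith [hP.ε_pos]
  by_cases hzx : z = x
  · subst hzx
    simp [E.tv_self]
  have hN : (64 : ℝ) ≤ P.N := by exact_mod_cast hP.N_ge
  have hN0 : (0 : ℝ) < P.N := by linarith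
  have hl := hP.mesh z x hzx
  rw [div_le_iff₀ hN0] at hl
  have hR := ratio hP E hμ hk hS hw hK hH hm hx hH0
  set ℓ := dist z x with hℓ
  have hl0 : 0 ≤ ℓ := dist_nonneg
  set i := ⌈ℓ * P.N⌉₊ with hi
  have hi1 : ℓ * P.N ≤ i := Nat.le_ceil _
  have hi2 : (i : ℝ) < ℓ * P.N + 1 := Nat.ceil_lt_add_one (by positivity)
  have hi3 : i ≤ P.N := by
    have : (i : ℝ) ≤ P.N := by nlinarith
    exact_mod_cast this
  have hi4 : ℓ ≤ i / P.N := by rwa [le_div_iff₀ hN0]
  set f : ℕ → ℝ := fun j => Real.log (bm w x (P.r j)) with hf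
  have hw0 : ∀ a, 0 ≤ w a := fun a => (hw a).le
  have hr0 : ∀ j, 0 ≤ P.r j := fun j => by unfold Par.r; positivity
  have hmono : Monotone f := fun j j' h => by
    refine Real.log_le_log (E.bm_pos w x _ hw (hr0 j)) (E.bm_mono w x x _ _ hw0 ?_)
    have : (j : ℝ) ≤ j' := by exact_mod_cast h
    simp only [Par.r, dist_self, add_zero]
    gcongr
  obtain ⟨a, ha⟩ : ∃ a, 2 * P.N + 1 = a + i := ⟨2 * P.N + 1 - i, by omega⟩
  have h1 : ∑ j ∈ P.I', tv (bal w z (P.r j)) (bal w x (P.r j)) ≤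
      ∑ j ∈ range P.N, (f (a + j + 2 * i) - f (a + j)) := by
    have : P.I' = Ico (2 * P.N + 1) (2 * P.N + 1 + P.N) := by
      ext j
      simp only [Par.I', mem_Ioc, mem_Ico]
      omega
    rw [this, sum_Ico_eq_sum_range, Nat.add_sub_cancel_left]
    refine sum_le_sum fun j _ => one_tv E hw (hr0 _) ?_ ?_
    · have : P.r (2 * P.N + 1 + j) = P.r (a + j) + i / P.N := by
        rw [ha]; unfold Par.r; push_cast; ring
      linarith
    · have : P.r (a + j + 2 * i) = P.r (2 * P.N + 1 + j) + i / P.N := by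
        rw [ha]; unfold Par.r; push_cast; ring
      linarith
  have h2 := tele f hmono a P.N (2 * i)
  have h3 : f (a + P.N + 2 * i) ≤ f (5 * P.N) := hmono (by have := hP.N_ge; omega)
  have h4 : f P.N ≤ f a := hmono (by omega)
  have h5 : f (5 * P.N) = Real.log (bm w x 5) := by
    have : P.r (5 * P.N) = 5 := by unfold Par.r; push_cast; field_simp
    simp only [hf, this]
  have h6 : f P.N = Real.log (bm w x 1) := by
    have : P.r P.N = 1 := by unfold Par.r; field_simp
    simp only [hf, this]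
  have h7 : f (a + P.N + 2 * i) - f a ≤ 345088 * (1 + H) := by linarith
  have h8 := mul_le_mul_of_nonneg_left h7 (Nat.cast_nonneg (α := ℝ) (2 * i))
  have h9 : ((2 * i : ℕ) : ℝ) ≤ 3 * (ℓ * P.N) := by push_cast; linarith
  have h10 := mul_le_mul_of_nonneg_right h9 (show 0 ≤ 345088 * (1 + H) by positivity)
  rw [one_div, inv_mul_le_iff₀ hN0]
  nlinarith

theorem loS : LoStmt := by
  intro k Y Ω _ _ _ G t
  rw [← G.E_mul]
  refine G.E_le_of_ce (t + 1)
    (fun l ω => if bm (G.mu l) (G.req t ω) (1 / 4) < 1 / 2 then 1 else 0)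
    (fun _ ω => 32 * min 1 (G.ell t ω ^ 2)) fun ω => ?_
  set μ := G.mu (G.hist (t + 1) ω) with hμ
  by_cases h1 : bm μ (G.req t ω) (1 / 4) < 1 / 2
  · have h2 : G.ce (G.hist (t + 1) ω) (fun ω' => if G.ell t ω' ≤ 1 / 4 then 1 else 0) ≤
        bm μ (G.req t ω) (1 / 4) := by
      have : bm μ (G.req t ω) (1 / 4) =
          ∑ y, μ y * if dist y (G.req t ω) ≤ 1 / 4 then 1 else 0 := by
        refine sum_congr rfl fun y _ => ?_
        unfold bal
        rw [dist_comm]
        split_ifs <;> simp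
      rw [this, hμ, G.sum_mu_mul _ fun y => if dist y (G.req t ω) ≤ 1 / 4 then 1 else 0]
      refine G.ce_mono fun ω' h => ?_
      rw [G.hist_length, ← (NonHvy.req_eq G h).2]
      exact single_le_sum
        (f := fun i => if dist (G.o t ω' i) (G.req t ω') ≤ 1 / 4 then (1 : ℝ) else 0)
        (fun _ _ => by split_ifs <;> norm_num) (mem_univ _)
    have h3 : 1 ≤ G.ce (G.hist (t + 1) ω)
        (fun ω' => (if G.ell t ω' ≤ 1 / 4 then 1 else 0) + 16 * min 1 (G.ell t ω' ^ 2)) := by
      refine (G.ce_const (G.reach_hist (t + 1) ω) 1).symm.trans_le (G.ce_mono fun ω' _ => ?_)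
      have h4 : 0 ≤ min 1 (G.ell t ω' ^ 2) := le_min zero_le_one (by positivity)
      split_ifs with h
      · linarith
      · have h5 : 1 / 16 ≤ min 1 (G.ell t ω' ^ 2) :=
          le_min (by norm_num) (by nlinarith [not_le.1 h])
        linarith
    rw [G.ce_add, G.ce_mul] at h3
    rw [G.ce_mul]
    refine (G.ce_le_const zero_le_one fun ω' _ => ?_).trans (by linarith)
    split_ifs
    · exact le_rfl
    · exact zero_le_one
  · refine G.ce_mono fun ω' h => ?_
    rw [(NonHvy.req_eq G h).2, if_neg h1]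
    exact mul_nonneg (by norm_num) (le_min zero_le_one (by positivity))

end Vale.Agent.P304
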