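import Vale.Agent.P304.Stmts

/-! The general bound on the change of the core potential. -/

namespace Vale.Agent.P304

open Finset
open scoped Classical

namespace MoveGen

theorem ff_nonneg {s : ℝ} (hs : 0 ≤ s) : 0 ≤ ff s :=
  le_min (sq_nonneg s) (div_nonneg (by norm_num) hs)

theorem ff_le {s : ℝ} (hs : 0 ≤ s) : ff s ≤ 33792 / (1 + s) := by
  rw [le_div_iff₀ (by linarith)]
  rcases le_total s 32 with h | h
  · have h1 : ff s ≤ s ^ 2 := min_le_left _ _
    have h2 : s ^ 2 ≤ 1024 := by nlinarith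
    have h3 := ff_nonneg hs
    nlinarith
  · have h1 : ff s ≤ 32768 / s := min_le_right _ _
    rw [le_div_iff₀ (by linarith)] at h1
    have h3 := ff_nonneg hs
    nlinarith

theorem one_le_ff {s : ℝ} (h1 : 1 ≤ s) (h2 : s ≤ 32768) : 1 ≤ ff s := by
  refine le_min (by nlinarith) ?_
  rw [le_div_iff₀ (by linarith)]
  linarith

theorem ff_ge {s t : ℝ} (h1 : 32 ≤ s) (h2 : s ≤ 2 * (1 + t)) : 16384 / (1 + t) ≤ ff s := by
  have ht : 0 < 1 + t := by linarith
  refine le_min ?_ ?_
  · rw [div_le_iff₀ ht]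
    nlinarith
  · rw [div_le_div_iff₀ ht (by linarith)]
    linarith

theorem ff_sub_le {s s' e : ℝ} (hs : 0 ≤ s) (hs' : 0 ≤ s') (he : |s - s'| ≤ e) :
    ff s - ff s' ≤ 33792 * min 1 e / (1 + s) := by
  have he0 : 0 ≤ e := (abs_nonneg _).trans he
  obtain ⟨h1, h2⟩ := abs_le.mp he
  rcases le_total 1 e with h | h
  · rw [min_eq_left h, mul_one]
    have := ff_le hs
    have := ff_nonneg hs'
    linarith
  rw [min_eq_right h, le_div_iff₀ (by linarith)]
  rcases le_total s' 32 with h3 | h3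
  · have h4 : ff s' = s' ^ 2 := by
      rcases hs'.eq_or_lt with h0 | h0
      · simp [ff, ← h0]
      · refine min_eq_left ?_
        rw [le_div_iff₀ h0]
        have : s' ^ 2 ≤ 1024 := by nlinarith
        nlinarith
    have h5 : ff s ≤ s ^ 2 := min_le_left _ _
    have h6 : s ^ 2 - s' ^ 2 ≤ 65 * e := by nlinarith
    have h7 : ff s - ff s' ≤ 65 * e := by linarith
    have h8 : (ff s - ff s') * (1 + s) ≤ 65 * e * (1 + s) :=
      mul_le_mul_of_nonneg_right h7 (by linarith)
    nlinarith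
  · have hs0 : 0 < s := by linarith
    have hs1 : 0 < s' := by linarith
    have h4 : ff s' = 32768 / s' := by
      refine min_eq_right ?_
      rw [div_le_iff₀ hs1]
      have : 1024 ≤ s' ^ 2 := by nlinarith
      nlinarith
    have h5 : ff s ≤ 32768 / s := min_le_right _ _
    have h6 : 32768 / s - 32768 / s' ≤ 1024 * e / s := by
      rw [div_sub_div _ _ hs0.ne' hs1.ne', div_le_div_iff₀ (mul_pos hs0 hs1) hs0]
      have h9 : 32768 * s' - s * 32768 ≤ 1024 * e * s' := by nlinarith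
      nlinarith
    have h7 : ff s - ff s' ≤ 1024 * e / s := by linarith
    have h8 : (ff s - ff s') * (1 + s) ≤ 1024 * e / s * (1 + s) :=
      mul_le_mul_of_nonneg_right h7 (by linarith)
    have h9 : 1024 * e / s * (1 + s) ≤ 33792 * e := by
      rw [div_mul_eq_mul_div, div_le_iff₀ hs0]
      nlinarith
    linarith

theorem chi_nonneg (s : ℝ) : 0 ≤ chi s := le_max_left _ _

theorem chi_le_one (s : ℝ) : chi s ≤ 1 := max_le zero_le_one (min_le_left _ _)

theorem chi_zero {s : ℝ} (h : 11 ≤ s) : chi s = 0 :=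
  max_eq_left ((min_le_right _ _).trans (by linarith))

theorem chi_sub_le {s s' e : ℝ} (he : |s - s'| ≤ e) : chi s - chi s' ≤ min 1 e := by
  obtain ⟨h1, h2⟩ := abs_le.mp he
  have he0 : 0 ≤ e := (abs_nonneg _).trans he
  refine le_min (by linarith [chi_le_one s, chi_nonneg s']) ?_
  unfold chi
  simp only [max_def, min_def]
  split_ifs <;> linarith

/-- the harmonic type sum -/
theorem sum_inv_le {Y : Type} (s β : Y → ℝ) (S : Finset Y) :
    (∀ a ∈ S, 0 ≤ s a) → (∀ a ∈ S, 3 / 16 ≤ β a) →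
    (∀ a ∈ S, ∀ T ⊆ S, a ∉ T → (∀ a' ∈ T, s a' ≤ s a) → ∑ a' ∈ T, β a' ≤ β a * (1 + s a)) →
    ∑ a ∈ S, 1 / (1 + s a) ≤ 3 * Real.log (1 + 16 * ∑ a ∈ S, β a) := by
  refine Finset.induction_on_max_value s S (by simp) ?_
  intro a T haT hmax ih hs hβ hT
  have ih' := ih (fun b hb => hs b (mem_insert_of_mem hb)) (fun b hb => hβ b (mem_insert_of_mem hb))
    fun b hb U hU => hT b (mem_insert_of_mem hb) U (hU.trans (subset_insert _ _))
  rw [sum_insert haT, sum_insert haT]
  have h1 := hT a (mem_insert_self _ _) T (subset_insert _ _) haT hmax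
  have h2 := hs a (mem_insert_self _ _)
  have h3 := hβ a (mem_insert_self _ _)
  have hB : 0 ≤ ∑ a' ∈ T, β a' :=
    sum_nonneg fun b hb => le_trans (by norm_num) (hβ b (mem_insert_of_mem hb))
  generalize ∑ a' ∈ T, β a' = B at *
  have hp : 0 < 1 + 16 * B := by linarith
  have hq : 0 < 1 + 16 * (β a + B) := by linarith
  have h4 := Real.one_sub_inv_le_log_of_pos (div_pos hq hp)
  rw [Real.log_div hq.ne' hp.ne', inv_div] at h4
  have h5 : 1 / (1 + s a) ≤ 3 * (1 - (1 + 16 * B) / (1 + 16 * (β a + B))) := by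
    rw [one_sub_div hq.ne', ← mul_div_assoc, div_le_div_iff₀ (by linarith) hq]
    nlinarith
  linarith

variable {Y : Type} [Fintype Y] [MetricSpace Y]

/-- mass of the unit blob around `b` -/
noncomputable def blob (μ : Y → ℝ) (b : Y) : ℝ := ∑ y, if dist y b < 1 then μ y else 0

theorem FF_nonneg {μ : Y → ℝ} (hμ : ∀ y, 0 ≤ μ y) (b : Y) : 0 ≤ FF μ b :=
  sum_nonneg fun y _ => mul_nonneg (hμ y) (ff_nonneg dist_nonneg)

theorem mm_le {μ : Y → ℝ} (hμ : ∀ y, 0 ≤ μ y) {a b : Y} (h : dist a b ≤ 8) :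
    mm μ a ≤ blob μ b + FF μ b := by
  unfold mm blob FF
  rw [← sum_add_distrib]
  refine sum_le_sum fun y _ => ?_
  have h0 := mul_nonneg (hμ y) (ff_nonneg (dist_nonneg (x := y) (y := b)))
  have h1 : μ y * chi (dist y a) ≤ μ y := mul_le_of_le_one_right (hμ y) (chi_le_one _)
  split_ifs with hy
  · linarith
  · rcases le_total 11 (dist y a) with h2 | h2
    · rw [chi_zero h2]
      linarith
    · have h3 := dist_triangle y a b
      have h4 : μ y * 1 ≤ μ y * ff (dist y b) :=
        mul_le_mul_of_nonneg_left (one_le_ff (not_lt.mp hy) (by linarith)) (hμ y)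
      linarith

theorem FF_le {μ : Y → ℝ} (hμ : ∀ y, 0 ≤ μ y) {a : Y} (h : Valid μ a) :
    FF μ (bst μ a) ≤ mm μ a / 4 := by
  refine le_trans ?_ h.2
  unfold WW
  have := FF_nonneg hμ (bst μ a)
  have h1 : 0 ≤ dist a (bst μ a) := dist_nonneg
  nlinarith

theorem bst_far {μ : Y → ℝ} {S : Finset Y} (hS : Sep S) {a a' : Y} (ha : a ∈ S) (ha' : a' ∈ S)
    (h : a ≠ a') : 34 < dist (bst μ a) (bst μ a') := by
  have h1 := hS a ha a' ha' h
  have h2 := dist_triangle4 a (bst μ a) (bst μ a') a'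
  have h3 := bst_dist μ a
  have h4 := bst_dist μ a'
  rw [dist_comm] at h4
  linarith

/-- the blobs of different cores are disjoint -/
theorem sum_blob_le {μ : Y → ℝ} {S T : Finset Y} (hS : Sep S) (hT : T ⊆ S) (g : Y → ℝ)
    (hg : ∀ y, 0 ≤ g y) (hb : ∀ y, ∀ a ∈ T, dist y (bst μ a) < 1 → μ y ≤ g y) :
    ∑ a ∈ T, blob μ (bst μ a) ≤ ∑ y, g y := by
  unfold blob
  rw [sum_comm]
  refine sum_le_sum fun y _ => ?_
  by_cases h : ∃ a ∈ T, dist y (bst μ a) < 1
  · obtain ⟨a, ha, hy⟩ := h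
    rw [sum_eq_single_of_mem a ha, if_pos hy]
    · exact hb y a ha hy
    · intro b hb' hba
      refine if_neg fun hy' => ?_
      have h1 := bst_far (μ := μ) hS (hT ha) (hT hb') (Ne.symm hba)
      have h2 := dist_triangle_left (bst μ a) (bst μ b) y
      linarith
  · rw [sum_eq_zero fun a ha => if_neg fun hy => h ⟨a, ha, hy⟩]
    exact hg y

theorem sum_inv_core {μ : Y → ℝ} (hμ : ∀ y, 0 ≤ μ y) {S : Finset Y} (hS : Sep S)
    (hV : ∀ a ∈ S, Valid μ a) (x : Y) :
    ∑ a ∈ S, 1 / (1 + dist x (bst μ a)) ≤ 3 * Real.log (1 + 16 * ∑ a ∈ S, blob μ (bst μ a)) := by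
  refine sum_inv_le (fun a => dist x (bst μ a)) (fun a => blob μ (bst μ a)) S
    (fun _ _ => dist_nonneg) (fun a ha => ?_) fun a ha T hT haT hle => ?_
  · have h1 := mm_le hμ (bst_dist μ a)
    have h2 := FF_le hμ (hV a ha)
    have h3 := (hV a ha).1
    linarith
  · have h1 := mm_le hμ (bst_dist μ a)
    have h2 := FF_le hμ (hV a ha)
    have h3 := FF_nonneg hμ (bst μ a)
    have hp : 0 < 1 + dist x (bst μ a) := by positivity
    have h4 := sum_blob_le (μ := μ) hS hT
      (fun y => μ y * ff (dist y (bst μ a)) * (1 + dist x (bst μ a)))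
      (fun y => mul_nonneg (mul_nonneg (hμ y) (ff_nonneg dist_nonneg)) hp.le) fun y b hb hy => by
        have h5 := bst_far (μ := μ) hS ha (hT hb) fun h => haT (h ▸ hb)
        have h6 := dist_triangle_left (bst μ a) (bst μ b) y
        have h7 := dist_triangle4 y (bst μ b) x (bst μ a)
        have h8 : dist x (bst μ b) ≤ dist x (bst μ a) := hle b hb
        rw [dist_comm (bst μ b) x] at h7
        have h9 := ff_ge (s := dist y (bst μ a)) (t := dist x (bst μ a)) (by linarith)
          (by linarith)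
        rw [div_le_iff₀ hp] at h9
        have h10 := hμ y
        rw [mul_assoc]
        nlinarith
    rw [← sum_mul] at h4
    refine h4.trans (mul_le_mul_of_nonneg_right ?_ hp.le)
    change FF μ (bst μ a) ≤ blob μ (bst μ a)
    linarith

theorem sum_chi {S : Finset Y} (hS : Sep S) (z x : Y) :
    ∑ a ∈ S, (chi (dist z a) - chi (dist x a)) ≤ min 1 (dist z x) := by
  have h0 : ∀ a, 11 ≤ dist z a → chi (dist z a) - chi (dist x a) ≤ 0 := fun a h => by
    rw [chi_zero h]
    linarith [chi_nonneg (dist x a)]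
  by_cases h : ∃ a ∈ S, dist z a < 11
  · obtain ⟨a, ha, hz⟩ := h
    rw [← add_sum_erase S _ ha]
    have h1 : chi (dist z a) - chi (dist x a) ≤ min 1 (dist z x) :=
      chi_sub_le (abs_dist_sub_le z x a)
    have h2 : ∑ b ∈ S.erase a, (chi (dist z b) - chi (dist x b)) ≤ 0 :=
      sum_nonpos fun b hb => h0 b <| by
        have h3 := hS a ha b (mem_of_mem_erase hb) (ne_of_mem_erase hb).symm
        have h4 := dist_triangle_left a b z
        linarith
    linarith
  · exact (sum_nonpos fun a ha => h0 a (not_lt.mp fun h' => h ⟨a, ha, h'⟩)).trans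
      (le_min zero_le_one dist_nonneg)

end MoveGen

open MoveGen

theorem moveGen : MoveGenStmt := by
  refine ⟨360 * 33792 * 18 + 12, by norm_num, fun k hk Y _ _ μ S z x hμ hk' hS hV => ?_⟩
  have hm : 0 ≤ min 1 (dist z x) := le_min zero_le_one dist_nonneg
  have hk2 : (2 : ℝ) ≤ k := by exact_mod_cast hk
  have hL : (2 / 3 : ℝ) ≤ Real.log k :=
    le_trans (by linarith [Real.log_two_gt_d9]) (Real.log_le_log two_pos hk2)
  have h1 := sum_inv_core hμ hS hV x
  have h2 := sum_blob_le (μ := μ) hS subset_rfl μ hμ fun _ _ _ _ => le_rfl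
  have h3 : 0 ≤ ∑ a ∈ S, blob μ (bst μ a) :=
    sum_nonneg fun a _ => sum_nonneg fun y _ => by
      split_ifs
      · exact hμ y
      · exact le_rfl
  have h4 : Real.log (1 + 16 * ∑ a ∈ S, blob μ (bst μ a)) ≤ 6 * Real.log k := by
    have h5 : (32 : ℝ) ≤ (k : ℝ) ^ 5 :=
      le_trans (by norm_num) (pow_le_pow_left₀ zero_le_two hk2 5)
    have h6 : 1 + 16 * ∑ a ∈ S, blob μ (bst μ a) ≤ (k : ℝ) ^ 6 := by nlinarith
    refine (Real.log_le_log (by linarith) h6).trans_eq ?_
    rw [Real.log_pow]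
    norm_num
  have h7 := sum_chi hS z x
  have h8 : mvc μ S z x ≤ ∑ a ∈ S, (360 * 33792 * min 1 (dist z x) * (1 / (1 + dist x (bst μ a))) +
      8 * (chi (dist z a) - chi (dist x a))) := by
    refine sum_le_sum fun a _ => ?_
    have h9 := ff_sub_le (s := dist x (bst μ a)) (s' := dist z (bst μ a)) (e := dist z x)
      dist_nonneg dist_nonneg (by rw [dist_comm z x]; exact abs_dist_sub_le x z _)
    have h10 := bst_dist μ a
    have h11 : 0 ≤ dist a (bst μ a) := dist_nonneg
    have h12 : 0 ≤ 33792 * min 1 (dist z x) / (1 + dist x (bst μ a)) := by positivity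
    have h13 : 360 * 33792 * min 1 (dist z x) * (1 / (1 + dist x (bst μ a))) =
        360 * (33792 * min 1 (dist z x) / (1 + dist x (bst μ a))) := by ring
    rw [h13]
    nlinarith
  rw [sum_add_distrib, ← mul_sum, ← mul_sum] at h8
  have h14 : min 1 (dist z x) * ∑ a ∈ S, 1 / (1 + dist x (bst μ a)) ≤
      min 1 (dist z x) * (18 * Real.log k) := mul_le_mul_of_nonneg_left (by linarith) hm
  have h15 : min 1 (dist z x) * (2 / 3) ≤ min 1 (dist z x) * Real.log k :=
    mul_le_mul_of_nonneg_left hL hm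
  nlinarith

end Vale.Agent.P304
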