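import Vale.Agent.P304.StmtsE
import Vale.Agent.P304.MoveGen

/-! Sums over the valid cores. -/

namespace Vale.Agent.P304

open Finset
open scoped Classical

namespace EFar

variable {Y : Type} [Fintype Y] [MetricSpace Y] {μ : Y → ℝ} {S : Finset Y} {b : Y → Y}

theorem far (hS : Sep S) (hV : ∀ a ∈ S, Val μ a (b a)) {a a' : Y} (ha : a ∈ S) (ha' : a' ∈ S)
    (h : a ≠ a') : 34 < dist (b a) (b a') := by
  have h1 := hS a ha a' ha' h
  have h2 := dist_triangle4_right a a' (b a) (b a')
  linarith [(hV a ha).1, (hV a' ha').1]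

theorem sum_blb (hS : Sep S) (hV : ∀ a ∈ S, Val μ a (b a)) {T : Finset Y} (hT : T ⊆ S)
    (f g : Y → ℝ) (hg : ∀ y, 0 ≤ g y) (hb : ∀ y, ∀ a ∈ T, dist y (b a) < 1 → f y ≤ g y) :
    ∑ a ∈ T, blb f (b a) ≤ ∑ y, g y := by
  unfold blb
  rw [sum_comm]
  refine sum_le_sum fun y _ => ?_
  by_cases h : ∃ a ∈ T, dist y (b a) < 1
  · obtain ⟨a, ha, hy⟩ := h
    rw [sum_eq_single_of_mem a ha, if_pos hy]
    · exact hb y a ha hy
    · intro c hc hca
      refine if_neg fun hy' => ?_
      have h1 := far hS hV (hT ha) (hT hc) (Ne.symm hca)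
      have h2 := dist_triangle_left (b a) (b c) y
      linarith
  · rw [sum_eq_zero fun a ha => if_neg fun hy => h ⟨a, ha, hy⟩]
    exact hg y

theorem ff_ge {u s : ℝ} (h1 : 1 ≤ u) (h2 : u ≤ 2 * (1 + s)) (hs : 0 ≤ s) : 1 ≤ ff u * (1 + s) := by
  rw [← div_le_iff₀ (by linarith)]
  refine le_min ((div_le_one (by linarith)).2 (by linarith) |>.trans (by nlinarith)) ?_
  rw [div_le_div_iff₀ (by linarith) (by linarith)]
  linarith

end EFar

open EFar in
theorem farS (hG : GeoStmt) : FarStmt := by
  refine ⟨18, by norm_num, fun k Y _ _ μ S b x hk hμ hk' hS hV => ?_⟩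
  have G := hG Y μ hμ
  have hk2 : (2 : ℝ) ≤ k := by exact_mod_cast hk
  have hβ : ∀ a ∈ S, 3 / 16 ≤ blb μ (b a) ∧ 3 * FF μ (b a) ≤ blb μ (b a) := fun a ha => by
    have h1 := G.mm_le _ _ (hV a ha).1
    have h2 := G.val_FF _ _ (hV a ha)
    have h3 := (hV a ha).2.1
    exact ⟨by linarith, by linarith⟩
  have hf : ∀ (a y : Y) (s : ℝ), 0 ≤ s → 0 ≤ μ y * ff (dist y (b a)) * (1 + s) := fun a y s hs =>
    mul_nonneg (mul_nonneg (hμ y) (MoveGen.ff_nonneg dist_nonneg)) (by linarith)
  constructor
  · have h1 := MoveGen.sum_inv_le (fun a => dist x (b a)) (fun a => blb μ (b a)) S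
      (fun _ _ => dist_nonneg) (fun a ha => (hβ a ha).1) fun a ha T hT haT hle => by
        have h4 := sum_blb hS hV hT μ _ (fun y => hf a y _ (dist_nonneg (x := x) (y := b a)))
          fun y c hc hy => by
            have h5 := far hS hV ha (hT hc) fun h => haT (h ▸ hc)
            have h6 := dist_triangle_left (b a) (b c) y
            have h7 := dist_triangle4 y (b c) x (b a)
            have h8 : dist x (b c) ≤ dist x (b a) := hle c hc
            rw [dist_comm (b c) x] at h7
            rw [mul_assoc]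
            exact le_mul_of_one_le_right (hμ y) (ff_ge (by linarith) (by linarith) dist_nonneg)
        rw [← sum_mul] at h4
        refine h4.trans (mul_le_mul_of_nonneg_right ?_ (by positivity))
        change FF μ (b a) ≤ _
        linarith [(hβ a ha).2, G.FF_nonneg (b a)]
    have h2 := sum_blb hS hV subset_rfl μ μ hμ fun _ _ _ _ => le_rfl
    have h3 : 0 ≤ ∑ a ∈ S, blb μ (b a) := sum_nonneg fun a _ => G.blb_nonneg _
    have h5 : (32 : ℝ) ≤ (k : ℝ) ^ 5 :=
      le_trans (by norm_num) (pow_le_pow_left₀ zero_le_two hk2 5)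
    have h6 : 1 + 16 * ∑ a ∈ S, blb μ (b a) ≤ (k : ℝ) ^ 6 := by nlinarith
    have h4 := Real.log_le_log (by linarith) h6
    rw [Real.log_pow] at h4
    simp only [kap]
    push_cast at h4
    linarith
  obtain ⟨g, hg⟩ : ∃ g : Y → ℝ, g = fun y =>
    μ y * psi (dist y x) / Mb k μ (fun y => dist y x) (dist y x) := ⟨_, rfl⟩
  have hM : ∀ r, 0 < Mb k μ (fun y => dist y x) r := fun r =>
    add_pos_of_nonneg_of_pos (sum_nonneg fun y _ => ite_nonneg (hμ y) le_rfl) (by positivity)
  have g0 : ∀ y, 0 ≤ g y := fun y => by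
    rw [hg]
    exact div_nonneg (mul_nonneg (hμ y) (le_min dist_nonneg (by positivity))) (hM _).le
  have h1 := sum_blb hS hV subset_rfl g g g0 fun _ _ _ _ => le_rfl
  have h2 : ∀ a ∈ S, (if 25 < dist x a then 1 / dist x (b a) ^ 2 else 0) ≤ 2 * blb g (b a) := by
    intro a ha
    split_ifs with h
    swap
    · exact mul_nonneg zero_le_two (sum_nonneg fun y _ => ite_nonneg (g0 y) le_rfl)
    obtain ⟨h3, h4⟩ := hβ a ha
    have h5 := dist_triangle_right x a (b a)
    have h6 := (hV a ha).1
    obtain ⟨s, hs⟩ : ∃ s, s = dist x (b a) := ⟨_, rfl⟩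
    have s0 : 17 < s := by linarith
    have h7 : blb μ (b a) * (1 / ((s + 1) * (blb μ (b a) * s))) ≤ blb g (b a) := by
      refine (sum_mul _ _ _).trans_le (sum_le_sum fun y _ => ?_)
      split_ifs with hy
      swap
      · rw [zero_mul]
      have h8 := dist_triangle_right y x (b a)
      have h9 := dist_triangle_left x (b a) y
      have h10 : Mb k μ (fun y => dist y x) (dist y x) ≤
          blb μ (b a) + FF μ (b a) * (1 + s) + 1 / 2 := by
        refine add_le_add ?_ (one_div_le_one_div_of_le two_pos hk2)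
        rw [blb, FF, sum_mul, ← sum_add_distrib]
        refine sum_le_sum fun z _ => ?_
        have h11 := hf a z s (by linarith)
        have h12 := hμ z
        have h13 := dist_triangle z x (b a)
        split_ifs with h14 h15 h15 <;> try linarith
        rw [zero_add, mul_assoc]
        exact le_mul_of_one_le_right h12 (ff_ge (not_lt.1 h15) (by linarith) (by linarith))
      have h11 : 1 / (s + 1) ≤ psi (dist y x) :=
        le_min ((div_le_one (by linarith)).2 (by linarith) |>.trans (by linarith))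
          (one_div_le_one_div_of_le (by linarith) (by linarith))
      rw [congrFun hg y, mul_div_assoc, ← div_div]
      refine mul_le_mul_of_nonneg_left (div_le_div₀ (le_trans (by positivity) h11) h11 (hM _)
        (h10.trans ?_)) (hμ y)
      nlinarith
    refine le_trans ?_ (mul_le_mul_of_nonneg_left h7 zero_le_two)
    have h8 : 0 < blb μ (b a) := by linarith
    have h9 : 0 < s := by linarith
    rw [← hs]
    field_simp
    linarith
  have h3 := sum_le_sum h2
  rw [← mul_sum] at h3
  have h4 := sum_nonneg fun y (_ : y ∈ univ) => g0 y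
  rw [hg] at h1 h3 h4
  linarith

end Vale.Agent.P304
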