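import Vale.Agent.P304.StmtsE
import Vale.Agent.P304.CoreStep

/-! Geometry of valid cores. -/

namespace Vale.Agent.P304

open Finset
open scoped Classical

namespace EGeo

open CoreStep

theorem ff_psi {s : ℝ} (hs : 0 ≤ s) : ff s ≤ 32768 * psi s := by
  rw [psi, mul_min_of_nonneg _ _ (by norm_num), mul_one_div]
  refine le_min ?_ (min_le_right _ _)
  rcases le_total s 1 with h | h
  · exact (min_le_left _ _).trans (by nlinarith)
  · exact (min_le_right _ _).trans ((div_le_self (by norm_num) h).trans (by linarith))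

theorem kap_ff {s : ℝ} (hs : 1 ≤ s) : 2 * kap s ≤ ff s := by
  rw [kap, mul_one_div]
  refine le_min ?_ ?_
  · rw [div_le_iff₀ (by linarith)]
    nlinarith
  · rw [div_le_div_iff₀ (by linarith) (by linarith)]
    linarith

variable {Y : Type} [MetricSpace Y]

theorem wi_nonneg (a y : Y) : 0 ≤ wi a y :=
  mul_nonneg (sq_nonneg _) (by linarith [max_le zero_le_one (min_le_left 1 (10 - dist y a))])

theorem wi_chi (a y : Y) : wi a y ≤ chi (dist y a) := by
  rcases le_total (dist y a) 10 with h | h
  · rw [chi_one h, wi, sm]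
    nlinarith [mul_nonneg (sq_nonneg (1 - max 0 (min 1 (10 - dist y a))))
      (le_max_left 0 (min 1 (10 - dist y a))), sq_nonneg (1 - max 0 (min 1 (10 - dist y a)))]
  · rw [wi, max_eq_left ((min_le_right _ _).trans (by linarith))]
    simpa [sm] using chi_nonneg _

variable [Fintype Y] {μ : Y → ℝ}

theorem blb_eq (b : Y) : blb μ b = blob μ b := by simp [blb, blob]

theorem bm_eq (a : Y) (r : ℝ) : bm μ a r = ∑ y, μ y * if dist y a ≤ r then 1 else 0 := by
  simp [bm, bal, dist_comm a]

omit [MetricSpace Y] in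
theorem le_of (hμ : ∀ y, 0 ≤ μ y) {f g : Y → ℝ} (h : ∀ y, f y ≤ g y) :
    ∑ y, μ y * f y ≤ ∑ y, μ y * g y :=
  sum_le_sum fun y _ => mul_le_mul_of_nonneg_left (h y) (hμ y)

theorem val_FF (hμ : ∀ y, 0 ≤ μ y) {a b : Y} (h : Val μ a b) : FF μ b ≤ mm μ a / 4 :=
  (le_mul_of_one_le_left (FF_nonneg hμ _) (le_add_of_nonneg_right dist_nonneg)).trans h.2.2

end EGeo

open EGeo CoreStep in
theorem geo : GeoStmt := by
  intro Y _ _ μ hμ
  refine ⟨mm_nonneg hμ, FF_nonneg hμ, fun b => ?_, fun a b h => blb_eq b ▸ mm_le hμ h,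
    fun a b h => ?_, fun a => ?_, fun a => ?_, fun a => le_of hμ (wi_chi a), fun b Z h => ?_,
    fun a b r h hr => ?_, fun a b => val_FF hμ, fun a b a' b' h h' hd => ?_,
    fun a b x h hx hd => ?_, fun S _ a ha b h => ?_, fun x h hx => ?_, fun x => ?_⟩
  · exact sum_nonneg fun y _ => ite_nonneg (hμ y) le_rfl
  · rw [blb_eq]
    refine le_of hμ fun y => ?_
    have := dist_triangle_right y a b
    split_ifs
    exacts [(chi_one (by linarith)).ge, chi_nonneg _]
  · rw [bm_eq]
    refine le_of hμ fun y => ?_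
    split_ifs with h
    exacts [chi_le _, (chi_zero (not_le.1 h).le).le]
  · rw [bm_eq]
    refine le_of hμ fun y => ?_
    split_ifs with h
    exacts [(chi_one h).ge, chi_nonneg _]
  · exact mass_le hμ Z (fun y => ff_nonneg dist_nonneg) fun y hy => one_le_ff (h y hy).1 (h y hy).2
  · rw [bm_eq]
    refine cmp hμ fun y => ?_
    have h1 := dist_triangle y a b
    have h2 := dist_triangle_right y a b
    split_ifs with h3
    · rcases le_total (dist y a) 10 with h4 | h4
      · rw [chi_one h4]
        exact le_add_of_nonneg_right (ff_nonneg dist_nonneg)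
      · exact le_add_of_nonneg_of_le (chi_nonneg _) (one_le_ff (by linarith) (by linarith))
    · exact add_nonneg (chi_nonneg _) (ff_nonneg dist_nonneg)
  · by_contra h0
    have h1 := h.1
    have h2 := h'.1
    have h3 := dist_triangle4 b a a' b'
    have h4 := dist_triangle4_right a a' b b'
    rw [dist_comm b a] at h3
    have h5 := blob_le hμ (b := b) (b' := b') (by linarith) (by linarith)
    rw [dist_comm b b'] at h3 h4
    have h6 := blob_le hμ (b := b') (b' := b) (by linarith) (by linarith)
    linarith [mm_le hμ h1, mm_le hμ h2, val_FF hμ h, val_FF hμ h', h.2.1]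
  · by_contra h0
    have h1 := h.1
    have h2 := dist_triangle x a b
    have h5 := blob_le hμ (b := x) (b' := b) (by linarith) (by linarith)
    rw [dist_comm x b] at h0 h2
    have h6 := blob_le hμ (b := b) (b' := x) (by linarith) (by linarith)
    linarith [mm_le hμ h1, mm_le hμ (a := x) (b := x) (by simp), val_FF hμ h, hx.1, hx.2]
  · rw [mul_sum]
    refine sum_le_sum fun y _ => ?_
    rw [mo, mul_assoc, mul_left_comm]
    refine mul_le_mul_of_nonneg_left ?_ (hμ y)
    have h1 : wi a y ≤ ∑ a ∈ S, wi a y := single_le_sum (fun c _ => wi_nonneg c y) ha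
    have h2 : 0 ≤ kap (dist y b) := by
      rw [kap]
      positivity
    have h3 := wi_nonneg a y
    rw [cd]
    rcases le_total (dist y b) 1 with h4 | h4
    · have h5 := dist_triangle_right y a b
      rw [wi, min_eq_left (by linarith), max_eq_right zero_le_one, sm] at h1
      nlinarith [ff_nonneg (dist_nonneg (x := y) (y := b))]
    · nlinarith [kap_ff h4]
  · have h1 : mm μ x / 50 < FF μ x := not_le.1 fun h1 => hx ⟨h, h1⟩
    have h2 : FF μ x ≤ ∑ y, μ y * (32768 * psi (dist y x)) := le_of hμ fun y => ff_psi dist_nonneg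
    simp only [mul_left_comm _ (32768 : ℝ), ← mul_sum] at h2
    rw [qq, if_pos (by exact h)]
    refine le_min (by norm_num) ((le_div_iff₀ (lt_of_lt_of_le (by norm_num) h)).2 ?_)
    linarith
  · rw [qq]
    exact ite_nonneg (le_min zero_le_one (div_nonneg (sum_nonneg fun y _ => mul_nonneg (hμ y)
      (le_min dist_nonneg (by positivity))) (mm_nonneg hμ x))) le_rfl

end Vale.Agent.P304
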