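import Vale.Agent.P304.StmtsE

/-! A logarithmic bound from a balance inequality, and weighted sums over the grid of radii. -/

namespace Vale.Agent.P304

open Finset
open scoped Classical

theorem logS : LogStmt := by
  refine ⟨8 * (10 ^ 8) ^ 2 + 5, by positivity,
    fun k ε ρ m M Q H hk hε hρ hρ1 hm hM hQ hQk hb hH hl => ?_⟩
  have hk' : (2 : ℝ) ≤ k := by exact_mod_cast hk
  obtain ⟨u, hu⟩ : ∃ u : ℝ, u = 1 / k := ⟨_, rfl⟩
  have hu0 : 0 < u := by rw [hu]; positivity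
  have huk : k * u = 1 := by rw [hu]; field_simp
  have hu2 : u ≤ 1 / 2 := by nlinarith
  have hε' : ε ≤ u ^ 2 := by rwa [hu, div_pow, one_pow]
  rw [← hu] at hl
  have hT0 : 0 < ρ ^ 5 := by positivity
  have hT1 : ρ ^ 5 ≤ 1 := pow_le_one₀ hρ.le hρ1
  have hQu : Q * u ≤ 10 ^ 8 := by nlinarith
  have key : Q * (ρ ^ 5 * (m + u)) ≤ 8 * (10 ^ 8) ^ 2 * M := by
    generalize ρ ^ 5 = T at *
    have e1 : Q * (T * m) ≤ 10 ^ 8 * M + 10 ^ 8 * (Q * u) * u := by
      have h1 := mul_le_mul_of_nonneg_left hb hQ.le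
      have h2 : Q * (10 ^ 8 * (M / Q + ε)) = 10 ^ 8 * M + 10 ^ 8 * (Q * ε) := by
        field_simp
      have h3 := mul_le_mul_of_nonneg_left hε' hQ.le
      linarith
    have e2 : Q * u * u ≤ 10 ^ 8 * (1 / 2) := mul_le_mul hQu hu2 hu0.le (by positivity)
    have e3 : Q * u * T ≤ 10 ^ 8 * 1 := mul_le_mul hQu hT1 hT0.le (by positivity)
    linarith
  have hM0 : 0 < M := by linarith
  have hmu : 0 < m + u := by positivity
  have h1 : Real.log Q ≤ Real.log (8 * (10 ^ 8) ^ 2 * (ρ⁻¹ ^ 5 * (M / (m + u)))) := by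
    refine Real.log_le_log hQ ?_
    have : (8 * (10 ^ 8) ^ 2 * (ρ⁻¹ ^ 5 * (M / (m + u))) : ℝ) =
        8 * (10 ^ 8) ^ 2 * M / (ρ ^ 5 * (m + u)) := by
      field_simp
    rw [this, le_div_iff₀ (by positivity)]
    exact key
  rw [Real.log_mul (by positivity) (by positivity),
    Real.log_mul (x := ρ⁻¹ ^ 5) (by positivity) (by positivity), Real.log_pow] at h1
  have h2 := Real.log_le_sub_one_of_pos (show (0 : ℝ) < 8 * (10 ^ 8) ^ 2 by positivity)
  have h3 := Real.log_le_sub_one_of_pos (inv_pos.2 hρ)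
  rw [le_div_iff₀ hρ]
  have h5 := mul_le_mul_of_nonneg_right h1 hρ.le
  have h6 := mul_le_mul_of_nonneg_right h2 hρ.le
  have h7 := mul_le_mul_of_nonneg_right h3 hρ.le
  rw [sub_mul, inv_mul_cancel₀ hρ.ne'] at h7
  push_cast at h5
  generalize Real.log (8 * (10 ^ 8) ^ 2) = a at *
  generalize Real.log ρ⁻¹ = b at *
  generalize Real.log (M / (m + u)) = c at *
  linarith

namespace GridAux

/-- indicator of a range of radii, divided by the number of radii per unit -/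
noncomputable def w (P : Par) (α β : ℝ) (j : ℕ) : ℝ :=
  if α < P.r j ∧ P.r j ≤ β then 1 / P.N else 0

lemma w_nonneg (P : Par) (α β : ℝ) (j : ℕ) : 0 ≤ w P α β j := by
  unfold w
  split_ifs <;> positivity

lemma cnt (P : Par) (hN : 0 < (P.N : ℝ)) {α β : ℝ} (h : α ≤ β) :
    ∑ j ∈ P.I, w P α β j ≤ β - α + 1 / P.N := by
  unfold w
  rw [← sum_filter, sum_const, nsmul_eq_mul]
  have h1 : (P.I.filter fun j => α < P.r j ∧ P.r j ≤ β).card ≤
      (Ioc ⌊α * P.N⌋ ⌊β * P.N⌋).card := by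
    refine card_le_card_of_injOn (fun j => (j : ℤ)) (fun j hj => ?_)
      fun a _ b _ hab => Nat.cast_injective hab
    obtain ⟨-, h2, h3⟩ := mem_filter.1 hj
    rw [Par.r, lt_div_iff₀ hN] at h2
    rw [Par.r, div_le_iff₀ hN] at h3
    exact mem_coe.2 (mem_Ioc.2 ⟨Int.floor_lt.2 (by exact_mod_cast h2),
      Int.le_floor.2 (by exact_mod_cast h3)⟩)
  have h2 : ⌊α * P.N⌋ ≤ ⌊β * P.N⌋ := Int.floor_mono (mul_le_mul_of_nonneg_right h hN.le)
  have h3 : ((P.I.filter fun j => α < P.r j ∧ P.r j ≤ β).card : ℤ) ≤ ⌊β * P.N⌋ - ⌊α * P.N⌋ := by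
    rw [← Int.card_Ioc_of_le _ _ h2]
    exact_mod_cast h1
  have h4 : ((P.I.filter fun j => α < P.r j ∧ P.r j ≤ β).card : ℝ) ≤
      (⌊β * P.N⌋ : ℝ) - ⌊α * P.N⌋ := by exact_mod_cast h3
  have h5 := Int.floor_le (β * P.N)
  have h6 := Int.lt_floor_add_one (α * P.N)
  rw [mul_one_div, div_le_iff₀ hN, add_mul, one_div_mul_cancel hN.ne']
  linarith

lemma shift (n i : ℕ) (v : ℕ → ℝ) (h0 : v 0 = 0) (h : ∀ j ∈ Icc 1 n, 0 ≤ v j) :
    ∑ j ∈ Icc 1 n, v (j - i) ≤ ∑ j ∈ Icc 1 n, v j := by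
  rw [← sum_filter_of_ne (p := fun j => i < j) fun j _ hj => by
    by_contra h1
    exact hj (by rw [Nat.sub_eq_zero_of_le (not_lt.1 h1), h0])]
  rw [← sum_image (g := fun j => j - i) (f := v) fun a ha b hb hab => by
    have h1 := (mem_filter.1 ha).2
    have h2 := (mem_filter.1 hb).2
    simp only at hab
    omega]
  refine sum_le_sum_of_subset_of_nonneg (fun j hj => ?_) fun j hj _ => h j hj
  obtain ⟨a, ha, rfl⟩ := mem_image.1 hj
  have h1 := mem_filter.1 ha
  have h2 := mem_Icc.1 h1.1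
  exact mem_Icc.2 ⟨by omega, by omega⟩

lemma r_mem (P : Par) (hN : 0 < (P.N : ℝ)) {j : ℕ} (hj : j ∈ P.I) : 0 < P.r j ∧ P.r j ≤ 3 := by
  obtain ⟨h1, h2⟩ := mem_Icc.1 hj
  refine ⟨div_pos (by exact_mod_cast h1) hN, ?_⟩
  rw [Par.r, div_le_iff₀ hN]
  exact_mod_cast h2

end GridAux

open GridAux

set_option linter.unusedVariables false in
theorem grid (hE : EBasicStmt) : GridStmt := by
  refine ⟨1800, by norm_num, fun P A ℓ e Λ H hN hA h1 h2 h3 h4 hΛ hH h5 h6 => ?_⟩
  have hN' : (0 : ℝ) < P.N := by exact_mod_cast (by omega : 0 < P.N)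
  obtain ⟨u, hu⟩ : ∃ u : ℝ, u = 1 / P.N := ⟨_, rfl⟩
  have hu0 : 0 < u := by rw [hu]; positivity
  have hul : 16 * u ≤ ℓ := by rwa [hu, mul_one_div]
  have hl0 : 0 < ℓ := by linarith
  have he0 : 0 < e := by linarith
  have hg : ∀ j, P.g j = P.r j ^ 2 * u := fun j => by rw [Par.g, hu, mul_one_div]
  have hw : ∀ α β j, α < P.r j → P.r j ≤ β → w P α β j = u := fun α β j a b => by
    rw [w, if_pos ⟨a, b⟩, hu]
  have hc : ∀ α β, α ≤ β → ∑ j ∈ P.I, w P α β j ≤ β - α + u := fun α β h => hu ▸ cnt P hN' h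
  have hK : ∀ ρ R, ℓ / 4 ≤ ρ → ρ ≤ R → e ≤ R → ρ * A ρ ≤ R * H / e := fun ρ R a b c => by
    have hρ : 0 < ρ := by linarith
    rw [le_div_iff₀ he0]
    rcases le_total ρ e with h | h
    · have := mul_le_mul_of_nonneg_right ((le_div_iff₀ hρ).1 (h6 ρ a h)) he0.le
      linarith [mul_le_mul_of_nonneg_right c hH]
    · have := mul_le_mul_of_nonneg_left
        ((le_div_iff₀ he0).1 ((hA h).trans (h6 e (by linarith) le_rfl))) hρ.le
      linarith [mul_le_mul_of_nonneg_right b hH]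
  have hS : ∀ j (β : ℝ), 0 < P.r j → P.r j ≤ β → P.g j * A (P.r j) ≤ β ^ 2 * Λ * u :=
    fun j β a b => by
      rw [hg, mul_right_comm]
      exact mul_le_mul_of_nonneg_right ((mul_le_mul_of_nonneg_left ((hA a.le).trans h5)
        (sq_nonneg _)).trans (mul_le_mul_of_nonneg_right (pow_le_pow_left₀ a.le b 2) hΛ)) hu0.le
  refine ⟨?_, fun c R R' a0 c0 c1 r0 r1 r2 r3 => ?_⟩
  · have k1 : ∀ j ∈ P.I, e * (P.g j * A (P.r j)) ≤ ℓ ^ 2 * Λ * w P 0 ℓ j + 9 * H * w P 0 3 j := by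
      intro j hj
      obtain ⟨b0, b1⟩ := r_mem P hN' hj
      rcases le_total (P.r j) ℓ with h | h
      · have b2 := mul_le_mul_of_nonneg_left (hS j ℓ b0 h) he0.le
        have b3 : e * (ℓ ^ 2 * Λ * u) ≤ 1 * (ℓ ^ 2 * Λ * u) :=
          mul_le_mul_of_nonneg_right h4 (by positivity)
        have b4 : 0 ≤ 9 * H * w P 0 3 j := mul_nonneg (by positivity) (w_nonneg _ _ _ _)
        rw [hw _ _ _ b0 h]
        linarith
      · have b2 := (le_div_iff₀ he0).1 (hK (P.r j) 3 (by linarith) b1 (by linarith))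
        have b3 := mul_le_mul_of_nonneg_left b2 (mul_nonneg b0.le hu0.le)
        have b4 : 0 ≤ ℓ ^ 2 * Λ * w P 0 ℓ j := mul_nonneg (by positivity) (w_nonneg _ _ _ _)
        have b5 := mul_le_mul_of_nonneg_right b1 (mul_nonneg hu0.le hH)
        rw [hw _ _ _ b0 b1, hg]
        linarith
    have k2 := sum_le_sum k1
    rw [← mul_sum, sum_add_distrib, ← mul_sum, ← mul_sum] at k2
    have k3 := mul_le_mul_of_nonneg_left ((hc 0 ℓ hl0.le).trans (show _ ≤ (1 : ℝ) by linarith))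
      (show 0 ≤ ℓ ^ 2 * Λ by positivity)
    have k4 := mul_le_mul_of_nonneg_left ((hc 0 3 (by norm_num)).trans
      (show _ ≤ (4 : ℝ) by linarith)) (show 0 ≤ 9 * H by positivity)
    have k5 : ℓ * (ℓ * Λ) ≤ 1 * (ℓ * Λ) := mul_le_mul_of_nonneg_right (by linarith) (by positivity)
    have k6 : 0 ≤ ℓ * Λ := by positivity
    linarith
  · obtain ⟨i, hi⟩ : ∃ i : ℕ, i = ⌈ℓ * P.N⌉₊ := ⟨_, rfl⟩
    have hNu : P.N * u = 1 := by rw [hu]; field_simp
    have i1 : ℓ ≤ i * u := by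
      have := mul_le_mul_of_nonneg_right (Nat.le_ceil (ℓ * P.N)) hu0.le
      rwa [← hi, mul_assoc, hNu, mul_one] at this
    have i2 : i * u ≤ ℓ + u := by
      have := mul_le_mul_of_nonneg_right
        (Nat.ceil_lt_add_one (show 0 ≤ ℓ * P.N by positivity)).le hu0.le
      rwa [← hi, add_mul, mul_assoc, hNu, mul_one, one_mul] at this
    have hr : ∀ j : ℕ, P.r j = j * u := fun j => by rw [Par.r, hu, mul_one_div]
    obtain ⟨v, hv⟩ : ∃ v : ℕ → ℝ, ∀ j, v j = if P.r j ≤ R' then P.g j * A (P.r j + ℓ) else 0 :=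
      ⟨_, fun _ => rfl⟩
    have v0 : ∀ j, P.r j ≤ 3 → 0 ≤ v j := fun j hj => by
      rw [hv]
      split_ifs
      · exact mul_nonneg (by rw [hg]; positivity) (a0.trans (hA (by linarith)))
      · exact le_rfl
    have v1 : ∑ j ∈ P.I, v (j - i) ≤ ∑ j ∈ P.I, v j :=
      shift _ i v (by simp [hv, hg, hr]) fun j hj => v0 j (r_mem P hN' hj).2
    obtain ⟨B, hB⟩ : ∃ B, B = R * H / e := ⟨_, rfl⟩
    have hR : 0 < R := by linarith
    have B0 : 0 ≤ B := by rw [hB]; positivity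
    have k1 : ∀ j ∈ P.I, (if P.r j ≤ R then P.g j * A (P.r j) else 0) - v (j - i) ≤
        (2 * ℓ) ^ 2 * Λ * w P 0 (2 * ℓ) j + 3 * ℓ * B * w P 0 R j +
          R * B * w P (R - 2 * ℓ) R j := by
      intro j hj
      obtain ⟨b0, b1⟩ := r_mem P hN' hj
      have p0 : 0 ≤ v (j - i) := v0 _ (le_trans (by
        rw [hr, hr]
        exact mul_le_mul_of_nonneg_right (Nat.cast_le.2 (Nat.sub_le j i)) hu0.le) b1)
      have p1 : 0 ≤ (2 * ℓ) ^ 2 * Λ * w P 0 (2 * ℓ) j :=
        mul_nonneg (by positivity) (w_nonneg _ _ _ _)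
      have p2 : 0 ≤ 3 * ℓ * B * w P 0 R j := mul_nonneg (by positivity) (w_nonneg _ _ _ _)
      have p3 : 0 ≤ R * B * w P (R - 2 * ℓ) R j := mul_nonneg (by positivity) (w_nonneg _ _ _ _)
      split_ifs with hjR
      · rcases le_or_gt (P.r j) (2 * ℓ) with h | h
        · have := hS j _ b0 h
          rw [hw _ _ _ b0 h]
          linarith
        · have q1 := hK (P.r j) R (by linarith) hjR r0
          rw [← hB] at q1
          rcases lt_or_ge (R - 2 * ℓ) (P.r j) with h' | h'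
          · have q2 := mul_le_mul_of_nonneg_left q1 (mul_nonneg b0.le hu0.le)
            have q3 := mul_le_mul_of_nonneg_right hjR (mul_nonneg hu0.le B0)
            rw [hw _ _ _ h' hjR, hg]
            linarith
          · have q2 : i ≤ j := by
              have : (i : ℝ) * u ≤ j * u := by rw [← hr j]; linarith
              exact_mod_cast le_of_mul_le_mul_right this hu0
            have q3 : P.r (j - i) = P.r j - i * u := by rw [hr, hr, Nat.cast_sub q2, sub_mul]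
            have q4 : 0 ≤ A (P.r j) := a0.trans (hA (by linarith))
            have q5 : A (P.r j) ≤ A (P.r (j - i) + ℓ) := hA (by linarith)
            have q6 := mul_le_mul_of_nonneg_left q5 (show 0 ≤ P.g (j - i) by rw [hg]; positivity)
            rw [hv, if_pos (by linarith), hw 0 R j b0 hjR]
            have q7 : P.g j - P.g (j - i) ≤ 3 * ℓ * u * P.r j := by
              rw [hg, hg, q3]
              have := mul_le_mul_of_nonneg_right (show i * u ≤ 3 / 2 * ℓ by linarith) b0.le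
              have : P.r j ^ 2 - (P.r j - i * u) ^ 2 ≤ 3 * ℓ * P.r j := by
                linarith [sq_nonneg (i * u)]
              linarith [mul_le_mul_of_nonneg_right this hu0.le]
            have q8 := mul_le_mul_of_nonneg_right q7 q4
            have q9 := mul_le_mul_of_nonneg_left q1 (show 0 ≤ 3 * ℓ * u by positivity)
            linarith
      · linarith
    have k2 := sum_le_sum k1
    rw [sum_sub_distrib, sum_add_distrib, sum_add_distrib, ← mul_sum, ← mul_sum, ← mul_sum] at k2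
    have k3 := mul_le_mul_of_nonneg_left ((hc 0 (2 * ℓ) (by linarith)).trans
      (show _ ≤ (1 : ℝ) by linarith)) (show 0 ≤ (2 * ℓ) ^ 2 * Λ by positivity)
    have k4 := mul_le_mul_of_nonneg_left ((hc 0 R hR.le).trans
      (show _ ≤ 2 * R by linarith)) (show 0 ≤ 3 * ℓ * B by positivity)
    have k5 := mul_le_mul_of_nonneg_left ((hc (R - 2 * ℓ) R (by linarith)).trans
      (show _ ≤ 3 * ℓ by linarith)) (show 0 ≤ R * B by positivity)
    have k6 : c * (R * B) ≤ 200 * e * H := by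
      rw [hB, ← mul_div_assoc, ← mul_div_assoc, div_le_iff₀ he0]
      linarith [mul_le_mul_of_nonneg_right r3 hH]
    simp only [← hv]
    have k7 : ∑ j ∈ P.I, (if P.r j ≤ R then P.g j * A (P.r j) else 0) - ∑ j ∈ P.I, v j ≤
        4 * (Λ * ℓ ^ 2) + 9 * ℓ * (R * B) := by linarith
    have k8 := mul_le_mul_of_nonneg_left k7 c0
    have k9 := mul_le_mul_of_nonneg_right c1 (show 0 ≤ Λ * ℓ ^ 2 by positivity)
    have k10 := mul_le_mul_of_nonneg_left k6 hl0.le
    have k11 : 0 ≤ Λ * ℓ ^ 2 := by positivity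
    linarith

end Vale.Agent.P304
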