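import Vale.Agent.P304.StmtsE

/-! Removing an invalid core and creating a new core. -/

namespace Vale.Agent.P304

open Finset
open scoped Classical

namespace Kill

lemma log_cmp {δ A A' u v : ℝ} (hδ : 0 < δ) (hu : 0 ≤ u) (hv : 0 ≤ v) (hA : 0 < A) (hA' : 0 < A')
    (h : A * (v + δ) ≤ 84 * A' * (u + δ)) :
    Real.log (A / (u + δ)) ≤ Real.log (A' / (v + δ)) + 9 / 2 := by
  have h1 : A / (u + δ) ≤ 84 * (A' / (v + δ)) := by
    rw [← mul_div_assoc, div_le_div_iff₀ (by linarith) (by linarith)]
    exact h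
  have h2 := Real.log_le_log (by positivity) h1
  rw [Real.log_mul (by norm_num) (by positivity)] at h2
  have h3 : Real.log 84 ≤ 9 / 2 := by
    have e : (84 : ℝ) = 2 ^ 6 * (21 / 16) := by norm_num
    have h4 := Real.log_le_sub_one_of_pos (show (0 : ℝ) < 21 / 16 by norm_num)
    have h5 := Real.log_two_lt_d9
    rw [e, Real.log_mul (by norm_num) (by norm_num), Real.log_pow]
    push_cast
    linarith
  linarith

variable {Y : Type} [Fintype Y] [MetricSpace Y] {P : Par}

/-- the weight which is inserted when the core `a` is removed -/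
noncomputable def ins (w p : Y → ℝ) (a b : Y) (c : Y) : ℝ :=
  Ref w b * (bal p a 13 c + if c = b then 1 else 0)

omit [Fintype Y] in
lemma bal_nonneg {p : Y → ℝ} (hp : ∀ c, 0 ≤ p c) (a : Y) (r : ℝ) (c : Y) : 0 ≤ bal p a r c := by
  unfold bal
  split_ifs
  · exact hp c
  · exact le_rfl

lemma ins_nonneg (E : EFacts P Y) {w p : Y → ℝ} (hw : Pos w) (hp : Simplex p) (a b c : Y) :
    0 ≤ ins w p a b c :=
  mul_nonneg (E.Ref_pos w b hw).le (add_nonneg (bal_nonneg hp.1 _ _ _) (by split_ifs <;> norm_num))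

lemma pos_ins (E : EFacts P Y) {w p : Y → ℝ} (hw : Pos w) (hp : Simplex p) (a b : Y) :
    Pos fun c => w c + ins w p a b c :=
  fun c => add_pos_of_pos_of_nonneg (hw c) (ins_nonneg E hw hp a b c)

lemma rel_ins (E : EFacts P Y) (w p : Y → ℝ) {a b y : Y} (hb : dist a b ≤ 8) (hy : 16 < dist y a) :
    rel P w (fun c => w c + ins w p a b c) y = 0 := by
  refine E.rel_congr _ _ _ fun c hc => ?_
  have h1 : 13 < dist a c := by
    have := dist_triangle_right y a c
    linarith
  have h2 : c ≠ b := by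
    rintro rfl
    linarith
  simp [ins, bal, h2, not_le.mpr h1]

lemma Ref_ins_le (E : EFacts P Y) {w p : Y → ℝ} (hw : Pos w) (hp : Simplex p) (a b y : Y) {K : ℝ}
    (hK : 0 ≤ K) (h : ∀ c, dist a c ≤ 13 → kap (dist y c) ≤ K) :
    Ref (ins w p a b) y ≤ Ref w b * (K + kap (dist y b)) := by
  have e : Ref (ins w p a b) y =
      Ref w b * (∑ c, bal p a 13 c * kap (dist y c) + kap (dist y b)) := by
    rw [Ref]
    unfold ins
    simp only [mul_assoc, ← mul_sum, add_mul, sum_add_distrib, ite_mul, one_mul, zero_mul,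
      sum_ite_eq', mem_univ, if_true]
  have h1 : ∑ c, bal p a 13 c * kap (dist y c) ≤ ∑ c, p c * K := by
    refine sum_le_sum fun c _ => ?_
    unfold bal
    split_ifs with hc
    · exact mul_le_mul_of_nonneg_left (h c hc) (hp.1 c)
    · rw [zero_mul]
      exact mul_nonneg (hp.1 c) hK
  rw [← sum_mul, hp.2, one_mul] at h1
  rw [e]
  exact mul_le_mul_of_nonneg_left (by linarith) (E.Ref_pos w b hw).le

lemma Ref_ins (E : EFacts P Y) {w p : Y → ℝ} (hw : Pos w) (hp : Simplex p) {a b : Y}
    (hb : dist a b ≤ 8) (y : Y) : Ref (ins w p a b) y ≤ 23 * Ref w b * kap (dist y b) := by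
  have h0 := E.kap_pos _ (dist_nonneg (x := y) (y := b))
  refine (Ref_ins_le E hw hp a b y (K := (1 + 21) * kap (dist y b)) (by positivity)
    fun c hc => ?_).trans (le_of_eq (by ring))
  refine E.kap_shift _ _ _ dist_nonneg dist_nonneg (by norm_num) ?_
  have h1 := dist_triangle y c b
  have h2 := dist_triangle_left c b a
  linarith

/-- the outer potential grows little when the weight is inserted -/
lemma harm (E : EFacts P Y) {μ w p : Y → ℝ} (G : Geo μ) (hμ : ∀ y, 0 ≤ μ y) {S : Finset Y}
    (hS : Sep S) {a b : Y} (ha : a ∈ S) (hw : Pos w) (hp : Simplex p) (hb : dist a b ≤ 8)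
    (K : KKT P (mo μ S) w) :
    ∑ y, mo μ S y * (vv P w y * Ref (ins w p a b) y / Ref w y) ≤ 2900 * FF μ b + 46 * P.ε := by
  have h1 : ∑ y, mo μ S y * (vv P w y * Ref (ins w p a b) y / Ref w y) ≤
      23 * (Ref w b * Kv P (mo μ S) w b) := by
    unfold Kv
    rw [mul_sum, mul_sum]
    refine sum_le_sum fun y _ => ?_
    have h2 : 0 ≤ mo μ S y := mul_nonneg (hμ y) (E.cd_nonneg S y hS)
    have h3 := E.vv_nonneg w y hw
    have h4 := E.Ref_pos w y hw
    calc mo μ S y * (vv P w y * Ref (ins w p a b) y / Ref w y)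
        ≤ mo μ S y * (vv P w y * (23 * Ref w b * kap (dist y b)) / Ref w y) := by
          have := Ref_ins E hw hp hb y
          gcongr
      _ = _ := by ring
  have h2 := K.glob b
  have h3 := G.kap_mo S hS a ha b hb
  have h4 := G.FF_nonneg b
  linarith

/-- near the removed core the new outer potential is bounded by the inner one -/
lemma phi_ins (E : EFacts P Y) {w p : Y → ℝ} (hw : Pos w) (hp : Simplex p) {a b y : Y}
    (hb : dist a b ≤ 8) (hy : dist y a < 10) :
    phi P (fun c => w c + ins w p a b c) y ≤ pin P b p y + 122 := by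
  have hw' := pos_ins E hw hp a b
  have hτ := E.Ref_pos w b hw
  have hR := E.Ref_pos _ y hw'
  have hδ := E.δ_pos
  have r1 : Ref (fun c => w c + ins w p a b c) y ≤ 21 * Ref w b := by
    rw [E.Ref_add]
    have h1 := E.Ref_lip w y b fun c => (hw c).le
    have h2 := Ref_ins_le E hw hp a b y zero_le_one fun c _ => E.kap_le _ dist_nonneg
    have h3 := E.kap_le _ (dist_nonneg (x := y) (y := b))
    have h4 := dist_triangle y a b
    nlinarith
  have key : ∀ r v : ℝ, 0 ≤ v → Ref w b * v ≤ bm (fun c => w c + ins w p a b c) y r →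
      Real.log ((4 + P.δ) / (bm (fun c => w c + ins w p a b c) y r /
        Ref (fun c => w c + ins w p a b c) y + P.δ)) ≤
        Real.log ((1 + P.δ) / (v + P.δ)) + 9 / 2 := by
    intro r v hv h
    have h0 := E.bm_nonneg _ y r fun c => (hw' c).le
    generalize bm (fun c => w c + ins w p a b c) y r = B at *
    generalize Ref (fun c => w c + ins w p a b c) y = R at *
    have h1 : v ≤ 21 * (B / R) := by
      rw [← mul_div_assoc, le_div_iff₀ hR]
      nlinarith
    have h2 : 0 ≤ B / R := by positivity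
    refine log_cmp hδ h2 hv (by linarith) (by linarith) ?_
    calc (4 + P.δ) * (v + P.δ) ≤ (4 * (1 + P.δ)) * (21 * (B / R + P.δ)) :=
          mul_le_mul (by linarith) (by linarith) (by linarith) (by linarith)
      _ = _ := by ring
  have main : phi P (fun c => w c + ins w p a b c) y ≤ pin P b p y + ∑ j ∈ P.I, P.g j * (9 / 2) := by
    unfold phi pin
    rw [← sum_add_distrib]
    refine sum_le_sum fun j hj => ?_
    have g0 := E.g_nonneg j
    have r3 := E.r_le j hj
    have r0 := E.r_pos j hj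
    split_ifs with hc
    · rw [← mul_add]
      refine mul_le_mul_of_nonneg_left (key _ _ (E.bm_nonneg p y _ hp.1) ?_) g0
      rw [← E.bm_smul]
      refine E.bm_mono_w _ _ _ _ fun c hc' => ?_
      have h1 : dist a c ≤ 13 := by
        have := dist_triangle_left a c y
        linarith
      have h2 : 0 ≤ Ref w b * if c = b then 1 else 0 :=
        mul_nonneg hτ.le (by split_ifs <;> norm_num)
      have h3 := hw c
      unfold ins bal
      rw [if_pos h1, mul_add]
      linarith
    · rw [zero_add]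
      refine mul_le_mul_of_nonneg_left ?_ g0
      have h1 := key (P.r j) 1 zero_le_one (by
        have h2 : dist y b ≤ P.r j := by
          have := dist_nonneg (x := y) (y := b)
          linarith
        have h3 := E.bm_single b y (P.r j)
        rw [if_pos h2] at h3
        rw [← h3, ← E.bm_smul]
        refine E.bm_mono_w _ _ _ _ fun c _ => ?_
        have h4 : 0 ≤ Ref w b * bal p a 13 c := mul_nonneg hτ.le (bal_nonneg hp.1 _ _ _)
        have h5 := hw c
        unfold ins
        rw [mul_add]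
        linarith)
      rwa [div_self (by linarith), Real.log_one, zero_add] at h1
  rw [← sum_mul] at main
  linarith [E.sum_g]

/-- normalised restriction of the weights to a ball -/
noncomputable def po (w : Y → ℝ) (x : Y) (c : Y) : ℝ := (bm w x 13)⁻¹ * bal w x 13 c

lemma po_simplex (E : EFacts P Y) {w : Y → ℝ} (hw : Pos w) (x : Y) : Simplex (po w x) := by
  have h := E.bm_pos w x 13 hw (by norm_num)
  refine ⟨fun c => mul_nonneg (inv_nonneg.mpr h.le) (bal_nonneg (fun c => (hw c).le) _ _ _), ?_⟩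
  unfold po
  rw [← mul_sum]
  exact inv_mul_cancel₀ h.ne'

lemma bm_po (E : EFacts P Y) {w : Y → ℝ} (hw : Pos w) {x y : Y} (hy : dist y x < 10) {r : ℝ}
    (hr : r ≤ 3) : bm w y r / Ref w y ≤ 24 * bm (po w x) y r := by
  have h0 := E.bm_pos w x 13 hw (by norm_num)
  have hR := E.Ref_pos w y hw
  have h1 : bm w x 13 ≤ (1 + 23) * Ref w y :=
    (E.bm_mono w x y 13 23 (fun c => (hw c).le) (by rw [dist_comm]; linarith)).trans
      (E.bm_le_Ref w y 23 (fun c => (hw c).le) (by norm_num))
  have h2 : (bm w x 13)⁻¹ * bm w y r ≤ bm (po w x) y r := by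
    rw [← E.bm_smul]
    refine E.bm_mono_w _ _ _ _ fun c hc => ?_
    have h3 : dist x c ≤ 13 := by
      have := dist_triangle_left x c y
      linarith
    unfold po bal
    rw [if_pos h3]
  have h3 := E.bm_nonneg w y r fun c => (hw c).le
  have h4 : bm w y r / Ref w y ≤ 24 * ((bm w x 13)⁻¹ * bm w y r) := by
    rw [← div_eq_inv_mul, ← mul_div_assoc, div_le_div_iff₀ hR h0]
    nlinarith
  linarith

lemma pin_po (E : EFacts P Y) {w : Y → ℝ} (hw : Pos w) {x y : Y} (b : Y) (hy : dist y x < 10) :
    pin P b (po w x) y ≤ phi P w y + 122 := by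
  have hδ := E.δ_pos
  have hR := E.Ref_pos w y hw
  have main : pin P b (po w x) y ≤ phi P w y + ∑ j ∈ P.I, P.g j * (9 / 2) := by
    unfold phi pin
    rw [← sum_add_distrib]
    refine sum_le_sum fun j hj => ?_
    have g0 := E.g_nonneg j
    have r3 := E.r_le j hj
    have r0 := E.r_pos j hj
    have s0 : 0 ≤ bm w y (P.r j) / Ref w y :=
      div_nonneg (E.bm_nonneg w y _ fun c => (hw c).le) hR.le
    rw [← mul_add]
    split_ifs with hc
    · refine mul_le_mul_of_nonneg_left ?_ g0
      have h1 := bm_po E hw hy r3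
      have h2 := E.bm_nonneg _ y (P.r j) (po_simplex E hw x).1
      refine log_cmp hδ h2 s0 (by linarith) (by linarith) ?_
      calc (1 + P.δ) * (bm w y (P.r j) / Ref w y + P.δ) ≤
            (4 + P.δ) * (84 * (bm (po w x) y (P.r j) + P.δ)) :=
            mul_le_mul (by linarith) (by linarith) (by linarith) (by linarith)
        _ = _ := by ring
    · refine mul_nonneg g0 (add_nonneg (Real.log_nonneg ?_) (by norm_num))
      have h1 : bm w y (P.r j) / Ref w y ≤ 4 := by
        rw [div_le_iff₀ hR]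
        have := E.bm_le_Ref w y (P.r j) (fun c => (hw c).le) r0.le
        nlinarith
      rw [le_div_iff₀ (by linarith)]
      linarith
  rw [← sum_mul] at main
  linarith [E.sum_g]

omit [Fintype Y] in
lemma cd_erase {S : Finset Y} {a : Y} (ha : a ∈ S) (y : Y) :
    cd (S.erase a) y = cd S y + wi a y := by
  unfold cd
  rw [← add_sum_erase S _ ha]
  ring

omit [Fintype Y] in
lemma cd_insert {S : Finset Y} {x : Y} (hx : x ∉ S) (y : Y) :
    cd (insert x S) y = cd S y - wi x y := by
  unfold cd
  rw [sum_insert hx]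
  ring

lemma sum_wi_le (E : EFacts P Y) {μ : Y → ℝ} (G : Geo μ) (hμ : ∀ y, 0 ≤ μ y) (a : Y)
    {f g : Y → ℝ} {c : ℝ} (hc : 0 ≤ c) (h : ∀ y, dist y a < 10 → f y ≤ g y + c) :
    ∑ y, μ y * wi a y * f y ≤ ∑ y, μ y * wi a y * g y + c * mm μ a := by
  have h1 : ∑ y, μ y * wi a y * f y ≤ ∑ y, (μ y * wi a y * g y + c * (μ y * wi a y)) := by
    refine sum_le_sum fun y _ => ?_
    rcases lt_or_ge (dist y a) 10 with hy | hy
    · have := mul_le_mul_of_nonneg_left (h y hy) (mul_nonneg (hμ y) (E.wi_nonneg a y))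
      linarith
    · simp [E.wi_zero a y hy]
  rw [sum_add_distrib, ← mul_sum] at h1
  linarith [mul_le_mul_of_nonneg_left (G.wi_le_mm a) hc]

end Kill

theorem kill (hE : EBasicStmt) (hG : GeoStmt) (hO : OptStmt) : KillStmt := by
  intro P Y _ _ hP μ w S a hμ hS ha hw K hV
  have E := hE P Y hP
  have G := hG Y μ hμ
  obtain ⟨hb, hp, -⟩ := hO P Y hP μ a
  refine ⟨fun c => w c + Kill.ins w (op P μ a).2 a (op P μ a).1 c, Kill.pos_ins E hw hp _ _,
    fun y hy => Kill.rel_ins E _ _ hb hy, ?_⟩
  unfold Pot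
  rw [← add_sum_erase S _ ha]
  unfold th2 JJ
  generalize (op P μ a).1 = b at *
  generalize (op P μ a).2 = p at *
  have h1 : Out P (mo μ (S.erase a)) (fun c => w c + Kill.ins w p a b c) ≤ Out P (mo μ S) w +
      ∑ y, mo μ S y * (vv P w y * Ref (Kill.ins w p a b) y / Ref w y) +
      ∑ y, μ y * wi a y * phi P (fun c => w c + Kill.ins w p a b c) y := by
    unfold Out
    rw [← sum_add_distrib, ← sum_add_distrib]
    refine sum_le_sum fun y _ => ?_
    have h2 := mul_le_mul_of_nonneg_left (E.phi_add w _ y hw (Kill.ins_nonneg E hw hp a b))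
      (mul_nonneg (hμ y) (E.cd_nonneg S y hS))
    unfold mo
    rw [Kill.cd_erase ha]
    linarith
  have h2 := Kill.harm E G hμ hS ha hw hp hb K
  have h3 := Kill.sum_wi_le E G hμ a (by norm_num) fun y hy => Kill.phi_ins E hw hp hb hy
  have h4 := G.bm_le a b 16 hb (by norm_num)
  have h5 := G.FF_nonneg b
  have h6 := G.mm_nonneg a
  have h7 := hP.ε_pos
  have h8 : 0 ≤ dist a b * FF μ b := mul_nonneg dist_nonneg h5
  have h9 : 0 ≤ dist a b * P.ε := mul_nonneg dist_nonneg h7.le
  have h10 : mm μ a < 1 / 4 ∨ mm μ a / 4 < (1 + dist a b) * FF μ b := by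
    by_contra hc
    rw [not_or, not_lt, not_lt] at hc
    exact hV ⟨hb, hc.1, hc.2⟩
  rcases h10 with h10 | h10 <;> linarith

theorem birth (hE : EBasicStmt) (hG : GeoStmt) (hO : OptStmt) : BirthStmt := by
  intro P Y _ _ hP μ w S x hμ _ hw hH hfar
  have E := hE P Y hP
  have G := hG Y μ hμ
  have hx : x ∉ S := fun h => by
    have := hfar x h
    rw [dist_self] at this
    linarith
  have h1 := (hO P Y hP μ x).2.2 x _ (by simp) (Kill.po_simplex E hw x)
  have h2 : Out P (mo μ (insert x S)) w = Out P (mo μ S) w - ∑ y, μ y * wi x y * phi P w y := by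
    unfold Out mo
    rw [← sum_sub_distrib]
    refine sum_congr rfl fun y _ => ?_
    rw [Kill.cd_insert hx]
    ring
  have h3 := Kill.sum_wi_le E G hμ x (by norm_num) fun y hy => Kill.pin_po E hw x hy
  have h4 := G.bm_le x x 16 (by simp) (by norm_num)
  have h5 : JJ P μ x x (Kill.po w x) =
      4000000 * (FF μ x + P.ε) + ∑ y, μ y * wi x y * pin P x (Kill.po w x) y := by
    unfold JJ
    rw [dist_self, add_zero, mul_one]
  have h6 := E.ε_le
  unfold Pot
  rw [sum_insert hx, h2]
  unfold th2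
  linarith [hH.1, hH.2]

end Vale.Agent.P304
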