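import Vale.Agent.P304.Stmts

/-! Movement of the core potential at a heavy request. -/

namespace Vale.Agent.P304

open Finset
open scoped Classical

namespace MoveHvy

theorem ff_nonneg {s : ℝ} (h : 0 ≤ s) : 0 ≤ ff s := le_min (sq_nonneg s) (by positivity)

theorem ff_small {s : ℝ} (h0 : 0 ≤ s) (h : s ≤ 32) : ff s = s ^ 2 := by
  rcases h0.eq_or_lt with rfl | h1
  · simp [ff]
  · refine min_eq_left ?_
    rw [le_div_iff₀ h1]
    nlinarith [mul_le_mul h h h0 (by norm_num)]

theorem ff_large {s : ℝ} (h : 32 ≤ s) : ff s = 32768 / s := by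
  refine min_eq_right ?_
  rw [div_le_iff₀ (by linarith)]
  nlinarith [mul_le_mul h h (by norm_num) (by linarith)]

theorem psi_nonneg {s : ℝ} (h : 0 ≤ s) : 0 ≤ psi s := le_min h (by positivity)

theorem psi_large {s : ℝ} (h : 1 ≤ s) : psi s = 1 / s := by
  refine min_eq_right ?_
  rw [div_le_iff₀ (by linarith)]
  nlinarith

theorem psi_small {s : ℝ} (h0 : 0 ≤ s) (h : s ≤ 1) : psi s = s := by
  rcases h0.eq_or_lt with rfl | h1
  · simp [psi]
  · refine min_eq_left ?_
    rw [le_div_iff₀ h1]
    nlinarith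

theorem ff_le_psi {s : ℝ} (h : 0 ≤ s) : ff s ≤ 32768 * psi s := by
  rcases le_total s 1 with h1 | h1
  · rw [psi_small h h1, ff_small h (by linarith)]
    nlinarith
  · rw [psi_large h1, mul_one_div]
    exact min_le_right _ _

theorem chi_nonneg (s : ℝ) : 0 ≤ chi s := le_max_left _ _

theorem chi_le_one (s : ℝ) : chi s ≤ 1 := max_le zero_le_one (min_le_left _ _)

theorem chi_one {s : ℝ} (h : s ≤ 10) : chi s = 1 := by
  rw [chi, min_eq_left (by linarith), max_eq_right zero_le_one]

theorem chi_zero {s : ℝ} (h : 11 ≤ s) : chi s = 0 :=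
  max_eq_left ((min_le_right _ _).trans (by linarith))

theorem ff_sub_le {s t D : ℝ} (hs : 0 < s) (ht : 0 ≤ t) (h : |s - t| ≤ D) :
    ff s - ff t ≤ 8192 * D / s := by
  obtain ⟨h1, h2⟩ := abs_le.1 h
  have hD : 0 ≤ D := by linarith
  rw [le_div_iff₀ hs]
  have a1 : ff s ≤ s ^ 2 := min_le_left _ _
  have a2 : ff s * s ≤ 32768 := (le_div_iff₀ hs).1 (min_le_right _ _)
  rcases le_total t 32 with h3 | h3
  · rw [ff_small ht h3]
    rcases le_total s 64 with h4 | h4
    · rcases le_total s t with h5 | h5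
      · have : ff s - t ^ 2 ≤ 0 := by nlinarith
        nlinarith
      · have b1 : s ^ 2 - t ^ 2 ≤ D * (2 * s) := by nlinarith
        have b2 : (ff s - t ^ 2) * s ≤ D * (2 * s) * s :=
          mul_le_mul_of_nonneg_right (by linarith) hs.le
        have b3 : s * s ≤ 64 * 64 := mul_le_mul h4 h4 hs.le (by norm_num)
        nlinarith
    · nlinarith [mul_nonneg (sq_nonneg t) hs.le]
  · rw [ff_large h3]
    have h6 : 0 < t := by linarith
    have b1 : 32768 - 1024 * D ≤ 32768 / t * s := by
      rw [div_mul_eq_mul_div, le_div_iff₀ h6]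
      nlinarith
    nlinarith

theorem near {s t D : ℝ} (hs : 0 ≤ s) (ht : 0 ≤ t) (hD : D ≤ 15) (h : |s - t| ≤ D)
    (h' : D ≤ s + t) : D ^ 2 * chi s - 8192 * D * psi s ≤ ff t - ff s := by
  obtain ⟨h1, h2⟩ := abs_le.1 h
  have hD0 : 0 ≤ D := by linarith
  rcases le_total s 11 with h3 | h3
  · rw [ff_small hs (by linarith), ff_small ht (by linarith)]
    have b1 : s ≤ 121 * psi s := by
      rcases le_total s 1 with h4 | h4
      · rw [psi_small hs h4]
        linarith
      · rw [psi_large h4, mul_one_div, le_div_iff₀ (by linarith)]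
        nlinarith
    have b2 : (D - s) ^ 2 ≤ t ^ 2 := sq_le_sq' (by linarith) (by linarith)
    have b3 := mul_le_mul_of_nonneg_left (chi_le_one s) (sq_nonneg D)
    have b4 := mul_le_mul_of_nonneg_left b1 hD0
    have b5 := mul_nonneg hD0 (psi_nonneg hs)
    nlinarith
  · have := ff_sub_le (by linarith) ht h
    rw [chi_zero h3, psi_large (by linarith), mul_one_div]
    linarith

variable {Y : Type} [Fintype Y] [MetricSpace Y] {μ : Y → ℝ}

theorem FF_nonneg (hμ : ∀ y, 0 ≤ μ y) (b : Y) : 0 ≤ FF μ b :=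
  sum_nonneg fun y _ => mul_nonneg (hμ y) (ff_nonneg dist_nonneg)

theorem FF_le (hμ : ∀ y, 0 ≤ μ y) (x : Y) : FF μ x ≤ 32768 * ∑ y, μ y * psi (dist y x) := by
  rw [mul_sum]
  refine sum_le_sum fun y _ => ?_
  have := mul_le_mul_of_nonneg_left (ff_le_psi (dist_nonneg (x := y) (y := x))) (hμ y)
  linarith

theorem dist_bst (hμ : ∀ y, 0 ≤ μ y) {a x : Y} (h : dist x a ≤ 7) :
    dist x (bst μ a) * mm μ x ≤ 40960 * ∑ y, μ y * psi (dist y x) := by
  set b := bst μ a
  set D := dist x b
  set P := ∑ y, μ y * psi (dist y x)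
  have hP : 0 ≤ P := sum_nonneg fun y _ => mul_nonneg (hμ y) (psi_nonneg dist_nonneg)
  have hab : dist a b ≤ 8 := bst_dist μ a
  have hD : D ≤ 15 := by linarith [dist_triangle x a b]
  have hD0 : 0 ≤ D := dist_nonneg
  have h1 : (1 + dist a b) * FF μ b ≤ (1 + dist a x) * FF μ x :=
    WW_le μ a x (by rw [dist_comm]; linarith)
  have h2 : FF μ b ≤ (1 + D) * FF μ x := by
    have c1 : dist a x ≤ dist a b + D := dist_triangle_right a x b
    have c2 : 0 ≤ dist a b := dist_nonneg
    have c3 : 1 + dist a x ≤ (1 + dist a b) * (1 + D) := by nlinarith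
    have c4 := mul_le_mul_of_nonneg_right c3 (FF_nonneg hμ x)
    exact le_of_mul_le_mul_left (a := 1 + dist a b) (by linarith) (by linarith)
  have h3 : D ^ 2 * mm μ x - 8192 * D * P ≤ FF μ b - FF μ x := by
    simp only [mm, FF, P, mul_sum, ← sum_sub_distrib]
    refine sum_le_sum fun y _ => ?_
    have c1 := near (s := dist y x) (t := dist y b) dist_nonneg dist_nonneg hD
      (by simpa only [dist_comm y] using abs_dist_sub_le x b y) (dist_triangle_left x b y)
    have := mul_le_mul_of_nonneg_left c1 (hμ y)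
    linarith
  have h4 := mul_le_mul_of_nonneg_left (FF_le hμ x) hD0
  rcases hD0.eq_or_lt with h5 | h5
  · rw [← h5]
    linarith
  · exact le_of_mul_le_mul_left (a := D) (by nlinarith) h5

theorem far_mm (hμ : ∀ y, 0 ≤ μ y) {a x : Y} (hv : Valid μ a) (h : 43 ≤ dist x a) :
    mm μ x / dist x (bst μ a) ≤ mm μ a := by
  set b := bst μ a
  have hab : dist a b ≤ 8 := bst_dist μ a
  have hs : 35 ≤ dist x b := by linarith [dist_triangle_right x a b]
  have h1 : mm μ x / dist x b ≤ FF μ b := by
    rw [mm, sum_div]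
    refine sum_le_sum fun y _ => ?_
    rw [mul_div_assoc]
    refine mul_le_mul_of_nonneg_left ?_ (hμ y)
    rcases le_total 11 (dist y x) with c1 | c1
    · rw [chi_zero c1, zero_div]
      exact ff_nonneg dist_nonneg
    · have c2 : 24 ≤ dist y b := by linarith [dist_triangle_left x b y]
      have c3 : dist y b ≤ 2 * dist x b := by linarith [dist_triangle y x b]
      have c4 := chi_le_one (dist y x)
      refine le_min ?_ ?_
      · rw [div_le_iff₀ (by linarith)]
        nlinarith
      · rw [div_le_div_iff₀ (by linarith) (by linarith)]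
        nlinarith
  have h2 : FF μ b ≤ WW μ a := by
    have := mul_nonneg (dist_nonneg (x := a) (y := b)) (FF_nonneg hμ b)
    unfold WW
    linarith
  linarith [hv.1, hv.2]

theorem far_sum (hμ : ∀ y, 0 ≤ μ y) {S : Finset Y} (hS : Sep S) {x : Y}
    (h : ∀ a ∈ S, 43 ≤ dist x a) : ∑ a ∈ S, mm μ a * (16384 / dist x (bst μ a)) ≤ FF μ x := by
  simp only [mm, sum_mul]
  rw [sum_comm]
  refine sum_le_sum fun y _ => ?_
  simp only [mul_assoc, ← mul_sum]
  refine mul_le_mul_of_nonneg_left ?_ (hμ y)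
  by_cases h1 : ∃ a ∈ S, dist y a < 11
  · obtain ⟨a, ha, h2⟩ := h1
    rw [sum_eq_single_of_mem a ha fun a' ha' hne => by
      rw [chi_zero (by linarith [hS a' ha' a ha hne, dist_triangle_left a' a y]), zero_mul]]
    have c0 := h a ha
    have hab : dist a (bst μ a) ≤ 8 := bst_dist μ a
    have c1 : 35 ≤ dist x (bst μ a) := by linarith [dist_triangle_right x a (bst μ a)]
    have c2 : 32 ≤ dist y x := by linarith [dist_triangle_left x a y]
    have c3 : dist y x ≤ 2 * dist x (bst μ a) := by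
      linarith [dist_triangle_right y x a, dist_triangle_right x a (bst μ a)]
    rw [ff_large c2]
    refine (mul_le_of_le_one_left (by positivity) (chi_le_one _)).trans ?_
    rw [div_le_div_iff₀ (by linarith) (by linarith)]
    linarith
  · push Not at h1
    rw [sum_eq_zero fun a ha => by rw [chi_zero (h1 a ha), zero_mul]]
    exact ff_nonneg dist_nonneg

end MoveHvy

open MoveHvy in
theorem moveHvy : MoveHvyStmt := by
  refine ⟨720 * 40960 + 360 * 32768 * 2, by norm_num, ?_⟩
  rintro Y _ _ μ S z x hμ hS hv hx ⟨a₀, ha₀, h7⟩ hz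
  set P := ∑ y, μ y * psi (dist y x) with hP
  set e := dist z x
  have he : 0 ≤ e := dist_nonneg
  have hm : 0 < mm μ x := by linarith [hx.1]
  have hq : (qq μ fun y => dist y x) = min 1 (P / mm μ x) := if_pos hx.1
  rw [hq]
  set q := min 1 (P / mm μ x)
  have key : ∀ {A c : ℝ}, 0 < c → A ≤ c → A * mm μ x ≤ c * P → A ≤ c * q := fun {A c} hc h1 h2 => by
    rw [mul_min_of_nonneg _ _ hc.le, mul_one, ← mul_div_assoc]
    exact le_min h1 ((le_div_iff₀ hm).2 h2)
  have hfar : ∀ a ∈ S.erase a₀, 43 ≤ dist x a := fun a ha => by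
    linarith [hS a (mem_of_mem_erase ha) a₀ ha₀ (ne_of_mem_erase ha), dist_triangle_left a a₀ x]
  have h1 : dist x (bst μ a₀) ≤ 40960 * q :=
    key (by norm_num) (by linarith [dist_triangle x a₀ (bst μ a₀), bst_dist μ a₀]) (dist_bst hμ h7)
  have h2 : ∑ a ∈ S.erase a₀, 1 / dist x (bst μ a) ^ 2 ≤ 2 * q := by
    have c1 := far_sum hμ (S := S.erase a₀)
      (fun a ha a' ha' => hS a (mem_of_mem_erase ha) a' (mem_of_mem_erase ha')) hfar
    have c2 : 16384 * ((∑ a ∈ S.erase a₀, 1 / dist x (bst μ a) ^ 2) * mm μ x) ≤ FF μ x := by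
      refine le_trans ?_ c1
      rw [sum_mul, mul_sum]
      refine sum_le_sum fun a ha => le_trans (le_of_eq ?_) (mul_le_mul_of_nonneg_right
        (far_mm hμ (hv a (mem_of_mem_erase ha)) (hfar a ha)) (by positivity))
      ring
    refine key two_pos (le_of_mul_le_mul_right ?_ hm) (by linarith [FF_le hμ x])
    linarith [hx.2]
  rw [mvc, ← add_sum_erase S _ ha₀]
  have h3 : ∀ a, ∀ {A : ℝ}, 0 ≤ A → ff (dist x (bst μ a)) - ff (dist z (bst μ a)) ≤ A →
      40 * (1 + dist a (bst μ a)) * (ff (dist x (bst μ a)) - ff (dist z (bst μ a))) ≤ 360 * A :=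
    fun a A hA h => by
      have c1 := bst_dist μ a
      have c2 : 0 ≤ dist a (bst μ a) := dist_nonneg
      nlinarith [mul_le_mul_of_nonneg_left h (by linarith : 0 ≤ 40 * (1 + dist a (bst μ a)))]
  have h4 : 40 * (1 + dist a₀ (bst μ a₀)) * (ff (dist x (bst μ a₀)) - ff (dist z (bst μ a₀))) -
      8 * (chi (dist x a₀) - chi (dist z a₀)) ≤ 360 * (2 * dist x (bst μ a₀) * e) := by
    rw [chi_one (by linarith), chi_one (by linarith [dist_triangle z x a₀]), sub_self, mul_zero,
      sub_zero]
    refine h3 a₀ (by positivity) ?_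
    have c1 := dist_triangle x a₀ (bst μ a₀)
    have c2 := bst_dist μ a₀
    have c3 := dist_triangle z x (bst μ a₀)
    have c4 := dist_triangle_left x (bst μ a₀) z
    rw [ff_small dist_nonneg (by linarith), ff_small dist_nonneg (by linarith)]
    have c5 : 0 ≤ dist x (bst μ a₀) := dist_nonneg
    have c6 : 0 ≤ dist z (bst μ a₀) := dist_nonneg
    rcases le_total (dist x (bst μ a₀)) (dist z (bst μ a₀)) with c7 | c7 <;> nlinarith
  have h5 : ∀ a ∈ S.erase a₀, 40 * (1 + dist a (bst μ a)) *
      (ff (dist x (bst μ a)) - ff (dist z (bst μ a))) - 8 * (chi (dist x a) - chi (dist z a)) ≤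
      360 * 32768 * e * (1 / dist x (bst μ a) ^ 2) := fun a ha => by
    have c0 := hfar a ha
    rw [chi_zero (by linarith), chi_zero (by linarith [dist_triangle_left x a z]), sub_self,
      mul_zero, sub_zero, mul_assoc 360, mul_assoc 360]
    refine h3 a (by positivity) ?_
    have c1 := dist_triangle_right x a (bst μ a)
    have c2 := bst_dist μ a
    have c3 := dist_triangle z x (bst μ a)
    have c4 := dist_triangle_left x (bst μ a) z
    rw [ff_large (by linarith), ff_large (by linarith)]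
    set s := dist x (bst μ a)
    set t := dist z (bst μ a)
    have c5 : 0 < s := by linarith
    have c6 : 0 < t := by linarith
    rw [div_sub_div _ _ c5.ne' c6.ne', mul_one_div, div_le_div_iff₀ (by positivity) (by positivity)]
    rcases le_total s t with c7 | c7
    · have c8 : (t - s) * s ≤ e * t := mul_le_mul (by linarith) c7 c5.le he
      nlinarith [mul_le_mul_of_nonneg_left c8 c5.le]
    · nlinarith [mul_nonneg (sub_nonneg.2 c7) (sq_nonneg s), mul_nonneg he (mul_pos c5 c6).le]
  have h6 := sum_le_sum h5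
  rw [← mul_sum] at h6
  have h8 := mul_le_mul_of_nonneg_left h1 he
  have h9 := mul_le_mul_of_nonneg_left h2 he
  nlinarith

end Vale.Agent.P304
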