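import Vale.Agent.P304.StmtsE
import Vale.Agent.P304.MoveGen
import Vale.Agent.P304.MoveHvy

/-! The change of the potential caused by the moving server. -/

namespace Vale.Agent.P304

open Finset
open scoped Classical

namespace EMove

theorem ff_far {s t e : ℝ} (hs : 1 ≤ s) (ht : 0 ≤ t) (h : |s - t| ≤ e) (he : e ≤ 1 / 4) :
    ff s - ff t ≤ 80000 * e * (1 / s ^ 2) := by
  obtain ⟨h1, h2⟩ := abs_le.1 h
  have he0 : 0 ≤ e := by linarith
  have hs0 : 0 < s := by linarith
  rw [mul_one_div, le_div_iff₀ (by positivity)]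
  rcases le_total t 32 with h3 | h3
  · rw [MoveHvy.ff_small ht h3]
    have a1 : ff s ≤ s ^ 2 := min_le_left _ _
    have a2 : s ^ 2 - t ^ 2 ≤ 65 * e := by nlinarith
    have a3 : s ^ 2 ≤ 1089 := by nlinarith
    have a4 : (ff s - t ^ 2) * s ^ 2 ≤ 65 * e * s ^ 2 :=
      mul_le_mul_of_nonneg_right (by linarith) (sq_nonneg s)
    nlinarith
  · rw [MoveHvy.ff_large h3]
    have ht0 : 0 < t := by linarith
    have a1 : ff s ≤ 32768 / s := min_le_right _ _
    have a2 : (ff s - 32768 / t) * s ^ 2 ≤ (32768 / s - 32768 / t) * s ^ 2 :=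
      mul_le_mul_of_nonneg_right (by linarith) (sq_nonneg s)
    have a3 : (32768 / s - 32768 / t) * s ^ 2 = 32768 * ((t - s) * s) / t := by
      field_simp
    have a4 : 32768 * ((t - s) * s) / t ≤ 80000 * e := by
      rw [div_le_iff₀ ht0]
      have b1 : (t - s) * s ≤ e * s := mul_le_mul_of_nonneg_right (by linarith) hs0.le
      have b2 : e * s ≤ e * (2 * t) := mul_le_mul_of_nonneg_left (by linarith) he0
      nlinarith [mul_nonneg he0 ht]
    linarith

theorem ff_near {s t e : ℝ} (hs : 0 ≤ s) (hs' : s ≤ 31) (ht : 0 ≤ t) (h : |s - t| ≤ e)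
    (he : e ≤ 1) : ff s - ff t ≤ 2 * s * e := by
  obtain ⟨h1, h2⟩ := abs_le.1 h
  have he0 : 0 ≤ e := by linarith
  rw [MoveHvy.ff_small hs (by linarith), MoveHvy.ff_small ht (by linarith)]
  rcases le_total s t with h3 | h3 <;> nlinarith

theorem mul_le {d f A : ℝ} (hd0 : 0 ≤ d) (hd : d ≤ 8) (hA : 0 ≤ A) (h : f ≤ A) :
    4000000 * (1 + d) * f ≤ 36000000 * A := by
  have h1 := mul_le_mul_of_nonneg_left h (by linarith : 0 ≤ 4000000 * (1 + d))
  nlinarith

theorem sum_near {Y : Type} [MetricSpace Y] {S : Finset Y} (hS : Sep S) (x : Y) {B : ℝ}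
    (hB : 0 ≤ B) : ∑ a ∈ S, (if 25 < dist x a then 0 else B) ≤ B := by
  by_cases h : ∃ a ∈ S, ¬ 25 < dist x a
  · obtain ⟨a, ha, hx⟩ := h
    rw [sum_eq_single_of_mem a ha, if_neg hx]
    intro b hb hba
    refine if_pos ?_
    have h1 := hS b hb a ha hba
    have h2 := dist_triangle_left b a x
    linarith [not_lt.1 hx]
  · rw [sum_eq_zero fun a ha => if_pos (by_contra fun h' => h ⟨a, ha, h'⟩)]
    exact hB

variable {Y : Type} [Fintype Y] [MetricSpace Y]

/-- contribution of one core -/
noncomputable def tm (P : Par) (a b : Y) (p : Y → ℝ) (z x : Y) : ℝ :=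
  4000000 * (1 + dist a b) * (ff (dist x b) - ff (dist z b)) +
    (wi a x * pin P b p x - wi a z * pin P b p z) - 800000 * (chi (dist x a) - chi (dist z a))

theorem mv2_eq (P : Par) (μ : Y → ℝ) (S : Finset Y) (w : Y → ℝ) (z x : Y) :
    mv2 P μ S w z x = cd S x * phi P w x - cd S z * phi P w z +
      ∑ a ∈ S, tm P a (op P μ a).1 (op P μ a).2 z x := rfl

variable {P : Par} {a b z x : Y} {p : Y → ℝ}

omit [Fintype Y] in
theorem abs_le' (b z x : Y) : |dist x b - dist z b| ≤ dist z x := by
  rw [dist_comm z x]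
  exact abs_dist_sub_le x z b

theorem tm_gen (F : EFacts P Y) (hab : dist a b ≤ 8) (hp : Simplex p) :
    tm P a b p z x ≤ 36000000 * 33792 * kap (dist x b) + 756 * Real.log P.k * wi a x +
      800000 * (chi (dist z a) - chi (dist x a)) := by
  have h1 : ff (dist x b) - ff (dist z b) ≤ 33792 * kap (dist x b) := by
    have c1 := MoveGen.ff_le (dist_nonneg (x := x) (y := b))
    have c2 := MoveGen.ff_nonneg (dist_nonneg (x := z) (y := b))
    rw [kap, mul_one_div]
    linarith
  have h2 := mul_le dist_nonneg hab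
    (mul_nonneg (by norm_num) (F.kap_pos _ dist_nonneg).le) h1
  have h3 := mul_le_mul_of_nonneg_left (F.pin_le b p x hp) (F.wi_nonneg a x)
  have h4 := mul_nonneg (F.wi_nonneg a z) (F.pin_nonneg b p z hp)
  unfold tm
  linarith

theorem tm_far (F : EFacts P Y) (hab : dist a b ≤ 8) (h25 : 25 < dist x a)
    (hl : dist z x ≤ 1 / 4) :
    tm P a b p z x ≤ 36000000 * 80000 * dist z x * (1 / dist x b ^ 2) := by
  have c1 := dist_triangle_left x a z
  have c2 := dist_triangle_right x a b
  have h1 := ff_far (s := dist x b) (by linarith) dist_nonneg (abs_le' b z x) hl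
  have h2 := mul_le dist_nonneg hab (by positivity) h1
  unfold tm
  rw [F.wi_zero a x (by linarith), F.wi_zero a z (by linarith),
    MoveGen.chi_zero (s := dist x a) (by linarith), MoveGen.chi_zero (s := dist z a) (by linarith)]
  linarith

theorem tm_lip (hab : dist a b ≤ 8) {A : ℝ}
    (hA : wi a x * pin P b p x - wi a z * pin P b p z ≤ A) :
    tm P a b p z x ≤ (36000000 * 33792 + 800000) * dist z x + A := by
  have h0 : 0 ≤ dist z x := dist_nonneg
  have h1 : ff (dist x b) - ff (dist z b) ≤ 33792 * dist z x := by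
    refine (MoveGen.ff_sub_le dist_nonneg dist_nonneg (abs_le' b z x)).trans ?_
    have c1 : 0 ≤ dist x b := dist_nonneg
    have c2 : min 1 (dist z x) ≤ dist z x := min_le_right _ _
    rw [div_le_iff₀ (by linarith)]
    nlinarith
  have h2 := mul_le dist_nonneg hab (by positivity) h1
  have h3 : chi (dist z a) - chi (dist x a) ≤ dist z x :=
    (MoveGen.chi_sub_le (abs_dist_sub_le z x a)).trans (min_le_right _ _)
  unfold tm
  linarith

theorem tm_hvy (hab : dist a b ≤ 8) (h7 : dist x a ≤ 7) (hl : dist z x ≤ 1 / 4) {A : ℝ}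
    (hA : wi a x * pin P b p x - wi a z * pin P b p z ≤ A) :
    tm P a b p z x ≤ 72000000 * (dist x b * dist z x) + A := by
  have c1 := dist_triangle z x a
  have c2 := dist_triangle x a b
  have h1 := ff_near (s := dist x b) dist_nonneg (by linarith) dist_nonneg (abs_le' b z x)
    (by linarith)
  have h2 := mul_le dist_nonneg hab (by positivity) h1
  unfold tm
  rw [MoveHvy.chi_one (s := dist x a) (by linarith), MoveHvy.chi_one (s := dist z a) (by linarith)]
  linarith

/-- the crude bound -/
theorem gen (F : EFacts P Y) {μ w : Y → ℝ} {S : Finset Y} {C : ℝ} (hS : Sep S) (hw : Pos w)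
    (hO : ∀ a, IsOpt P μ a (op P μ a).1 (op P μ a).2)
    (hC : ∑ a ∈ S, kap (dist x (op P μ a).1) ≤ C * Real.log P.k) :
    mv2 P μ S w z x ≤ (36000000 * 33792 * C + 1300000) * Real.log P.k := by
  have hL := F.log_k
  have h1 : cd S x * phi P w x ≤ 756 * Real.log P.k :=
    (mul_le_of_le_one_left (F.phi_nonneg w x hw) (F.cd_le S x)).trans (F.phi_le w x hw)
  have h2 := mul_nonneg (F.cd_nonneg S z hS) (F.phi_nonneg w z hw)
  have h3 : ∑ a ∈ S, tm P a (op P μ a).1 (op P μ a).2 z x ≤
      ∑ a ∈ S, (36000000 * 33792 * kap (dist x (op P μ a).1) + 756 * Real.log P.k * wi a x +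
        800000 * (chi (dist z a) - chi (dist x a))) :=
    sum_le_sum fun a _ => tm_gen F (hO a).1 (hO a).2.1
  rw [sum_add_distrib, sum_add_distrib, ← mul_sum, ← mul_sum, ← mul_sum] at h3
  have h4 := (MoveGen.sum_chi hS z x).trans (min_le_left _ _)
  have h5 : ∑ a ∈ S, wi a x ≤ 1 := by
    have := F.cd_nonneg S x hS
    unfold cd at this
    linarith
  have h6 : 756 * Real.log P.k * ∑ a ∈ S, wi a x ≤ 756 * Real.log P.k :=
    mul_le_of_le_one_right (by linarith) h5
  rw [mv2_eq]
  linarith

/-- the fine bound from the bounds for the outer part and for the near core -/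
theorem fine (F : EFacts P Y) {μ w : Y → ℝ} {S : Finset Y} {A B E : ℝ} (hS : Sep S)
    (hO : ∀ a, IsOpt P μ a (op P μ a).1 (op P μ a).2) (hl : dist z x ≤ 1 / 4)
    (hA : cd S x * phi P w x - cd S z * phi P w z ≤ A) (hB0 : 0 ≤ B)
    (hB : ∀ a ∈ S, dist x a ≤ 25 → tm P a (op P μ a).1 (op P μ a).2 z x ≤ B)
    (hE : ∑ a ∈ S, (if 25 < dist x a then 1 / dist x (op P μ a).1 ^ 2 else 0) ≤ E) :
    mv2 P μ S w z x ≤ A + B + 36000000 * 80000 * (dist z x * E) := by
  have h1 : ∑ a ∈ S, tm P a (op P μ a).1 (op P μ a).2 z x ≤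
      ∑ a ∈ S, ((if 25 < dist x a then 0 else B) + 36000000 * 80000 * dist z x *
        (if 25 < dist x a then 1 / dist x (op P μ a).1 ^ 2 else 0)) := by
    refine sum_le_sum fun a ha => ?_
    split_ifs with h
    · rw [zero_add]
      exact tm_far F (hO a).1 h hl
    · rw [mul_zero, add_zero]
      exact hB a ha (not_lt.1 h)
  rw [sum_add_distrib, ← mul_sum] at h1
  have h2 := sum_near hS x hB0
  have h3 := mul_le_mul_of_nonneg_left hE (dist_nonneg (x := z) (y := x))
  rw [mv2_eq]
  linarith

end EMove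

open EMove in
theorem move2 (hE : EBasicStmt) (hG : GeoStmt) (h0 : OptStmt) (h1 : PullStmt) (h2 : OutMoveStmt)
    (h3 : PinMoveStmt) (h4 : FarStmt) : Move2Stmt := by
  obtain ⟨C1, hC1, h1⟩ := h1
  obtain ⟨C2, hC2, h2⟩ := h2
  obtain ⟨C3, hC3, h3⟩ := h3
  obtain ⟨C4, hC4, h4⟩ := h4
  refine ⟨16 * (36000000 * 33792 * C4 + 1300000) + 1638401 * C2 + 1638401 * C3 +
    1638400 * (36000000 * 33792 + 800000) + 36000000 * 80000 * C4 + 72000000 * C1 + C3 * C1,
    by positivity, ?_⟩
  intro P Y _ _ hP μ w S z x H hμ hk hS hV hH hw hK hη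
  have F := hE P Y hP
  have G := hG Y μ hμ
  have hO := h0 P Y hP μ
  obtain ⟨f1, f2⟩ := h4 P.k Y μ S (fun a => (op P μ a).1) x hP.k_ge hμ hk hS hV
  have hL := F.log_k
  have hL0 : 0 ≤ Real.log P.k := by linarith
  have hq := G.qq_nonneg x
  have hε := hP.ε_pos
  have hqH := hη.q
  have hH0 : 0 ≤ H := by linarith
  have hl0 : 0 ≤ dist z x := dist_nonneg
  have hlH : 0 ≤ dist z x * H := mul_nonneg hl0 hH0
  have hm0 : 0 ≤ min 1 (dist z x ^ 2) := le_min zero_le_one (sq_nonneg _)
  have hi0 : (0 : ℝ) ≤ if bm μ x (1 / 4) < 1 / 2 then 1 else 0 := by split_ifs <;> norm_num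
  by_cases hc : 1 / 16 ≤ min 1 (dist z x ^ 2) + if bm μ x (1 / 4) < 1 / 2 then 1 else 0
  · have g := gen (z := z) F hS hw hO f1
    generalize (min 1 (dist z x ^ 2) + if bm μ x (1 / 4) < 1 / 2 then 1 else 0) = u at hc
    have c1 : Real.log P.k ≤ 16 * (Real.log P.k * u + dist z x * H) := by nlinarith
    have c2 : 0 ≤ Real.log P.k * u + dist z x * H := by linarith
    generalize Real.log P.k * u + dist z x * H = v at c1 c2
    have c3 := mul_le_mul_of_nonneg_left c1
      (by positivity : 0 ≤ 36000000 * 33792 * C4 + 1300000)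
    have c4 : 0 ≤ (1638401 * C2 + 1638401 * C3 + 1638400 * (36000000 * 33792 + 800000) +
      36000000 * 80000 * C4 + 72000000 * C1 + C3 * C1) * v := by positivity
    linarith
  have hb : 1 / 2 ≤ bm μ x (1 / 4) := by
    by_contra h
    rw [if_pos (not_le.1 h)] at hc
    exact hc (by linarith)
  have hl : dist z x ≤ 1 / 4 := by
    by_contra h
    refine hc (le_trans (le_min (by norm_num) ?_) (le_add_of_nonneg_right hi0))
    nlinarith [not_le.1 h]
  rw [if_neg (not_lt.2 hb), add_zero, min_eq_right (by nlinarith)]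
  have hLl : 0 ≤ Real.log P.k * dist z x ^ 2 := by positivity
  have hE2 : ∑ a ∈ S, (if 25 < dist x a then 1 / dist x (op P μ a).1 ^ 2 else 0) ≤ C4 * H :=
    f2.trans (mul_le_mul_of_nonneg_left hη.e2 hC4)
  have hpin := fun a (ha : a ∈ S) =>
    h3 P Y hP μ (op P μ a).2 a (op P μ a).1 z x H hμ (hO a) (hV a ha) hη hl hb
  by_cases hx : Hvy μ x
  · obtain ⟨a0, ha0, h7⟩ := hH hx
    have c1 := dist_triangle z x a0
    have cx : cd S x = 0 := by
      rw [F.cd_near S x hS a0 ha0 (by linarith), F.wi_one a0 x (by linarith), sub_self]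
    have cz : cd S z = 0 := by
      rw [F.cd_near S z hS a0 ha0 (by linarith), F.wi_one a0 z (by linarith), sub_self]
    have g := fine (w := w) (A := 0) (B := 72000000 * (C1 * (dist z x * H)) +
      C3 * (Real.log P.k * dist z x ^ 2 + (C1 * (dist z x * H) + dist z x * H))) F hS hO hl
      (by rw [cx, cz]; simp) (by positivity) (fun a ha h25 => by
        have e : a = a0 := by
          by_contra h
          have d1 := hS a ha a0 ha0 h
          have d2 := dist_triangle_left a a0 x
          linarith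
        subst e
        have d1 : dist x (op P μ a).1 ≤ C1 * H :=
          (h1 P Y hP μ a _ x _ hμ (hO a) (hV a ha) hx h7).trans
            (mul_le_mul_of_nonneg_left hqH hC1)
        have d2 : dist x (op P μ a).1 * dist z x ≤ C1 * (dist z x * H) := by
          have := mul_le_mul_of_nonneg_right d1 hl0
          linarith
        have d3 : dist z x * (min 1 (dist x (op P μ a).1) + H) ≤
            C1 * (dist z x * H) + dist z x * H := by
          have := mul_le_mul_of_nonneg_left (min_le_right 1 (dist x (op P μ a).1)) hl0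
          linarith
        have d4 := tm_hvy (hO a).1 h7 hl ((hpin a ha).trans
          (mul_le_mul_of_nonneg_left (add_le_add_right d3 _) hC3))
        linarith) hE2
    generalize Real.log P.k * dist z x ^ 2 = u at *
    have e1 : dist z x * (C4 * H) = C4 * (dist z x * H) := by ring
    rw [e1] at g
    generalize dist z x * H = v at *
    have := mul_nonneg hC1 hLl
    have := mul_nonneg hC2 hLl
    have := mul_nonneg hC3 hLl
    have := mul_nonneg hC4 hLl
    have := mul_nonneg (mul_nonneg hC3 hC1) hLl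
    have := mul_nonneg hC2 hlH
    have := mul_nonneg hC3 hlH
    have := mul_nonneg hC4 hlH
    linarith
  · have c1 : 1 / 2 ≤ mm μ x :=
      hb.trans ((F.bm_mono μ x x _ _ hμ (by norm_num)).trans (G.bm_le_mm x))
    have c2 := G.nonhvy x c1 hx
    have c3 : dist z x ≤ 1638400 * (dist z x * H) := by
      have := mul_le_mul_of_nonneg_left (by linarith : 1 / 1638400 ≤ H) hl0
      linarith
    have c4 : dist z x * (1 + H) ≤ 1638401 * (dist z x * H) := by linarith
    have c5 := (h2 P Y hP μ w S (fun a => (op P μ a).1) z x H hμ hk hS hV hw hK hη hl hb).trans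
      (mul_le_mul_of_nonneg_left (add_le_add_right c4 _) hC2)
    have g := fine (B := (36000000 * 33792 + 800000) * (1638400 * (dist z x * H)) +
      C3 * (Real.log P.k * dist z x ^ 2 + 1638401 * (dist z x * H))) F hS hO hl c5
      (by positivity) (fun a ha _ => by
        have d3 : dist z x * (min 1 (dist x (op P μ a).1) + H) ≤ 1638401 * (dist z x * H) := by
          have := mul_le_mul_of_nonneg_left (min_le_left 1 (dist x (op P μ a).1)) hl0
          linarith
        have d4 := tm_lip (hO a).1 ((hpin a ha).trans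
          (mul_le_mul_of_nonneg_left (add_le_add_right d3 _) hC3))
        linarith) hE2
    generalize Real.log P.k * dist z x ^ 2 = u at *
    have e1 : dist z x * (C4 * H) = C4 * (dist z x * H) := by ring
    rw [e1] at g
    generalize dist z x * H = v at *
    have := mul_nonneg hC1 hLl
    have := mul_nonneg hC2 hLl
    have := mul_nonneg hC3 hLl
    have := mul_nonneg hC4 hLl
    have := mul_nonneg (mul_nonneg hC3 hC1) hLl
    have := mul_nonneg hC1 hlH
    have := mul_nonneg hC4 hlH
    have := mul_nonneg (mul_nonneg hC3 hC1) hlH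
    linarith

end Vale.Agent.P304
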