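import Vale.Agent.P304.StmtsE

/-! E12: change of the outer potential when one unit of mass moves a short distance. -/

namespace Vale.Agent.P304

open Finset
open scoped Classical

namespace OutMv

/-- clamp to the unit interval -/
noncomputable def cl (s : ℝ) : ℝ := max 0 (min 1 s)

theorem cl_nonneg (s : ℝ) : 0 ≤ cl s := le_max_left _ _

theorem cl_le_one (s : ℝ) : cl s ≤ 1 := max_le zero_le_one (min_le_left _ _)

theorem cl_le {s t : ℝ} (ht : 0 ≤ t) (h : s ≤ t) : cl s ≤ t :=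
  max_le ht ((min_le_right _ _).trans h)

theorem le_cl {s t : ℝ} (ht : t ≤ 1) (h : t ≤ s) : t ≤ cl s :=
  le_max_of_le_right (le_min ht h)

theorem cl_lip {s t d : ℝ} (hd : 0 ≤ d) (h : s ≤ t + d) : cl s ≤ cl t + d := by
  unfold cl
  apply max_le
  · have := le_max_left (0 : ℝ) (min 1 t)
    linarith
  · have h1 := le_max_right (0 : ℝ) (min 1 t)
    rcases le_total 1 t with h2 | h2
    · rw [min_eq_left h2] at h1 ⊢
      have := min_le_left (1 : ℝ) s
      linarith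
    · rw [min_eq_right h2] at h1 ⊢
      have := min_le_right (1 : ℝ) s
      linarith

variable {Y : Type} [Fintype Y] [MetricSpace Y] {P : Par}

theorem cd_eq (E : EFacts P Y) {S : Finset Y} (hS : Sep S) {a : Y} (ha : a ∈ S) {y : Y}
    (h : dist y a ≤ 40) : cd S y = sm (cl (dist y a - 9)) := by
  rw [E.cd_near S y hS a ha h, E.wi_compl]
  rfl

omit [Fintype Y] in
/-- depth of a point outside the cores -/
theorem exists_depth (S : Finset Y) (x : Y) :
    ∃ e : ℝ, e ≤ 1 ∧ (∀ a ∈ S, e ≤ dist x a - 9) ∧ (e = 1 ∨ ∃ a ∈ S, e = dist x a - 9) := by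
  by_cases h : ∃ a ∈ S, dist x a - 9 < 1
  · obtain ⟨a0, ha0, h0⟩ := h
    obtain ⟨a, ha, hmin⟩ := Finset.exists_min_image S (fun a => dist x a) ⟨a0, ha0⟩
    refine ⟨dist x a - 9, ?_, fun a' ha' => ?_, Or.inr ⟨a, ha, rfl⟩⟩
    · have := hmin a0 ha0
      linarith
    · have := hmin a' ha'
      linarith
  · push Not at h
    exact ⟨1, le_rfl, h, Or.inl rfl⟩

theorem cd_lower (E : EFacts P Y) {S : Finset Y} (hS : Sep S) {x y : Y} {e ρ : ℝ} (he1 : e ≤ 1)
    (he : ∀ a ∈ S, e ≤ dist x a - 9) (hρ0 : 0 < ρ) (hρ : ρ ≤ e) (hy : dist x y ≤ ρ / 4) :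
    ρ ^ 2 / 2 ≤ cd S y := by
  by_cases h : ∀ a ∈ S, 10 ≤ dist y a
  · rw [E.cd_one S y h]
    nlinarith
  · push Not at h
    obtain ⟨a, ha, hya⟩ := h
    rw [cd_eq E hS ha (by linarith)]
    have h1 := he a ha
    have h2 := dist_triangle x y a
    have h3 : 3 * ρ / 4 ≤ cl (dist y a - 9) := le_cl (by linarith) (by linarith)
    have h4 := E.sm_lo _ (cl_le_one (dist y a - 9))
    nlinarith

theorem mo_nonneg (E : EFacts P Y) {μ : Y → ℝ} (hμ : ∀ y, 0 ≤ μ y) {S : Finset Y} (hS : Sep S)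
    (y : Y) : 0 ≤ mo μ S y := mul_nonneg (hμ y) (E.cd_nonneg S y hS)

theorem mo_le (E : EFacts P Y) {μ : Y → ℝ} (hμ : ∀ y, 0 ≤ μ y) (S : Finset Y) (y : Y) :
    mo μ S y ≤ μ y := by
  have := E.cd_le S y
  have := hμ y
  unfold mo
  nlinarith

/-- the balance inequality -/
theorem balance (E : EFacts P Y) {μ w : Y → ℝ} (hμ : ∀ y, 0 ≤ μ y) {S : Finset Y} (hS : Sep S)
    (hw : Pos w) (hK : KKT P (mo μ S) w) {x : Y} {e ρ : ℝ} (he1 : e ≤ 1)
    (he : ∀ a ∈ S, e ≤ dist x a - 9) (hρ0 : 0 < ρ) (hρN : 4 / (P.N : ℝ) ≤ ρ) (hρ : ρ ≤ e) :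
    ρ ^ 5 * bm μ x (ρ / 4) ≤
      2048 * ((bm w x ρ + P.δ * Ref w x) * Kv P (mo μ S) w x) + 512 * P.ε := by
  have h1 := hK.add x ρ hρN (by linarith)
  have h2 : ρ ^ 2 / 2 * bm μ x (ρ / 4) ≤ bm (mo μ S) x (ρ / 4) := by
    rw [← E.bm_smul]
    refine E.bm_mono_w _ _ _ _ fun a ha => ?_
    have := cd_lower E hS he1 he hρ0 hρ ha
    have := hμ a
    unfold mo
    nlinarith
  have h3 := E.Kv_nonneg (mo μ S) w x (mo_nonneg E hμ hS) hw
  have h4 := E.bm_nonneg w x ρ fun a => (hw a).le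
  have h5 : 0 ≤ bm w x ρ * Kv P (mo μ S) w x := mul_nonneg h4 h3
  have h6 : ρ ^ 3 / 256 * (ρ ^ 2 / 2 * bm μ x (ρ / 4)) ≤ ρ ^ 3 / 256 * bm (mo μ S) x (ρ / 4) :=
    mul_le_mul_of_nonneg_left h2 (by positivity)
  nlinarith

theorem anti_log (E : EFacts P Y) {w : Y → ℝ} (hw : Pos w) (x : Y) {T : ℝ} (hT : 0 < T) :
    Antitone fun r => Real.log (T / (bm w x r + P.δ * Ref w x)) := by
  intro r r' h
  have h1 := E.bm_mono w x x r r' (fun a => (hw a).le) (by simpa using h)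
  have h2 := E.bm_nonneg w x r fun a => (hw a).le
  have h3 : 0 < P.δ * Ref w x := mul_pos E.δ_pos (E.Ref_pos w x hw)
  apply Real.log_le_log (div_pos hT (by linarith))
  exact div_le_div_of_nonneg_left hT.le (by linarith) (by linarith)

theorem quot_le (E : EFacts P Y) {w : Y → ℝ} (hw : Pos w) (x : Y) {T : ℝ}
    (hT : T ≤ 6 * Ref w x) (r : ℝ) : T / (bm w x r + P.δ * Ref w x) ≤ 6 / P.δ := by
  have h2 := E.bm_nonneg w x r fun a => (hw a).le
  have hR := E.Ref_pos w x hw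
  have hδ := E.δ_pos
  have h3 : 0 < P.δ * Ref w x := mul_pos hδ hR
  rw [div_le_div_iff₀ (by linarith) hδ]
  nlinarith

theorem six_le (E : EFacts P Y) : 6 / P.δ ≤ 10 ^ 8 * P.k := by
  have hδ := E.δ_pos
  have := E.δ_k
  rw [div_le_iff₀ hδ]
  nlinarith

theorem log_six (E : EFacts P Y) : Real.log (6 / P.δ) ≤ 56 * Real.log P.k := by
  have hδ := E.δ_pos
  have h1 := E.δ_le
  have h2 := E.log_δ
  have h3 : 6 / P.δ ≤ (5 / P.δ) ^ 2 := by
    rw [div_pow, div_le_div_iff₀ hδ (by positivity)]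
    nlinarith
  have h4 := Real.log_le_log (by positivity) h3
  rw [Real.log_pow] at h4
  push_cast at h4
  linarith

/-- the logarithmic bound for the profile with numerator `T` -/
theorem profile {C1 : ℝ}
    (hL : ∀ (k : ℕ) (ε ρ m M Q H : ℝ), 2 ≤ k → ε ≤ 1 / (k : ℝ) ^ 2 → 0 < ρ → ρ ≤ 1 →
      0 ≤ m → 1 / 2 ≤ M → 0 < Q → Q ≤ 10 ^ 8 * k → ρ ^ 5 * m ≤ 10 ^ 8 * (M / Q + ε) → 0 ≤ H →
      ρ / 4 * Real.log (M / (m + 1 / k)) ≤ H → Real.log Q ≤ C1 * (1 + H) / ρ)
    (hP : P.OK Y) (E : EFacts P Y) {μ w : Y → ℝ} (hμ : ∀ y, 0 ≤ μ y) {S : Finset Y} (hS : Sep S)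
    (hw : Pos w) (hK : KKT P (mo μ S) w) {x : Y} {H : ℝ} (hH0 : 0 ≤ H)
    (hH : EtaOK P.k P.ε μ (fun y => dist y x) H) (hx : 1 / 2 ≤ bm μ x 32) {e ρ T : ℝ}
    (he1 : e ≤ 1) (he : ∀ a ∈ S, e ≤ dist x a - 9) (hρ0 : 0 < ρ) (hρN : 4 / (P.N : ℝ) ≤ ρ)
    (hρ : ρ ≤ e) (hT0 : 0 < T) (hT : T ≤ 6 * Ref w x)
    (hTK : T * Kv P (mo μ S) w x ≤ 4000 * bm μ x 32) :
    Real.log (T / (bm w x ρ + P.δ * Ref w x)) ≤ C1 * (1 + H) / ρ := by
  have hk : (2 : ℝ) ≤ P.k := by exact_mod_cast hP.k_ge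
  have h2 := E.bm_nonneg w x ρ fun a => (hw a).le
  have h3 : 0 < P.δ * Ref w x := mul_pos E.δ_pos (E.Ref_pos w x hw)
  have hD : 0 < bm w x ρ + P.δ * Ref w x := by linarith
  have hk1 : 0 < 1 / (P.k : ℝ) := by positivity
  refine hL P.k P.ε ρ (bm μ x (ρ / 4)) (bm μ x 32 + 1 / P.k) _ H hP.k_ge ?_ hρ0 (by linarith)
    (E.bm_nonneg μ x _ hμ) (by linarith) (div_pos hT0 hD) ((quot_le E hw x hT ρ).trans (six_le E))
    ?_ hH0 ?_
  · refine hP.ε_le.trans ?_
    apply one_div_le_one_div_of_le (by positivity)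
    nlinarith
  · have h4 := balance E hμ hS hw hK he1 he hρ0 hρN hρ
    have h5 : (bm w x ρ + P.δ * Ref w x) * Kv P (mo μ S) w x ≤
        4000 * ((bm μ x 32 + 1 / P.k) / (T / (bm w x ρ + P.δ * Ref w x))) := by
      rw [div_div_eq_mul_div, ← mul_div_assoc, le_div_iff₀ hT0]
      nlinarith
    have h6 : 0 ≤ (bm μ x 32 + 1 / P.k) / (T / (bm w x ρ + P.δ * Ref w x)) :=
      div_nonneg (by linarith) (div_pos hT0 hD).le
    have h7 := hP.ε_pos
    nlinarith
  · have := hH.e1 (ρ / 4) (by linarith) (by linarith)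
    rwa [E.Mb_eq, E.Mb_eq] at this

theorem phi_eq (E : EFacts P Y) {w : Y → ℝ} (hw : Pos w) (x : Y) :
    phi P w x = ∑ j ∈ P.I, P.g j *
      Real.log ((4 + P.δ) * Ref w x / (bm w x (P.r j) + P.δ * Ref w x)) := by
  unfold phi
  refine Finset.sum_congr rfl fun j _ => ?_
  have hR := E.Ref_pos w x hw
  congr 2
  field_simp

theorem phi_sub (E : EFacts P Y) {w : Y → ℝ} (hw : Pos w) (z x : Y) {T : ℝ} (hT : 0 < T) :
    phi P w x - phi P w z ≤ 27 * dist z x +
      (∑ j ∈ P.I, P.g j * Real.log (T / (bm w x (P.r j) + P.δ * Ref w x)) -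
       ∑ j ∈ P.I, P.g j * Real.log (T / (bm w x (P.r j + dist z x) + P.δ * Ref w x))) := by
  have hw0 : ∀ a, 0 ≤ w a := fun a => (hw a).le
  have hδ := E.δ_pos
  have hRx := E.Ref_pos w x hw
  have hRz := E.Ref_pos w z hw
  have hl : 0 ≤ dist z x := dist_nonneg
  have hlip := E.Ref_lip w x z hw0
  rw [dist_comm x z] at hlip
  have key : ∀ j ∈ P.I,
      P.g j * Real.log ((4 + P.δ) / (bm w x (P.r j) / Ref w x + P.δ)) -
        P.g j * Real.log ((4 + P.δ) / (bm w z (P.r j) / Ref w z + P.δ)) ≤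
      P.g j * dist z x + (P.g j * Real.log (T / (bm w x (P.r j) + P.δ * Ref w x)) -
        P.g j * Real.log (T / (bm w x (P.r j + dist z x) + P.δ * Ref w x))) := by
    intro j _
    have b1 := E.bm_nonneg w x (P.r j) hw0
    have b2 := E.bm_nonneg w z (P.r j) hw0
    have b3 := E.bm_mono w z x (P.r j) (P.r j + dist z x) hw0 le_rfl
    have p1 : 0 < bm w x (P.r j) / Ref w x + P.δ := by positivity
    have p2 : 0 < bm w z (P.r j) / Ref w z + P.δ := by positivity
    have p3 : 0 < bm w x (P.r j) + P.δ * Ref w x := by positivity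
    have p4 : 0 < bm w x (P.r j + dist z x) + P.δ * Ref w x := by
      have := mul_pos hδ hRx
      linarith
    have e1 : bm w x (P.r j) / Ref w x + P.δ = (bm w x (P.r j) + P.δ * Ref w x) / Ref w x := by
      field_simp
    have i1 : bm w z (P.r j) / Ref w z + P.δ ≤
        (1 + dist z x) * ((bm w x (P.r j + dist z x) + P.δ * Ref w x) / Ref w x) := by
      have q1 : bm w z (P.r j) / Ref w z ≤ (1 + dist z x) * (bm w x (P.r j + dist z x) / Ref w x) := by
        rw [← mul_div_assoc, div_le_div_iff₀ hRz hRx]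
        calc bm w z (P.r j) * Ref w x ≤ bm w x (P.r j + dist z x) * ((1 + dist z x) * Ref w z) :=
              mul_le_mul b3 hlip hRx.le (b2.trans b3)
          _ = _ := by ring
      have q2 : (bm w x (P.r j + dist z x) + P.δ * Ref w x) / Ref w x =
          bm w x (P.r j + dist z x) / Ref w x + P.δ := by field_simp
      rw [q2]
      nlinarith
    have i2 := Real.log_le_log p2 i1
    rw [Real.log_mul (by positivity) (div_pos p4 hRx).ne', Real.log_div p4.ne' hRx.ne'] at i2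
    have i3 : Real.log (1 + dist z x) ≤ dist z x := by
      have := Real.log_le_sub_one_of_pos (show 0 < 1 + dist z x by positivity)
      linarith
    have i4 : Real.log ((4 + P.δ) / (bm w x (P.r j) / Ref w x + P.δ)) -
        Real.log ((4 + P.δ) / (bm w z (P.r j) / Ref w z + P.δ)) ≤
        dist z x + (Real.log (T / (bm w x (P.r j) + P.δ * Ref w x)) -
          Real.log (T / (bm w x (P.r j + dist z x) + P.δ * Ref w x))) := by
      rw [Real.log_div (by positivity) p1.ne', Real.log_div (by positivity) p2.ne',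
        Real.log_div hT.ne' p3.ne', Real.log_div hT.ne' p4.ne', e1, Real.log_div p3.ne' hRx.ne']
      linarith
    have := mul_le_mul_of_nonneg_left i4 (E.g_nonneg j)
    linarith
  have h1 := Finset.sum_le_sum key
  rw [Finset.sum_sub_distrib, Finset.sum_add_distrib, Finset.sum_sub_distrib,
    ← Finset.sum_mul] at h1
  have h2 := mul_le_mul_of_nonneg_right E.sum_g hl
  unfold phi
  linarith

/-- global bound near a valid core -/
theorem glob_near (E : EFacts P Y) {μ w : Y → ℝ} (hμ : ∀ y, 0 ≤ μ y) (Ge : Geo μ)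
    {S : Finset Y} (hS : Sep S) (hK : KKT P (mo μ S) w) {a b x : Y} (ha : a ∈ S)
    (hv : Val μ a b) (hxa : dist x a ≤ 11) (hx : 1 / 2 ≤ bm μ x 32) :
    Ref w x * Kv P (mo μ S) w x ≤ 630 * bm μ x 32 := by
  have h1 := hK.glob x
  have h2 := Ge.kap_mo S hS a ha b hv.1
  have h3 := Ge.val_FF a b hv
  have h4 := Ge.mm_le_bm a
  have h5 := E.bm_mono μ a x 11 32 hμ (by rw [dist_comm]; linarith)
  have h6 : ∑ y, mo μ S y * kap (dist y x) ≤ 20 * ∑ y, mo μ S y * kap (dist y b) := by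
    rw [Finset.mul_sum]
    refine Finset.sum_le_sum fun y _ => ?_
    have t1 := dist_triangle y x b
    have t2 := dist_triangle x a b
    have t3 := E.kap_shift (dist y x) (dist y b) 19 dist_nonneg dist_nonneg (by norm_num)
      (by linarith [hv.1])
    have t4 := mo_nonneg E hμ hS y
    nlinarith
  have h7 := E.ε_le
  linarith

/-- local bound -/
theorem loc_bound (E : EFacts P Y) {μ w : Y → ℝ} (hμ : ∀ y, 0 ≤ μ y) (hsum : ∑ y, μ y ≤ P.k)
    {S : Finset Y} (hS : Sep S) (hw : Pos w) (hK : KKT P (mo μ S) w) {x : Y}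
    (hx : 1 / 2 ≤ bm μ x 32) :
    (bm w x 4 + P.δ * Ref w x) * Kv P (mo μ S) w x ≤ 340 * bm μ x 32 := by
  have h1 := hK.glob x
  have h2 := hK.loc x
  have h3 := E.Kv_nonneg (mo μ S) w x (mo_nonneg E hμ hS) hw
  have h4 := E.bm_mono w x x 4 5 (fun a => (hw a).le) (by norm_num)
  have h5 := E.bm_mono_w (mo μ S) μ x 8 fun a _ => mo_le E hμ S a
  have h6 := E.bm_mono μ x x 8 32 hμ (by norm_num)
  have h7 : ∑ y, mo μ S y * kap (dist y x) ≤ ∑ y, μ y := by
    refine Finset.sum_le_sum fun y _ => ?_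
    have t1 := E.kap_le (dist y x) dist_nonneg
    have t2 := mo_nonneg E hμ hS y
    have t3 := mo_le E hμ S y
    nlinarith
  have h8 := E.ε_le
  have h9 := E.δ_pos
  have h10 := E.δ_le
  have h11 := E.δ_k
  have h12 : P.δ * (Ref w x * Kv P (mo μ S) w x) ≤ P.δ * (251 * P.k + 1) :=
    mul_le_mul_of_nonneg_left (by linarith) h9.le
  have h13 : bm w x 4 * Kv P (mo μ S) w x ≤ bm w x 5 * Kv P (mo μ S) w x :=
    mul_le_mul_of_nonneg_right h4 h3
  nlinarith

theorem cd_shallow (E : EFacts P Y) {S : Finset Y} (hS : Sep S) {a y : Y} (ha : a ∈ S) {t : ℝ}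
    (ht0 : 0 ≤ t) (ht1 : t ≤ 2) (h : dist y a - 9 ≤ t) : cd S y ≤ 3 * t ^ 2 := by
  rw [cd_eq E hS ha (by linarith)]
  have t1 := E.sm_hi _ (cl_nonneg (dist y a - 9))
  have t2 : cl (dist y a - 9) ≤ t := cl_le ht0 h
  have t3 := cl_nonneg (dist y a - 9)
  nlinarith

theorem cd_diff (E : EFacts P Y) {S : Finset Y} (hS : Sep S) {a z x : Y} (ha : a ∈ S) {e : ℝ}
    (he0 : 0 ≤ e) (he1 : e ≤ 1) (hee : e = 1 ∨ ∃ a ∈ S, e = dist x a - 9) (hza : dist z a < 10)
    (hl : dist z x ≤ 1 / 4) : cd S x - cd S z ≤ 6 * e * dist z x := by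
  have hl0 : 0 ≤ dist z x := dist_nonneg
  have d1 : dist x a ≤ dist z a + dist z x := by
    have := dist_triangle x z a
    rw [dist_comm x z] at this
    linarith
  have u1 : cl (dist x a - 9) ≤ e := by
    rcases hee with hee | ⟨a', ha', hee⟩
    · rw [hee]
      exact cl_le_one _
    · have : a = a' := by
        by_contra hne
        have t1 := hS a ha a' ha' hne
        have t2 := dist_triangle_left a a' x
        linarith
      subst this
      exact cl_le he0 hee.ge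
  have u2 : cl (dist x a - 9) ≤ cl (dist z a - 9) + dist z x := cl_lip hl0 (by linarith)
  rw [cd_eq E hS ha (by linarith), cd_eq E hS ha (by linarith)]
  rcases le_total (cl (dist x a - 9)) (cl (dist z a - 9)) with h | h
  · have t1 := E.sm_mono _ _ (cl_nonneg _) h (cl_le_one _)
    have t2 : 0 ≤ 6 * e * dist z x := by positivity
    linarith
  · have t1 := E.sm_lip _ _ (cl_nonneg _) h (cl_le_one _)
    have t2 : cl (dist x a - 9) * (cl (dist x a - 9) - cl (dist z a - 9)) ≤ e * dist z x :=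
      mul_le_mul u1 (by linarith) (by linarith) he0
    linarith

theorem arith1 {C1 C2 L l H u v : ℝ} (hC1 : 0 ≤ C1) (hC2 : 0 ≤ C2) (hL : 0 ≤ L) (hl : 0 ≤ l)
    (hH : 0 ≤ H) (hu : u ≤ 3 * l ^ 2 * (756 * L)) (hv : 0 ≤ v) :
    u - v ≤ (2268 + 392 * C2 + 7 * (C1 * C2)) * (L * l ^ 2 + l * (1 + H)) := by
  have c4 : 0 ≤ (392 * C2 + 7 * (C1 * C2)) * (L * l ^ 2 + l * (1 + H)) := by positivity
  have hB : 0 ≤ l * (1 + H) := by positivity
  nlinarith

theorem arith2 {C1 C2 L l H e c D G : ℝ} (hC1 : 0 ≤ C1) (hC2 : 0 ≤ C2) (hl : 0 ≤ l)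
    (hH : 0 ≤ H) (he : e ≤ 1) (hc0 : 0 ≤ c) (hc1 : c ≤ 1) (h1 : D ≤ 27 * l + G)
    (h2 : c * G ≤ C2 * (56 * L * l ^ 2 + l * e * (C1 * (1 + H)))) :
    c * D ≤ 27 * l + C2 * (56 * L * l ^ 2 + l * (C1 * (1 + H))) := by
  have g2 := mul_le_mul_of_nonneg_left h1 hc0
  have g3 : c * (27 * l) ≤ 27 * l := by nlinarith
  have g4 : l * e * (C1 * (1 + H)) ≤ l * (C1 * (1 + H)) := by
    have : l * e ≤ l := by nlinarith
    exact mul_le_mul_of_nonneg_right this (by positivity)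
  have g5 := mul_le_mul_of_nonneg_left g4 hC2
  nlinarith

theorem arith3 {C1 C2 L l H cx cz px pz : ℝ} (hC1 : 0 ≤ C1) (hC2 : 0 ≤ C2) (hL : 0 ≤ L)
    (hl : 0 ≤ l) (hH : 0 ≤ H)
    (h1 : (cx - cz) * px ≤ 6 * l * (C2 * (56 * L * l + C1 * (1 + H))))
    (h2 : cz * (px - pz) ≤ 27 * l + C2 * (56 * L * l ^ 2 + l * (C1 * (1 + H)))) :
    cx * px - cz * pz ≤ (2268 + 392 * C2 + 7 * (C1 * C2)) * (L * l ^ 2 + l * (1 + H)) := by
  have f1 : 0 ≤ C2 * (l * (1 + H)) := by positivity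
  have f2 : 0 ≤ C1 * C2 * (L * l ^ 2) := by positivity
  have f3 : 0 ≤ l * H := by positivity
  have f4 : 0 ≤ L * l ^ 2 := by positivity
  linarith

end OutMv

open OutMv in
theorem outMove (hE : EBasicStmt) (hG : GeoStmt) (h1 : LogStmt) (h2 : GridStmt) :
    OutMoveStmt := by
  obtain ⟨C1, hC1, hL⟩ := h1
  obtain ⟨C2, hC2, hGr⟩ := h2
  have hC12 : 0 ≤ C1 * C2 := mul_nonneg hC1 hC2
  refine ⟨2268 + 392 * C2 + 7 * (C1 * C2), by positivity, ?_⟩
  intro P Y _ _ hP μ w S b z x H hμ hsum hS hval hw hK hH hl4 hx4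
  have E := hE P Y hP
  have Ge := hG Y μ hμ
  have hw0 : ∀ a, 0 ≤ w a := fun a => (hw a).le
  have hH0 : 0 ≤ H := by
    have := hH.q
    have := Ge.qq_nonneg x
    have := hP.ε_pos
    linarith
  have hLk := E.log_k
  by_cases hzx : z = x
  · subst hzx
    simp
  have hlN := hP.mesh z x hzx
  have hl0 : 0 < dist z x := dist_pos.2 hzx
  set l := dist z x with hl
  set L := Real.log P.k with hLdef
  have hL0 : 0 ≤ L := by linarith
  have hpx := E.phi_nonneg w x hw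
  have hpz := E.phi_nonneg w z hw
  have hcx := E.cd_nonneg S x hS
  have hcz := E.cd_nonneg S z hS
  obtain ⟨e, he1, he, hee⟩ := exists_depth S x
  by_cases hel : e ≤ l
  · rcases hee with hee | ⟨a, ha, hee⟩
    · linarith
    have c1 : cd S x ≤ 3 * l ^ 2 := cd_shallow E hS ha hl0.le (by linarith) (by linarith)
    exact arith1 hC1 hC2 hL0 hl0.le hH0
      (mul_le_mul c1 (E.phi_le w x hw) hpx (by positivity)) (mul_nonneg hcz hpz)
  push Not at hel
  have hx : 1 / 2 ≤ bm μ x 32 := hx4.trans (E.bm_mono μ x x (1 / 4) 32 hμ (by norm_num))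
  have hR := E.Ref_pos w x hw
  have hδ := E.δ_pos
  have hδ1 := E.δ_le
  have hρN : ∀ ρ, l / 4 ≤ ρ → 4 / (P.N : ℝ) ≤ ρ := by
    intro ρ h
    have : 4 / (P.N : ℝ) = 16 / (P.N : ℝ) / 4 := by ring
    linarith
  -- the grid statement for a profile
  have grid : ∀ T : ℝ, 0 < T → T ≤ 6 * Ref w x → T * Kv P (mo μ S) w x ≤ 4000 * bm μ x 32 → _ :=
    fun T hT0 hT hTK => hGr P (fun r => Real.log (T / (bm w x r + P.δ * Ref w x))) l e (56 * L)
      (C1 * (1 + H)) hP.N_ge (anti_log E hw x hT0) hlN hl4 hel.le he1 (by positivity)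
      (by positivity)
      ((Real.log_le_log (div_pos hT0 (by
          have := E.bm_nonneg w x 0 hw0
          positivity)) (quot_le E hw x hT 0)).trans (log_six E))
      (fun ρ hρ1 hρ2 => profile hL hP E hμ hS hw hK hH0 hH hx he1 he (by linarith) (hρN ρ hρ1)
        hρ2 hT0 hT hTK)
  -- first part
  have part1 : (cd S x - cd S z) * phi P w x ≤ 6 * l * (C2 * (56 * L * l + C1 * (1 + H))) := by
    by_cases hfar : ∀ a ∈ S, 10 ≤ dist z a
    · have t1 := E.cd_one S z hfar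
      have t2 := E.cd_le S x
      have t3 : (cd S x - cd S z) * phi P w x ≤ 0 :=
        mul_nonpos_of_nonpos_of_nonneg (by linarith) hpx
      have t4 : 0 ≤ 6 * l * (C2 * (56 * L * l + C1 * (1 + H))) := by positivity
      linarith
    push Not at hfar
    obtain ⟨a, ha, hza⟩ := hfar
    have d1 : dist x a ≤ dist z x + dist z a := dist_triangle_left x a z
    have u3 : cd S x - cd S z ≤ 6 * e * l := cd_diff E hS ha (by linarith) he1 hee hza hl4
    have g1 := glob_near E hμ Ge hS hK ha (hval a ha) (by linarith) hx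
    have g2 := (grid ((4 + P.δ) * Ref w x) (by positivity) (by nlinarith) (by
      have t1 : 0 ≤ Ref w x * Kv P (mo μ S) w x :=
        mul_nonneg hR.le (E.Kv_nonneg (mo μ S) w x (mo_nonneg E hμ hS) hw)
      nlinarith)).1
    rw [← phi_eq E hw x] at g2
    calc (cd S x - cd S z) * phi P w x ≤ 6 * e * l * phi P w x :=
          mul_le_mul_of_nonneg_right u3 hpx
      _ = 6 * l * (e * phi P w x) := by ring
      _ ≤ _ := mul_le_mul_of_nonneg_left g2 (by positivity)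
  -- second part
  have part2 : cd S z * (phi P w x - phi P w z) ≤
      27 * l + C2 * (56 * L * l ^ 2 + l * (C1 * (1 + H))) := by
    have b0 := E.bm_nonneg w x 4 hw0
    have hT0 : 0 < bm w x 4 + P.δ * Ref w x := by positivity
    have b1 := E.bm_le_Ref w x 4 hw0 (by norm_num)
    have c1 := E.cd_le S z
    have c2 : cd S z * 3 ^ 2 ≤ 200 * e ^ 2 := by
      rcases hee with hee | ⟨a, ha, hee⟩
      · rw [hee]
        linarith
      · have d1 : dist z a ≤ l + dist x a := dist_triangle z x a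
        have t1 : cd S z ≤ 3 * (2 * e) ^ 2 :=
          cd_shallow E hS ha (by linarith) (by linarith) (by linarith)
        have t2 := sq_nonneg e
        linarith
    have g1 := (grid _ hT0 (by nlinarith) (by
      have := loc_bound E hμ hsum hS hw hK hx
      linarith)).2 (cd S z) 3 3 (by rw [div_self hT0.ne', Real.log_one]) hcz c1 (by linarith)
        le_rfl (by linarith) c2
    rw [Finset.sum_congr rfl fun j hj => if_pos (E.r_le j hj),
      Finset.sum_congr rfl fun j hj => if_pos (E.r_le j hj)] at g1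
    exact arith2 hC1 hC2 hl0.le hH0 he1 hcz c1 (phi_sub E hw z x hT0) g1
  exact arith3 hC1 hC2 hL0 hl0.le hH0 part1 part2

end Vale.Agent.P304
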