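import Vale.Agent.P304.StmtsE

/-! First order conditions for optimal pairs. -/

namespace Vale.Agent.P304

open Finset
open scoped Classical

namespace EPKKT

theorem ff_nonneg {s : ℝ} (hs : 0 ≤ s) : 0 ≤ ff s := le_min (by positivity) (by positivity)

theorem min_le_ff {s x : ℝ} (hs : 0 ≤ s) (h18 : s ≤ 18) (h1 : x ≤ 27) (h2 : x ≤ (3 * s) ^ 3) :
    x ≤ 27 * ff s := by
  rcases le_total s 1 with h | h
  · have h3 : s ^ 3 ≤ ff s := by
      refine le_min (pow_le_pow_of_le_one hs h (by norm_num)) ?_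
      rcases hs.eq_or_lt with rfl | hs
      · simp
      · rw [le_div_iff₀ hs]
        have := pow_le_one₀ (n := 4) hs.le h
        nlinarith
    nlinarith
  · have h3 : 1 ≤ ff s := le_min (one_le_pow₀ h) (by rw [le_div_iff₀ (by linarith)]; linarith)
    linarith

theorem log_gain {d m c : ℝ} (hd : 0 < d) (hd1 : d ≤ 1 / 2) (h0 : 0 ≤ m) (h1 : m ≤ 1)
    (hc : c = 0 ∨ c = 1) :
    Real.log ((1 + d) / ((1 - d ^ 2) * m + d ^ 2 * c + d)) + d ^ 2 * (c / (m + d) - 2) ≤
      Real.log ((1 + d) / (m + d)) := by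
  have ht : d ^ 2 ≤ 1 / 2 := by nlinarith
  have ht0 : 0 < d ^ 2 := by positivity
  have hu : 0 < m + d := by linarith
  have hc0 : 0 ≤ c := by rcases hc with rfl | rfl <;> norm_num
  have hu' : 0 < (1 - d ^ 2) * m + d ^ 2 * c + d := by
    have : 0 ≤ (1 - d ^ 2) * m := mul_nonneg (by linarith) h0
    positivity
  have h2 := Real.one_sub_inv_le_log_of_pos (div_pos hu' hu)
  rw [Real.log_div hu'.ne' hu.ne', inv_div] at h2
  rw [Real.log_div (by linarith) hu'.ne', Real.log_div (by linarith) hu.ne']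
  have h3 : d ^ 2 * (c / (m + d) - 2) ≤ 1 - (m + d) / ((1 - d ^ 2) * m + d ^ 2 * c + d) := by
    have e : 1 - (m + d) / ((1 - d ^ 2) * m + d ^ 2 * c + d) =
        d ^ 2 * ((c - m) / ((1 - d ^ 2) * m + d ^ 2 * c + d)) := by
      rw [one_sub_div hu'.ne', ← mul_div_assoc]
      congr 1
      ring
    rw [e]
    refine mul_le_mul_of_nonneg_left ?_ ht0.le
    rw [le_div_iff₀ hu']
    rcases hc with rfl | rfl
    · rw [zero_div]
      nlinarith [mul_le_mul_of_nonneg_right ht h0]
    · have e2 : 1 / (m + d) - 2 = (1 - 2 * (m + d)) / (m + d) := by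
        field_simp
      rw [e2, div_mul_eq_mul_div, div_le_iff₀ hu]
      have h4 : (1 - m) * (1 - 2 * (m + d)) ≤ 1 := by nlinarith
      have h5 := mul_le_mul_of_nonneg_left h4 ht0.le
      nlinarith [mul_nonneg h0 hd.le, mul_nonneg h0 h0]
  linarith

theorem log_half {d u u' : ℝ} (hd : 0 < d) (hu : 0 < u) (h : u / 2 ≤ u') :
    Real.log ((1 + d) / u') ≤ Real.log ((1 + d) / u) + 1 := by
  have h1 : Real.log 2 ≤ 1 := by linarith [Real.log_two_lt_d9]
  have h2 : Real.log ((1 + d) / u') ≤ Real.log ((1 + d) / u * 2) := by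
    refine Real.log_le_log (div_pos (by linarith) (by linarith)) ?_
    rw [div_mul_eq_mul_div, div_le_div_iff₀ (by linarith) hu]
    nlinarith
  rw [Real.log_mul (div_pos (by linarith) hu).ne' two_ne_zero] at h2
  linarith

variable {Y : Type} [Fintype Y] [MetricSpace Y] {P : Par}

theorem mix_simplex {p : Y → ℝ} (hp : Simplex p) {t : ℝ} (h0 : 0 ≤ t) (h1 : t ≤ 1) (c : Y) :
    Simplex fun a => (1 - t) * p a + t * if a = c then 1 else 0 := by
  refine ⟨fun a => add_nonneg (mul_nonneg (by linarith) (hp.1 a))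
    (mul_nonneg h0 (by split_ifs <;> norm_num)), ?_⟩
  rw [sum_add_distrib, ← mul_sum, ← mul_sum, hp.2]
  simp

theorem bm_mix (E : EFacts P Y) (p : Y → ℝ) (t : ℝ) (c y : Y) (r : ℝ) :
    bm (fun a => (1 - t) * p a + t * if a = c then 1 else 0) y r =
      (1 - t) * bm p y r + t * if dist y c ≤ r then 1 else 0 := by
  rw [E.bm_add (fun a => (1 - t) * p a) fun a => t * if a = c then 1 else 0, E.bm_smul,
    E.bm_smul fun a => if a = c then 1 else 0, E.bm_single]

theorem bm_le_one (E : EFacts P Y) {p : Y → ℝ} (hp : Simplex p) (y : Y) (r : ℝ) : bm p y r ≤ 1 :=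
  (E.bm_le_sum p y r hp.1).trans hp.2.le

end EPKKT

open EPKKT

theorem pkkt (hE : EBasicStmt) : PKKTStmt := by
  intro P Y _ _ hP μ a b p hμ hO
  have E := hE P Y hP
  have h1 : ∑ y, μ y * wi a y * ∑ j ∈ P.I, (if P.r j ≤ 3 * dist y b then P.g j else 0) ≤
      27 * FF μ b := by
    unfold FF
    rw [mul_sum]
    refine sum_le_sum fun y _ => ?_
    have hf := ff_nonneg (dist_nonneg (x := y) (y := b))
    rcases le_total 10 (dist y a) with h | h
    · rw [E.wi_zero a y h, mul_zero, zero_mul]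
      have := hμ y
      positivity
    · have h2 : dist y b ≤ 18 := by linarith [dist_triangle y a b, hO.1]
      have h3 := min_le_ff dist_nonneg h2 ((sum_le_sum fun j _ => by
        split_ifs
        · exact le_rfl
        · exact E.g_nonneg j).trans E.sum_g) (E.sum_g_le (3 * dist y b) (by positivity))
      have h4 := mul_le_mul (E.wi_le a y) h3 (sum_nonneg fun j _ => by
        split_ifs
        · exact E.g_nonneg j
        · exact le_rfl) zero_le_one
      have h5 := mul_le_mul_of_nonneg_left h4 (hμ y)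
      linarith
  refine ⟨h1, fun c => ?_⟩
  have hd := E.δ_pos
  have hd1 : P.δ ≤ 1 / 2 := E.δ_le.trans (by norm_num)
  have h2 := hO.2.2 b _ hO.1 (mix_simplex hO.2.1 (sq_nonneg P.δ) (by nlinarith) c)
  unfold JJ at h2
  have h3 : ∀ y, pin P b (fun a => (1 - P.δ ^ 2) * p a + P.δ ^ 2 * if a = c then 1 else 0) y +
      P.δ ^ 2 * (∑ j ∈ P.I, (if dist y c ≤ P.r j ∧ P.r j ≤ 3 * dist y b then
        P.g j / (bm p y (P.r j) + P.δ) else 0) -
        2 * ∑ j ∈ P.I, (if P.r j ≤ 3 * dist y b then P.g j else 0)) ≤ pin P b p y := fun y => by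
    unfold pin
    rw [mul_sum, ← sum_sub_distrib, mul_sum, ← sum_add_distrib]
    refine sum_le_sum fun j _ => ?_
    by_cases h : P.r j ≤ 3 * dist y b
    · have h4 := mul_le_mul_of_nonneg_left (log_gain hd hd1 (E.bm_nonneg p y (P.r j) hO.2.1.1)
        (bm_le_one E hO.2.1 y _) (c := if dist y c ≤ P.r j then 1 else 0)
        (by split_ifs <;> simp)) (E.g_nonneg j)
      simp only [h, if_true, and_true, bm_mix E]
      refine le_trans (le_of_eq ?_) h4
      split_ifs <;> ring
    · simp [h]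
  have h4 := sum_le_sum fun y (_ : y ∈ univ) =>
    mul_le_mul_of_nonneg_left (h3 y) (mul_nonneg (hμ y) (E.wi_nonneg a y))
  have e : ∀ A B C D : ℝ, A * (B + P.δ ^ 2 * (C - 2 * D)) =
      A * B + (P.δ ^ 2 * (A * C) - 2 * P.δ ^ 2 * (A * D)) := fun A B C D => by ring
  simp only [e] at h4
  rw [sum_add_distrib, sum_sub_distrib, ← mul_sum, ← mul_sum] at h4
  refine le_of_mul_le_mul_left ?_ (pow_pos hd 2)
  have h5 := mul_le_mul_of_nonneg_left h1 (sq_nonneg P.δ)
  linarith

theorem nearOpt (hE : EBasicStmt) (hG : GeoStmt) : NearOptStmt := by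
  intro P Y _ _ hP μ a b p hμ hO
  have E := hE P Y hP
  have Ge := hG Y μ hμ
  have hd := E.δ_pos
  have h1 : ∀ b', dist a b' ≤ 8 → (1 + dist a b) * (FF μ b + P.ε) ≤
      (1 + dist a b') * (FF μ b' + P.ε) + mm μ a / 100000 := fun b' hb' => by
    have h2 := hO.2.2 b' _ hb' (mix_simplex hO.2.1 (t := 1 / 2) (by norm_num) (by norm_num) b)
    unfold JJ at h2
    have h3 : ∀ y, pin P b' (fun a => (1 - 1 / 2) * p a + 1 / 2 * if a = b then 1 else 0) y ≤
        pin P b p y + 27 := fun y => by
      refine le_trans ?_ (add_le_add le_rfl E.sum_g)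
      unfold pin
      rw [← sum_add_distrib]
      refine sum_le_sum fun j hj => ?_
      have h4 := E.bm_nonneg p y (P.r j) hO.2.1.1
      have h5 := bm_le_one E hO.2.1 y (P.r j)
      have h6 := E.g_nonneg j
      rw [bm_mix E]
      by_cases h : P.r j ≤ 3 * dist y b'
      · rw [if_pos h]
        by_cases h' : P.r j ≤ 3 * dist y b
        · rw [if_pos h', ← mul_add_one]
          refine mul_le_mul_of_nonneg_left (log_half hd (by linarith) ?_) h6
          split_ifs <;> linarith
        · have h7 : dist y b ≤ P.r j := by linarith [not_le.1 h', dist_nonneg (x := y) (y := b)]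
          rw [if_neg h', if_pos h7, zero_add]
          have h8 := log_half (u := 1 + P.δ)
            (u' := (1 - 1 / 2) * bm p y (P.r j) + 1 / 2 * 1 + P.δ) hd (by linarith) (by linarith)
          rw [div_self (by linarith), Real.log_one, zero_add] at h8
          exact mul_le_of_le_one_right h6 h8
      · rw [if_neg h]
        refine add_nonneg ?_ h6
        split_ifs
        · exact mul_nonneg h6 (Real.log_nonneg ((one_le_div (by linarith)).2 (by linarith)))
        · exact le_rfl
    have h4 := sum_le_sum fun y (_ : y ∈ univ) =>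
      mul_le_mul_of_nonneg_left (h3 y) (mul_nonneg (hμ y) (E.wi_nonneg a y))
    simp only [mul_add (_ * wi a _), sum_add_distrib, ← sum_mul] at h4
    have h5 := Ge.wi_le_mm a
    have h6 := Ge.mm_nonneg a
    linarith
  refine ⟨h1, fun hH => ⟨hO.1, by linarith [hH.1], ?_⟩⟩
  have h2 := h1 a (by simp)
  rw [dist_self, add_zero, one_mul, mul_add] at h2
  have h3 : 0 ≤ (1 + dist a b) * P.ε := mul_nonneg (by positivity) hP.ε_pos.le
  linarith [hH.1, hH.2, E.ε_le]

end Vale.Agent.P304
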