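import Vale.Agent.P304.StmtsE

/-! Change of the inner potential when a unit of mass moves inside a core. -/

namespace Vale.Agent.P304

open Finset
open scoped Classical

namespace PinMove

variable {P : Par} {Y : Type} [Fintype Y] [MetricSpace Y]

/-- logarithmic deficit of the ball of radius `r` -/
noncomputable def AA (P : Par) (p : Y → ℝ) (x : Y) (r : ℝ) : ℝ :=
  Real.log ((1 + P.δ) / (bm p x r + P.δ))

theorem den_pos (E : EFacts P Y) {p : Y → ℝ} (hp : Simplex p) (x : Y) (r : ℝ) :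
    0 < bm p x r + P.δ := add_pos_of_nonneg_of_pos (E.bm_nonneg p x r hp.1) E.δ_pos

theorem AA_le (E : EFacts P Y) {p : Y → ℝ} (hp : Simplex p) {x y : Y} {r r' : ℝ}
    (h : r + dist y x ≤ r') : AA P p x r' ≤ AA P p y r := by
  have h1 := E.bm_mono p y x r r' hp.1 h
  have h2 := den_pos E hp y r
  have h3 := den_pos E hp x r'
  have h4 := E.δ_pos
  exact Real.log_le_log (by positivity)
    (div_le_div_of_nonneg_left (by linarith) h2 (by linarith))

theorem AA_anti (E : EFacts P Y) {p : Y → ℝ} (hp : Simplex p) (x : Y) : Antitone (AA P p x) :=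
  fun _ _ h => AA_le E hp (by rw [dist_self, add_zero]; exact h)

theorem AA_nonneg (E : EFacts P Y) {p : Y → ℝ} (hp : Simplex p) (x : Y) (r : ℝ) :
    0 ≤ AA P p x r := by
  have h1 := E.bm_le_sum p x r hp.1
  rw [hp.2] at h1
  exact Real.log_nonneg ((one_le_div (den_pos E hp x r)).2 (by linarith))

theorem AA_top (E : EFacts P Y) {p : Y → ℝ} (hp : Simplex p) (x : Y) (r : ℝ) :
    AA P p x r ≤ 28 * Real.log P.k := by
  refine le_trans ?_ E.log_δ
  have h1 := E.bm_nonneg p x r hp.1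
  have h2 := E.δ_pos
  have h3 := E.δ_le
  refine Real.log_le_log (by positivity) ?_
  exact div_le_div₀ (by norm_num) (by linarith) h2 (by linarith)

theorem wi_lo (E : EFacts P Y) {a y : Y} {ρ : ℝ} (h0 : 0 ≤ ρ) (h1 : ρ ≤ 1)
    (h : 3 / 4 * ρ ≤ 10 - dist y a) : ρ ^ 2 / 2 ≤ wi a y := by
  have a1 : 3 / 4 * ρ ≤ max 0 (min 1 (10 - dist y a)) :=
    le_max_of_le_right (le_min (by linarith) h)
  have a2 : max 0 (min 1 (10 - dist y a)) ≤ 1 := max_le zero_le_one (min_le_left _ _)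
  refine le_trans ?_ (E.sm_lo _ a2)
  nlinarith

/-- the inner sum for a point close to `x` -/
theorem inner_lo (E : EFacts P Y) {p : Y → ℝ} (hp : Simplex p) {b x y : Y} {ρ : ℝ} (h0 : 0 < ρ)
    (h1 : ρ ≤ 1) (hN : 1 / (P.N : ℝ) ≤ ρ / 4) (hb : ρ ≤ dist x b) (hy : dist x y ≤ ρ / 4) :
    ρ ^ 3 / 64 / (bm p x ρ + P.δ) ≤ ∑ j ∈ P.I,
      (if dist y x ≤ P.r j ∧ P.r j ≤ 3 * dist y b then P.g j / (bm p y (P.r j) + P.δ) else 0) := by
  have s1 := E.sum_g_ge (ρ / 4) (3 / 4 * ρ) (by positivity) (by linarith) (by linarith)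
  have s2 : ρ ^ 3 / 64 ≤ (ρ / 4) ^ 2 * (3 / 4 * ρ - ρ / 4 - 1 / P.N) := by
    have : (ρ / 4) ^ 2 * (ρ / 4) ≤ (ρ / 4) ^ 2 * (3 / 4 * ρ - ρ / 4 - 1 / P.N) :=
      mul_le_mul_of_nonneg_left (by linarith) (by positivity)
    linarith
  have d0 := den_pos E hp x ρ
  refine (div_le_div_of_nonneg_right (s2.trans s1) d0.le).trans ?_
  rw [sum_div]
  refine sum_le_sum fun j _ => ?_
  have d1 := den_pos E hp y (P.r j)
  have g0 := E.g_nonneg j
  have t1 := dist_triangle x y b
  have t2 := dist_comm y x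
  by_cases h : ρ / 4 ≤ P.r j ∧ P.r j ≤ 3 / 4 * ρ
  · rw [if_pos h, if_pos ⟨by linarith [h.1], by linarith [h.2]⟩]
    have := E.bm_mono p y x (P.r j) ρ hp.1 (by linarith [h.2])
    exact div_le_div_of_nonneg_left g0 d1 (by linarith)
  · rw [if_neg h, zero_div]
    split_ifs
    · positivity
    · exact le_rfl

/-- the balance inequality -/
theorem balance (E : EFacts P Y) {μ p : Y → ℝ} (hμ : ∀ y, 0 ≤ μ y) (hp : Simplex p) {a b x : Y}
    {ρ F : ℝ} (h0 : 0 < ρ) (h1 : ρ ≤ 1) (hN : 1 / (P.N : ℝ) ≤ ρ / 4) (hb : ρ ≤ dist x b)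
    (ha : ρ ≤ 10 - dist x a)
    (hK : ∑ y, μ y * wi a y * ∑ j ∈ P.I, (if dist y x ≤ P.r j ∧ P.r j ≤ 3 * dist y b then
      P.g j / (bm p y (P.r j) + P.δ) else 0) ≤ 54 * F) :
    ρ ^ 5 * bm μ x (ρ / 4) ≤ 6912 * F * (bm p x ρ + P.δ) := by
  have d0 := den_pos E hp x ρ
  have key : bm μ x (ρ / 4) * (ρ ^ 2 / 2 * (ρ ^ 3 / 64 / (bm p x ρ + P.δ))) ≤ 54 * F := by
    refine le_trans ?_ hK
    rw [bm, sum_mul]
    refine sum_le_sum fun y _ => ?_
    rw [bal, mul_assoc]
    split_ifs with hy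
    · refine mul_le_mul_of_nonneg_left ?_ (hμ y)
      have t1 := dist_triangle y x a
      have t2 := dist_comm y x
      exact mul_le_mul (wi_lo E h0.le h1 (by linarith)) (inner_lo E hp h0 h1 hN hb hy)
        (by positivity) (E.wi_nonneg a y)
    · rw [zero_mul]
      refine mul_nonneg (hμ y) (mul_nonneg (E.wi_nonneg a y) (sum_nonneg fun j _ => ?_))
      have d1 := den_pos E hp y (P.r j)
      have g0 := E.g_nonneg j
      split_ifs
      · positivity
      · exact le_rfl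
  have e : bm μ x (ρ / 4) * (ρ ^ 2 / 2 * (ρ ^ 3 / 64 / (bm p x ρ + P.δ))) =
      ρ ^ 5 * bm μ x (ρ / 4) / 128 / (bm p x ρ + P.δ) := by
    field_simp
    ring
  rw [e, div_le_iff₀ d0] at key
  linarith

/-- the logarithmic bound -/
theorem log_bound {C : ℝ}
    (hC : ∀ (k : ℕ) (ε ρ m M Q H : ℝ), 2 ≤ k → ε ≤ 1 / (k : ℝ) ^ 2 → 0 < ρ → ρ ≤ 1 →
      0 ≤ m → 1 / 2 ≤ M → 0 < Q → Q ≤ 10 ^ 8 * k → ρ ^ 5 * m ≤ 10 ^ 8 * (M / Q + ε) → 0 ≤ H →
      ρ / 4 * Real.log (M / (m + 1 / k)) ≤ H → Real.log Q ≤ C * (1 + H) / ρ)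
    (hP : P.OK Y) (E : EFacts P Y) {μ p : Y → ℝ} (Ge : Geo μ) (hμ : ∀ y, 0 ≤ μ y)
    (hp : Simplex p) {a b x : Y} {H ρ : ℝ} (hV : Val μ a b) (hH : 0 ≤ H)
    (hη : EtaOK P.k P.ε μ (fun y => dist y x) H) (hm : 1 / 2 ≤ bm μ x (1 / 4)) (h0 : 0 < ρ)
    (h1 : ρ ≤ 1) (ha : dist x a ≤ 10)
    (hB : ρ ^ 5 * bm μ x (ρ / 4) ≤ 6912 * FF μ b * (bm p x ρ + P.δ)) :
    AA P p x ρ ≤ C * (1 + H) / ρ := by
  have k2 : (2 : ℝ) ≤ P.k := by exact_mod_cast hP.k_ge
  have d0 := den_pos E hp x ρ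
  have δ0 := E.δ_pos
  have δ1 := E.δ_le
  have b0 := E.bm_nonneg p x ρ hp.1
  have k0 : (0 : ℝ) < 1 / P.k := by positivity
  have m1 := E.bm_mono μ x x (1 / 4) 32 hμ (by rw [dist_self]; norm_num)
  have m2 := E.bm_mono μ a x 11 32 hμ (by rw [dist_comm]; linarith)
  have m3 := Ge.mm_le_bm a
  have m4 := Ge.val_FF a b hV
  have m5 : 0 < bm μ x 32 + 1 / P.k := by linarith
  have e1 := hη.e1 (ρ / 4) (by positivity) (by linarith)
  rw [E.Mb_eq, E.Mb_eq] at e1
  refine hC P.k P.ε ρ (bm μ x (ρ / 4)) (bm μ x 32 + 1 / P.k) _ H hP.k_ge ?_ h0 h1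
    (E.bm_nonneg μ x _ hμ) (by linarith) (by positivity) ?_ ?_ hH e1
  · refine hP.ε_le.trans (one_div_le_one_div_of_le (by positivity) ?_)
    nlinarith [sq_nonneg (P.k : ℝ)]
  · rw [div_le_iff₀ d0]
    have := E.δ_k
    nlinarith [mul_nonneg (by linarith : (0 : ℝ) ≤ P.k) b0]
  · have q : (bm μ x 32 + 1 / P.k) * (bm p x ρ + P.δ) / 2 ≤
        (bm μ x 32 + 1 / P.k) / ((1 + P.δ) / (bm p x ρ + P.δ)) := by
      rw [div_div_eq_mul_div]
      exact div_le_div_of_nonneg_left (by positivity) (by linarith) (by linarith)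
    have q2 : FF μ b * (bm p x ρ + P.δ) ≤ (bm μ x 32 + 1 / P.k) / 4 * (bm p x ρ + P.δ) :=
      mul_le_mul_of_nonneg_right (by linarith) d0.le
    have q3 : 0 ≤ (bm μ x 32 + 1 / P.k) * (bm p x ρ + P.δ) := by positivity
    have := hP.ε_pos
    linarith

theorem pin_eq (E : EFacts P Y) (p : Y → ℝ) (b x : Y) : pin P b p x =
    ∑ j ∈ P.I, if P.r j ≤ min 3 (3 * dist x b) then P.g j * AA P p x (P.r j) else 0 := by
  refine sum_congr rfl fun j hj => ?_
  have := E.r_le j hj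
  simp only [le_min_iff, this, true_and, AA]

theorem pin_le_sum (E : EFacts P Y) {p : Y → ℝ} (hp : Simplex p) (b x : Y) :
    pin P b p x ≤ ∑ j ∈ P.I, P.g j * AA P p x (P.r j) := by
  rw [pin_eq E]
  refine sum_le_sum fun j _ => ?_
  split_ifs
  · exact le_rfl
  · exact mul_nonneg (E.g_nonneg j) (AA_nonneg E hp x _)

theorem pin_ge (E : EFacts P Y) {p : Y → ℝ} (hp : Simplex p) (b z x : Y) :
    ∑ j ∈ P.I, (if P.r j ≤ 3 * dist z b then P.g j * AA P p x (P.r j + dist z x) else 0) ≤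
      pin P b p z := by
  refine sum_le_sum fun j _ => ?_
  split_ifs
  · exact mul_le_mul_of_nonneg_left (AA_le E hp le_rfl) (E.g_nonneg j)
  · exact le_rfl

theorem wi_diff (E : EFacts P Y) {a z x : Y} (hx : dist x a ≤ 10) :
    wi a x - wi a z ≤ 6 * min 1 (10 - dist x a) * dist z x := by
  have h0 : 0 ≤ min 1 (10 - dist x a) := le_min zero_le_one (by linarith)
  have h1 : min 1 (10 - dist x a) ≤ 1 := min_le_left _ _
  have h2 : min 1 (10 - dist x a) ≤ 10 - dist x a := min_le_right _ _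
  have t := dist_triangle z x a
  have l0 : 0 ≤ dist z x := dist_nonneg
  have h3 : min 1 (10 - dist x a) - dist z x ≤ max 0 (min 1 (10 - dist z a)) :=
    le_max_of_le_right (le_min (by linarith) (by linarith))
  rw [wi, wi, max_eq_right h0]
  rcases le_total (min 1 (10 - dist x a)) (max 0 (min 1 (10 - dist z a))) with h | h
  · have := E.sm_mono _ _ h0 h (max_le zero_le_one (min_le_left _ _))
    have := mul_nonneg h0 l0
    linarith
  · refine (E.sm_lip _ _ (le_max_left _ _) h h1).trans ?_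
    exact mul_le_mul_of_nonneg_left (by linarith) (by linarith)

theorem wi_hi (E : EFacts P Y) {a z x : Y} (h : dist z x ≤ min 1 (10 - dist x a)) :
    wi a z ≤ 12 * min 1 (10 - dist x a) ^ 2 := by
  have l0 : 0 ≤ dist z x := dist_nonneg
  have t := dist_triangle x z a
  rw [dist_comm x z] at t
  have h3 : max 0 (min 1 (10 - dist z a)) ≤ 2 * min 1 (10 - dist x a) := by
    refine max_le (by linarith) ?_
    rcases min_choice 1 (10 - dist x a) with e | e
    · rw [e]
      exact (min_le_left _ _).trans (by norm_num)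
    · rw [e] at h ⊢
      exact (min_le_right _ _).trans (by linarith)
  have h4 := le_max_left 0 (min 1 (10 - dist z a))
  refine (E.sm_hi _ h4).trans ?_
  nlinarith

theorem cR_le {c e' D : ℝ} (c1 : c ≤ 1) (c2 : c ≤ 12 * e' ^ 2) (hD : 0 ≤ D) :
    c * min 3 (3 * D) ^ 2 ≤ 200 * min e' D ^ 2 := by
  have r0 : 0 ≤ min 3 (3 * D) := le_min (by norm_num) (by linarith)
  rcases min_choice e' D with e | e <;> rw [e]
  · have r1 : min 3 (3 * D) ^ 2 ≤ 3 ^ 2 := pow_le_pow_left₀ r0 (min_le_left _ _) 2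
    have := mul_le_mul c2 r1 (by positivity) (by positivity)
    nlinarith [sq_nonneg e']
  · have r1 : min 3 (3 * D) ^ 2 ≤ (3 * D) ^ 2 := pow_le_pow_left₀ r0 (min_le_right _ _) 2
    have := mul_le_mul c1 r1 (by positivity) (by positivity)
    nlinarith [sq_nonneg D]

/-- the term with the change of the cutoff -/
theorem first (E : EFacts P Y) {p : Y → ℝ} (hp : Simplex p) {a b z x : Y} {C1 C2 H : ℝ}
    (c1 : 0 ≤ C1) (c2 : 0 ≤ C2) (hH : 0 ≤ H) (hab : dist a b ≤ 8) (hl : dist z x ≤ 1 / 4)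
    (hx : dist x a ≤ 10)
    (hG : min (min 1 (10 - dist x a)) (dist x b) * ∑ j ∈ P.I, P.g j * AA P p x (P.r j) ≤
      C2 * (28 * Real.log P.k * dist z x + C1 * (1 + H))) :
    (wi a x - wi a z) * pin P b p x ≤ 224 * C2 * (Real.log P.k * dist z x ^ 2) +
      11 * C2 * C1 * (dist z x * (min 1 (dist x b) + H)) := by
  have l0 : 0 ≤ dist z x := dist_nonneg
  have L0 : 0 ≤ Real.log P.k := le_trans (by norm_num) E.log_k
  have D0 : 0 ≤ min 1 (dist x b) := le_min zero_le_one dist_nonneg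
  have p0 := E.pin_nonneg b p x hp
  by_cases hz : dist z a ≤ 9
  · have := E.wi_one a z hz
    have := E.wi_le a x
    refine le_trans (mul_nonpos_of_nonpos_of_nonneg (by linarith) p0) (by positivity)
  have t1 := dist_triangle z x a
  have t2 := dist_triangle x b a
  rw [dist_comm b a] at t2
  have hD : 3 / 4 ≤ dist x b := by linarith [not_le.1 hz]
  have h0 : 0 ≤ min 1 (10 - dist x a) := le_min zero_le_one (by linarith)
  have h1 : min 1 (10 - dist x a) ≤ 1 := min_le_left _ _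
  have he : 3 / 4 * min 1 (10 - dist x a) ≤ min (min 1 (10 - dist x a)) (dist x b) :=
    le_min (by linarith) (by linarith)
  have hD' : 3 / 4 ≤ min 1 (dist x b) := le_min (by norm_num) hD
  have w := wi_diff E (z := z) hx
  have ps := pin_le_sum E hp b x
  generalize min (min 1 (10 - dist x a)) (dist x b) = e at *
  generalize min 1 (10 - dist x a) = e' at *
  generalize ∑ j ∈ P.I, P.g j * AA P p x (P.r j) = S at *
  have a1 : (wi a x - wi a z) * pin P b p x ≤ 6 * e' * dist z x * S :=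
    (mul_le_mul_of_nonneg_right w p0).trans (mul_le_mul_of_nonneg_left ps (by positivity))
  have a2 : 3 / 4 * e' * (dist z x * S) ≤ e * (dist z x * S) :=
    mul_le_mul_of_nonneg_right he (mul_nonneg l0 (p0.trans ps))
  have a3 := mul_le_mul_of_nonneg_left hG l0
  have a4 : C2 * C1 * dist z x * (8 * (1 + H)) ≤
      C2 * C1 * dist z x * (11 * (min 1 (dist x b) + H)) :=
    mul_le_mul_of_nonneg_left (by linarith) (by positivity)
  nlinarith

end PinMove

open PinMove in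
theorem pinMove (hE : EBasicStmt) (hG : GeoStmt) (h0 : PKKTStmt) (h1 : LogStmt) (h2 : GridStmt) :
    PinMoveStmt := by
  obtain ⟨C1, c1, h1⟩ := h1
  obtain ⟨C2, c2, h2⟩ := h2
  refine ⟨2268 + 252 * C2 + 12 * C2 * C1, by positivity, ?_⟩
  intro P Y _ _ hP μ p a b z x H hμ hO hV hη hl hm
  have E := hE P Y hP
  have Ge := hG Y μ hμ
  have hp : Simplex p := hO.2.1
  have hH : 0 ≤ H := by linarith [hη.q, Ge.qq_nonneg x, hP.ε_pos]
  have l0 : 0 ≤ dist z x := dist_nonneg
  have L0 : 0 ≤ Real.log P.k := le_trans (by norm_num) E.log_k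
  have D0 : 0 ≤ min 1 (dist x b) := le_min zero_le_one dist_nonneg
  have px := E.pin_nonneg b p x hp
  have pz := mul_nonneg (E.wi_nonneg a z) (E.pin_nonneg b p z hp)
  have u0 : 0 ≤ Real.log P.k * dist z x ^ 2 := by positivity
  have v0 : 0 ≤ dist z x * (min 1 (dist x b) + H) := by positivity
  have c12 : 0 ≤ C2 * C1 := by positivity
  have w1 := mul_nonneg c2 u0
  have w2 := mul_nonneg c2 v0
  have w3 := mul_nonneg c12 u0
  have w4 := mul_nonneg c12 v0
  by_cases hzx : z = x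
  · rw [hzx, sub_self]
    positivity
  by_cases hx : 10 ≤ dist x a
  · rw [E.wi_zero a x hx]
    nlinarith
  replace hx : dist x a ≤ 10 := (not_le.1 hx).le
  have e0 : 0 ≤ min 1 (10 - dist x a) := le_min zero_le_one (by linarith)
  by_cases he : min 1 (10 - dist x a) ≤ dist z x
  · have a1 : wi a x ≤ 3 * dist z x ^ 2 := by
      rw [wi, max_eq_right e0]
      exact (E.sm_hi _ e0).trans (by nlinarith)
    have a2 := mul_le_mul a1 (E.pin_le b p x hp) px (by positivity)
    nlinarith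
  by_cases hD : dist x b ≤ dist z x
  · have a1 : dist x b ^ 3 ≤ dist z x ^ 2 :=
      (pow_le_pow_left₀ dist_nonneg hD 3).trans
        (pow_le_pow_of_le_one l0 (by linarith) (by norm_num))
    have a2 := (E.pin_le' b p x hp).trans (mul_le_mul_of_nonneg_left a1 (by positivity))
    have a3 := mul_le_mul_of_nonneg_right (E.wi_le a x) px
    nlinarith
  replace he := (not_le.1 he).le
  replace hD := (not_le.1 hD).le
  have hN := hP.mesh z x hzx
  have N0 : (0 : ℝ) < P.N := by exact_mod_cast lt_of_lt_of_le (by norm_num) hP.N_ge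
  have N1 : 16 / (P.N : ℝ) = 16 * (1 / P.N) := by ring
  have N2 : (0 : ℝ) < 1 / P.N := by positivity
  have f1 : min (min 1 (10 - dist x a)) (dist x b) ≤ 1 := (min_le_left _ _).trans (min_le_left _ _)
  have f2 : min (min 1 (10 - dist x a)) (dist x b) ≤ 10 - dist x a :=
    (min_le_left _ _).trans (min_le_right _ _)
  have f3 : min (min 1 (10 - dist x a)) (dist x b) ≤ dist x b := min_le_right _ _
  obtain ⟨g1, g2⟩ := h2 P (AA P p x) (dist z x) (min (min 1 (10 - dist x a)) (dist x b))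
    (28 * Real.log P.k) (C1 * (1 + H)) hP.N_ge (AA_anti E hp x) hN hl (le_min he hD) f1
    (by positivity) (by positivity) (AA_top E hp x 0) fun ρ r1 r2 =>
      log_bound h1 hP E Ge hμ hp hV hH hη hm (by linarith) (r2.trans f1) hx
        (balance E hμ hp (by linarith) (r2.trans f1) (by linarith) (r2.trans f3) (r2.trans f2)
          ((h0 P Y hP μ a b p hμ hO).2 x))
  have s1 := first E hp c1 c2 hH hO.1 hl hx g1
  have t := dist_triangle x z b
  rw [dist_comm x z] at t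
  have s2 := g2 (wi a z) (min 3 (3 * dist x b)) (3 * dist z b) (AA_nonneg E hp x 4)
    (E.wi_nonneg a z) (E.wi_le a z) (le_min (by linarith) (by linarith)) (min_le_left _ _)
    (by linarith [min_le_right 3 (3 * dist x b)])
    (cR_le (E.wi_le a z) (wi_hi E he) dist_nonneg)
  rw [← pin_eq E] at s2
  have s3 := mul_le_mul_of_nonneg_left (pin_ge E hp b z x) (E.wi_nonneg a z)
  have f4 : min (min 1 (10 - dist x a)) (dist x b) ≤ min 1 (dist x b) := le_min f1 f3
  have f5 : min (min 1 (10 - dist x a)) (dist x b) * (1 + H) ≤ min 1 (dist x b) + H := by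
    nlinarith [mul_le_mul_of_nonneg_right f1 hH]
  have s4 := mul_le_mul_of_nonneg_left f5 (mul_nonneg c12 l0)
  generalize min (min 1 (10 - dist x a)) (dist x b) = e at *
  generalize (∑ j ∈ P.I, if P.r j ≤ 3 * dist z b then P.g j * AA P p x (P.r j + dist z x)
    else 0) = S at *
  linarith

end Vale.Agent.P304
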