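import Vale.Agent.P304.StmtsE
import Vale.Agent.P304.MoveHvy

/-! The optimal centre of a valid core is pulled towards a heavy request. -/

namespace Vale.Agent.P304

open Finset
open scoped Classical

namespace EPull

theorem log_ratio {u v δ t : ℝ} (hδ : 0 < δ) (hu : 0 ≤ u) (ht : 0 ≤ t) (ht' : t ≤ 1 / 2)
    (h : (1 - t) * u ≤ v) :
    Real.log ((1 + δ) / (v + δ)) - Real.log ((1 + δ) / (u + δ)) ≤ 2 * t := by
  have hv : 0 ≤ v := le_trans (mul_nonneg (by linarith) hu) h
  have h1 : 0 < u + δ := by linarith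
  have h2 : 0 < v + δ := by linarith
  rw [← Real.log_div (by positivity) (by positivity)]
  have h3 : (1 + δ) / (v + δ) / ((1 + δ) / (u + δ)) = (u + δ) / (v + δ) := by
    field_simp
  rw [h3]
  refine (Real.log_le_sub_one_of_pos (by positivity)).trans ?_
  rw [sub_le_iff_le_add, div_le_iff₀ h2]
  have h4 := mul_le_mul_of_nonneg_left h (by linarith : (0 : ℝ) ≤ 2 * t + 1)
  nlinarith [mul_nonneg ht hδ.le, mul_nonneg (mul_nonneg ht (by linarith : (0 : ℝ) ≤ 1 - 2 * t)) hu]

theorem log_nonneg' {u δ : ℝ} (hδ : 0 < δ) (hu : 0 ≤ u) (hu' : u ≤ 1) :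
    0 ≤ Real.log ((1 + δ) / (u + δ)) :=
  Real.log_nonneg (by rw [le_div_iff₀ (by linarith)]; linarith)

theorem log_small {v δ t : ℝ} (hδ : 0 < δ) (ht : 0 < t) (ht' : t ≤ 1) (h : t ≤ v) :
    Real.log ((1 + δ) / (v + δ)) ≤ 1 / t := by
  have h2 : 0 < v + δ := by linarith
  refine (Real.log_le_sub_one_of_pos (by positivity)).trans ?_
  have : (1 + δ) / (v + δ) ≤ 1 / t := by
    rw [div_le_div_iff₀ h2 ht]
    nlinarith
  linarith

theorem log_big {u v δ s : ℝ} (hδ : 0 < δ) (hδ' : δ ≤ 1) (hu : 0 ≤ u) (hs : 0 < s)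
    (h : u / 2 ≤ v) : Real.log ((1 + δ) / (v + δ)) ≤ 4 / s + s / (u + δ) := by
  have h1 : 0 < u + δ := by linarith
  have h2 : 0 < v + δ := by linarith
  have h3 : (1 + δ) / (v + δ) ≤ 4 / s * (s / (u + δ)) := by
    have : 4 / s * (s / (u + δ)) = 4 / (u + δ) := by field_simp
    rw [this, div_le_div_iff₀ h2 h1]
    nlinarith
  refine (Real.log_le_log (by positivity) h3).trans ?_
  rw [Real.log_mul (by positivity) (by positivity)]
  have h4 := Real.log_le_sub_one_of_pos (x := 4 / s) (by positivity)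
  have h5 := Real.log_le_sub_one_of_pos (x := s / (u + δ)) (by positivity)
  linarith

variable {Y : Type} [Fintype Y] [MetricSpace Y] {P : Par}

/-- weight of the extra radii -/
theorem extra (E : EFacts P Y) {s sx D : ℝ} (hs : 0 ≤ s) (hD : 16 / (P.N : ℝ) ≤ D)
    (hN : 0 < (P.N : ℝ)) (h : sx ≤ s + D) :
    ∑ j ∈ P.I, (if 3 * s < P.r j ∧ P.r j ≤ 3 * sx then P.g j else 0) ≤ 36 * D * sx ^ 2 := by
  have hD0 : 0 < D := lt_of_lt_of_le (by positivity) hD
  rcases le_total s sx with h1 | h1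
  · refine (E.sum_g_mid (3 * s) (3 * sx) (by linarith) (by linarith)).trans ?_
    have h2 : 1 / (P.N : ℝ) ≤ D := le_trans (by gcongr; norm_num) hD
    nlinarith [sq_nonneg sx]
  · rw [sum_eq_zero fun j _ => if_neg (by rintro ⟨a, b⟩; linarith)]
    positivity

theorem point (E : EFacts P Y) {p : Y → ℝ} (hp : Simplex p) (b x y : Y)
    (hD : 16 / (P.N : ℝ) ≤ dist x b) (hD2 : dist x b ≤ 2) (hN : 0 < (P.N : ℝ)) :
    pin P x (fun c => (1 - dist x b / 4) * p c + dist x b / 4 * (if c = b then 1 else 0)) y -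
        pin P b p y ≤
      dist x b / 2 * (∑ j ∈ P.I, if P.r j ≤ 3 * dist y b then P.g j else 0) +
      (576 * dist x b ^ 2 * chi (dist y x) + 1728 * dist x b * psi (dist y x)) +
      144 * dist x b * ∑ j ∈ P.I, (if dist y b ≤ P.r j ∧ P.r j ≤ 3 * dist y b then
        P.g j / (bm p y (P.r j) + P.δ) else 0) := by
  set D := dist x b with hDdef
  set s := dist y b with hsdef
  set sx := dist y x with hsxdef
  set q : Y → ℝ := fun c => (1 - D / 4) * p c + D / 4 * (if c = b then 1 else 0) with hq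
  have hD0 : 0 < D := lt_of_lt_of_le (by positivity) hD
  have hs0 : 0 ≤ s := dist_nonneg
  have hsx0 : 0 ≤ sx := dist_nonneg
  have hδ := E.δ_pos
  have hδ1 : P.δ ≤ 1 := E.δ_le.trans (by norm_num)
  have hbq : ∀ r : ℝ, bm q y r = (1 - D / 4) * bm p y r + D / 4 * (if s ≤ r then 1 else 0) := by
    intro r
    rw [hq, E.bm_add, E.bm_smul, E.bm_smul, E.bm_single]
  have hb0 : ∀ r : ℝ, 0 ≤ bm p y r := fun r => E.bm_nonneg p y r hp.1
  have hb1 : ∀ r : ℝ, bm p y r ≤ 1 := fun r => (E.bm_le_sum p y r hp.1).trans hp.2.le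
  have htri : sx ≤ s + D := dist_triangle_right y x b
  have htri' : s ≤ sx + D := dist_triangle y x b
  have hterm : pin P x q y - pin P b p y ≤
      D / 2 * (∑ j ∈ P.I, if P.r j ≤ 3 * s then P.g j else 0) +
      ∑ j ∈ P.I, (if 3 * s < P.r j ∧ P.r j ≤ 3 * sx then
        P.g j * Real.log ((1 + P.δ) / (bm q y (P.r j) + P.δ)) else 0) := by
    rw [pin, pin, ← sum_sub_distrib, mul_sum, ← sum_add_distrib]
    refine sum_le_sum fun j _ => ?_
    have hg := E.g_nonneg j
    by_cases h1 : P.r j ≤ 3 * s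
    · rw [if_pos h1, if_pos h1, if_neg (show ¬ (3 * s < P.r j ∧ P.r j ≤ 3 * sx) by
        rintro ⟨a, _⟩; linarith)]
      by_cases h2 : P.r j ≤ 3 * sx
      · rw [if_pos h2]
        have h3 : (1 - D / 4) * bm p y (P.r j) ≤ bm q y (P.r j) := by
          rw [hbq]
          split_ifs <;> linarith
        have h4 := log_ratio hδ (hb0 _) (by linarith : 0 ≤ D / 4) (by linarith) h3
        have := mul_le_mul_of_nonneg_left h4 hg
        linarith
      · rw [if_neg h2]
        have := mul_nonneg hg (log_nonneg' hδ (hb0 (P.r j)) (hb1 _))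
        have := mul_nonneg hD0.le hg
        linarith
    · rw [if_neg h1, if_neg h1]
      by_cases h2 : P.r j ≤ 3 * sx
      · rw [if_pos h2, if_pos ⟨not_le.1 h1, h2⟩]
        linarith
      · rw [if_neg h2, if_neg (fun h => h2 h.2)]
        linarith
  refine hterm.trans ?_
  rw [add_assoc]
  refine add_le_add le_rfl ?_
  have hB : 0 ≤ ∑ j ∈ P.I, (if s ≤ P.r j ∧ P.r j ≤ 3 * s then
      P.g j / (bm p y (P.r j) + P.δ) else 0) := by
    refine sum_nonneg fun j _ => ?_
    split_ifs
    · exact div_nonneg (E.g_nonneg j) (by linarith [hb0 (P.r j)])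
    · exact le_rfl
  have hchi := MoveHvy.chi_nonneg sx
  have hpsi := MoveHvy.psi_nonneg hsx0
  have hex := extra E hs0 hD hN htri
  have gen : ∀ L : ℝ, 0 ≤ L → (∀ j ∈ P.I, 3 * s < P.r j →
      Real.log ((1 + P.δ) / (bm q y (P.r j) + P.δ)) ≤ L) →
      ∑ j ∈ P.I, (if 3 * s < P.r j ∧ P.r j ≤ 3 * sx then
        P.g j * Real.log ((1 + P.δ) / (bm q y (P.r j) + P.δ)) else 0) ≤ 36 * D * sx ^ 2 * L := by
    intro L hL h
    refine le_trans ?_ (mul_le_mul_of_nonneg_right hex hL)
    rw [sum_mul]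
    refine sum_le_sum fun j hj => ?_
    split_ifs with h1
    · exact mul_le_mul_of_nonneg_left (h j hj h1.1) (E.g_nonneg j)
    · simp
  by_cases hc0 : s < 1 ∧ s < sx
  swap
  · rw [sum_eq_zero fun j hj => if_neg (by
      rintro ⟨a1, a2⟩
      exact hc0 ⟨by linarith [E.r_le j hj], by linarith⟩)]
    positivity
  obtain ⟨hs1, hssx⟩ := hc0
  rcases le_or_gt sx (2 * D) with hc | hc
  · have h1 := gen (1 / (D / 4)) (by positivity) fun j _ hj => by
      refine log_small hδ (by positivity) (by linarith) ?_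
      rw [hbq, if_pos (by linarith)]
      have := mul_nonneg (by linarith : 0 ≤ 1 - D / 4) (hb0 (P.r j))
      linarith
    have h2 : 36 * D * sx ^ 2 * (1 / (D / 4)) = 144 * sx ^ 2 := by field_simp; ring
    rw [MoveHvy.chi_one (by linarith)]
    have h3 : sx ^ 2 ≤ 4 * D ^ 2 := by nlinarith
    have h4 := mul_nonneg hD0.le hpsi
    have h5 := mul_nonneg hD0.le hB
    linarith
  · have hsD : D < s := by linarith
    have hs : 0 < s := by linarith
    set u := bm p y (3 * s) with hu
    have hu0 : 0 ≤ u := hb0 _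
    have h1 := gen (4 / s + s / (u + P.δ)) (by positivity) fun j _ hj => by
      refine log_big hδ hδ1 hu0 hs ?_
      rw [hbq, if_pos (by linarith)]
      have a1 : u ≤ bm p y (P.r j) := E.bm_mono p y y _ _ hp.1 (by rw [dist_self]; linarith)
      have a2 := mul_le_mul_of_nonneg_right (by linarith : 1 / 2 ≤ 1 - D / 4) (hb0 (P.r j))
      linarith
    have h2 : sx ^ 2 ≤ 4 * s ^ 2 := by nlinarith
    have h3 : 36 * D * sx ^ 2 * (4 / s + s / (u + P.δ)) ≤
        36 * D * (4 * s ^ 2) * (4 / s + s / (u + P.δ)) := by gcongr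
    have h4 : 36 * D * (4 * s ^ 2) * (4 / s + s / (u + P.δ)) =
        576 * D * s + 144 * D * (s ^ 3 / (u + P.δ)) := by field_simp; ring
    have h5 : s ≤ 3 * psi sx := by
      rcases le_total sx 1 with a | a
      · rw [MoveHvy.psi_small hsx0 a]
        linarith
      · rw [MoveHvy.psi_large a, mul_one_div, le_div_iff₀ (by linarith)]
        nlinarith
    have h6 : s ^ 3 / (u + P.δ) ≤ ∑ j ∈ P.I, (if s ≤ P.r j ∧ P.r j ≤ 3 * s then
        P.g j / (bm p y (P.r j) + P.δ) else 0) := by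
      have a1 := E.sum_g_ge s (3 * s) hs (by linarith) (by linarith)
      have a2 : 1 / (P.N : ℝ) ≤ s := le_trans (le_trans (by gcongr; norm_num) hD) hsD.le
      have a3 : s ^ 3 ≤ ∑ j ∈ P.I, (if s ≤ P.r j ∧ P.r j ≤ 3 * s then P.g j else 0) :=
        le_trans (by nlinarith [sq_nonneg s]) a1
      refine (div_le_div_of_nonneg_right a3 (by linarith)).trans ?_
      rw [sum_div]
      refine sum_le_sum fun j _ => ?_
      split_ifs with h
      · have a4 : bm p y (P.r j) ≤ u := E.bm_mono p y y _ _ hp.1 (by rw [dist_self]; linarith [h.2])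
        exact div_le_div_of_nonneg_left (E.g_nonneg j) (by linarith [hb0 (P.r j)]) (by linarith)
      · simp
    have h7 := mul_le_mul_of_nonneg_left h5 hD0.le
    have h8 := mul_le_mul_of_nonneg_left h6 hD0.le
    have h9 := mul_nonneg (sq_nonneg D) hchi
    linarith

end EPull

open EPull in
theorem pull (hE : EBasicStmt) (hG : GeoStmt) (h : PKKTStmt) : PullStmt := by
  refine ⟨100000, by norm_num, ?_⟩
  intro P Y _ _ hP μ a b x p hμ hopt hval hx h7
  have E := hE P Y hP
  have Ge := hG Y μ hμ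
  obtain ⟨K1, K2⟩ := h P Y hP μ a b p hμ hopt
  have hε := hP.ε_pos
  have hD2 : dist x b ≤ 2 := Ge.near a b x hval hx (by linarith)
  have hq0 := Ge.qq_nonneg x
  by_cases hxb : x = b
  · rw [hxb, dist_self]
    rw [hxb] at hq0
    positivity
  have hD := hP.mesh x b hxb
  have hN : 0 < (P.N : ℝ) := by
    have := hP.N_ge
    exact_mod_cast (by omega : 0 < P.N)
  set D := dist x b with hDdef
  have hD0 : 0 < D := lt_of_lt_of_le (by positivity) hD
  set q : Y → ℝ := fun c => (1 - D / 4) * p c + D / 4 * (if c = b then 1 else 0) with hq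
  have hqS : Simplex q := by
    refine ⟨fun c => ?_, ?_⟩
    · have := mul_nonneg (by linarith : 0 ≤ 1 - D / 4) (hopt.2.1.1 c)
      simp only [hq]
      split_ifs <;> linarith
    · simp only [hq]
      rw [sum_add_distrib, ← mul_sum, ← mul_sum, hopt.2.1.2, sum_ite_eq' univ b, if_pos (mem_univ _)]
      ring
  have hJ := hopt.2.2 x q (by rw [dist_comm]; linarith) hqS
  set Ps := ∑ y, μ y * psi (dist y x) with hPs
  set m := mm μ x with hm
  have hPs0 : 0 ≤ Ps := sum_nonneg fun y _ => mul_nonneg (hμ y) (MoveHvy.psi_nonneg dist_nonneg)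
  have hm0 : 1 / 2 ≤ m := hx.1
  have hFb := Ge.FF_nonneg b
  have hFx := Ge.FF_nonneg x
  have hsum : ∑ y, μ y * wi a y * pin P x q y - ∑ y, μ y * wi a y * pin P b p y ≤
      7790 * D * FF μ b + (576 * D ^ 2 * m + 1728 * D * Ps) := by
    have h1 : ∑ y, μ y * wi a y * pin P x q y - ∑ y, μ y * wi a y * pin P b p y ≤
        D / 2 * (∑ y, μ y * wi a y * ∑ j ∈ P.I, (if P.r j ≤ 3 * dist y b then P.g j else 0)) +
        (576 * D ^ 2 * m + 1728 * D * Ps) +
        144 * D * ∑ y, μ y * wi a y * ∑ j ∈ P.I, (if dist y b ≤ P.r j ∧ P.r j ≤ 3 * dist y b then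
          P.g j / (bm p y (P.r j) + P.δ) else 0) := by
      rw [hm, hPs, mm, mul_sum, mul_sum, mul_sum, mul_sum, ← sum_sub_distrib, ← sum_add_distrib,
        ← sum_add_distrib, ← sum_add_distrib]
      refine sum_le_sum fun y _ => ?_
      have a1 := mul_le_mul_of_nonneg_left (point E hopt.2.1 b x y hD hD2 hN)
        (mul_nonneg (hμ y) (E.wi_nonneg a y))
      have a2 : 0 ≤ 576 * D ^ 2 * chi (dist y x) + 1728 * D * psi (dist y x) := by
        have := MoveHvy.chi_nonneg (dist y x)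
        have := MoveHvy.psi_nonneg (dist_nonneg (x := y) (y := x))
        positivity
      have a3 : μ y * wi a y ≤ μ y := mul_le_of_le_one_right (hμ y) (E.wi_le a y)
      have a4 := mul_le_mul_of_nonneg_right a3 a2
      linarith
    have h2 := mul_le_mul_of_nonneg_left K1 hD0.le
    have h3 := mul_le_mul_of_nonneg_left (K2 b) hD0.le
    have h4 := mul_nonneg hD0.le hFb
    linarith
  have hbr : 4000000 * (FF μ b - FF μ x - D * (FF μ x + P.ε)) ≤
      7790 * D * FF μ b + (576 * D ^ 2 * m + 1728 * D * Ps) := by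
    have c1 : dist a x ≤ dist a b + D := dist_triangle_right a x b
    have c2 : 0 ≤ dist a b := dist_nonneg
    have c3 : 1 + dist a x ≤ (1 + dist a b) * (1 + D) := by nlinarith
    have c4 := mul_le_mul_of_nonneg_right c3 (by linarith : 0 ≤ FF μ x + P.ε)
    unfold JJ at hJ
    rcases le_total 0 (FF μ b - FF μ x - D * (FF μ x + P.ε)) with c5 | c5
    · have c6 := mul_nonneg c2 c5
      nlinarith
    · have : 0 ≤ 7790 * D * FF μ b + (576 * D ^ 2 * m + 1728 * D * Ps) := by positivity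
      linarith
  have hnear : D ^ 2 * m - 8192 * D * Ps ≤ FF μ b - FF μ x := by
    simp only [hm, mm, FF, hPs, mul_sum, ← sum_sub_distrib]
    refine sum_le_sum fun y _ => ?_
    have c1 := MoveHvy.near (s := dist y x) (t := dist y b) dist_nonneg dist_nonneg
      (by linarith : D ≤ 15)
      (by simpa only [dist_comm y] using abs_dist_sub_le x b y) (dist_triangle_left x b y)
    have := mul_le_mul_of_nonneg_left c1 (hμ y)
    linarith
  have hFP : FF μ x ≤ 32768 * Ps := MoveHvy.FF_le hμ x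
  have hmain : D * m ≤ 100000 * Ps + 2 * P.ε := by
    have c1 := mul_le_mul_of_nonneg_left hnear (by linarith : 0 ≤ 4000000 - 7790 * D)
    have c2 := mul_le_mul_of_nonneg_left hFP hD0.le
    have c3 : 0 ≤ D ^ 2 * m := by positivity
    have c4 := mul_le_mul_of_nonneg_right hD2 c3
    have c5 : 0 ≤ D * Ps := by positivity
    have c6 : 0 ≤ D * (D * Ps) := by positivity
    have c7 : 0 ≤ D * P.ε := by positivity
    refine le_of_mul_le_mul_left (a := D) ?_ hD0
    nlinarith
  have hqq : (qq μ fun y => dist y x) = min 1 (Ps / m) := if_pos hx.1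
  rw [hqq]
  rcases le_total 1 (Ps / m) with c | c
  · rw [min_eq_left c]
    linarith
  · rw [min_eq_right c]
    have hm1 : 0 < m := by linarith
    have c1 : D ≤ (100000 * Ps + 2 * P.ε) / m := by rw [le_div_iff₀ hm1]; exact hmain
    have c2 : 2 * P.ε / m ≤ 4 * P.ε := by
      rw [div_le_iff₀ hm1]
      nlinarith
    rw [add_div, mul_div_assoc] at c1
    linarith

end Vale.Agent.P304
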