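import Vale.Agent.P304.StmtsE

/-! Part E9: recentring a core. -/

namespace Vale.Agent.P304

open Finset
open scoped Classical

namespace Rec

theorem log_le_add {u v K : ℝ} (hu : 0 < u) (hv : 0 < v) (h : u ≤ K * v) :
    Real.log u ≤ Real.log v + K := by
  have hK : 0 < K := by
    by_contra hK
    have hK' : K ≤ 0 := not_lt.mp hK
    nlinarith
  have h1 : Real.log u ≤ Real.log (K * v) := Real.log_le_log hu h
  rw [Real.log_mul hK.ne' hv.ne'] at h1
  have := Real.log_le_sub_one_of_pos hK
  linarith

theorem frac {c c' A B d K L : ℝ} (hc : 0 < c) (hc' : 0 < c') (hA : 0 ≤ A) (hB : 0 ≤ B)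
    (hd : 0 < d) (hK : 1 ≤ K) (hL : c ≤ L * c') (h : A ≤ K * B) :
    Real.log (c / (B + d)) ≤ Real.log (c' / (A + d)) + L * K := by
  have hB' : 0 < B + d := by linarith
  have hA' : 0 < A + d := by linarith
  apply log_le_add (div_pos hc hB') (div_pos hc' hA')
  have h1 : A + d ≤ K * (B + d) := by nlinarith
  have hLc : 0 < L * c' := lt_of_lt_of_le hc hL
  have h2 : c * (A + d) ≤ L * c' * (K * (B + d)) := mul_le_mul hL h1 hA'.le hLc.le
  rw [← mul_div_assoc, div_le_div_iff₀ hB' hA']
  calc c * (A + d) ≤ L * c' * (K * (B + d)) := h2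
    _ = L * K * c' * (B + d) := by ring

theorem mix {α β q q' f f' h : ℝ} (a0 : 0 ≤ α) (a1 : α ≤ 1) (b0 : 0 ≤ β) (b1 : β ≤ 1)
    (hh : 0 ≤ h) (h1 : q' ≤ q + 54) (h2 : 0 < β → q' ≤ f + 1296) (h3 : 0 < α → f' ≤ q + 2268)
    (h4 : f' ≤ f + h) :
    β * q' + (1 - β) * f' ≤ α * q + (1 - α) * f + 2300 + (1 - α) * h := by
  rcases le_total α β with hab | hab
  · have e1 : α * q' ≤ α * (q + 54) := mul_le_mul_of_nonneg_left h1 a0
    have e2 : (β - α) * q' ≤ (β - α) * (f + 1296) := by
      rcases eq_or_lt_of_le b0 with hb | hb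
      · have : β - α = 0 := by linarith
        rw [this]; simp
      · exact mul_le_mul_of_nonneg_left (h2 hb) (by linarith)
    have e3 : (1 - β) * f' ≤ (1 - β) * (f + h) := mul_le_mul_of_nonneg_left h4 (by linarith)
    have e4 : (1 - β) * h ≤ (1 - α) * h := mul_le_mul_of_nonneg_right (by linarith) hh
    nlinarith
  · have e1 : β * q' ≤ β * (q + 54) := mul_le_mul_of_nonneg_left h1 b0
    have e2 : (α - β) * f' ≤ (α - β) * (q + 2268) := by
      rcases eq_or_lt_of_le a0 with ha | ha
      · have : α - β = 0 := by linarith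
        rw [this]; simp
      · exact mul_le_mul_of_nonneg_left (h3 ha) (by linarith)
    have e3 : (1 - α) * f' ≤ (1 - α) * (f + h) := mul_le_mul_of_nonneg_left h4 (by linarith)
    nlinarith

theorem ff_nonneg {s : ℝ} (hs : 0 ≤ s) : 0 ≤ ff s :=
  le_min (sq_nonneg s) (div_nonneg (by norm_num) hs)

theorem cube_le_ff {s : ℝ} (h0 : 0 ≤ s) (h1 : s ≤ 1) : s ^ 3 ≤ ff s := by
  unfold ff
  refine le_min ?_ ?_
  · have : s ^ 3 = s ^ 2 * s := by ring
    rw [this]
    exact mul_le_of_le_one_right (sq_nonneg s) h1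
  · rcases eq_or_lt_of_le h0 with h | h
    · rw [← h]; simp
    · rw [le_div_iff₀ h]
      have : s ^ 3 * s = s ^ 4 := by ring
      rw [this]
      have : s ^ 4 ≤ 1 := pow_le_one₀ h0 h1
      linarith

theorem one_le_ff {s : ℝ} (h0 : 1 ≤ s) (h1 : s ≤ 100) : 1 ≤ ff s := by
  unfold ff
  refine le_min (by nlinarith) ?_
  rw [le_div_iff₀ (by linarith)]
  linarith

variable {Y : Type} [Fintype Y] [MetricSpace Y] {P : Par}

/-- the inserted weights -/
noncomputable def ins (w p : Y → ℝ) (a b c : Y) : ℝ :=
  Ref w b * (bal p a 13 c + if c = b then 1 else 0)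

omit [Fintype Y] in
theorem bal_nonneg {p : Y → ℝ} (hp : ∀ c, 0 ≤ p c) (a : Y) (r : ℝ) (c : Y) : 0 ≤ bal p a r c := by
  unfold bal
  split_ifs
  · exact hp c
  · exact le_rfl

theorem ins_nonneg (E : EFacts P Y) {w p : Y → ℝ} (hw : Pos w) (hp : Simplex p) (a b c : Y) :
    0 ≤ ins w p a b c := by
  unfold ins
  refine mul_nonneg (E.Ref_pos w b hw).le (add_nonneg (bal_nonneg hp.1 a 13 c) ?_)
  split_ifs <;> norm_num

theorem sum_bal_le (E : EFacts P Y) {p : Y → ℝ} (hp : Simplex p) (a : Y) (r : ℝ) :
    ∑ c, bal p a r c ≤ 1 := by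
  have := E.bm_le_sum p a r hp.1
  rw [hp.2] at this
  exact this

theorem Ref_ins_eq (w p : Y → ℝ) (a b y : Y) :
    Ref (ins w p a b) y =
      Ref w b * (∑ c, bal p a 13 c * kap (dist y c) + kap (dist y b)) := by
  have h1 : kap (dist y b) = ∑ c, (if c = b then (1 : ℝ) else 0) * kap (dist y c) := by
    simp
  rw [h1, ← sum_add_distrib, mul_sum]
  show ∑ c, ins w p a b c * kap (dist y c) = _
  refine sum_congr rfl fun c _ => ?_
  unfold ins
  ring

theorem Ref_ins_le (E : EFacts P Y) {w p : Y → ℝ} (hw : Pos w) (hp : Simplex p) {a b : Y}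
    (hab : dist a b ≤ 8) (y : Y) : Ref (ins w p a b) y ≤ 23 * Ref w b * kap (dist y b) := by
  rw [Ref_ins_eq]
  have hk := E.kap_pos (dist y b) dist_nonneg
  have h1 : ∑ c, bal p a 13 c * kap (dist y c) ≤ ∑ c, bal p a 13 c * (22 * kap (dist y b)) := by
    refine sum_le_sum fun c _ => ?_
    by_cases hc : dist a c ≤ 13
    · refine mul_le_mul_of_nonneg_left ?_ (bal_nonneg hp.1 a 13 c)
      have h2 : dist y b ≤ dist y c + 21 := by
        have t1 := dist_triangle y c b
        have t2 := dist_triangle c a b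
        rw [dist_comm c a] at t2
        linarith
      have := E.kap_shift (dist y c) (dist y b) 21 dist_nonneg dist_nonneg (by norm_num) h2
      linarith
    · simp [bal, hc]
  rw [← sum_mul] at h1
  have h2 : (∑ c, bal p a 13 c) * (22 * kap (dist y b)) ≤ 22 * kap (dist y b) :=
    mul_le_of_le_one_left (by linarith) (sum_bal_le E hp a 13)
  have h3 : ∑ c, bal p a 13 c * kap (dist y c) + kap (dist y b) ≤ 23 * kap (dist y b) := by
    linarith
  have := mul_le_mul_of_nonneg_left h3 (E.Ref_pos w b hw).le
  linarith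

theorem Ref_ins_le' (E : EFacts P Y) {w p : Y → ℝ} (hw : Pos w) (hp : Simplex p) (a b y : Y) :
    Ref (ins w p a b) y ≤ 2 * Ref w b := by
  rw [Ref_ins_eq]
  have h1 : ∑ c, bal p a 13 c * kap (dist y c) ≤ ∑ c, bal p a 13 c :=
    sum_le_sum fun c _ =>
      mul_le_of_le_one_right (bal_nonneg hp.1 a 13 c) (E.kap_le _ dist_nonneg)
  have h2 := sum_bal_le E hp a 13
  have h3 := E.kap_le (dist y b) dist_nonneg
  have h4 : ∑ c, bal p a 13 c * kap (dist y c) + kap (dist y b) ≤ 2 := by linarith
  have := mul_le_mul_of_nonneg_left h4 (E.Ref_pos w b hw).le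
  linarith

/-- total harm of the insertion -/
theorem harm (E : EFacts P Y) {μ w p : Y → ℝ} (Ge : Geo μ) (hμ : ∀ y, 0 ≤ μ y) {S : Finset Y}
    (hS : Sep S) {a b : Y} (ha : a ∈ S) (hw : Pos w) (hp : Simplex p) (hab : dist a b ≤ 8)
    (hK : KKT P (mo μ S) w) :
    ∑ y, mo μ S y * (vv P w y * Ref (ins w p a b) y / Ref w y) ≤ 2900 * FF μ b + 46 * P.ε := by
  have h1 : ∑ y, mo μ S y * (vv P w y * Ref (ins w p a b) y / Ref w y) ≤
      23 * (Ref w b * Kv P (mo μ S) w b) := by
    unfold Kv
    rw [mul_sum, mul_sum]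
    refine sum_le_sum fun y _ => ?_
    have hm : 0 ≤ mo μ S y := mul_nonneg (hμ y) (E.cd_nonneg S y hS)
    have hv := E.vv_nonneg w y hw
    have hR := E.Ref_pos w y hw
    have h2 := Ref_ins_le E hw hp hab y
    have h3 : vv P w y * Ref (ins w p a b) y / Ref w y ≤
        vv P w y * (23 * Ref w b * kap (dist y b)) / Ref w y :=
      div_le_div_of_nonneg_right (mul_le_mul_of_nonneg_left h2 hv) hR.le
    calc mo μ S y * (vv P w y * Ref (ins w p a b) y / Ref w y)
        ≤ mo μ S y * (vv P w y * (23 * Ref w b * kap (dist y b)) / Ref w y) :=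
          mul_le_mul_of_nonneg_left h3 hm
      _ = 23 * (Ref w b * (mo μ S y * vv P w y * kap (dist y b) / Ref w y)) := by ring
  have h2 := hK.glob b
  have h3 := Ge.kap_mo S hS a ha b hab
  have h4 := Ge.FF_nonneg b
  linarith

/-- near the old core the new outer potential is bounded by the inner one -/
theorem phi_le_pin (E : EFacts P Y) {w p : Y → ℝ} (hw : Pos w) (hp : Simplex p) {a b y : Y}
    (hab : dist a b ≤ 8) (hy : dist y a ≤ 10) :
    phi P (fun c => w c + ins w p a b c) y ≤ pin P b p y + 2268 := by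
  have hτ := E.Ref_pos w b hw
  have hd := E.δ_pos
  have hw' : Pos (fun c => w c + ins w p a b c) := fun c =>
    add_pos_of_pos_of_nonneg (hw c) (ins_nonneg E hw hp a b c)
  have hR' := E.Ref_pos _ y hw'
  have hRle : Ref (fun c => w c + ins w p a b c) y ≤ 21 * Ref w b := by
    rw [E.Ref_add]
    have h1 := E.Ref_lip w y b fun c => (hw c).le
    have h2 := Ref_ins_le' E hw hp a b y
    have h3 : dist y b ≤ 18 := by
      have := dist_triangle y a b
      linarith
    have h4 : (1 + dist y b) * Ref w b ≤ 19 * Ref w b :=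
      mul_le_mul_of_nonneg_right (by linarith) hτ.le
    linarith
  have key : ∀ (A B : ℝ), 0 ≤ A → Ref w b * A ≤ B →
      A ≤ 21 * (B / Ref (fun c => w c + ins w p a b c) y) := by
    intro A B hA hB
    rw [← mul_div_assoc, le_div_iff₀ hR']
    have := mul_le_mul_of_nonneg_left hRle hA
    nlinarith
  have h1 : phi P (fun c => w c + ins w p a b c) y ≤ pin P b p y + ∑ j ∈ P.I, P.g j * 84 := by
    unfold phi pin
    rw [← sum_add_distrib]
    refine sum_le_sum fun j hj => ?_
    have hg := E.g_nonneg j
    have hr := E.r_le j hj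
    have hr0 := E.r_pos j hj
    have hB : 0 ≤ bm (fun c => w c + ins w p a b c) y (P.r j) /
        Ref (fun c => w c + ins w p a b c) y :=
      div_nonneg (E.bm_nonneg _ y _ fun c => (hw' c).le) hR'.le
    split_ifs with hc
    · have hA := E.bm_nonneg p y (P.r j) hp.1
      have h2 : Ref w b * bm p y (P.r j) ≤ bm (fun c => w c + ins w p a b c) y (P.r j) := by
        rw [← E.bm_smul]
        refine E.bm_mono_w _ _ y _ fun c hc' => ?_
        have hac : dist a c ≤ 13 := by
          have t := dist_triangle a y c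
          rw [dist_comm a y] at t
          linarith
        have hwc := hw c
        have : 0 ≤ Ref w b * (if c = b then (1 : ℝ) else 0) := by
          refine mul_nonneg hτ.le ?_
          split_ifs <;> norm_num
        simp only [ins, bal, hac, if_true, mul_add]
        linarith
      have h3 := frac (c := 4 + P.δ) (c' := 1 + P.δ) (L := 4) (K := 21) (by linarith)
        (by linarith) hA hB hd (by norm_num) (by linarith) (key _ _ hA h2)
      have := mul_le_mul_of_nonneg_left h3 hg
      linarith
    · have hyb : dist y b ≤ P.r j := by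
        have := dist_nonneg (x := y) (y := b)
        have hc' := not_le.mp hc
        linarith
      have h2 : Ref w b * 1 ≤ bm (fun c => w c + ins w p a b c) y (P.r j) := by
        have h5 := E.bm_single b y (P.r j)
        rw [if_pos hyb] at h5
        rw [← h5, ← E.bm_smul]
        refine E.bm_mono_w _ _ y _ fun c _ => ?_
        have hwc := hw c
        have : 0 ≤ Ref w b * bal p a 13 c := mul_nonneg hτ.le (bal_nonneg hp.1 a 13 c)
        simp only [ins, mul_add]
        linarith
      have h3 := frac (c := 4 + P.δ) (c' := 1 + P.δ) (L := 4) (K := 21) (by linarith)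
        (by linarith) zero_le_one hB hd (by norm_num) (by linarith) (key _ _ zero_le_one h2)
      rw [div_self (by linarith : (1 : ℝ) + P.δ ≠ 0), Real.log_one] at h3
      have := mul_le_mul_of_nonneg_left h3 hg
      linarith
  rw [← sum_mul] at h1
  have := E.sum_g
  linarith

/-- the competitor for the new core -/
noncomputable def cmpw (w p : Y → ℝ) (x c : Y) : ℝ :=
  1 / 2 * p c + 1 / (2 * bm w x 13) * bal w x 13 c

theorem cmp_simplex (E : EFacts P Y) {w p : Y → ℝ} (hw : Pos w) (hp : Simplex p) (x : Y) :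
    Simplex (cmpw w p x) := by
  have hb := E.bm_pos w x 13 hw (by norm_num)
  refine ⟨fun c => ?_, ?_⟩
  · unfold cmpw
    have h1 := hp.1 c
    have h2 := bal_nonneg (fun c => (hw c).le) x 13 c
    positivity
  · unfold cmpw
    rw [sum_add_distrib, ← mul_sum, ← mul_sum, hp.2]
    have : ∑ c, bal w x 13 c = bm w x 13 := rfl
    rw [this]
    field_simp
    norm_num

theorem pin_cmp_le (E : EFacts P Y) {w p : Y → ℝ} (hw : Pos w) (hp : Simplex p) (x b y : Y) :
    pin P b (cmpw w p x) y ≤
      pin P b p y + 2 * ∑ j ∈ P.I, (if P.r j ≤ 3 * dist y b then P.g j else 0) := by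
  have hd := E.δ_pos
  have hb := E.bm_pos w x 13 hw (by norm_num)
  unfold pin
  rw [mul_sum, ← sum_add_distrib]
  refine sum_le_sum fun j _ => ?_
  have hg := E.g_nonneg j
  split_ifs with hc
  · have hA := E.bm_nonneg p y (P.r j) hp.1
    have hB := E.bm_nonneg (cmpw w p x) y (P.r j) (cmp_simplex E hw hp x).1
    have h2 : bm p y (P.r j) ≤ 2 * bm (cmpw w p x) y (P.r j) := by
      rw [← E.bm_smul]
      refine E.bm_mono_w _ _ y _ fun c _ => ?_
      have h2 := bal_nonneg (fun c => (hw c).le) x 13 c
      have : 0 ≤ 1 / (2 * bm w x 13) * bal w x 13 c := by positivity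
      unfold cmpw
      linarith
    have h3 := frac (c := 1 + P.δ) (c' := 1 + P.δ) (L := 1) (K := 2) (by linarith)
      (by linarith) hA hB hd (by norm_num) (by linarith) h2
    have := mul_le_mul_of_nonneg_left h3 hg
    linarith
  · simp

theorem pin_cmp_le1 (E : EFacts P Y) {w p : Y → ℝ} (hw : Pos w) (hp : Simplex p) (x b y : Y) :
    pin P b (cmpw w p x) y ≤ pin P b p y + 54 := by
  have h1 := pin_cmp_le E hw hp x b y
  have h2 : ∑ j ∈ P.I, (if P.r j ≤ 3 * dist y b then P.g j else 0) ≤ ∑ j ∈ P.I, P.g j := by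
    refine sum_le_sum fun j _ => ?_
    split_ifs
    · exact le_rfl
    · exact E.g_nonneg j
  have := E.sum_g
  linarith

theorem pin_cmp_le2 (E : EFacts P Y) {w p : Y → ℝ} (hw : Pos w) (hp : Simplex p) (x b y : Y) :
    pin P b (cmpw w p x) y ≤ pin P b p y + 54 * dist y b ^ 3 := by
  have h1 := pin_cmp_le E hw hp x b y
  have h2 := E.sum_g_le (3 * dist y b) (by positivity)
  have h3 : (3 * dist y b) ^ 3 = 27 * dist y b ^ 3 := by ring
  linarith

/-- near the new core the new inner potential is bounded by the old outer one -/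
theorem pin_le_phi (E : EFacts P Y) {w p : Y → ℝ} (hw : Pos w) (hp : Simplex p) {x y : Y} (b : Y)
    (hy : dist y x ≤ 10) : pin P b (cmpw w p x) y ≤ phi P w y + 1296 := by
  have hd := E.δ_pos
  have hb := E.bm_pos w x 13 hw (by norm_num)
  have hR := E.Ref_pos w y hw
  have hw0 : ∀ c, 0 ≤ w c := fun c => (hw c).le
  have hbR : bm w x 13 ≤ 24 * Ref w y := by
    have h1 := E.bm_mono w x y 13 23 hw0 (by rw [dist_comm]; linarith)
    have h2 := E.bm_le_Ref w y 23 hw0 (by norm_num)
    linarith
  have h1 : pin P b (cmpw w p x) y ≤ phi P w y + ∑ j ∈ P.I, P.g j * 48 := by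
    unfold phi pin
    rw [← sum_add_distrib]
    refine sum_le_sum fun j hj => ?_
    have hg := E.g_nonneg j
    have hr := E.r_le j hj
    have hr0 := E.r_pos j hj
    have hbm := E.bm_nonneg w y (P.r j) hw0
    have hA : 0 ≤ bm w y (P.r j) / Ref w y := div_nonneg hbm hR.le
    split_ifs with hc
    · have hB := E.bm_nonneg (cmpw w p x) y (P.r j) (cmp_simplex E hw hp x).1
      have h2 : 1 / (2 * bm w x 13) * bm w y (P.r j) ≤ bm (cmpw w p x) y (P.r j) := by
        rw [← E.bm_smul]
        refine E.bm_mono_w _ _ y _ fun c hc' => ?_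
        have hxc : dist x c ≤ 13 := by
          have t := dist_triangle x y c
          rw [dist_comm x y] at t
          linarith
        have h3 := hp.1 c
        simp only [cmpw, bal, hxc, if_true]
        linarith
      have h3 : bm w y (P.r j) / Ref w y ≤ 48 * bm (cmpw w p x) y (P.r j) := by
        have h4 : bm w y (P.r j) / Ref w y ≤ 48 * (1 / (2 * bm w x 13) * bm w y (P.r j)) := by
          have e : 48 * (1 / (2 * bm w x 13) * bm w y (P.r j)) =
              24 * bm w y (P.r j) / bm w x 13 := by
            field_simp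
            ring
          rw [e, div_le_div_iff₀ hR hb]
          have := mul_le_mul_of_nonneg_left hbR hbm
          linarith
        linarith
      have h5 := frac (c := 1 + P.δ) (c' := 4 + P.δ) (L := 1) (K := 48) (by linarith)
        (by linarith) hA hB hd (by norm_num) (by linarith) h3
      have := mul_le_mul_of_nonneg_left h5 hg
      linarith
    · have h2 : bm w y (P.r j) / Ref w y ≤ 4 := by
        rw [div_le_iff₀ hR]
        have h3 := E.bm_le_Ref w y (P.r j) hw0 hr0.le
        have h4 : (1 + P.r j) * Ref w y ≤ 4 * Ref w y :=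
          mul_le_mul_of_nonneg_right (by linarith) hR.le
        linarith
      have h3 : 0 ≤ Real.log ((4 + P.δ) / (bm w y (P.r j) / Ref w y + P.δ)) := by
        apply Real.log_nonneg
        rw [le_div_iff₀ (by linarith)]
        linarith
      have := mul_nonneg hg h3
      linarith
  rw [← sum_mul] at h1
  have := E.sum_g
  linarith

omit [Fintype Y] in
theorem cd_rec {S : Finset Y} {x a : Y} (ha : a ∈ S) (hx : x ∉ S.erase a) (y : Y) :
    cd (insert x (S.erase a)) y = cd S y + wi a y - wi x y := by
  unfold cd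
  rw [sum_insert hx, ← add_sum_erase S (fun c => wi c y) ha]
  ring

/-- pointwise comparison -/
theorem point (E : EFacts P Y) {w p : Y → ℝ} (hw : Pos w) (hp : Simplex p) {S : Finset Y}
    {x a b : Y} (hS : Sep S) (ha : a ∈ S) (hx : x ∉ S.erase a) (hab : dist a b ≤ 8)
    (hxb : dist x b ≤ 2) (y : Y) :
    wi x y * pin P b (cmpw w p x) y +
        cd (insert x (S.erase a)) y * phi P (fun c => w c + ins w p a b c) y ≤
      wi a y * pin P b p y + cd S y * phi P w y + 2300 * ff (dist y b) +
        cd S y * (vv P w y * Ref (ins w p a b) y / Ref w y) := by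
  have hins := ins_nonneg E hw hp a b
  have hh : 0 ≤ vv P w y * Ref (ins w p a b) y / Ref w y :=
    div_nonneg (mul_nonneg (E.vv_nonneg w y hw) (E.Ref_nonneg _ y hins)) (E.Ref_pos w y hw).le
  have h4 := E.phi_add w (ins w p a b) y hw hins
  have hff := ff_nonneg (dist_nonneg (x := y) (y := b))
  have t1 := dist_triangle y b a
  have t2 := dist_triangle y b x
  have t3 := dist_triangle y a b
  have t4 := dist_triangle y x b
  rw [dist_comm b a] at t1
  rw [dist_comm b x] at t2
  rw [cd_rec ha hx]
  by_cases hs : dist y b < 1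
  · have e1 := E.wi_one a y (by linarith)
    have e2 := E.wi_one x y (by linarith)
    have e3 := E.cd_near S y hS a ha (by linarith)
    rw [e3, e1, e2]
    have h1 := pin_cmp_le2 E hw hp x b y
    have h2 := cube_le_ff (dist_nonneg (x := y) (y := b)) hs.le
    linarith
  · have hs' : 1 ≤ dist y b := not_lt.mp hs
    by_cases hn : dist y a < 10 ∨ dist y x < 10
    · have hyb : dist y b ≤ 18 := by
        rcases hn with h | h <;> linarith
      have e3 := E.cd_near S y hS a ha (by linarith)
      have h1 := one_le_ff hs' (by linarith)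
      have h2 := mix (E.wi_nonneg a y) (E.wi_le a y) (E.wi_nonneg x y) (E.wi_le x y) hh
        (pin_cmp_le1 E hw hp x b y)
        (fun h => pin_le_phi E hw hp b (by
          by_contra hc
          have := E.wi_zero x y (not_le.mp hc).le
          linarith))
        (fun h => phi_le_pin E hw hp hab (by
          by_contra hc
          have := E.wi_zero a y (not_le.mp hc).le
          linarith)) h4
      have e4 : cd S y + wi a y - wi x y = 1 - wi x y := by rw [e3]; ring
      rw [e4, e3]
      linarith
    · have hn' := not_or.mp hn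
      have e1 := E.wi_zero a y (not_lt.mp hn'.1)
      have e2 := E.wi_zero x y (not_lt.mp hn'.2)
      rw [e1, e2]
      have := mul_le_mul_of_nonneg_left h4 (E.cd_nonneg S y hS)
      linarith

end Rec

open Rec in
theorem recS (hE : EBasicStmt) (hG : GeoStmt) (hO : OptStmt) : RecStmt := by
  intro P Y _ _ hP μ w S x a hμ hS _ ha hw hK hxa hxb
  have E := hE P Y hP
  have Ge := hG Y μ hμ
  obtain ⟨hab, hp, -⟩ := hO P Y hP μ a
  obtain ⟨-, -, hopt⟩ := hO P Y hP μ x
  set b := (op P μ a).1 with hb
  set p := (op P μ a).2 with hpdef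
  have t1 := dist_triangle x b a
  rw [dist_comm b a] at t1
  have hx : x ∉ S.erase a := by
    intro h
    have := hS x (mem_of_mem_erase h) a ha (ne_of_mem_erase h)
    linarith
  refine ⟨fun c => w c + ins w p a b c,
    fun c => add_pos_of_pos_of_nonneg (hw c) (ins_nonneg E hw hp a b c), fun y hy => ?_, ?_⟩
  · refine E.rel_congr _ _ y fun c hc => ?_
    have t2 := dist_triangle y c a
    rw [dist_comm c a] at t2
    have h1 : ¬ dist a c ≤ 13 := by
      intro h
      linarith
    have h2 : c ≠ b := by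
      intro h
      rw [h] at h1
      exact h1 (by linarith)
    simp [ins, bal, h1, h2]
  · have hF := Ge.FF_nonneg b
    have hε := hP.ε_pos
    have hZ := Ge.shell b
      (univ.filter fun y => (dist y a ≤ 16 ∨ dist y x ≤ 16) ∧ 1 ≤ dist y b) (by
        intro y hy
        have hy' := (mem_filter.mp hy).2
        refine ⟨hy'.2, ?_⟩
        have t3 := dist_triangle y a b
        have t4 := dist_triangle y x b
        rcases hy'.1 with h | h <;> linarith)
    have hm1 := Ge.mm_le a b hab
    have hm2 := Ge.blb_le x b (by linarith)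
    have hJ := hopt b (cmpw w p x) (by linarith) (cmp_simplex E hw hp x)
    have hH := harm E Ge hμ hS ha hw hp hab hK
    have hsum : ∑ y, μ y * wi x y * pin P b (cmpw w p x) y +
        Out P (mo μ (insert x (S.erase a))) (fun c => w c + ins w p a b c) ≤
        ∑ y, μ y * wi a y * pin P b p y + Out P (mo μ S) w + 2300 * FF μ b +
          ∑ y, mo μ S y * (vv P w y * Ref (ins w p a b) y / Ref w y) := by
      unfold Out FF
      rw [mul_sum, ← sum_add_distrib, ← sum_add_distrib, ← sum_add_distrib, ← sum_add_distrib]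
      refine sum_le_sum fun y _ => ?_
      have := mul_le_mul_of_nonneg_left (point E hw hp hS ha hx hab hxb y) (hμ y)
      unfold mo
      linarith
    have hgain : 4000000 * (1 + dist x b) * (FF μ b + P.ε) + 12000000 * (FF μ b + P.ε) ≤
        4000000 * (1 + dist a b) * (FF μ b + P.ε) := by
      have h1 : 3 ≤ dist a b - dist x b := by linarith
      have h2 := mul_le_mul_of_nonneg_right h1 (by linarith : 0 ≤ FF μ b + P.ε)
      nlinarith
    have hJx : JJ P μ x b (cmpw w p x) = 4000000 * (1 + dist x b) * (FF μ b + P.ε) +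
        ∑ y, μ y * wi x y * pin P b (cmpw w p x) y := rfl
    have hJa : JJ P μ a b p = 4000000 * (1 + dist a b) * (FF μ b + P.ε) +
        ∑ y, μ y * wi a y * pin P b p y := rfl
    have htx : th2 P μ x = JJ P μ x (op P μ x).1 (op P μ x).2 - 800000 * mm μ x + 300000 := rfl
    have hta : th2 P μ a = JJ P μ a b p - 800000 * mm μ a + 300000 := rfl
    unfold Pot
    rw [sum_insert hx, ← add_sum_erase S (fun c => th2 P μ c) ha]
    linarith

end Vale.Agent.P304
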