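import Vale.Agent.P304.StmtsE

/-! Scaling down the weights. -/

namespace Vale.Agent.P304

open Finset
open scoped Classical

namespace EScaleK

theorem step {σ σ' d a U : ℝ} (hσ : 0 ≤ σ) (hσ' : 0 ≤ σ') (hd : 0 < d) (a0 : 0 ≤ a) (a1 : a ≤ 1)
    (U0 : 0 ≤ U) (U1 : U ≤ 1) (h : σ * (2 - U) ≤ σ' * (2 - a)) :
    σ / (σ + d) * (a / 2 - U) ≤ Real.log ((4 + d) / (σ + d)) - Real.log ((4 + d) / (σ' + d)) := by
  have h1 := Real.log_le_sub_one_of_pos (show 0 < (σ + d) / (σ' + d) by positivity)
  rw [Real.log_div (by positivity) (by positivity)] at h1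
  rw [Real.log_div (by positivity) (by positivity), Real.log_div (by positivity) (by positivity)]
  have h2 : σ / (σ + d) * (a / 2 - U) ≤ 1 - (σ + d) / (σ' + d) := by
    rw [one_sub_div (by positivity), div_mul_eq_mul_div,
      div_le_div_iff₀ (by positivity) (by positivity)]
    refine le_of_mul_le_mul_left ?_ (show 0 < 2 - a by linarith)
    have h3 := mul_le_mul_of_nonneg_right h (show 0 ≤ σ + d - σ * (a / 2 - U) by nlinarith)
    have h4 : 0 ≤ σ * σ * (U * (1 - U + a / 2)) :=
      mul_nonneg (mul_nonneg hσ hσ) (mul_nonneg U0 (by linarith))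
    have h5 : 0 ≤ σ * d * (U * (1 - a) + a ^ 2 / 2) :=
      mul_nonneg (mul_nonneg hσ hd.le) (add_nonneg (mul_nonneg U0 (by linarith)) (by positivity))
    nlinarith
  linarith

theorem main {P : Par} {Y : Type} [Fintype Y] [MetricSpace Y] (E : EFacts P Y) (hN : 64 ≤ P.N)
    {m w : Y → ℝ} (hm : ∀ y, 0 ≤ m y) (hw : Pos w) (hS : Stable P m w) {u U : Y → ℝ}
    (u0 : ∀ a, 0 ≤ u a) (u1 : ∀ a, u a ≤ 1) (U0 : ∀ a, 0 ≤ U a) (U1 : ∀ a, U a ≤ 1)
    (h : ∀ y a, dist y a ≤ 3 → u a ≤ U y) :
    ∑ y, m y * (vv P w y * ((∑ a, w a * u a * kap (dist y a)) / Ref w y)) ≤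
      56 * ∑ y, m y * U y + 2 * P.ε := by
  have hN0 : (0 : ℝ) < P.N := by exact_mod_cast lt_of_lt_of_le (by norm_num) hN
  set w' : Y → ℝ := fun a => (1 - u a / 2) * w a with hw'
  have hw'p : Pos w' := fun a => mul_pos (by linarith [u1 a]) (hw a)
  have hle : ∀ a, w' a ≤ w a := fun a => mul_le_of_le_one_left (hw a).le (by linarith [u0 a])
  have key : ∀ y, vv P w y * ((∑ a, w a * u a * kap (dist y a)) / Ref w y) / 2 - 28 * U y +
      rel P w w' y ≤ phi P w y - phi P w' y := by
    intro y
    have hR := E.Ref_pos w y hw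
    have hR' := E.Ref_pos w' y hw'p
    have hk := fun a => (E.kap_pos _ (dist_nonneg (x := y) (y := a))).le
    set a := (∑ a, w a * u a * kap (dist y a)) / Ref w y with ha
    have a0 : 0 ≤ a := div_nonneg (sum_nonneg fun c _ =>
      mul_nonneg (mul_nonneg (hw c).le (u0 c)) (hk c)) hR.le
    have a1 : a ≤ 1 := (div_le_one hR).2 (sum_le_sum fun c _ =>
      mul_le_mul_of_nonneg_right (mul_le_of_le_one_right (hw c).le (u1 c)) (hk c))
    have e1 : 2 * Ref w' y = Ref w y * (2 - a) := by
      rw [mul_sub, ha, mul_div_cancel₀ _ hR.ne', Ref, Ref, mul_sum, sum_mul, ← sum_sub_distrib]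
      exact sum_congr rfl fun c _ => by simp only [hw']; ring
    have hb : ∀ j ∈ P.I, (1 - U y / 2) * bm w y (P.r j) ≤ bm w' y (P.r j) := fun j hj => by
      rw [← E.bm_smul]
      exact E.bm_mono_w _ _ _ _ fun c hc => mul_le_mul_of_nonneg_right
        (by linarith [h y c (hc.trans (E.r_le j hj))]) (hw c).le
    have h1 : rel P w w' y ≤ U y / 2 := by
      have h2 := sum_le_card_nsmul P.I' (fun j => tv (bal w y (P.r j)) (bal w' y (P.r j)))
        (U y / 2) fun j hj => by
          have hj' := E.I'_sub hj
          have hbj := E.bm_pos w y (P.r j) hw (E.r_pos j hj').le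
          have hbal : ∀ c, bal w' y (P.r j) c ≤ bal w y (P.r j) c := fun c => by
            unfold bal
            split_ifs
            exacts [hle c, le_rfl]
          refine (E.tv_le _ _ (bal w' y (P.r j)) (bm w y (P.r j)) (fun c => ?_) hbal
            (fun _ => le_rfl) hbj (E.bm_pos w' y _ hw'p (E.r_pos j hj').le) le_rfl
            (sum_le_sum fun c _ => hbal c)).trans ?_
          · unfold bal
            split_ifs
            exacts [(hw'p c).le, le_rfl]
          · have := (le_div_iff₀ hbj).2 (hb j hj')
            change 1 - bm w' y (P.r j) / _ ≤ _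
            linarith
      rw [E.I'_card, nsmul_eq_mul] at h2
      rw [rel, one_div, inv_mul_le_iff₀ hN0]
      exact h2
    have h2 : vv P w y * (a / 2 - U y) ≤ phi P w y - phi P w' y := by
      rw [phi, phi, vv, sum_mul, ← sum_sub_distrib]
      refine sum_le_sum fun j hj => ?_
      rw [← mul_sub, mul_assoc]
      have hbj := E.bm_pos w y (P.r j) hw (E.r_pos j hj).le
      have hbj' := E.bm_pos w' y (P.r j) hw'p (E.r_pos j hj).le
      refine mul_le_mul_of_nonneg_left (step (by positivity) (by positivity) E.δ_pos a0 a1 (U0 y)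
        (U1 y) ?_) (E.g_nonneg j)
      rw [div_mul_eq_mul_div, div_mul_eq_mul_div, div_le_div_iff₀ hR hR', mul_assoc (bm w' y _),
        mul_comm (2 - a), ← e1]
      nlinarith [mul_le_mul_of_nonneg_right (hb j hj) hR'.le]
    nlinarith [mul_le_mul_of_nonneg_right (E.vv_le w y hw) (U0 y), U0 y]
  have h1 := sum_le_sum fun y (_ : y ∈ univ) => mul_le_mul_of_nonneg_left (key y) (hm y)
  have h2 := hS w' hw'p
  simp only [mul_sub, mul_add, sum_sub_distrib, sum_add_distrib, ← mul_div_assoc _ _ (2 : ℝ),
    ← sum_div, mul_left_comm _ (28 : ℝ), ← mul_sum] at h1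
  unfold Out Rel at h2
  linarith

end EScaleK

theorem scaleK (hE : EBasicStmt) : ScaleKStmt := by
  intro P Y _ _ hP m w hm hw hS x
  have E := hE P Y hP
  have hk := fun y a : Y => (E.kap_pos _ (dist_nonneg (x := y) (y := a))).le
  constructor
  · have h := EScaleK.main E hP.N_ge hm hw hS (u := fun a => if dist x a ≤ 5 then 1 else 0)
      (U := fun a => if dist x a ≤ 8 then 1 else 0) (fun a => by split_ifs <;> norm_num)
      (fun a => by split_ifs <;> norm_num) (fun a => by split_ifs <;> norm_num)
      (fun a => by split_ifs <;> norm_num) fun y a hya => by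
        split_ifs with h1 h2
        · exact le_rfl
        · exact absurd (by linarith [dist_triangle_right x y a]) h2
        · norm_num
        · exact le_rfl
    have e : ∑ y, m y * (if dist x y ≤ 8 then 1 else 0) = bm m x 8 :=
      sum_congr rfl fun y _ => by unfold bal; split_ifs <;> simp
    rw [e] at h
    refine le_trans ?_ ((mul_le_mul_of_nonneg_left h (by norm_num : (0 : ℝ) ≤ 6)).trans_eq (by ring))
    rw [Kv, mul_sum, mul_sum]
    refine sum_le_sum fun y _ => ?_
    have h1 : bm w x 5 * kap (dist y x) ≤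
        6 * ∑ a, w a * (if dist x a ≤ 5 then 1 else 0) * kap (dist y a) := by
      rw [bm, sum_mul, mul_sum]
      refine sum_le_sum fun a _ => ?_
      unfold bal
      split_ifs with h2
      · have := E.kap_shift (dist y x) (dist y a) 5 dist_nonneg dist_nonneg (by norm_num)
          (by linarith [dist_triangle y x a])
        nlinarith [mul_le_mul_of_nonneg_left this (hw a).le]
      · simp
    have h2 := mul_le_mul_of_nonneg_left h1 (div_nonneg (mul_nonneg (hm y) (E.vv_nonneg w y hw))
      (E.Ref_pos w y hw).le)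
    exact le_trans (le_of_eq (by ring)) (h2.trans_eq (by ring))
  · have h := EScaleK.main E hP.N_ge hm hw hS (u := fun a => kap (dist x a))
      (U := fun y => min 1 (4 * kap (dist y x))) (fun a => hk _ _)
      (fun a => E.kap_le _ dist_nonneg) (fun a => le_min zero_le_one (by linarith [hk a x]))
      (fun a => min_le_left _ _) fun y a hya => le_min (E.kap_le _ dist_nonneg) (by
        have := E.kap_shift (dist x a) (dist y x) 3 dist_nonneg dist_nonneg (by norm_num)
          (by linarith [dist_triangle_right y x a])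
        linarith)
    have h1 : ∑ y, m y * min 1 (4 * kap (dist y x)) ≤ 4 * ∑ y, m y * kap (dist y x) := by
      rw [mul_sum]
      exact sum_le_sum fun y _ =>
        (mul_le_mul_of_nonneg_left (min_le_right _ _) (hm y)).trans_eq (by ring)
    have h2 : Ref w x * Kv P m w x ≤ ∑ y, m y * (vv P w y *
        ((∑ a, w a * kap (dist x a) * kap (dist y a)) / Ref w y)) +
        27 * ∑ y, m y * kap (dist y x) := by
      rw [Kv, mul_sum, mul_sum, ← sum_add_distrib]
      refine sum_le_sum fun y _ => ?_
      have hR := E.Ref_pos w y hw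
      have h3 : Ref w x * kap (dist y x) ≤
          ∑ a, w a * kap (dist x a) * kap (dist y a) + kap (dist y x) * Ref w y := by
        rw [Ref, Ref, sum_mul, mul_sum, ← sum_add_distrib]
        refine sum_le_sum fun a _ => ?_
        have h4 : kap (dist x a) * kap (dist y x) ≤
            kap (dist x a) * kap (dist y a) + kap (dist y x) * kap (dist y a) := by
          have := dist_triangle y x a
          have := dist_nonneg (x := x) (y := a)
          have := dist_nonneg (x := y) (y := x)
          have := dist_nonneg (x := y) (y := a)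
          unfold kap
          field_simp
          linarith
        nlinarith [mul_le_mul_of_nonneg_left h4 (hw a).le]
      have h4 := mul_le_mul_of_nonneg_left h3 (div_nonneg (mul_nonneg (hm y) (E.vv_nonneg w y hw))
        hR.le)
      have h5 := mul_le_mul_of_nonneg_left (E.vv_le w y hw) (mul_nonneg (hm y) (hk y x))
      have e : m y * vv P w y / Ref w y * (kap (dist y x) * Ref w y) =
          m y * kap (dist y x) * vv P w y := by field_simp
      rw [mul_add, e] at h4
      refine le_trans (le_of_eq (by ring)) (h4.trans (add_le_add (le_of_eq (by ring)) ?_))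
      linarith
    linarith

end Vale.Agent.P304
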