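import Vale.Agent.P304.StmtsT

/-! Part E of the log squared bound: a dynamic labelling whose total cost over all scales is only
`O(log k)` times the offline movement.  See skel/P304/BLUEPRINT2.md. -/

namespace Vale.Agent.P304

open Finset MeasureTheory
open scoped Classical

/-! ### Exponent two versions of the outer statements -/

def Main2Stmt.{u} : Prop :=
  ∃ C : ℝ, ∀ k : ℕ, 2 ≤ k → ∀ (X : Type u) [MetricSpace X] (s : Fin k → X),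
    ∃ (Ω : Type u) (_ : MeasurableSpace Ω) (P : Measure Ω) (_ : IsProbabilityMeasure P)
      (A : Ω → List X → Fin k) (B : ℝ),
      (∀ l, Measurable fun ω => A ω l) ∧
      ∀ σ : List X, Integrable (fun ω => cost (A ω) s σ) P ∧
        ∫ ω, cost (A ω) s σ ∂P ≤ C * Real.log k ^ 2 * opt s σ + B

def Bayes2Stmt : Prop :=
  ∃ C : ℝ, 0 ≤ C ∧ ∀ k : ℕ, 2 ≤ k → ∀ (Y : Type) [Fintype Y] [MetricSpace Y] (Ω : Type)
    [Fintype Ω] (p : Ω → ℝ), (∀ ω, 0 ≤ p ω) → ∑ ω, p ω = 1 →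
    ∀ (s : Fin k → Y) (σ : Ω → List Y) (c : Ω → ℕ → Fin k) (y0 : Y), ∃ A : List Y → Fin k,
      ∑ ω, p ω * cost A s (σ ω) ≤ C * Real.log k ^ 2 *
        (∑ ω, p ω * cost (fun l => c ω l.length) s (σ ω) + ∑ i, dist (s i) y0)

def Game2Stmt : Prop :=
  ∃ C : ℝ, 0 ≤ C ∧ ∀ k : ℕ, 2 ≤ k → ∀ (Y Ω : Type) [Fintype Y] [MetricSpace Y] [Fintype Ω]
    (G : Game k Y Ω) (T : ℕ), ∃ A : List Y → Fin k,
      G.onCost A T ≤ C * Real.log k ^ 2 * G.E fun ω => ∑ t ∈ range T, G.ell t ω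

/-! ### Definitions at unit scale -/

/-- parameters: number of servers, mesh of the radii, optimisation slack -/
structure Par where
  k : ℕ
  N : ℕ
  ε : ℝ

namespace Par

variable (P : Par)

noncomputable def δ : ℝ := 1 / (10 ^ 7 * P.k)

/-- radii -/
noncomputable def r (j : ℕ) : ℝ := j / P.N

/-- weights of the radii -/
noncomputable def g (j : ℕ) : ℝ := P.r j ^ 2 / P.N

def I : Finset ℕ := Icc 1 (3 * P.N)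

/-- indices of the radii in `(2, 3]` -/
def I' : Finset ℕ := Ioc (2 * P.N) (3 * P.N)

structure OK (Y : Type) [MetricSpace Y] : Prop where
  k_ge : 2 ≤ P.k
  N_ge : 64 ≤ P.N
  ε_pos : 0 < P.ε
  ε_le : P.ε ≤ 1 / (400 * (P.k : ℝ) ^ 2)
  mesh : ∀ y y' : Y, y ≠ y' → 16 / (P.N : ℝ) ≤ dist y y'

end Par

noncomputable def kap (s : ℝ) : ℝ := 1 / (1 + s)

/-- smooth step -/
noncomputable def sm (e : ℝ) : ℝ := e ^ 2 * (3 - 2 * e)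

def Pos {Y : Type} (w : Y → ℝ) : Prop := ∀ a, 0 < w a

def Simplex {Y : Type} [Fintype Y] (p : Y → ℝ) : Prop := (∀ c, 0 ≤ p c) ∧ ∑ c, p c = 1

/-- total variation distance of the normalised weights -/
noncomputable def tv {Y : Type} [Fintype Y] (w w' : Y → ℝ) : ℝ :=
  1 / 2 * ∑ a, |w a / ∑ c, w c - w' a / ∑ c, w' c|

/-- regularised mass within distance `r` -/
noncomputable def Mb {Y : Type} [Fintype Y] (k : ℕ) (μ dx : Y → ℝ) (r : ℝ) : ℝ :=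
  (∑ y, if dx y ≤ r then μ y else 0) + 1 / k

/-- `H` dominates the concentration index and the two growth indices -/
structure EtaOK {Y : Type} [Fintype Y] (k : ℕ) (ε : ℝ) (μ dx : Y → ℝ) (H : ℝ) : Prop where
  q : qq μ dx + ε ≤ H
  e1 : ∀ r : ℝ, 0 < r → r ≤ 8 → r * Real.log (Mb k μ dx 32 / Mb k μ dx r) ≤ H
  e2 : ∑ y, μ y * psi (dx y) / Mb k μ dx (dx y) ≤ H

section Unit

variable {Y : Type} [Fintype Y] [MetricSpace Y] (P : Par)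

/-- restriction of `w` to a closed ball -/
noncomputable def bal (w : Y → ℝ) (y : Y) (r : ℝ) (a : Y) : ℝ := if dist y a ≤ r then w a else 0

/-- weight of a closed ball -/
noncomputable def bm (w : Y → ℝ) (y : Y) (r : ℝ) : ℝ := ∑ a, bal w y r a

noncomputable def Ref (w : Y → ℝ) (y : Y) : ℝ := ∑ a, w a * kap (dist y a)

/-- outer potential of a point -/
noncomputable def phi (w : Y → ℝ) (y : Y) : ℝ :=
  ∑ j ∈ P.I, P.g j * Real.log ((4 + P.δ) / (bm w y (P.r j) / Ref w y + P.δ))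

/-- inner potential of a point for the centre `b` and the virtual weights `p` -/
noncomputable def pin (b : Y) (p : Y → ℝ) (y : Y) : ℝ :=
  ∑ j ∈ P.I, if P.r j ≤ 3 * dist y b then
    P.g j * Real.log ((1 + P.δ) / (bm p y (P.r j) + P.δ)) else 0

noncomputable def vv (w : Y → ℝ) (y : Y) : ℝ :=
  ∑ j ∈ P.I, P.g j * (bm w y (P.r j) / Ref w y / (bm w y (P.r j) / Ref w y + P.δ))

/-- relabelling cost of a point -/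
noncomputable def rel (w w' : Y → ℝ) (y : Y) : ℝ :=
  1 / P.N * ∑ j ∈ P.I', tv (bal w y (P.r j)) (bal w' y (P.r j))

noncomputable def wi (a y : Y) : ℝ := sm (max 0 (min 1 (10 - dist y a)))

noncomputable def cd (S : Finset Y) (y : Y) : ℝ := 1 - ∑ a ∈ S, wi a y

noncomputable def Out (m w : Y → ℝ) : ℝ := ∑ y, m y * phi P w y

noncomputable def Rel (m w w' : Y → ℝ) : ℝ := ∑ y, m y * rel P w w' y

noncomputable def Kv (m w : Y → ℝ) (x : Y) : ℝ :=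
  ∑ y, m y * vv P w y * kap (dist y x) / Ref w y

def Stable (m w : Y → ℝ) : Prop :=
  ∀ w', Pos w' → Out P m w ≤ Out P m w' + Rel P m w w' + P.ε

/-- consequences of stability -/
structure KKT (m w : Y → ℝ) : Prop where
  add : ∀ x (r : ℝ), 4 / (P.N : ℝ) ≤ r → r ≤ 2 →
    r ^ 3 / 256 * bm m x (r / 4) ≤ (bm w x r + 4 * P.δ * Ref w x) * Kv P m w x + P.ε
  loc : ∀ x, bm w x 5 * Kv P m w x ≤ 336 * bm m x 8 + 12 * P.ε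
  glob : ∀ x, Ref w x * Kv P m w x ≤ 251 * ∑ y, m y * kap (dist y x) + 2 * P.ε

/-- functional of a core `a` with centre `b` and virtual weights `p` -/
noncomputable def JJ (μ : Y → ℝ) (a b : Y) (p : Y → ℝ) : ℝ :=
  4000000 * (1 + dist a b) * (FF μ b + P.ε) + ∑ y, μ y * wi a y * pin P b p y

def IsOpt (μ : Y → ℝ) (a b : Y) (p : Y → ℝ) : Prop :=
  dist a b ≤ 8 ∧ Simplex p ∧
    ∀ b' p', dist a b' ≤ 8 → Simplex p' → JJ P μ a b p ≤ JJ P μ a b' p'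

/-- an optimal pair -/
noncomputable def op (μ : Y → ℝ) (a : Y) : Y × (Y → ℝ) :=
  if h : ∃ q : Y × (Y → ℝ), IsOpt P μ a q.1 q.2 then h.choose else (a, fun _ => 0)

def Val (μ : Y → ℝ) (a b : Y) : Prop :=
  dist a b ≤ 8 ∧ 1 / 4 ≤ mm μ a ∧ (1 + dist a b) * FF μ b ≤ mm μ a / 4

noncomputable def th2 (μ : Y → ℝ) (a : Y) : ℝ :=
  JJ P μ a (op P μ a).1 (op P μ a).2 - 800000 * mm μ a + 300000

/-- mass outside the cores -/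
noncomputable def mo (μ : Y → ℝ) (S : Finset Y) (y : Y) : ℝ := μ y * cd S y

noncomputable def Pot (μ : Y → ℝ) (S : Finset Y) (w : Y → ℝ) : ℝ :=
  Out P (mo μ S) w + ∑ a ∈ S, th2 P μ a

/-- change of the potential when one unit of mass moves from `z` to `x` -/
noncomputable def mv2 (μ : Y → ℝ) (S : Finset Y) (w : Y → ℝ) (z x : Y) : ℝ :=
  cd S x * phi P w x - cd S z * phi P w z +
    ∑ a ∈ S, (4000000 * (1 + dist a (op P μ a).1) *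
        (ff (dist x (op P μ a).1) - ff (dist z (op P μ a).1)) +
      (wi a x * pin P (op P μ a).1 (op P μ a).2 x - wi a z * pin P (op P μ a).1 (op P μ a).2 z) -
      800000 * (chi (dist x a) - chi (dist z a)))

noncomputable def blb (μ : Y → ℝ) (b : Y) : ℝ := ∑ y, if dist y b < 1 then μ y else 0

/-- elementary facts -/
structure EFacts (Y : Type) [Fintype Y] [MetricSpace Y] : Prop where
  δ_pos : 0 < P.δ
  δ_le : P.δ ≤ 1 / 10 ^ 7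
  δ_k : P.δ * P.k = 1 / 10 ^ 7
  ε_le : P.ε ≤ 1 / 1600
  log_δ : Real.log (5 / P.δ) ≤ 28 * Real.log P.k
  log_k : 69 / 100 ≤ Real.log P.k
  g_nonneg : ∀ j, 0 ≤ P.g j
  r_pos : ∀ j ∈ P.I, 0 < P.r j
  r_le : ∀ j ∈ P.I, P.r j ≤ 3
  I'_sub : P.I' ⊆ P.I
  I'_card : P.I'.card = P.N
  r_I' : ∀ j ∈ P.I', 2 < P.r j
  sum_g : ∑ j ∈ P.I, P.g j ≤ 27
  sum_g_le : ∀ R : ℝ, 0 ≤ R → ∑ j ∈ P.I, (if P.r j ≤ R then P.g j else 0) ≤ R ^ 3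
  sum_g_mid : ∀ α β : ℝ, 0 ≤ α → α ≤ β →
    ∑ j ∈ P.I, (if α < P.r j ∧ P.r j ≤ β then P.g j else 0) ≤ (β - α + 1 / P.N) * β ^ 2
  sum_g_ge : ∀ α β : ℝ, 0 < α → α ≤ β → β ≤ 3 →
    α ^ 2 * (β - α - 1 / P.N) ≤ ∑ j ∈ P.I, (if α ≤ P.r j ∧ P.r j ≤ β then P.g j else 0)
  kap_pos : ∀ s : ℝ, 0 ≤ s → 0 < kap s
  kap_le : ∀ s : ℝ, 0 ≤ s → kap s ≤ 1
  kap_shift : ∀ s s' d : ℝ, 0 ≤ s → 0 ≤ s' → 0 ≤ d → s' ≤ s + d → kap s ≤ (1 + d) * kap s'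
  kap_ff : ∀ s : ℝ, 1 ≤ s → 2 * kap s ≤ ff s
  sm_symm : ∀ e : ℝ, sm (1 - e) = 1 - sm e
  sm_lo : ∀ e : ℝ, e ≤ 1 → e ^ 2 ≤ sm e
  sm_hi : ∀ e : ℝ, 0 ≤ e → sm e ≤ 3 * e ^ 2
  sm_mono : ∀ e e' : ℝ, 0 ≤ e → e ≤ e' → e' ≤ 1 → sm e ≤ sm e'
  sm_lip : ∀ e e' : ℝ, 0 ≤ e → e ≤ e' → e' ≤ 1 → sm e' - sm e ≤ 6 * e' * (e' - e)
  bm_nonneg : ∀ (w : Y → ℝ) y r, (∀ a, 0 ≤ w a) → 0 ≤ bm w y r
  bm_pos : ∀ (w : Y → ℝ) y (r : ℝ), Pos w → 0 ≤ r → 0 < bm w y r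
  bm_mono : ∀ (w : Y → ℝ) y y' (r r' : ℝ), (∀ a, 0 ≤ w a) → r + dist y y' ≤ r' →
    bm w y r ≤ bm w y' r'
  bm_mono_w : ∀ (w w' : Y → ℝ) y (r : ℝ), (∀ a, dist y a ≤ r → w a ≤ w' a) → bm w y r ≤ bm w' y r
  bm_add : ∀ (w w' : Y → ℝ) y (r : ℝ), bm (fun a => w a + w' a) y r = bm w y r + bm w' y r
  bm_smul : ∀ (w : Y → ℝ) y (r c : ℝ), bm (fun a => c * w a) y r = c * bm w y r
  bm_single : ∀ (b y : Y) (r : ℝ),
    bm (fun a => if a = b then 1 else 0) y r = if dist y b ≤ r then 1 else 0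
  bm_le_sum : ∀ (w : Y → ℝ) y (r : ℝ), (∀ a, 0 ≤ w a) → bm w y r ≤ ∑ a, w a
  bm_le_Ref : ∀ (w : Y → ℝ) y (r : ℝ), (∀ a, 0 ≤ w a) → 0 ≤ r → bm w y r ≤ (1 + r) * Ref w y
  Mb_eq : ∀ (μ : Y → ℝ) x (r : ℝ), Mb P.k μ (fun y => dist y x) r = bm μ x r + 1 / P.k
  Ref_nonneg : ∀ (w : Y → ℝ) y, (∀ a, 0 ≤ w a) → 0 ≤ Ref w y
  Ref_pos : ∀ (w : Y → ℝ) y, Pos w → 0 < Ref w y
  Ref_lip : ∀ (w : Y → ℝ) y y', (∀ a, 0 ≤ w a) → Ref w y ≤ (1 + dist y y') * Ref w y'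
  Ref_add : ∀ (w w' : Y → ℝ) y, Ref (fun a => w a + w' a) y = Ref w y + Ref w' y
  phi_nonneg : ∀ (w : Y → ℝ) y, Pos w → 0 ≤ phi P w y
  phi_le : ∀ (w : Y → ℝ) y, Pos w → phi P w y ≤ 756 * Real.log P.k
  phi_add : ∀ (w v : Y → ℝ) y, Pos w → (∀ a, 0 ≤ v a) →
    phi P (fun a => w a + v a) y ≤ phi P w y + vv P w y * Ref v y / Ref w y
  vv_nonneg : ∀ (w : Y → ℝ) y, Pos w → 0 ≤ vv P w y
  vv_le : ∀ (w : Y → ℝ) y, Pos w → vv P w y ≤ 27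
  Kv_nonneg : ∀ (m w : Y → ℝ) x, (∀ y, 0 ≤ m y) → Pos w → 0 ≤ Kv P m w x
  pin_nonneg : ∀ (b : Y) p y, Simplex p → 0 ≤ pin P b p y
  pin_le : ∀ (b : Y) p y, Simplex p → pin P b p y ≤ 756 * Real.log P.k
  pin_le' : ∀ (b : Y) p y, Simplex p → pin P b p y ≤ 756 * Real.log P.k * dist y b ^ 3
  wi_nonneg : ∀ a y : Y, 0 ≤ wi a y
  wi_le : ∀ a y : Y, wi a y ≤ 1
  wi_one : ∀ a y : Y, dist y a ≤ 9 → wi a y = 1
  wi_zero : ∀ a y : Y, 10 ≤ dist y a → wi a y = 0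
  wi_chi : ∀ a y : Y, wi a y ≤ chi (dist y a)
  wi_compl : ∀ a y : Y, 1 - wi a y = sm (max 0 (min 1 (dist y a - 9)))
  cd_nonneg : ∀ (S : Finset Y) y, Sep S → 0 ≤ cd S y
  cd_le : ∀ (S : Finset Y) y, cd S y ≤ 1
  cd_one : ∀ (S : Finset Y) y, (∀ a ∈ S, 10 ≤ dist y a) → cd S y = 1
  cd_near : ∀ (S : Finset Y) y, Sep S → ∀ a ∈ S, dist y a ≤ 40 → cd S y = 1 - wi a y
  tv_nonneg : ∀ w w' : Y → ℝ, 0 ≤ tv w w'
  tv_self : ∀ w : Y → ℝ, tv w w = 0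
  tv_comm : ∀ w w' : Y → ℝ, tv w w' = tv w' w
  tv_triangle : ∀ w w' w'' : Y → ℝ, tv w w'' ≤ tv w w' + tv w' w''
  tv_le : ∀ (w w' v : Y → ℝ) (M : ℝ), (∀ a, 0 ≤ v a) → (∀ a, v a ≤ w a) → (∀ a, v a ≤ w' a) →
    0 < ∑ a, w a → 0 < ∑ a, w' a → ∑ a, w a ≤ M → ∑ a, w' a ≤ M → tv w w' ≤ 1 - (∑ a, v a) / M
  rel_nonneg : ∀ (w w' : Y → ℝ) y, 0 ≤ rel P w w' y
  rel_self : ∀ (w : Y → ℝ) y, rel P w w y = 0
  rel_triangle : ∀ (w w' w'' : Y → ℝ) y, rel P w w'' y ≤ rel P w w' y + rel P w' w'' y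
  rel_congr : ∀ (w w' : Y → ℝ) y, (∀ a, dist y a ≤ 3 → w a = w' a) → rel P w w' y = 0

/-- geometry of valid cores -/
structure Geo (μ : Y → ℝ) : Prop where
  mm_nonneg : ∀ a, 0 ≤ mm μ a
  FF_nonneg : ∀ b, 0 ≤ FF μ b
  blb_nonneg : ∀ b, 0 ≤ blb μ b
  mm_le : ∀ a b, dist a b ≤ 8 → mm μ a ≤ blb μ b + FF μ b
  blb_le : ∀ a b, dist a b ≤ 9 → blb μ b ≤ mm μ a
  mm_le_bm : ∀ a, mm μ a ≤ bm μ a 11
  bm_le_mm : ∀ a, bm μ a 10 ≤ mm μ a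
  wi_le_mm : ∀ a, ∑ y, μ y * wi a y ≤ mm μ a
  shell : ∀ b (Z : Finset Y), (∀ y ∈ Z, 1 ≤ dist y b ∧ dist y b ≤ 32768) → ∑ y ∈ Z, μ y ≤ FF μ b
  bm_le : ∀ a b (r : ℝ), dist a b ≤ 8 → r ≤ 1000 → bm μ a r ≤ mm μ a + FF μ b
  val_FF : ∀ a b, Val μ a b → FF μ b ≤ mm μ a / 4
  far : ∀ a b a' b', Val μ a b → Val μ a' b' → 18 < dist a a' → 100 < dist a a'
  near : ∀ a b x, Val μ a b → Hvy μ x → dist x a ≤ 50 → dist x b ≤ 2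
  kap_mo : ∀ (S : Finset Y), Sep S → ∀ a ∈ S, ∀ b, dist a b ≤ 8 →
    2 * ∑ y, mo μ S y * kap (dist y b) ≤ FF μ b
  nonhvy : ∀ x, 1 / 2 ≤ mm μ x → ¬ Hvy μ x → 1 / 1638400 ≤ qq μ fun y => dist y x
  qq_nonneg : ∀ x, 0 ≤ qq μ fun y => dist y x

end Unit

def EBasicStmt : Prop :=
  ∀ (P : Par) (Y : Type) [Fintype Y] [MetricSpace Y], P.OK Y → EFacts P Y

def GeoStmt : Prop :=
  ∀ (Y : Type) [Fintype Y] [MetricSpace Y] (μ : Y → ℝ), (∀ y, 0 ≤ μ y) → Geo μ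

/-! ### Stability of the weights -/

def StableStmt : Prop :=
  ∀ (P : Par) (Y : Type) [Fintype Y] [MetricSpace Y], P.OK Y → ∀ m w : Y → ℝ, (∀ y, 0 ≤ m y) →
    Pos w → ∃ w', Pos w' ∧ Stable P m w' ∧ Out P m w' + Rel P m w w' ≤ Out P m w

def AddStmt : Prop :=
  ∀ (P : Par) (Y : Type) [Fintype Y] [MetricSpace Y], P.OK Y → ∀ m w : Y → ℝ, (∀ y, 0 ≤ m y) →
    Pos w → Stable P m w → ∀ x (r : ℝ), 4 / (P.N : ℝ) ≤ r → r ≤ 2 →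
    r ^ 3 / 256 * bm m x (r / 4) ≤ (bm w x r + 4 * P.δ * Ref w x) * Kv P m w x + P.ε

def ScaleKStmt : Prop :=
  ∀ (P : Par) (Y : Type) [Fintype Y] [MetricSpace Y], P.OK Y → ∀ m w : Y → ℝ, (∀ y, 0 ≤ m y) →
    Pos w → Stable P m w → ∀ x, bm w x 5 * Kv P m w x ≤ 336 * bm m x 8 + 12 * P.ε ∧
      Ref w x * Kv P m w x ≤ 251 * ∑ y, m y * kap (dist y x) + 2 * P.ε

/-! ### Optimal pairs -/

def OptStmt : Prop :=
  ∀ (P : Par) (Y : Type) [Fintype Y] [MetricSpace Y], P.OK Y → ∀ (μ : Y → ℝ) (a : Y),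
    IsOpt P μ a (op P μ a).1 (op P μ a).2

def PKKTStmt : Prop :=
  ∀ (P : Par) (Y : Type) [Fintype Y] [MetricSpace Y], P.OK Y → ∀ (μ : Y → ℝ) (a b : Y)
    (p : Y → ℝ), (∀ y, 0 ≤ μ y) → IsOpt P μ a b p →
    ∑ y, μ y * wi a y * ∑ j ∈ P.I, (if P.r j ≤ 3 * dist y b then P.g j else 0) ≤ 27 * FF μ b ∧
    ∀ c, ∑ y, μ y * wi a y * ∑ j ∈ P.I,
      (if dist y c ≤ P.r j ∧ P.r j ≤ 3 * dist y b then P.g j / (bm p y (P.r j) + P.δ) else 0) ≤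
        54 * FF μ b

def NearOptStmt : Prop :=
  ∀ (P : Par) (Y : Type) [Fintype Y] [MetricSpace Y], P.OK Y → ∀ (μ : Y → ℝ) (a b : Y)
    (p : Y → ℝ), (∀ y, 0 ≤ μ y) → IsOpt P μ a b p →
    (∀ b', dist a b' ≤ 8 → (1 + dist a b) * (FF μ b + P.ε) ≤
      (1 + dist a b') * (FF μ b' + P.ε) + mm μ a / 100000) ∧
    (Hvy μ a → Val μ a b)

def PullStmt : Prop :=
  ∃ C : ℝ, 0 ≤ C ∧ ∀ (P : Par) (Y : Type) [Fintype Y] [MetricSpace Y], P.OK Y →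
    ∀ (μ : Y → ℝ) (a b x : Y) (p : Y → ℝ), (∀ y, 0 ≤ μ y) → IsOpt P μ a b p → Val μ a b →
    Hvy μ x → dist x a ≤ 7 → dist x b ≤ C * (qq μ (fun y => dist y x) + P.ε)

/-! ### One update of the state -/

def KillStmt : Prop :=
  ∀ (P : Par) (Y : Type) [Fintype Y] [MetricSpace Y], P.OK Y → ∀ (μ w : Y → ℝ) (S : Finset Y)
    (a : Y), (∀ y, 0 ≤ μ y) → Sep S → a ∈ S → Pos w → KKT P (mo μ S) w →
    ¬ Val μ a (op P μ a).1 → ∃ w', Pos w' ∧ (∀ y, 16 < dist y a → rel P w w' y = 0) ∧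
      Pot P μ (S.erase a) w' + bm μ a 16 ≤ Pot P μ S w

def BirthStmt : Prop :=
  ∀ (P : Par) (Y : Type) [Fintype Y] [MetricSpace Y], P.OK Y → ∀ (μ w : Y → ℝ) (S : Finset Y)
    (x : Y), (∀ y, 0 ≤ μ y) → Sep S → Pos w → Hvy μ x → (∀ a ∈ S, 50 < dist x a) →
    Pot P μ (insert x S) w + bm μ x 16 ≤ Pot P μ S w

def RecStmt : Prop :=
  ∀ (P : Par) (Y : Type) [Fintype Y] [MetricSpace Y], P.OK Y → ∀ (μ w : Y → ℝ) (S : Finset Y)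
    (x a : Y), (∀ y, 0 ≤ μ y) → Sep S → Sep (insert x (S.erase a)) → a ∈ S → Pos w →
    KKT P (mo μ S) w → 7 < dist x a → dist x (op P μ a).1 ≤ 2 →
    ∃ w', Pos w' ∧ (∀ y, 16 < dist y a → rel P w w' y = 0) ∧
      Pot P μ (insert x (S.erase a)) w' +
        ∑ y ∈ univ.filter (fun y => (dist y a ≤ 16 ∨ dist y x ≤ 16) ∧ 1 ≤ dist y (op P μ a).1),
          μ y ≤ Pot P μ S w

def Step2Stmt : Prop :=
  ∀ (P : Par) (Y : Type) [Fintype Y] [MetricSpace Y], P.OK Y → ∀ (μ w : Y → ℝ) (S : Finset Y)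
    (tag : Y → ℕ) (x : Y) (n : ℕ), (∀ y, 0 ≤ μ y) → Sep S → Set.InjOn tag S →
    (∀ a ∈ S, tag a < n) → Pos w →
    ∃ (S' : Finset Y) (tag' : Y → ℕ) (Zn : Finset Y) (w' : Y → ℝ), Sep S' ∧ Set.InjOn tag' S' ∧
      (∀ a ∈ S', tag' a ≤ n) ∧ (∀ a ∈ S', Val μ a (op P μ a).1) ∧
      (Hvy μ x → ∃ a ∈ S', dist x a ≤ 7) ∧ CoreRel S tag S' tag' Zn ∧ Pos w' ∧
      KKT P (mo μ S') w' ∧
      Pot P μ S' w' + ∑ y, μ y * (if y ∈ Zn then 1 else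
        if ∀ a ∈ S, 10 ≤ dist y a then rel P w w' y else 0) ≤ Pot P μ S w

/-! ### The moving server -/

/-- from a balance inequality to a logarithmic bound -/
def LogStmt : Prop :=
  ∃ C : ℝ, 0 ≤ C ∧ ∀ (k : ℕ) (ε ρ m M Q H : ℝ), 2 ≤ k → ε ≤ 1 / (k : ℝ) ^ 2 → 0 < ρ → ρ ≤ 1 →
    0 ≤ m → 1 / 2 ≤ M → 0 < Q → Q ≤ 10 ^ 8 * k → ρ ^ 5 * m ≤ 10 ^ 8 * (M / Q + ε) → 0 ≤ H →
    ρ / 4 * Real.log (M / (m + 1 / k)) ≤ H → Real.log Q ≤ C * (1 + H) / ρ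

/-- weighted sums over the grid of radii -/
def GridStmt : Prop :=
  ∃ C : ℝ, 0 ≤ C ∧ ∀ (P : Par) (A : ℝ → ℝ) (ℓ e Λ H : ℝ), 64 ≤ P.N → Antitone A →
    16 / (P.N : ℝ) ≤ ℓ → ℓ ≤ 1 / 4 → ℓ ≤ e → e ≤ 1 → 0 ≤ Λ → 0 ≤ H → A 0 ≤ Λ →
    (∀ ρ, ℓ / 4 ≤ ρ → ρ ≤ e → A ρ ≤ H / ρ) →
    e * ∑ j ∈ P.I, P.g j * A (P.r j) ≤ C * (Λ * ℓ + H) ∧
    ∀ c R R' : ℝ, 0 ≤ A 4 → 0 ≤ c → c ≤ 1 → e ≤ R → R ≤ 3 → R - 3 * ℓ ≤ R' → c * R ^ 2 ≤ 200 * e ^ 2 →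
      c * (∑ j ∈ P.I, (if P.r j ≤ R then P.g j * A (P.r j) else 0) -
        ∑ j ∈ P.I, (if P.r j ≤ R' then P.g j * A (P.r j + ℓ) else 0)) ≤
      C * (Λ * ℓ ^ 2 + ℓ * e * H)

def OutMoveStmt : Prop :=
  ∃ C : ℝ, 0 ≤ C ∧ ∀ (P : Par) (Y : Type) [Fintype Y] [MetricSpace Y], P.OK Y →
    ∀ (μ w : Y → ℝ) (S : Finset Y) (b : Y → Y) (z x : Y) (H : ℝ), (∀ y, 0 ≤ μ y) →
    ∑ y, μ y ≤ P.k → Sep S → (∀ a ∈ S, Val μ a (b a)) → Pos w → KKT P (mo μ S) w →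
    EtaOK P.k P.ε μ (fun y => dist y x) H → dist z x ≤ 1 / 4 → 1 / 2 ≤ bm μ x (1 / 4) →
    cd S x * phi P w x - cd S z * phi P w z ≤
      C * (Real.log P.k * dist z x ^ 2 + dist z x * (1 + H))

def PinMoveStmt : Prop :=
  ∃ C : ℝ, 0 ≤ C ∧ ∀ (P : Par) (Y : Type) [Fintype Y] [MetricSpace Y], P.OK Y →
    ∀ (μ p : Y → ℝ) (a b z x : Y) (H : ℝ), (∀ y, 0 ≤ μ y) → IsOpt P μ a b p → Val μ a b →
    EtaOK P.k P.ε μ (fun y => dist y x) H → dist z x ≤ 1 / 4 → 1 / 2 ≤ bm μ x (1 / 4) →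
    wi a x * pin P b p x - wi a z * pin P b p z ≤
      C * (Real.log P.k * dist z x ^ 2 + dist z x * (min 1 (dist x b) + H))

/-- sums over the valid cores -/
def FarStmt : Prop :=
  ∃ C : ℝ, 0 ≤ C ∧ ∀ (k : ℕ) (Y : Type) [Fintype Y] [MetricSpace Y] (μ : Y → ℝ) (S : Finset Y)
    (b : Y → Y) (x : Y), 2 ≤ k → (∀ y, 0 ≤ μ y) → ∑ y, μ y ≤ k → Sep S →
    (∀ a ∈ S, Val μ a (b a)) →
    ∑ a ∈ S, kap (dist x (b a)) ≤ C * Real.log k ∧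
    ∑ a ∈ S, (if 25 < dist x a then 1 / dist x (b a) ^ 2 else 0) ≤
      C * ∑ y, μ y * psi (dist y x) / Mb k μ (fun y => dist y x) (dist y x)

def Move2Stmt : Prop :=
  ∃ C : ℝ, 0 ≤ C ∧ ∀ (P : Par) (Y : Type) [Fintype Y] [MetricSpace Y], P.OK Y →
    ∀ (μ w : Y → ℝ) (S : Finset Y) (z x : Y) (H : ℝ), (∀ y, 0 ≤ μ y) →
    ∑ y, μ y ≤ P.k → Sep S → (∀ a ∈ S, Val μ a (op P μ a).1) →
    (Hvy μ x → ∃ a ∈ S, dist x a ≤ 7) → Pos w → KKT P (mo μ S) w →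
    EtaOK P.k P.ε μ (fun y => dist y x) H →
    mv2 P μ S w z x ≤ C * (Real.log P.k * (min 1 (dist z x ^ 2) +
      if bm μ x (1 / 4) < 1 / 2 then 1 else 0) + dist z x * H)

/-- cut probability outside the cores -/
def Cut2Stmt : Prop :=
  ∃ C : ℝ, 0 ≤ C ∧ ∀ (P : Par) (Y : Type) [Fintype Y] [MetricSpace Y], P.OK Y →
    ∀ (μ w : Y → ℝ) (S : Finset Y) (z x : Y) (H : ℝ), (∀ y, 0 ≤ μ y) →
    ∑ y, μ y ≤ P.k → Sep S → Pos w → KKT P (mo μ S) w →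
    EtaOK P.k P.ε μ (fun y => dist y x) H → dist z x ≤ 1 / 4 → 1 / 2 ≤ bm μ x (1 / 4) →
    (∀ a ∈ S, 41 / 4 ≤ dist x a) →
    1 / P.N * ∑ j ∈ P.I', tv (bal w z (P.r j)) (bal w x (P.r j)) ≤ C * (dist z x * (1 + H))

/-- consistent sampling, derandomized -/
def ClockStmt : Prop :=
  ∀ (Y J : Type) [Fintype Y] [Fintype J] [Nonempty Y] (w w' : J → Y → ℝ) (c : J → ℝ),
    (∀ j, 0 ≤ c j) → (∀ j a, 0 ≤ w j a) → (∀ j a, 0 ≤ w' j a) → (∀ j, 0 < ∑ a, w j a) →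
    (∀ j, 0 < ∑ a, w' j a) → ∃ fst : (Y → ℝ) → Y,
      (∀ v : Y → ℝ, (∀ a, 0 ≤ v a) → 0 < ∑ a, v a → 0 < v (fst v)) ∧
      ∑ j, c j * (if fst (w j) = fst (w' j) then 0 else 1) ≤ ∑ j, c j * (2 * tv (w j) (w' j))

/-! ### The processes -/

namespace Game

variable {k : ℕ} {Y Ω : Type} [Fintype Y] [MetricSpace Y] [Fintype Ω] (G : Game k Y Ω)

/-- what step `t` may be charged at scale `ρ` -/
noncomputable def ch2 (H : List Y → ℝ) (ρ : ℝ) (t : ℕ) (ω : Ω) : ℝ :=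
  Real.log k * min 1 ((G.ell t ω / ρ) ^ 2) + G.ell t ω / ρ * H (G.hist (t + 1) ω)

end Game

def LoStmt : Prop :=
  ∀ (k : ℕ) (Y Ω : Type) [Fintype Y] [MetricSpace Y] [Fintype Ω] (G : Game k Y Ω) (t : ℕ),
    (G.E fun ω => if bm (G.mu (G.hist (t + 1) ω)) (G.req t ω) (1 / 4) < 1 / 2 then 1 else 0) ≤
      32 * G.E fun ω => min 1 (G.ell t ω ^ 2)

def Cores2Stmt : Prop :=
  ∃ C : ℝ, 0 ≤ C ∧ ∀ (P : Par) (Y Ω : Type) [Fintype Y] [MetricSpace Y] [Fintype Ω]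
    (G : Game P.k Y Ω) (T : ℕ) (H : List Y → ℝ), P.OK Y →
    (∀ r l, EtaOK P.k P.ε (G.mu (r :: l)) (fun y => dist y r) (H (r :: l))) →
    ∃ (S : List Y → Finset Y) (tag : List Y → Y → ℕ) (Zn : List Y → Finset Y)
      (w : List Y → Y → ℝ), (∀ l, Sep (S l)) ∧
      (∀ l, Set.InjOn (tag l) (S l)) ∧ (∀ l, ∀ a ∈ S l, tag l a ≤ l.length) ∧
      (∀ r l, CoreRel (S l) (tag l) (S (r :: l)) (tag (r :: l)) (Zn (r :: l))) ∧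
      (∀ r l, Hvy (G.mu (r :: l)) r → ∃ a ∈ S (r :: l), dist r a ≤ 7) ∧ (∀ l, Pos (w l)) ∧
      (∀ r l, KKT P (mo (G.mu (r :: l)) (S (r :: l))) (w (r :: l))) ∧
      (G.E fun ω => ∑ t ∈ range T, ∑ i, if G.o t ω i ∈ Zn (G.hist (t + 1) ω) then 1 else
          if ∀ a ∈ S (G.hist t ω), 10 ≤ dist (G.o t ω i) a then
            rel P (w (G.hist t ω)) (w (G.hist (t + 1) ω)) (G.o t ω i) else 0) ≤
        C * G.E fun ω => ∑ t ∈ range T, G.ch2 H 1 t ω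

def ScaleOne2Stmt : Prop :=
  ∃ C : ℝ, 0 ≤ C ∧ ∀ (P : Par) (Y Ω : Type) [Fintype Y] [MetricSpace Y] [Fintype Ω]
    (G : Game P.k Y Ω) (T : ℕ) (H : List Y → ℝ), P.OK Y →
    (∀ r l, EtaOK P.k P.ε (G.mu (r :: l)) (fun y => dist y r) (H (r :: l))) →
    ∃ (lab : List Y → Y → Y ⊕ Fin (T + 1)) (anc : List Y → Y ⊕ Fin (T + 1) → Y),
      (∀ l : List Y, l.length ≤ T → ∀ y, dist y (anc l (lab l y)) ≤ 11) ∧
      (∀ r (l : List Y), l.length < T → ∀ y y', lab l y = lab (r :: l) y' →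
        dist (anc l (lab l y)) (anc (r :: l) (lab l y)) ≤ 50) ∧
      (G.E fun ω => ∑ t ∈ range T, G.chg lab anc 1 t ω) ≤
        C * G.E fun ω => ∑ t ∈ range T, G.ch2 H 1 t ω

def Scale2Stmt : Prop :=
  ∃ C : ℝ, 0 ≤ C ∧ ∀ k : ℕ, 2 ≤ k → ∀ (Y Ω : Type) [Fintype Y] [MetricSpace Y] [Fintype Ω]
    (G : Game k Y Ω) (T : ℕ) (ρ ε : ℝ) (H : List Y → ℝ), 0 < ρ → 0 < ε →
    ε ≤ 1 / (400 * (k : ℝ) ^ 2) →
    (∀ r l, EtaOK k ε (G.mu (r :: l)) (fun y => dist y r / ρ) (H (r :: l))) →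
    ∃ (lab : List Y → Y → Y ⊕ Fin (T + 1)) (anc : List Y → Y ⊕ Fin (T + 1) → Y),
      (∀ l : List Y, l.length ≤ T → ∀ y, dist y (anc l (lab l y)) ≤ 11 * ρ) ∧
      (∀ r (l : List Y), l.length < T → ∀ y y', lab l y = lab (r :: l) y' →
        dist (anc l (lab l y)) (anc (r :: l) (lab l y)) ≤ 50 * ρ) ∧
      (G.E fun ω => ∑ t ∈ range T, G.chg lab anc ρ t ω) ≤
        C * G.E fun ω => ∑ t ∈ range T, G.ch2 H ρ t ω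

/-- the indices sum to `O(log k)` over the scales -/
def Sum2Stmt : Prop :=
  ∃ C : ℝ, 0 ≤ C ∧ ∀ (k : ℕ) (Y : Type) [Fintype Y] (μ dx : Y → ℝ) (W ε : ℝ) (D : ℕ), 2 ≤ k →
    (∀ y, 0 ≤ μ y) → (∀ y, 0 ≤ dx y) → ∑ y, μ y ≤ k → 0 < W → 0 ≤ ε → ε * D ≤ 1 →
    ∃ H : ℕ → ℝ, (∀ d, EtaOK k ε μ (fun y => dx y / rho W d) (H d)) ∧
      ∑ d ∈ range D, H d ≤ C * Real.log k

end Vale.Agent.P304
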