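import Vale.Agent.P304.ScaleOne
import Vale.Agent.P304.StmtsE

namespace Vale.Agent.P304

open Finset
open scoped Classical

namespace EScaleOne

open ScaleOne

theorem card_between (s : Finset ℕ) {A B : ℝ} (h : A ≤ B) :
    ((s.filter fun j : ℕ => A ≤ j ∧ (j : ℝ) < B).card : ℝ) ≤ B - A + 1 := by
  have h1 : (s.filter fun j : ℕ => A ≤ j ∧ (j : ℝ) < B) ⊆ Ico ⌈A⌉₊ ⌈B⌉₊ := fun j hj => by
    have := (mem_filter.mp hj).2
    exact mem_Ico.mpr ⟨Nat.ceil_le.mpr this.1, Nat.lt_ceil.mpr this.2⟩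
  have h2 := card_le_card h1
  rw [Nat.card_Ico] at h2
  have h3 : ((⌈B⌉₊ - ⌈A⌉₊ : ℕ) : ℝ) ≤ B - A + 1 := by
    rcases le_or_gt ⌈B⌉₊ ⌈A⌉₊ with h4 | h4
    · rw [Nat.sub_eq_zero_of_le h4]; simp only [Nat.cast_zero]; linarith
    · rw [Nat.cast_sub h4.le]
      have hB : 0 < B := Nat.lt_ceil.mp (lt_of_le_of_lt (Nat.zero_le _) h4) |>.trans_le' (by simp)
      have := Nat.ceil_lt_add_one hB.le
      have := Nat.le_ceil A
      linarith
  exact (Nat.cast_le.mpr h2).trans h3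

/-- radius of the cores -/
noncomputable def Rc (P : Par) (j : ℕ) : ℝ := 21 / 2 + (P.r j - 2) / 2

theorem core_avg (P : Par) (hN : 64 ≤ P.N) {α β e : ℝ} (he : 16 / (P.N : ℝ) ≤ e)
    (h : |α - β| ≤ e) :
    ∑ j ∈ P.I', 1 / (P.N : ℝ) * (if (α ≤ Rc P j ↔ β ≤ Rc P j) then 0 else 1) ≤ 3 * e := by
  have hN' : (64 : ℝ) ≤ P.N := by exact_mod_cast hN
  have hN0 : (0 : ℝ) < P.N := by linarith
  wlog hab : α ≤ β generalizing α β
  · have := this (α := β) (β := α) (by rwa [abs_sub_comm]) (not_le.mp hab).le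
    simpa only [iff_comm] using this
  have h1 : ∑ j ∈ P.I', (if (α ≤ Rc P j ↔ β ≤ Rc P j) then (0 : ℝ) else 1) ≤
      ((P.I'.filter fun j : ℕ => (2 * α - 19) * P.N ≤ j ∧ (j : ℝ) < (2 * β - 19) * P.N).card : ℝ) := by
    rw [card_eq_sum_ones, Nat.cast_sum, sum_filter]
    refine sum_le_sum fun j _ => ?_
    split_ifs with h1 h2 h2 <;> try norm_num
    refine h1 ⟨fun h3 => ?_, fun h3 => hab.trans h3⟩
    by_contra h4
    unfold Rc Par.r at h3 h4
    refine h2 ⟨?_, ?_⟩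
    · rw [← le_div_iff₀ hN0]; linarith
    · rw [← div_lt_iff₀ hN0]; linarith
  have h2 := card_between P.I' (A := (2 * α - 19) * P.N) (B := (2 * β - 19) * P.N)
    (mul_le_mul_of_nonneg_right (by linarith) hN0.le)
  rw [← mul_sum, one_div, inv_mul_le_iff₀ hN0]
  rw [div_le_iff₀ hN0] at he
  have h3 := (abs_le.mp h).1
  nlinarith

variable {Y : Type} [MetricSpace Y]

/-- labelling with the default labels `f` -/
noncomputable def lb (T : ℕ) (S : Finset Y) (tag : Y → ℕ) (R : ℝ) (f : Y → Y) (y : Y) :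
    Y ⊕ Fin (T + 1) :=
  lab T S tag [f y] R (fun _ => 3) y

theorem lb_base {T : ℕ} {S : Finset Y} (tag : Y → ℕ) {R : ℝ} {f : Y → Y} {y : Y}
    (hf : dist y (f y) ≤ 3) (h : ¬ ∃ a ∈ S, dist y a ≤ R) :
    lb T S tag R f y = Sum.inl (f y) := by
  rw [lb, lab_base _ _ _ h, cov, if_pos hf]

theorem relabel2 {T : ℕ} {S S' Zn : Finset Y} {tag tag' : Y → ℕ} (hS : Sep S) (hS' : Sep S')
    (h : CoreRel S tag S' tag' Zn) {R : ℝ} (hR : 10 ≤ R ∧ R ≤ 11) {f f' : Y → Y} {y : Y}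
    (hf : dist y (f y) ≤ 3) (hf' : dist y (f' y) ≤ 3) (hy : y ∉ Zn)
    (hff : (∀ a ∈ S, 10 ≤ dist y a) → f y = f' y) : lb T S tag R f y = lb T S' tag' R f' y := by
  by_cases h1 : ∃ a ∈ S, dist y a ≤ R
  · obtain ⟨a, ha, h2⟩ := h1
    obtain ⟨a', ha', h3, h4⟩ := h.fwd y hy a ha (by linarith [hR.2])
    have h5 : dist y a' ≤ R := by
      rcases h4 with h4 | h4
      · exact h4 ▸ h2
      · linarith [h4.2.2, hR.1]
    rw [lb, lb, lab_core hS tag _ hR.2 _ ha h2, lab_core hS' tag' _ hR.2 _ ha' h5, h3]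
  · have h2 : ¬ ∃ a ∈ S', dist y a ≤ R := fun h2 => h1 ((core_iff h hR hy).mpr h2)
    rw [lb_base tag hf h1, lb_base tag' hf' h2, hff fun a ha => by
      by_contra h3
      exact h1 ⟨a, ha, by linarith [hR.1]⟩]

theorem cut2_le {T : ℕ} {S : Finset Y} (hS : Sep S) (tag : Y → ℕ) {R : ℝ}
    (hR : 21 / 2 ≤ R ∧ R ≤ 11) {f : Y → Y} {z x : Y} (hz : dist z (f z) ≤ 3)
    (hx : dist x (f x) ≤ 3) (hzx : dist z x ≤ 1 / 4) (a0 : Y)
    (h0 : ∀ a ∈ S, dist x a ≤ 12 → a = a0)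
    (hff : (∀ a ∈ S, 41 / 4 ≤ dist x a) → (dist x a0 ≤ R ↔ dist z a0 ≤ R) ∧ f z = f x) :
    lb T S tag R f z = lb T S tag R f x := by
  by_cases hf : ∀ a ∈ S, 41 / 4 ≤ dist x a
  · obtain ⟨h1, h4⟩ := hff hf
    by_cases h2 : ∃ a ∈ S, dist x a ≤ R
    · obtain ⟨a, ha, h2⟩ := h2
      obtain rfl := h0 a ha (by linarith [hR.2])
      rw [lb, lb, lab_core hS tag _ hR.2 _ ha h2, lab_core hS tag _ hR.2 _ ha (h1.mp h2)]
    · have h3 : ¬ ∃ a ∈ S, dist z a ≤ R := by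
        rintro ⟨a, ha, h3⟩
        have := dist_triangle x z a
        rw [dist_comm x z] at this
        obtain rfl := h0 a ha (by linarith [hR.2])
        exact h2 ⟨a, ha, h1.mpr h3⟩
      rw [lb_base tag hx h2, lb_base tag hz h3, h4]
  · push Not at hf
    obtain ⟨a, ha, h1⟩ := hf
    have := dist_triangle z x a
    rw [lb, lb, lab_core hS tag _ hR.2 _ ha (by linarith [hR.1]),
      lab_core hS tag _ hR.2 _ ha (by linarith [hR.1])]

variable {k : ℕ} {Ω : Type} [Fintype Y] [Fintype Ω] (G : Game k Y Ω) (P : Par)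
  (S Zn : List Y → Finset Y) (w : List Y → Y → ℝ)

/-- first weight vector of a pair -/
noncomputable def u1 (t : ℕ) (ω : Ω) (j : ℕ) : Option (Fin k) → Y → ℝ
  | some i => bal (w (G.hist t ω)) (G.o t ω i) (P.r j)
  | none => bal (w (G.hist (t + 1) ω)) (G.o t ω (G.idx t ω)) (P.r j)

/-- second weight vector of a pair -/
noncomputable def u2 (t : ℕ) (ω : Ω) (j : ℕ) : Option (Fin k) → Y → ℝ
  | some i => bal (w (G.hist (t + 1) ω)) (G.o t ω i) (P.r j)
  | none => bal (w (G.hist (t + 1) ω)) (G.req t ω) (P.r j)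

def Fine (t : ℕ) (ω : Ω) : Prop :=
  G.ell t ω ≤ 1 / 4 ∧ 1 / 2 ≤ bm (G.mu (G.hist (t + 1) ω)) (G.req t ω) (1 / 4) ∧
    ∀ a ∈ S (G.hist (t + 1) ω), 41 / 4 ≤ dist (G.req t ω) a

noncomputable def cc (t : ℕ) (ω : Ω) : Option (Fin k) → ℝ
  | some i => if G.o t ω i ∉ Zn (G.hist (t + 1) ω) ∧
      ∀ a ∈ S (G.hist t ω), 10 ≤ dist (G.o t ω i) a then 1 else 0
  | none => if Fine G S t ω then 1 else 0

theorem cc_nonneg (t : ℕ) (ω : Ω) (oi : Option (Fin k)) : 0 ≤ cc G S Zn t ω oi := by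
  cases oi <;> simp only [cc] <;> split_ifs <;> norm_num

omit [MetricSpace Y] [Fintype Y] in
theorem sum_J (T : ℕ) (F : ℕ → Ω → Option (Fin k) → ℕ → ℝ) :
    ∑ q : Fin T × Ω × Option (Fin k) × P.I', G.p q.2.1 / P.N * F q.1 q.2.1 q.2.2.1 q.2.2.2 =
      ∑ j ∈ P.I', 1 / (P.N : ℝ) * G.E fun ω => ∑ t ∈ range T, ∑ oi, F t ω oi j := by
  simp only [Fintype.sum_prod_type, Game.E, mul_sum]
  rw [Fin.sum_univ_eq_sum_range (fun t => ∑ ω, ∑ oi, ∑ j : P.I', G.p ω / P.N * F t ω oi j) T]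
  have h1 : ∀ t ω oi, ∑ j : P.I', G.p ω / P.N * F t ω oi j =
      ∑ j ∈ P.I', G.p ω / P.N * F t ω oi j := fun t ω oi =>
    sum_coe_sort P.I' fun j => G.p ω / P.N * F t ω oi j
  simp only [h1]
  symm
  rw [sum_comm]
  refine Eq.trans ?_ sum_comm
  refine sum_congr rfl fun ω _ => ?_
  rw [sum_comm]
  refine sum_congr rfl fun t _ => ?_
  rw [sum_comm]
  exact sum_congr rfl fun oi _ => sum_congr rfl fun j _ => by ring

theorem exists_le_avg' (hc : P.I'.card = P.N) (hN : 64 ≤ P.N) (f : ℕ → ℝ) :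
    ∃ j ∈ P.I', f j ≤ ∑ j ∈ P.I', 1 / (P.N : ℝ) * f j := by
  have hN0 : (0 : ℝ) < P.N := by exact_mod_cast (by omega : 0 < P.N)
  obtain ⟨j, hj, h⟩ := exists_min_image P.I' f (card_pos.mp (by omega))
  refine ⟨j, hj, ?_⟩
  calc f j = ∑ _j ∈ P.I', 1 / (P.N : ℝ) * f j := by
        rw [sum_const, hc, nsmul_eq_mul]; field_simp
    _ ≤ _ := sum_le_sum fun j' hj' => mul_le_mul_of_nonneg_left (h j' hj') (by positivity)

noncomputable def zq (t : ℕ) (ω : Ω) : ℝ :=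
  ∑ i, if G.o t ω i ∈ Zn (G.hist (t + 1) ω) then 1 else 0

noncomputable def lo (t : ℕ) (ω : Ω) : ℝ :=
  if bm (G.mu (G.hist (t + 1) ω)) (G.req t ω) (1 / 4) < 1 / 2 then 1 else 0

noncomputable def cr (a0 : List Y → Y → Y) (R : ℝ) (t : ℕ) (ω : Ω) : ℝ :=
  if (dist (G.req t ω) (a0 (G.hist (t + 1) ω) (G.req t ω)) ≤ R ↔
    dist (G.o t ω (G.idx t ω)) (a0 (G.hist (t + 1) ω) (G.req t ω)) ≤ R) then 0 else 1

noncomputable def df (fst : (Y → ℝ) → Y) (j t : ℕ) (ω : Ω) (oi : Option (Fin k)) : ℝ :=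
  if fst (u1 G P w t ω j oi) = fst (u2 G P w t ω j oi) then 0 else 1

variable {G P S Zn w}

theorem chg_step2 {T : ℕ} {tag : List Y → Y → ℕ} {fst : (Y → ℝ) → Y} {j : ℕ} {R : ℝ}
    {a0 : List Y → Y → Y} (p2 : ∀ l, Sep (S l)) (p3 : ∀ l, Set.InjOn (tag l) (S l))
    (p4 : ∀ l, ∀ a ∈ S l, tag l a ≤ l.length)
    (p5 : ∀ r l, CoreRel (S l) (tag l) (S (r :: l)) (tag (r :: l)) (Zn (r :: l)))
    (ha0 : ∀ l x, ∀ a ∈ S l, dist x a ≤ 12 → a = a0 l x) (hR : 21 / 2 ≤ R ∧ R ≤ 11)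
    (hf3 : ∀ l y, dist y (fst (bal (w l) y (P.r j))) ≤ 3) {t : ℕ} (ht : t < T) (ω : Ω) :
    G.chg (fun l => lb T (S l) (tag l) R fun y => fst (bal (w l) y (P.r j)))
      (fun l => anc T G.s0 (S l) (tag l)) 1 t ω ≤ 2 * zq G Zn t ω +
      ∑ oi, cc G S Zn t ω oi * df G P w fst j t ω oi + cc G S Zn t ω none * cr G a0 R t ω +
      16 * min 1 (G.ell t ω ^ 2) + lo G t ω := by
  have hR' : 10 ≤ R ∧ R ≤ 11 := ⟨by linarith [hR.1], hR.2⟩
  obtain ⟨lb', hlb⟩ : ∃ lb' : List Y → Y → Y ⊕ Fin (T + 1),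
    lb' = fun l => lb T (S l) (tag l) R fun y => fst (bal (w l) y (P.r j)) := ⟨_, rfl⟩
  obtain ⟨cut, hcut⟩ : ∃ cut : ℝ, cut = if lb' (G.hist (t + 1) ω) (G.o t ω (G.idx t ω)) =
    lb' (G.hist (t + 1) ω) (G.req t ω) then 0 else 1 := ⟨_, rfl⟩
  have e1 : G.lchg lb' t ω ≤ ∑ i, (if lb' (G.hist t ω) (G.o t ω i) =
      lb' (G.hist (t + 1) ω) (G.o t ω i) then (0 : ℝ) else 1) + cut := by
    have : cut = ∑ i, if i = G.idx t ω then cut else 0 := by simp
    rw [this, ← sum_add_distrib]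
    refine sum_le_sum fun i _ => ?_
    by_cases hi : i = G.idx t ω
    · rw [if_pos hi, hi, G.o_succ_idx, hcut]
      by_cases c1 : lb' (G.hist t ω) (G.o t ω (G.idx t ω)) =
        lb' (G.hist (t + 1) ω) (G.o t ω (G.idx t ω))
      · rw [if_pos c1, c1, zero_add]
        split_ifs <;> norm_num
      · rw [if_neg c1]; split_ifs <;> norm_num
    · rw [if_neg hi, G.o_succ_ne t ω hi, add_zero]
      split_ifs <;> norm_num
  have e2 : G.lbad lb' (fun l => anc T G.s0 (S l) (tag l)) 1 t ω ≤ zq G Zn t ω := by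
    refine sum_le_sum fun i _ => ?_
    by_cases hi : G.o t ω i ∈ Zn (G.hist (t + 1) ω)
    · rw [if_pos hi]; split_ifs <;> norm_num
    · rw [if_neg hi, if_pos]
      rw [hlb]
      exact good G.s0 (p2 _) (p3 _) (p3 _)
        (fun a ha => (p4 _ a ha).trans (by simp; omega)) (p5 _ _) hR' _ _ hi
  have e3 : ∑ i, (if lb' (G.hist t ω) (G.o t ω i) = lb' (G.hist (t + 1) ω) (G.o t ω i)
      then (0 : ℝ) else 1) ≤
      zq G Zn t ω + ∑ i, cc G S Zn t ω (some i) * df G P w fst j t ω (some i) := by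
    rw [zq, ← sum_add_distrib]
    refine sum_le_sum fun i _ => ?_
    have b0 : 0 ≤ cc G S Zn t ω (some i) * df G P w fst j t ω (some i) :=
      mul_nonneg (cc_nonneg _ _ _ _ _ _) (by unfold df; split_ifs <;> norm_num)
    by_cases c0 : lb' (G.hist t ω) (G.o t ω i) = lb' (G.hist (t + 1) ω) (G.o t ω i)
    · rw [if_pos c0]; split_ifs <;> linarith
    rw [if_neg c0]
    by_cases c1 : G.o t ω i ∈ Zn (G.hist (t + 1) ω)
    · rw [if_pos c1]; linarith
    have c2 : ¬ ((∀ a ∈ S (G.hist t ω), 10 ≤ dist (G.o t ω i) a) →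
        fst (u1 G P w t ω j (some i)) = fst (u2 G P w t ω j (some i))) := fun c2 => c0 (by
      rw [hlb]
      exact relabel2 (p2 _) (p2 _) (p5 (G.req t ω) (G.hist t ω)) hR' (hf3 _ _) (hf3 _ _) c1 c2)
    rw [Classical.not_imp] at c2
    have c3 : cc G S Zn t ω (some i) = 1 := if_pos ⟨c1, c2.1⟩
    have c4 : df G P w fst j t ω (some i) = 1 := if_neg c2.2
    rw [if_neg c1, c3, c4]; norm_num
  have e4 : cut ≤ cc G S Zn t ω none * (cr G a0 R t ω + df G P w fst j t ω none) +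
      16 * min 1 (G.ell t ω ^ 2) + lo G t ω := by
    have b0 : 0 ≤ cc G S Zn t ω none * (cr G a0 R t ω + df G P w fst j t ω none) :=
      mul_nonneg (cc_nonneg _ _ _ _ _ _) (by unfold cr df; split_ifs <;> norm_num)
    have b1 : cut ≤ 1 := by rw [hcut]; split_ifs <;> norm_num
    have b2 : 0 ≤ lo G t ω := by unfold lo; split_ifs <;> norm_num
    have b3 : 0 ≤ min 1 (G.ell t ω ^ 2) := le_min zero_le_one (sq_nonneg _)
    by_cases c1 : G.ell t ω ≤ 1 / 4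
    · by_cases c2 : bm (G.mu (G.hist (t + 1) ω)) (G.req t ω) (1 / 4) < 1 / 2
      · have : lo G t ω = 1 := if_pos c2
        linarith
      · by_cases c0 : lb' (G.hist (t + 1) ω) (G.o t ω (G.idx t ω)) =
          lb' (G.hist (t + 1) ω) (G.req t ω)
        · have : cut = 0 := by rw [hcut, if_pos c0]
          linarith
        have c3 : ¬ ((∀ a ∈ S (G.hist (t + 1) ω), 41 / 4 ≤ dist (G.req t ω) a) →
            (dist (G.req t ω) (a0 (G.hist (t + 1) ω) (G.req t ω)) ≤ R ↔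
              dist (G.o t ω (G.idx t ω)) (a0 (G.hist (t + 1) ω) (G.req t ω)) ≤ R) ∧
            fst (u1 G P w t ω j none) = fst (u2 G P w t ω j none)) := fun c3 => c0 (by
          rw [hlb]
          exact cut2_le (p2 _) _ hR (hf3 _ _) (hf3 _ _) c1 _ (ha0 _ _) c3)
        rw [Classical.not_imp, not_and_or] at c3
        have c4 : cc G S Zn t ω none = 1 := if_pos ⟨c1, not_lt.mp c2, c3.1⟩
        have c5 : 0 ≤ cr G a0 R t ω := by unfold cr; split_ifs <;> norm_num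
        have c6 : 0 ≤ df G P w fst j t ω none := by unfold df; split_ifs <;> norm_num
        rw [c4]
        rcases c3.2 with c7 | c7
        · have : cr G a0 R t ω = 1 := if_neg c7
          linarith
        · have : df G P w fst j t ω none = 1 := if_neg c7
          linarith
    · have : 1 / 16 ≤ min 1 (G.ell t ω ^ 2) := le_min (by norm_num) (by nlinarith)
      linarith
  rw [← hlb, Game.chg, Fintype.sum_option]
  linarith

theorem core_part {H : List Y → ℝ} (hP : P.OK Y) (a0 : List Y → Y → Y) (T : ℕ)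
    (hH0 : ∀ t ω, 0 ≤ H (G.hist (t + 1) ω))
    (hfine : ∀ t ω, Fine G S t ω → 1 ≤ 1638400 * H (G.hist (t + 1) ω)) :
    ∑ j ∈ P.I', 1 / (P.N : ℝ) *
      (G.E fun ω => ∑ t ∈ range T, cc G S Zn t ω none * cr G a0 (Rc P j) t ω) ≤
      3 * 1638400 * G.E fun ω => ∑ t ∈ range T, G.ell t ω * H (G.hist (t + 1) ω) := by
  simp only [← G.E_mul]
  rw [← G.E_sum]
  refine G.E_mono fun ω => ?_
  simp only [mul_sum]
  rw [sum_comm]
  refine sum_le_sum fun t _ => ?_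
  have b0 := mul_nonneg (G.ell_nonneg t ω) (hH0 t ω)
  by_cases hF : Fine G S t ω
  · have b1 : cc G S Zn t ω none = 1 := if_pos hF
    simp only [b1, one_mul, cr]
    by_cases hzx : G.o t ω (G.idx t ω) = G.req t ω
    · simp only [hzx, if_true, mul_zero, sum_const_zero]; positivity
    · refine (core_avg P hP.N_ge (hP.mesh _ _ hzx) ?_).trans ?_
      · rw [dist_comm (G.o t ω (G.idx t ω)) (G.req t ω)]; exact abs_dist_sub_le _ _ _
      · have := mul_le_mul_of_nonneg_left (hfine t ω hF) (G.ell_nonneg t ω)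
        change 3 * G.ell t ω ≤ _
        linarith
  · have b1 : cc G S Zn t ω none = 0 := if_neg hF
    simp only [b1, zero_mul, mul_zero, sum_const_zero]; positivity

theorem tv_part {H : List Y → ℝ} {C2 : ℝ} (hC2 : 0 ≤ C2) (T : ℕ)
    (hH0 : ∀ t ω, 0 ≤ H (G.hist (t + 1) ω))
    (hfine : ∀ t ω, Fine G S t ω → 1 ≤ 1638400 * H (G.hist (t + 1) ω))
    (hcut : ∀ t ω, Fine G S t ω → 1 / (P.N : ℝ) * ∑ j ∈ P.I',
      tv (u1 G P w t ω j none) (u2 G P w t ω j none) ≤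
        C2 * (G.ell t ω * (1 + H (G.hist (t + 1) ω)))) :
    2 * (G.E fun ω => ∑ t ∈ range T, zq G Zn t ω) + ∑ j ∈ P.I', 1 / (P.N : ℝ) *
      (G.E fun ω => ∑ t ∈ range T, ∑ oi, cc G S Zn t ω oi *
        (2 * tv (u1 G P w t ω j oi) (u2 G P w t ω j oi))) ≤
      2 * (G.E fun ω => ∑ t ∈ range T, ∑ i, if G.o t ω i ∈ Zn (G.hist (t + 1) ω) then 1 else
          if ∀ a ∈ S (G.hist t ω), 10 ≤ dist (G.o t ω i) a then
            rel P (w (G.hist t ω)) (w (G.hist (t + 1) ω)) (G.o t ω i) else 0) +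
        2 * C2 * 1638401 * G.E fun ω => ∑ t ∈ range T, G.ell t ω * H (G.hist (t + 1) ω) := by
  simp only [← G.E_mul]
  rw [← G.E_sum, ← G.E_add, ← G.E_add]
  refine G.E_mono fun ω => ?_
  simp only [mul_sum]
  rw [sum_comm (s := P.I'), ← sum_add_distrib, ← sum_add_distrib]
  refine sum_le_sum fun t _ => ?_
  rw [sum_comm, Fintype.sum_option]
  have b1 : 2 * zq G Zn t ω + ∑ i, ∑ j ∈ P.I', 1 / (P.N : ℝ) * (cc G S Zn t ω (some i) *
      (2 * tv (u1 G P w t ω j (some i)) (u2 G P w t ω j (some i)))) =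
      ∑ i, 2 * (if G.o t ω i ∈ Zn (G.hist (t + 1) ω) then 1 else
        if ∀ a ∈ S (G.hist t ω), 10 ≤ dist (G.o t ω i) a then
          rel P (w (G.hist t ω)) (w (G.hist (t + 1) ω)) (G.o t ω i) else 0) := by
    rw [zq, mul_sum, ← sum_add_distrib]
    refine sum_congr rfl fun i _ => ?_
    simp only [cc, u1, u2, rel, ← mul_sum]
    by_cases c1 : G.o t ω i ∈ Zn (G.hist (t + 1) ω)
    · rw [if_pos c1, if_pos c1, if_neg fun h => h.1 c1]; ring
    · by_cases c2 : ∀ a ∈ S (G.hist t ω), 10 ≤ dist (G.o t ω i) a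
      · rw [if_neg c1, if_neg c1, if_pos c2, if_pos ⟨c1, c2⟩]; ring
      · rw [if_neg c1, if_neg c1, if_neg c2, if_neg fun h => c2 h.2]; ring
  have b2 : ∑ j ∈ P.I', 1 / (P.N : ℝ) * (cc G S Zn t ω none *
      (2 * tv (u1 G P w t ω j none) (u2 G P w t ω j none))) ≤
      2 * C2 * 1638401 * (G.ell t ω * H (G.hist (t + 1) ω)) := by
    have b0 := mul_nonneg (G.ell_nonneg t ω) (hH0 t ω)
    by_cases hF : Fine G S t ω
    · have b3 : cc G S Zn t ω none = 1 := if_pos hF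
      have b4 := hcut t ω hF
      have b5 := mul_le_mul_of_nonneg_left
        (mul_le_mul_of_nonneg_left (hfine t ω hF) (G.ell_nonneg t ω)) hC2
      simp only [b3, one_mul, ← mul_sum]
      linarith
    · have b3 : cc G S Zn t ω none = 0 := if_neg hF
      simp only [b3, zero_mul, mul_zero, sum_const_zero]; positivity
  linarith

end EScaleOne

open EScaleOne ScaleOne in
theorem scaleOne2 (hE : EBasicStmt) (hG : GeoStmt) (h1 : Cores2Stmt) (h2 : Cut2Stmt)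
    (h3 : ClockStmt) (h4 : LoStmt) : ScaleOne2Stmt := by
  obtain ⟨C1, hC1, h1⟩ := h1
  obtain ⟨C2, hC2, h2⟩ := h2
  refine ⟨2 * C1 + 72 + (2 * C2 * 1638401 + 3 * 1638400), by positivity, ?_⟩
  intro P Y Ω _ _ _ G T H hP hH
  have E := hE P Y hP
  obtain ⟨S, tag, Zn, w, p2, p3, p4, p5, p6, p7, p8, hZ⟩ := h1 P Y Ω G T H hP hH
  have : Nonempty Y := ⟨G.s0⟩
  have hN0 : (0 : ℝ) < P.N := by exact_mod_cast (by have := hP.N_ge; omega : 0 < P.N)
  have hb0 : ∀ l y r a, 0 ≤ bal (w l) y r a := fun l y r a => by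
    unfold bal; split_ifs; exacts [(p7 l a).le, le_rfl]
  have hb1 : ∀ l y, ∀ j ∈ P.I', 0 < ∑ a, bal (w l) y (P.r j) a := fun l y j hj =>
    E.bm_pos (w l) y _ (p7 l) (by linarith [E.r_I' j hj])
  obtain ⟨fst, hfst, hcl⟩ := h3 Y (Fin T × Ω × Option (Fin P.k) × P.I')
    (fun q => u1 G P w q.1 q.2.1 q.2.2.2 q.2.2.1) (fun q => u2 G P w q.1 q.2.1 q.2.2.2 q.2.2.1)
    (fun q => G.p q.2.1 / P.N * cc G S Zn q.1 q.2.1 q.2.2.1)
    (fun q => mul_nonneg (div_nonneg (G.p_pos _).le hN0.le) (cc_nonneg G S Zn _ _ _))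
    (by rintro ⟨t, ω, _ | i, j⟩ a <;> exact hb0 _ _ _ _)
    (by rintro ⟨t, ω, _ | i, j⟩ a <;> exact hb0 _ _ _ _)
    (by rintro ⟨t, ω, _ | i, j⟩ <;> exact hb1 _ _ _ j.2)
    (by rintro ⟨t, ω, _ | i, j⟩ <;> exact hb1 _ _ _ j.2)
  simp only [mul_assoc] at hcl
  have hcl' := ((sum_J G P T fun t ω oi j => cc G S Zn t ω oi * df G P w fst j t ω oi).symm.trans_le
    hcl).trans_eq (sum_J G P T fun t ω oi j => cc G S Zn t ω oi *
      (2 * tv (u1 G P w t ω j oi) (u2 G P w t ω j oi)))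
  obtain ⟨j, hj, hjle⟩ := exists_le_avg' P E.I'_card hP.N_ge fun j => G.E fun ω =>
    ∑ t ∈ range T, ∑ oi, cc G S Zn t ω oi * df G P w fst j t ω oi
  have ha0 : ∀ l x, ∃ a0, ∀ a ∈ S l, dist x a ≤ 12 → a = a0 := fun l x => by
    by_cases h12 : ∃ a ∈ S l, dist x a ≤ 12
    · obtain ⟨a0, ha0, h12⟩ := h12
      exact ⟨a0, fun a ha h' => core_unique (p2 _) ha ha0 x (by linarith) (by linarith)⟩
    · exact ⟨x, fun a ha h' => absurd ⟨a, ha, h'⟩ h12⟩
  choose a0 ha0 using ha0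
  obtain ⟨j', hj', hj'le⟩ := exists_le_avg' P E.I'_card hP.N_ge fun j => G.E fun ω =>
    ∑ t ∈ range T, cc G S Zn t ω none * cr G a0 (Rc P j) t ω
  have hR : 21 / 2 ≤ Rc P j' ∧ Rc P j' ≤ 11 := by
    have := E.r_I' j' hj'
    have := E.r_le j' (E.I'_sub hj')
    unfold Rc; constructor <;> linarith
  have hR' : 10 ≤ Rc P j' ∧ Rc P j' ≤ 11 := ⟨by linarith [hR.1], hR.2⟩
  have hf3 : ∀ l y, dist y (fst (bal (w l) y (P.r j))) ≤ 3 := fun l y => by
    have h5 := hfst _ (hb0 l y (P.r j)) (hb1 l y j hj)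
    by_contra h6
    rw [bal, if_neg fun h7 => h6 (h7.trans (E.r_le j (E.I'_sub hj)))] at h5
    exact lt_irrefl _ h5
  refine ⟨fun l => lb T (S l) (tag l) (Rc P j') fun y => fst (bal (w l) y (P.r j)),
    fun l => anc T G.s0 (S l) (tag l), ?_, ?_, ?_⟩
  · intro l hl y
    exact near G.s0 (p2 l) (p3 l) (fun a ha => (p4 l a ha).trans hl) hR' (fun _ => le_rfl) _ y
  · intro r l hl y y' hy
    exact shift G.s0 (p2 l) (p2 _) (p3 l) (p3 _) (fun a ha => (p4 l a ha).trans hl.le)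
      (fun a ha => (p4 _ a ha).trans (by simpa using hl)) (p5 r l) hR' _ _ _ y y' hy
  have hL := E.log_k
  have hH0 : ∀ t ω, 0 ≤ H (G.hist (t + 1) ω) := fun t ω => by
    have h5 := (hH (G.req t ω) (G.hist t ω)).q
    have h6 := (hG Y _ (G.mu_nonneg (G.req t ω :: G.hist t ω))).qq_nonneg (G.req t ω)
    rw [G.hist_succ]
    linarith [hP.ε_pos]
  have hfine : ∀ t ω, Fine G S t ω → 1 ≤ 1638400 * H (G.hist (t + 1) ω) := fun t ω hF => by
    have g := hG Y _ (G.mu_nonneg (G.req t ω :: G.hist t ω))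
    have b1 := E.bm_mono _ (G.req t ω) (G.req t ω) (1 / 4) 10
      (G.mu_nonneg (G.req t ω :: G.hist t ω)) (by simp only [dist_self]; norm_num)
    have b2 := g.nonhvy (G.req t ω) (hF.2.1.trans (b1.trans (g.bm_le_mm _))) fun hh => by
      obtain ⟨a, ha, h7⟩ := p6 _ _ hh
      linarith [hF.2.2 a ha]
    have b3 := (hH (G.req t ω) (G.hist t ω)).q
    rw [G.hist_succ]
    linarith [hP.ε_pos]
  have a3 := core_part (Zn := Zn) hP a0 T hH0 hfine
  have a4 := tv_part (P := P) (w := w) (Zn := Zn) hC2 T hH0 hfine fun t ω hF =>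
    h2 P Y hP _ _ _ (G.o t ω (G.idx t ω)) (G.req t ω) _ (G.mu_nonneg _)
      (G.sum_mu_le _) (p2 _) (p7 _) (p8 (G.req t ω) (G.hist t ω))
      (hH (G.req t ω) (G.hist t ω)) hF.1 hF.2.1 hF.2.2
  have hch : ∀ t ω, G.ch2 H 1 t ω = Real.log P.k * min 1 (G.ell t ω ^ 2) +
      G.ell t ω * H (G.hist (t + 1) ω) := fun t ω => by simp only [Game.ch2, div_one]
  have hM0 : 0 ≤ G.E fun ω => ∑ t ∈ range T, min 1 (G.ell t ω ^ 2) :=
    G.E_nonneg fun ω => sum_nonneg fun t _ => le_min zero_le_one (sq_nonneg _)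
  have hB0 : 0 ≤ G.E fun ω => ∑ t ∈ range T, G.ell t ω * H (G.hist (t + 1) ω) :=
    G.E_nonneg fun ω => sum_nonneg fun t _ => mul_nonneg (G.ell_nonneg t ω) (hH0 t ω)
  have hQ : (G.E fun ω => ∑ t ∈ range T, G.ch2 H 1 t ω) =
      Real.log P.k * (G.E fun ω => ∑ t ∈ range T, min 1 (G.ell t ω ^ 2)) +
        G.E fun ω => ∑ t ∈ range T, G.ell t ω * H (G.hist (t + 1) ω) := by
    simp only [hch, sum_add_distrib, ← mul_sum]
    rw [G.E_add, G.E_mul]
  rw [hQ] at hZ ⊢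
  have a2 : (G.E fun ω => ∑ t ∈ range T, lo G t ω) ≤
      32 * G.E fun ω => ∑ t ∈ range T, min 1 (G.ell t ω ^ 2) := by
    rw [G.E_sum, G.E_sum, mul_sum]
    exact sum_le_sum fun t _ => h4 P.k Y Ω G t
  have a5 : (G.E fun ω => ∑ t ∈ range T,
      G.chg (fun l => lb T (S l) (tag l) (Rc P j') fun y => fst (bal (w l) y (P.r j)))
        (fun l => anc T G.s0 (S l) (tag l)) 1 t ω) ≤
      2 * (G.E fun ω => ∑ t ∈ range T, zq G Zn t ω) + (G.E fun ω => ∑ t ∈ range T, ∑ oi,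
        cc G S Zn t ω oi * df G P w fst j t ω oi) +
      (G.E fun ω => ∑ t ∈ range T, cc G S Zn t ω none * cr G a0 (Rc P j') t ω) +
      16 * (G.E fun ω => ∑ t ∈ range T, min 1 (G.ell t ω ^ 2)) +
      G.E fun ω => ∑ t ∈ range T, lo G t ω := by
    rw [← G.E_mul, ← G.E_mul, ← G.E_add, ← G.E_add, ← G.E_add, ← G.E_add]
    refine G.E_mono fun ω => ?_
    simp only [mul_sum (range T), ← sum_add_distrib]
    exact sum_le_sum fun t ht => chg_step2 p2 p3 p4 p5 ha0 hR hf3 (mem_range.mp ht) ω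
  refine a5.trans ?_
  generalize (G.E fun ω => ∑ t ∈ range T, min 1 (G.ell t ω ^ 2)) = M at *
  generalize (G.E fun ω => ∑ t ∈ range T, G.ell t ω * H (G.hist (t + 1) ω)) = B at *
  have a6 : 48 * M ≤ 72 * (Real.log P.k * M) := by nlinarith
  have a7 : 0 ≤ Real.log P.k * M := by positivity
  have a8 : 0 ≤ C2 * (Real.log P.k * M) := by positivity
  linarith

end Vale.Agent.P304
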