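import Vale.Agent.P304.StmtsE

/-! Existence of stable weights and of optimal pairs. -/

namespace Vale.Agent.P304

open Finset
open scoped Classical

namespace EStable

variable {Y : Type} [Fintype Y] [MetricSpace Y] (P : Par)

theorem near_inf {α : Type} (s : Set α) (f : α → ℝ) (w : α) (hw : w ∈ s) (h0 : ∀ x ∈ s, 0 ≤ f x)
    {ε : ℝ} (hε : 0 < ε) : ∃ w' ∈ s, f w' ≤ f w ∧ ∀ x ∈ s, f w' ≤ f x + ε := by
  have hne : (f '' s).Nonempty := ⟨f w, w, hw, rfl⟩
  have hbd : BddBelow (f '' s) := ⟨0, by rintro _ ⟨x, hx, rfl⟩; exact h0 x hx⟩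
  obtain ⟨_, ⟨w1, hw1, rfl⟩, h1⟩ :=
    exists_lt_of_csInf_lt hne (lt_add_of_pos_right (sInf (f '' s)) hε)
  have h2 : ∀ x ∈ s, f w1 ≤ f x + ε := fun x hx => by
    have := csInf_le hbd ⟨x, hx, rfl⟩
    linarith
  by_cases h : f w1 ≤ f w
  · exact ⟨w1, hw1, h, h2⟩
  · exact ⟨w, hw, le_rfl, fun x hx => (le_of_not_ge h).trans (h2 x hx)⟩

theorem bm_cont (y : Y) (r : ℝ) : Continuous fun p : Y → ℝ => bm p y r := by
  unfold bm bal
  refine continuous_finsetSum _ fun a _ => ?_
  split_ifs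
  · exact continuous_apply a
  · exact continuous_const

theorem JJ_cont (E : EFacts P Y) (μ : Y → ℝ) (a b : Y) :
    ContinuousOn (fun p => JJ P μ a b p) (stdSimplex ℝ Y) := by
  unfold JJ pin
  refine continuousOn_const.add (continuousOn_finsetSum _ fun y _ =>
    continuousOn_const.mul (continuousOn_finsetSum _ fun j _ => ?_))
  split_ifs
  · have hpos : ∀ p ∈ stdSimplex ℝ Y, 0 < bm p y (P.r j) + P.δ := fun p hp =>
      add_pos_of_nonneg_of_pos (E.bm_nonneg p y _ hp.1) E.δ_pos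
    refine continuousOn_const.mul (ContinuousOn.log (continuousOn_const.div
      ((bm_cont y _).add continuous_const).continuousOn fun p hp => (hpos p hp).ne')
      fun p hp => ?_)
    have := E.δ_pos
    exact (div_pos (by linarith) (hpos p hp)).ne'
  · exact continuousOn_const

theorem exists_opt (E : EFacts P Y) (μ : Y → ℝ) (a : Y) :
    ∃ q : Y × (Y → ℝ), IsOpt P μ a q.1 q.2 := by
  have h1 : ∀ b : Y, ∃ p, Simplex p ∧ ∀ p', Simplex p' → JJ P μ a b p ≤ JJ P μ a b p' := by
    intro b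
    obtain ⟨p, hp, h⟩ := (isCompact_stdSimplex ℝ Y).exists_isMinOn
      ⟨_, single_mem_stdSimplex ℝ a⟩ (JJ_cont P E μ a b)
    exact ⟨p, hp, fun p' hp' => h hp'⟩
  choose pp hp hmin using h1
  obtain ⟨b, hb, h⟩ := Finset.exists_min_image (univ.filter fun b => dist a b ≤ 8)
    (fun b => JJ P μ a b (pp b)) ⟨a, by simp⟩
  exact ⟨(b, pp b), by simpa using hb, hp b, fun b' p' hb' hp' =>
    (h b' (by simpa using hb')).trans (hmin b' p' hp')⟩

end EStable

theorem stable (hE : EBasicStmt) : StableStmt := by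
  intro P Y _ _ hP m w hm hw
  have E := hE P Y hP
  obtain ⟨w', hw', h1, h2⟩ := EStable.near_inf {w' : Y → ℝ | Pos w'}
    (fun w' => Out P m w' + Rel P m w w') w hw (fun x hx => add_nonneg
      (sum_nonneg fun y _ => mul_nonneg (hm y) (E.phi_nonneg x y hx))
      (sum_nonneg fun y _ => mul_nonneg (hm y) (E.rel_nonneg w x y))) hP.ε_pos
  have h0 : Rel P m w w = 0 := by simp [Rel, E.rel_self]
  refine ⟨w', hw', fun x hx => ?_, by simpa [h0] using h1⟩
  have h3 : Out P m w' + Rel P m w w' ≤ Out P m x + Rel P m w x + P.ε := h2 x hx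
  have h4 : Rel P m w x ≤ Rel P m w w' + Rel P m w' x := by
    simp only [Rel]
    rw [← sum_add_distrib]
    refine sum_le_sum fun y _ => ?_
    rw [← mul_add]
    exact mul_le_mul_of_nonneg_left (E.rel_triangle w w' x y) (hm y)
  linarith

theorem optS (hE : EBasicStmt) : OptStmt := by
  intro P Y _ _ hP μ a
  have h := EStable.exists_opt P (hE P Y hP) μ a
  unfold op
  rw [dif_pos h]
  exact h.choose_spec

end Vale.Agent.P304
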