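import Vale.Agent.P304.StmtsE

/-! One update of the state: optimise, kill, birth or recentre, optimise. -/

namespace Vale.Agent.P304

open Finset
open scoped Classical

namespace EStep

variable {Y : Type} [Fintype Y] [MetricSpace Y] {P : Par} {μ : Y → ℝ}

/-- a transition that pays for the zone `Z` and for the relabelling far from the cores -/
def Tr (P : Par) (μ : Y → ℝ) (S : Finset Y) (w : Y → ℝ) (S' : Finset Y) (w' : Y → ℝ)
    (Z : Finset Y) : Prop :=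
  Pot P μ S' w' + ∑ y, μ y * (if y ∈ Z then 1 else
    if ∀ a ∈ S, 10 ≤ dist y a then rel P w w' y else 0) ≤ Pot P μ S w ∧
  ∀ y, y ∉ Z → (∀ a ∈ S, 10 ≤ dist y a) → ∀ a ∈ S', 10 ≤ dist y a

/-- the closed ball of radius `16` -/
noncomputable def zone (a : Y) : Finset Y := univ.filter fun y => dist y a ≤ 16

theorem mem_zone {a y : Y} : y ∈ zone a ↔ dist y a ≤ 16 := by simp [zone]

theorem sum_zone (a : Y) : ∑ y ∈ zone a, μ y = bm μ a 16 := by
  simp only [zone, sum_filter, bm, bal, dist_comm a]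

omit [Fintype Y] in
theorem sep_mono {S T : Finset Y} (hS : Sep S) (h : T ⊆ S) : Sep T :=
  fun a ha a' ha' => hS a (h ha) a' (h ha')

theorem Tr.of {S S' Z : Finset Y} {w w' : Y → ℝ}
    (h1 : Pot P μ S' w' + ∑ y ∈ Z, μ y ≤ Pot P μ S w)
    (h2 : ∀ y, y ∉ Z → (∀ a ∈ S, 10 ≤ dist y a) → rel P w w' y = 0 ∧ ∀ a ∈ S', 10 ≤ dist y a) :
    Tr P μ S w S' w' Z := by
  refine ⟨le_trans (le_of_eq ?_) h1, fun y hy h => (h2 y hy h).2⟩
  rw [← sum_ite_mem_eq Z]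
  refine congrArg _ (sum_congr rfl fun y _ => ?_)
  split_ifs with h3 h4
  exacts [mul_one _, by rw [(h2 y h3 h4).1, mul_zero], mul_zero _]

variable (E : EFacts P Y) (hμ : ∀ y, 0 ≤ μ y)
include E hμ

theorem Tr.trans {S S' S'' Z Z' : Finset Y} {w w' w'' : Y → ℝ} (h : Tr P μ S w S' w' Z)
    (h' : Tr P μ S' w' S'' w'' Z') : Tr P μ S w S'' w'' (Z ∪ Z') := by
  refine ⟨le_trans ?_ h.1, fun y hy h1 => h'.2 y (fun h2 => hy (mem_union_right _ h2))
    (h.2 y (fun h2 => hy (mem_union_left _ h2)) h1)⟩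
  refine le_trans ?_ (add_le_add h'.1 le_rfl)
  rw [add_assoc, ← sum_add_distrib]
  refine add_le_add le_rfl (sum_le_sum fun y _ => ?_)
  rw [← mul_add]
  refine mul_le_mul_of_nonneg_left ?_ (hμ y)
  have h1 := E.rel_nonneg w w' y
  have h2 := E.rel_nonneg w' w'' y
  have h3 := E.rel_triangle w w' w'' y
  have h4 := h.2 y
  simp only [mem_union]
  split_ifs <;> first | linarith | tauto

theorem opt (hP : P.OK Y) (h1 : StableStmt) (h2 : AddStmt) (h3 : ScaleKStmt) {S : Finset Y}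
    (hS : Sep S) {w : Y → ℝ} (hw : Pos w) :
    ∃ w', Pos w' ∧ KKT P (mo μ S) w' ∧ Tr P μ S w S w' ∅ := by
  have hm : ∀ y, 0 ≤ mo μ S y := fun y => mul_nonneg (hμ y) (E.cd_nonneg S y hS)
  obtain ⟨w', a1, a2, a3⟩ := h1 P Y hP _ w hm hw
  refine ⟨w', a1, ⟨h2 P Y hP _ w' hm a1 a2, fun x => (h3 P Y hP _ w' hm a1 a2 x).1,
    fun x => (h3 P Y hP _ w' hm a1 a2 x).2⟩, ?_, fun _ _ h => h⟩
  have : ∑ y, μ y * (if y ∈ (∅ : Finset Y) then 1 else
      if ∀ a ∈ S, 10 ≤ dist y a then rel P w w' y else 0) ≤ Rel P (mo μ S) w w' :=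
    sum_le_sum fun y _ => by
      rw [if_neg (notMem_empty y)]
      split_ifs with h
      · rw [mo, E.cd_one S y h, mul_one]
      · rw [mul_zero]
        exact mul_nonneg (hm y) (E.rel_nonneg _ _ _)
  unfold Pot
  linarith

theorem loop (hP : P.OK Y) (h1 : StableStmt) (h2 : AddStmt) (h3 : ScaleKStmt) (h6 : KillStmt)
    (S : Finset Y) : Sep S → ∀ w, Pos w → ∃ S' ⊆ S, ∃ Z w', Pos w' ∧ KKT P (mo μ S') w' ∧
      (∀ a ∈ S', Val μ a (op P μ a).1) ∧ (∀ a ∈ S, a ∉ S' → zone a ⊆ Z) ∧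
      Tr P μ S w S' w' Z := by
  induction S using Finset.strongInduction with
  | H S ih =>
    intro hS w hw
    obtain ⟨w1, a1, a2, a3⟩ := opt E hμ hP h1 h2 h3 hS hw
    by_cases hv : ∀ a ∈ S, Val μ a (op P μ a).1
    · exact ⟨S, Subset.rfl, ∅, w1, a1, a2, hv, fun a h h' => absurd h h', a3⟩
    push Not at hv
    obtain ⟨a, ha, hv⟩ := hv
    obtain ⟨w2, b1, b2, b3⟩ := h6 P Y hP μ w1 S a hμ hS ha a1 a2 hv
    obtain ⟨S', c1, Z, w3, c2, c3, c4, c5, c6⟩ :=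
      ih _ (erase_ssubset ha) (sep_mono hS (erase_subset _ _)) w2 b1
    have b4 : Tr P μ S w1 (S.erase a) w2 (zone a) := Tr.of (by rwa [sum_zone]) fun y hy h =>
      ⟨b2 y (not_le.1 fun h' => hy (mem_zone.2 h')), fun c hc => h c (mem_of_mem_erase hc)⟩
    refine ⟨S', c1.trans (erase_subset _ _), _, w3, c2, c3, c4, fun c hc hc' => ?_,
      (a3.trans E hμ b4).trans E hμ c6⟩
    rcases eq_or_ne c a with rfl | h
    · exact subset_union_right.trans subset_union_left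
    · exact (c5 c (mem_erase.2 ⟨h, hc⟩) hc').trans subset_union_right

omit E in
theorem step (Ge : Geo μ) (hP : P.OK Y) (h4 : OptStmt) (h5 : NearOptStmt) (h7 : BirthStmt)
    (h8 : RecStmt) (hr : ∀ (w : Y → ℝ) y, rel P w w y = 0) (S : Finset Y) (w : Y → ℝ)
    (tag : Y → ℕ) (x : Y) (n : ℕ) (hS : Sep S) (hi : Set.InjOn tag S) (hn : ∀ a ∈ S, tag a < n)
    (hv : ∀ a ∈ S, Val μ a (op P μ a).1) (hw : Pos w) (hK : KKT P (mo μ S) w) :
    ∃ (S' : Finset Y) (tag' : Y → ℕ) (Zn : Finset Y) (w' : Y → ℝ), Sep S' ∧ Set.InjOn tag' S' ∧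
      (∀ a' ∈ S', tag' a' = n ∨ ∃ a ∈ S, tag a = tag' a') ∧ (∀ a ∈ S', Val μ a (op P μ a).1) ∧
      (Hvy μ x → ∃ a ∈ S', dist x a ≤ 7) ∧ CoreRel S tag S' tag' Zn ∧ Pos w' ∧
      Tr P μ S w S' w' Zn := by
  by_cases h0 : Hvy μ x → ∃ a ∈ S, dist x a ≤ 7
  · refine ⟨S, tag, ∅, w, hS, hi, fun a ha => Or.inr ⟨a, ha, rfl⟩, hv, h0,
      ⟨fun a ha a' ha' h => ?_, fun y _ a ha _ => ⟨a, ha, rfl, Or.inl rfl⟩,
        fun y _ a ha _ => ⟨a, ha, rfl, Or.inl rfl⟩⟩, hw, Tr.of (by simp) fun y _ h => ⟨hr _ _, h⟩⟩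
    rw [hi ha ha' h, dist_self]; norm_num
  push Not at h0
  obtain ⟨hx, h0⟩ := h0
  have hxS : x ∉ S := fun h => by linarith [h0 x h, dist_self x]
  have hu : ∀ m, ∀ a ∈ S, Function.update tag x m a = tag a := fun m a ha =>
    Function.update_of_ne (ne_of_mem_of_not_mem ha hxS) _ _
  have gen : ∀ (T : Finset Y) (m : ℕ), T ⊆ S → (∀ a ∈ T, 50 < dist x a) → (∀ a ∈ T, tag a ≠ m) →
      Sep (insert x T) ∧ Set.InjOn (Function.update tag x m) (insert x T : Finset Y) ∧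
        (∀ a ∈ insert x T, Val μ a (op P μ a).1) ∧ ∃ a ∈ insert x T, dist x a ≤ 7 :=
    fun T m h1 h2 h3 => by
    refine ⟨fun a ha a' ha' h => ?_, fun a ha a' ha' h => ?_, fun a ha => ?_, x,
      mem_insert_self _ _, by simp⟩
    · rcases mem_insert.1 ha with e | e <;> rcases mem_insert.1 ha' with e' | e'
      · exact absurd (e.trans e'.symm) h
      · rw [e]; exact h2 _ e'
      · rw [e', dist_comm]; exact h2 _ e
      · exact hS _ (h1 e) _ (h1 e') h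
    · rcases mem_insert.1 ha with e | e <;> rcases mem_insert.1 ha' with e' | e'
      · exact e.trans e'.symm
      · rw [e, Function.update_self, hu _ _ (h1 e')] at h
        exact absurd h.symm (h3 _ e')
      · rw [e', Function.update_self, hu _ _ (h1 e)] at h
        exact absurd h (h3 _ e)
      · rw [hu _ _ (h1 e), hu _ _ (h1 e')] at h
        exact hi (h1 e) (h1 e') h
    · rcases mem_insert.1 ha with rfl | ha
      exacts [(h5 P Y hP μ a _ _ hμ (h4 P Y hP μ a)).2 hx, hv _ (h1 ha)]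
  by_cases h1 : ∀ a ∈ S, 50 < dist x a
  · obtain ⟨g1, g2, g3, g4⟩ := gen S n Subset.rfl h1 fun a ha => (hn a ha).ne
    refine ⟨_, _, zone x, w, g1, g2, fun a ha => ?_, g3, fun _ => g4, ⟨fun a ha a' ha' h => ?_,
      fun y _ a ha _ => ⟨a, mem_insert_of_mem ha, (hu _ _ ha).symm, Or.inl rfl⟩,
      fun y hy a ha h => ?_⟩, hw, Tr.of ?_ fun y hy h => ⟨hr _ _, fun a ha => ?_⟩⟩
    · rcases mem_insert.1 ha with rfl | ha
      exacts [Or.inl (Function.update_self _ _ _), Or.inr ⟨a, ha, (hu _ _ ha).symm⟩]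
    · rcases mem_insert.1 ha' with rfl | ha'
      · rw [Function.update_self] at h
        exact absurd h (hn a ha).ne
      · rw [hi ha ha' (h.trans (hu _ _ ha')), dist_self]; norm_num
    · rcases mem_insert.1 ha with rfl | ha
      exacts [absurd (mem_zone.2 (by linarith)) hy, ⟨a, ha, (hu _ _ ha).symm, Or.inl rfl⟩]
    · rw [sum_zone]
      exact h7 P Y hP μ w S x hμ hS hw hx h1
    · rcases mem_insert.1 ha with rfl | ha
      exacts [by linarith [not_le.1 fun h' => hy (mem_zone.2 h')], h a ha]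
  push Not at h1
  obtain ⟨a₀, ha₀, h1⟩ := h1
  have h2 := Ge.near _ _ _ (hv _ ha₀) hx h1
  obtain ⟨g1, g2, g3, g4⟩ := gen (S.erase a₀) (tag a₀) (erase_subset _ _) (fun a ha => by
      obtain ⟨h3, h4⟩ := mem_erase.1 ha
      have h5 := Ge.far _ _ _ _ (hv _ h4) (hv _ ha₀) (by linarith [hS _ h4 _ ha₀ h3])
      linarith [dist_triangle_left a a₀ x])
    fun a ha h => (mem_erase.1 ha).1 (hi (mem_erase.1 ha).2 ha₀ h)
  obtain ⟨w', b1, b2, b3⟩ := h8 P Y hP μ w S x a₀ hμ hS g1 ha₀ hw hK (h0 _ ha₀) h2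
  have h6 := (hv _ ha₀).1
  generalize (op P μ a₀).1 = b at h2 h6 b3
  have h3 : ∀ y, y ∉ univ.filter (fun y => (dist y a₀ ≤ 16 ∨ dist y x ≤ 16) ∧ 1 ≤ dist y b) →
      dist y a₀ ≤ 16 ∨ dist y x ≤ 16 → 4 ≤ dist y a₀ ∧ dist y a₀ ≤ 9 ∧ dist y x ≤ 3 := by
    intro y hy h
    have h4 : dist y b < 1 := not_le.1 fun h4 => hy (mem_filter.2 ⟨mem_univ _, h, h4⟩)
    have h5 := h0 _ ha₀
    have h7 := dist_triangle_right y x b
    have h8 := dist_triangle_right y a₀ b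
    have h9 := dist_triangle_left x a₀ y
    exact ⟨by linarith, by linarith, by linarith⟩
  refine ⟨_, _, _, w', g1, g2, fun a ha => Or.inr ?_, g3, fun _ => g4, ⟨fun a ha a' ha' h => ?_,
    fun y hy a ha h => ?_, fun y hy a ha h => ?_⟩, b1, Tr.of b3 fun y hy h => ?_⟩
  · rcases mem_insert.1 ha with rfl | ha
    exacts [⟨a₀, ha₀, by simp⟩,
      ⟨a, mem_of_mem_erase ha, (hu _ _ (mem_of_mem_erase ha)).symm⟩]
  · rcases mem_insert.1 ha' with rfl | ha'
    · rw [Function.update_self] at h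
      rwa [hi ha ha₀ h, dist_comm]
    · rw [hi ha (mem_of_mem_erase ha') (h.trans (hu _ _ (mem_of_mem_erase ha'))), dist_self]
      norm_num
  · rcases eq_or_ne a a₀ with rfl | h4
    · exact ⟨x, mem_insert_self _ _, by simp, Or.inr (h3 y hy (Or.inl (by linarith)))⟩
    · exact ⟨a, mem_insert_of_mem (mem_erase.2 ⟨h4, ha⟩), (hu _ _ ha).symm, Or.inl rfl⟩
  · rcases mem_insert.1 ha with rfl | ha
    · exact ⟨a₀, ha₀, by simp, Or.inr (h3 y hy (Or.inr (by linarith)))⟩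
    · exact ⟨a, mem_of_mem_erase ha, (hu _ _ (mem_of_mem_erase ha)).symm, Or.inl rfl⟩
  · have h4 : ¬ (dist y a₀ ≤ 16 ∨ dist y x ≤ 16) := fun h4 => by
      linarith [(h3 y hy h4).2.1, h _ ha₀]
    push Not at h4
    refine ⟨b2 y h4.1, fun a ha => ?_⟩
    rcases mem_insert.1 ha with rfl | ha
    exacts [by linarith [h4.2], h a (mem_of_mem_erase ha)]

end EStep

open EStep in
theorem step2 (hE : EBasicStmt) (hG : GeoStmt) (h1 : StableStmt) (h2 : AddStmt) (h3 : ScaleKStmt)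
    (h4 : OptStmt) (h5 : NearOptStmt) (h6 : KillStmt) (h7 : BirthStmt) (h8 : RecStmt) :
    Step2Stmt := by
  intro P Y _ _ hP μ w S tag x n hμ hS hi hn hw
  have E := hE P Y hP
  obtain ⟨S1, hs, Z1, w1, a1, a2, a3, a4, a5⟩ := loop E hμ hP h1 h2 h3 h6 S hS w hw
  obtain ⟨S', tag', Zn, w2, b1, b2, b3, b4, b5, b6, b7, b8⟩ := step hμ (hG Y μ hμ) hP h4 h5 h7 h8
    E.rel_self S1 w1 tag x n (sep_mono hS hs) (hi.mono hs) (fun a ha => hn a (hs ha)) a3 a1 a2
  obtain ⟨w3, c1, c2, c3⟩ := EStep.opt E hμ hP h1 h2 h3 b1 b7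
  have c4 := (a5.trans E hμ b8).trans E hμ c3
  rw [union_empty] at c4
  refine ⟨S', tag', Z1 ∪ Zn, w3, b1, b2, fun a ha => ?_, b4, b5,
    ⟨fun a ha a' ha' h => ?_, fun y hy a ha h => ?_, fun y hy a ha h => ?_⟩, c1, c2, c4.1⟩
  · rcases b3 a ha with h | ⟨b, hb, h⟩
    exacts [h.le, h ▸ (hn b (hs hb)).le]
  · rcases b3 a' ha' with h8 | ⟨b, hb, h8⟩
    · exact absurd (h.trans h8) (hn a ha).ne
    · exact b6.shift a (hi (hs hb) ha (h8.trans h.symm) ▸ hb) a' ha' h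
  · refine b6.fwd y (fun h8 => hy (mem_union_right _ h8)) a ?_ h
    by_contra h8
    exact hy (mem_union_left _ (a4 a ha h8 (mem_zone.2 (by linarith))))
  · obtain ⟨b, hb, h8⟩ := b6.bwd y (fun h8 => hy (mem_union_right _ h8)) a ha h
    exact ⟨b, hs hb, h8⟩

end Vale.Agent.P304
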