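import Vale.Agent.P304.Stmts

namespace Vale.Agent.P304

open Finset
open scoped Classical

namespace Sums

theorem psi_nonneg {s : ℝ} (hs : 0 ≤ s) : 0 ≤ psi s := le_min hs (by positivity)

theorem chi_nonneg (s : ℝ) : 0 ≤ chi s := le_max_left _ _

theorem chi_le_one (s : ℝ) : chi s ≤ 1 := max_le zero_le_one (min_le_left _ _)

theorem psi_le {s : ℝ} (hs : 0 ≤ s) : psi s ≤ 6 * (1 / (1 + s / 2) - 1 / (1 + s)) := by
  have h : 1 / (1 + s / 2) - 1 / (1 + s) = s / ((2 + s) * (1 + s)) := by
    field_simp; ring
  rw [h]
  rcases le_total s 1 with h1 | h1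
  · refine (min_le_left _ _).trans ?_
    rw [← mul_div_assoc, le_div_iff₀ (by positivity)]
    have : (2 + s) * (1 + s) ≤ 6 := by nlinarith
    nlinarith
  · refine (min_le_right _ _).trans ?_
    rw [← mul_div_assoc, div_le_div_iff₀ (by positivity) (by positivity)]
    nlinarith

theorem chi_le {s : ℝ} (hs : 0 ≤ s) : chi s ≤ 12 * (1 / (1 + s)) := by
  rcases le_total s 11 with h | h
  · refine (chi_le_one s).trans ?_
    rw [← mul_div_assoc, le_div_iff₀ (by positivity)]; linarith
  · exact max_le (by positivity) ((min_le_right _ _).trans (by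
      have : 0 ≤ 12 * (1 / (1 + s)) := by positivity
      linarith))

theorem half_le {s : ℝ} (hs : 0 ≤ s) : 1 / (1 + s / 2) ≤ chi s + 2 * psi s := by
  rcases le_total s 10 with h | h
  · have h1 : chi s = 1 := by
      unfold chi; rw [min_eq_left (by linarith), max_eq_right zero_le_one]
    have h2 : 1 / (1 + s / 2) ≤ 1 := by
      rw [div_le_one (by positivity)]; linarith
    have := psi_nonneg hs
    linarith
  · have h1 : psi s = 1 / s := by
      unfold psi
      refine min_eq_right ?_
      rw [div_le_iff₀ (by linarith)]; nlinarith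
    have h2 : 1 / (1 + s / 2) ≤ 2 * (1 / s) := by
      rw [← mul_div_assoc, div_le_div_iff₀ (by positivity) (by linarith)]; linarith
    have := chi_nonneg s
    linarith

theorem log_step {A B q : ℝ} (hB : 0 < B) (hBA : B ≤ A) (hq : q * A ≤ 36 * (A - B)) :
    q ≤ 36 * (Real.log A - Real.log B) := by
  have hA : 0 < A := lt_of_lt_of_le hB hBA
  have h1 := Real.log_le_sub_one_of_pos (div_pos hB hA)
  rw [Real.log_div hB.ne' hA.ne'] at h1
  have h2 : q ≤ 36 * (1 - B / A) := by
    have : 36 * (1 - B / A) = 36 * (A - B) / A := by field_simp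
    rw [this, le_div_iff₀ hA]; exact hq
  linarith

theorem qq_le {Y : Type} [Fintype Y] (μ s : Y → ℝ) (hμ : ∀ y, 0 ≤ μ y) (hs : ∀ y, 0 ≤ s y) :
    qq μ s ≤ 36 * (Real.log (∑ y, μ y * (1 / (1 + s y / 2)) + 1 / 24) -
      Real.log (∑ y, μ y * (1 / (1 + s y)) + 1 / 24)) := by
  set A := ∑ y, μ y * (1 / (1 + s y / 2)) with hA
  set B := ∑ y, μ y * (1 / (1 + s y)) with hB
  set m := ∑ y, μ y * chi (s y) with hm
  set P := ∑ y, μ y * psi (s y) with hP
  have hB0 : 0 ≤ B := Finset.sum_nonneg fun y _ => mul_nonneg (hμ y) (by have := hs y; positivity)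
  have hP0 : 0 ≤ P := Finset.sum_nonneg fun y _ => mul_nonneg (hμ y) (psi_nonneg (hs y))
  have h1 : P ≤ 6 * (A - B) := by
    rw [hA, hB, ← Finset.sum_sub_distrib, Finset.mul_sum]
    refine Finset.sum_le_sum fun y _ => ?_
    have := mul_le_mul_of_nonneg_left (psi_le (hs y)) (hμ y)
    linarith
  have h2 : m ≤ 12 * B := by
    rw [hB, Finset.mul_sum]
    refine Finset.sum_le_sum fun y _ => ?_
    have := mul_le_mul_of_nonneg_left (chi_le (hs y)) (hμ y)
    linarith
  have h3 : A ≤ m + 2 * P := by
    rw [hm, hP, Finset.mul_sum, ← Finset.sum_add_distrib]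
    refine Finset.sum_le_sum fun y _ => ?_
    have := mul_le_mul_of_nonneg_left (half_le (hs y)) (hμ y)
    linarith
  refine log_step (by linarith) (by linarith) ?_
  unfold qq
  rw [← hm, ← hP]
  split_ifs with h
  · have hm0 : 0 < m := by linarith
    have h4 : A + 1 / 24 ≤ 2 * A := by linarith
    rcases le_total P m with h5 | h5
    · have h6 : min 1 (P / m) ≤ P / m := min_le_right _ _
      have h7 : P / m * (A + 1 / 24) ≤ P / m * (6 * m) :=
        mul_le_mul_of_nonneg_left (by linarith) (by positivity)
      have h8 : P / m * (6 * m) = 6 * P := by field_simp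
      have h9 := mul_le_mul_of_nonneg_right h6 (by linarith : 0 ≤ A + 1 / 24)
      linarith
    · have h6 : min 1 (P / m) ≤ 1 := min_le_left _ _
      have h9 := mul_le_mul_of_nonneg_right h6 (by linarith : 0 ≤ A + 1 / 24)
      linarith
  · linarith

end Sums

open Sums in
theorem sums : SumStmt := by
  refine ⟨?_, ?_⟩
  · intro Y _ μ dx K W D hμ hdx hK hW
    set H : ℕ → ℝ := fun j => ∑ y, μ y * (1 / (1 + dx y * 2 ^ j / W)) + 1 / 24 with hH
    have step : ∀ d, qq μ (fun y => dx y / rho W d) ≤
        36 * (Real.log (H d) - Real.log (H (d + 1))) := by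
      intro d
      have := qq_le μ (fun y => dx y / rho W d) hμ
        (fun y => div_nonneg (hdx y) (by unfold rho; positivity))
      have e1 : ∀ y, dx y / rho W d = dx y * 2 ^ (d + 1) / W := fun y => by
        unfold rho; field_simp
      have e2 : ∀ y, dx y / rho W d / 2 = dx y * 2 ^ d / W := fun y => by
        unfold rho; field_simp; ring
      simp only [e2] at this
      simp only [e1] at this ⊢
      exact this
    refine (Finset.sum_le_sum fun d _ => step d).trans ?_
    rw [← Finset.mul_sum, Finset.sum_range_sub' (fun d => Real.log (H d))]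
    have h0 : H 0 ≤ K + 1 / 24 := by
      simp only [hH]
      refine add_le_add_left (le_trans (Finset.sum_le_sum fun y _ => ?_) hK) _
      have := hdx y
      refine mul_le_of_le_one_right (hμ y) ?_
      rw [div_le_one (by positivity)]
      have : 0 ≤ dx y * 2 ^ 0 / W := by positivity
      linarith
    have hpos : ∀ j, 1 / 24 ≤ H j := fun j => by
      simp only [hH]
      have : 0 ≤ ∑ y, μ y * (1 / (1 + dx y * 2 ^ j / W)) :=
        Finset.sum_nonneg fun y _ => mul_nonneg (hμ y) (by have := hdx y; positivity)
      linarith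
    have h1 : Real.log (H 0) ≤ Real.log (K + 1 / 24) :=
      Real.log_le_log (by have := hpos 0; linarith) h0
    have h2 : Real.log (1 / 24) ≤ Real.log (H D) := Real.log_le_log (by norm_num) (hpos D)
    have h3 : Real.log (24 * K + 1) = Real.log (K + 1 / 24) - Real.log (1 / 24) := by
      have := hpos 0
      rw [← Real.log_div (by linarith) (by norm_num)]
      congr 1; ring
    linarith
  · intro e W D he hW
    set g : ℕ → ℝ := fun j => e * (1 / (1 + e * 2 ^ j / W)) with hg
    have step : ∀ d, rho W d * min 1 ((e / rho W d) ^ 2) ≤ 6 * (g d - g (d + 1)) := by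
      intro d
      have hr : 0 < rho W d := by unfold rho; positivity
      have h1 := psi_le (s := e / rho W d) (by positivity)
      have e1 : e / rho W d = e * 2 ^ (d + 1) / W := by unfold rho; field_simp
      have e2 : e / rho W d / 2 = e * 2 ^ d / W := by unfold rho; field_simp; ring
      have h2 : rho W d * min 1 ((e / rho W d) ^ 2) ≤ e * psi (e / rho W d) := by
        rcases eq_or_lt_of_le he with h | h
        · subst h; simp
        · unfold psi
          rw [mul_min_of_nonneg _ _ hr.le, mul_min_of_nonneg _ _ he, min_comm]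
          refine min_le_min (le_of_eq ?_) (le_of_eq ?_) <;> field_simp
      have h3 := mul_le_mul_of_nonneg_left h1 he
      rw [e2] at h3
      simp only [hg]
      rw [← e1]
      linarith
    refine (Finset.sum_le_sum fun d _ => step d).trans ?_
    rw [← Finset.mul_sum, Finset.sum_range_sub' g]
    have h0 : g 0 ≤ e := by
      simp only [hg]
      refine mul_le_of_le_one_right he ?_
      rw [div_le_one (by positivity)]
      have : 0 ≤ e * 2 ^ 0 / W := by positivity
      linarith
    have h1 : 0 ≤ g D := by simp only [hg]; positivity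
    linarith

end Vale.Agent.P304
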