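import Vale.Agent.P304.StmtsE
import Vale.Agent.P304.Sums

namespace Vale.Agent.P304

open Finset
open scoped Classical

namespace ESum

theorem harm {Y : Type} (μ dx : Y → ℝ) (hμ : ∀ y, 0 ≤ μ y) {c : ℝ} (hc : 0 < c) (s : Finset Y) :
    ∑ y ∈ s, μ y / ((∑ z ∈ s, if dx z ≤ dx y then μ z else 0) + c) ≤
      Real.log (∑ y ∈ s, μ y + c) - Real.log c := by
  induction s using Finset.induction_on_max_value dx with
  | empty => simp
  | insert a s ha hmax ih =>
    have hT : 0 ≤ ∑ y ∈ s, μ y := sum_nonneg fun y _ => hμ y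
    have h1 : ∑ y ∈ s, μ y / ((∑ z ∈ insert a s, if dx z ≤ dx y then μ z else 0) + c) ≤
        ∑ y ∈ s, μ y / ((∑ z ∈ s, if dx z ≤ dx y then μ z else 0) + c) := by
      refine sum_le_sum fun y _ => ?_
      have h0 : 0 ≤ ∑ z ∈ s, if dx z ≤ dx y then μ z else 0 :=
        sum_nonneg fun z _ => by split_ifs; exacts [hμ z, le_rfl]
      refine div_le_div_of_nonneg_left (hμ y) (by linarith) ?_
      rw [sum_insert ha]
      have : 0 ≤ if dx a ≤ dx y then μ a else 0 := by split_ifs; exacts [hμ a, le_rfl]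
      linarith
    have h2 : (∑ z ∈ insert a s, if dx z ≤ dx a then μ z else 0) = μ a + ∑ y ∈ s, μ y := by
      rw [sum_insert ha, if_pos le_rfl]
      exact congrArg _ (sum_congr rfl fun z hz => if_pos (hmax z hz))
    have hA := hμ a
    have h3 := Real.log_le_sub_one_of_pos
      (div_pos (by linarith : 0 < ∑ y ∈ s, μ y + c) (by linarith : 0 < μ a + ∑ y ∈ s, μ y + c))
    rw [Real.log_div (by linarith) (by linarith)] at h3
    have h4 : (∑ y ∈ s, μ y + c) / (μ a + ∑ y ∈ s, μ y + c) - 1 =
        -(μ a / (μ a + ∑ y ∈ s, μ y + c)) := by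
      field_simp
      ring
    rw [sum_insert ha, h2, sum_insert ha]
    linarith

theorem psi_sum {s W : ℝ} (hs : 0 ≤ s) (hW : 0 < W) (D : ℕ) :
    ∑ d ∈ range D, psi (s / rho W d) ≤ 6 := by
  set g : ℕ → ℝ := fun j => 1 / (1 + s * 2 ^ j / W) with hg
  have step : ∀ d, psi (s / rho W d) ≤ 6 * (g d - g (d + 1)) := by
    intro d
    have hr : 0 < rho W d := by unfold rho; positivity
    have h1 := Sums.psi_le (s := s / rho W d) (by positivity)
    have e1 : s / rho W d = s * 2 ^ (d + 1) / W := by unfold rho; field_simp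
    have e2 : s / rho W d / 2 = s * 2 ^ d / W := by unfold rho; field_simp; ring
    rw [e2] at h1
    simp only [hg]
    rw [← e1]
    exact h1
  refine (sum_le_sum fun d _ => step d).trans ?_
  rw [← mul_sum, sum_range_sub' g]
  have h0 : g 0 ≤ 1 := by
    simp only [hg]
    rw [div_le_one (by positivity)]
    have : 0 ≤ s * 2 ^ 0 / W := by positivity
    linarith
  have h1 : 0 ≤ g D := by simp only [hg]; positivity
  linarith

/-- the dyadic estimate for a monotone function -/
theorem dyad {f : ℝ → ℝ} (hf : Monotone f) {W : ℝ} (hW : 0 < W) (d n : ℕ) :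
    ∀ r : ℝ, 32 / 2 ^ n < r → r ≤ 32 → r * (f (32 * rho W d) - f (r * rho W d)) ≤
      ∑ i ∈ range n, 32 / 2 ^ i * (f (32 * rho W (d + i)) - f (32 * rho W (d + i + 1))) := by
  have ha : ∀ j, 0 ≤ f (32 * rho W j) - f (32 * rho W (j + 1)) := fun j => by
    refine sub_nonneg.2 (hf ?_)
    unfold rho
    gcongr
    · norm_num
    · omega
  induction n with
  | zero => intro r h1 h2; norm_num at h1; linarith
  | succ n ih =>
    intro r h1 h2
    rcases lt_or_ge (32 / 2 ^ n) r with h | h
    · rw [sum_range_succ]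
      have := mul_nonneg (by positivity : (0 : ℝ) ≤ 32 / 2 ^ n) (ha (d + n))
      linarith [ih r h h2]
    · have hr : 0 < r := lt_trans (by positivity) h1
      have h3 : f (32 * rho W (d + (n + 1))) ≤ f (r * rho W d) := by
        refine hf ?_
        have : 32 * rho W (d + (n + 1)) = 32 / 2 ^ (n + 1) * rho W d := by
          unfold rho
          field_simp
          ring
        rw [this]
        exact mul_le_mul_of_nonneg_right h1.le (by unfold rho; positivity)
      have h4 := sum_range_sub' (fun i => f (32 * rho W (d + i))) (n + 1)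
      calc _ ≤ r * (f (32 * rho W (d + 0)) - f (32 * rho W (d + (n + 1)))) :=
            mul_le_mul_of_nonneg_left (sub_le_sub_left h3 _) hr.le
        _ ≤ _ := by
            rw [← h4, mul_sum]
            refine sum_le_sum fun i hi => mul_le_mul_of_nonneg_right (h.trans ?_) (ha (d + i))
            have := mem_range.1 hi
            gcongr
            · norm_num
            · omega

theorem Mb_scale {Y : Type} [Fintype Y] (k : ℕ) (μ dx : Y → ℝ) {ρ : ℝ} (hρ : 0 < ρ) (r : ℝ) :
    Mb k μ (fun y => dx y / ρ) r = Mb k μ dx (r * ρ) := by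
  simp only [Mb, div_le_iff₀ hρ]

theorem geo (n : ℕ) : ∑ i ∈ range n, (32 : ℝ) / 2 ^ i ≤ 64 := by
  have : ∑ i ∈ range n, (32 : ℝ) / 2 ^ i = 64 - 64 / 2 ^ n := by
    induction n with
    | zero => norm_num
    | succ n ih => rw [sum_range_succ, ih]; field_simp; ring
  have h : (0 : ℝ) ≤ 64 / 2 ^ n := by positivity
  linarith

end ESum

open ESum in
theorem sum2 : Sum2Stmt := by
  refine ⟨600, by norm_num, fun k Y _ μ dx W ε D hk hμ hdx hK hW hε hD => ?_⟩
  have hk' : (2 : ℝ) ≤ k := by exact_mod_cast hk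
  have hc : (0 : ℝ) < 1 / k := by positivity
  have hr : ∀ d, 0 < rho W d := fun d => by unfold rho; positivity
  have hlog : 1 / 2 ≤ Real.log k :=
    le_trans (by have := Real.log_two_gt_d9; linarith) (Real.log_le_log two_pos hk')
  have hlo : ∀ r, 1 / (k : ℝ) ≤ Mb k μ dx r := fun r =>
    le_add_of_nonneg_left (sum_nonneg fun z _ => by split_ifs; exacts [hμ z, le_rfl])
  have hpos : ∀ r, 0 < Mb k μ dx r := fun r => hc.trans_le (hlo r)
  have hΛ : ∀ x : ℝ, 0 ≤ x → x ≤ k → Real.log (x + 1 / k) - Real.log (1 / k) ≤ 3 * Real.log k := by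
    intro x h0 h1
    have h2 : x + 1 / k ≤ (k : ℝ) ^ 2 := by
      have : 1 / (k : ℝ) ≤ 1 := by rw [div_le_one (by positivity)]; linarith
      nlinarith
    have h3 := Real.log_le_log (by positivity) h2
    rw [Real.log_pow] at h3
    rw [one_div (k : ℝ), Real.log_inv] at *
    push_cast at h3
    linarith
  set f : ℝ → ℝ := fun r => Real.log (Mb k μ dx r) with hf
  have hmono : Monotone f := fun r r' h => Real.log_le_log (hpos r) (add_le_add_left
    (sum_le_sum fun y _ => by
      split_ifs with h1 h2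
      exacts [le_rfl, absurd (h1.trans h) h2, hμ y, le_rfl]) _)
  have hosc : ∀ r r', f r - f r' ≤ 3 * Real.log k := fun r r' => by
    have h1 := hΛ (∑ y, if dx y ≤ r then μ y else 0)
      (sum_nonneg fun z _ => by split_ifs; exacts [hμ z, le_rfl])
      (le_trans (sum_le_sum fun z _ => by split_ifs; exacts [le_rfl, hμ z]) hK)
    have h2 := Real.log_le_log hc (hlo r')
    exact le_trans (sub_le_sub_left h2 _) h1
  have hq : ∀ d, 0 ≤ qq μ fun y => dx y / rho W d := fun d => by
    unfold qq
    split_ifs with h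
    · exact le_min zero_le_one (div_nonneg (sum_nonneg fun y _ => mul_nonneg (hμ y)
        (Sums.psi_nonneg (div_nonneg (hdx y) (hr d).le))) (by linarith))
    · exact le_rfl
  set A : ℕ → ℝ := fun d => ∑ i ∈ range D,
    32 / 2 ^ i * (f (32 * rho W (d + i)) - f (32 * rho W (d + i + 1))) with hA
  set B : ℕ → ℝ := fun d => ∑ y, μ y * psi (dx y / rho W d) / Mb k μ dx (dx y) with hB
  have hA0 : ∀ d, 0 ≤ A d := fun d => sum_nonneg fun i _ => mul_nonneg (by positivity)
    (sub_nonneg.2 (hmono (mul_le_mul_of_nonneg_left (div_le_div_of_nonneg_left hW.le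
      (by positivity) (pow_le_pow_right₀ one_le_two (by omega))) (by norm_num))))
  have hB0 : ∀ d, 0 ≤ B d := fun d => sum_nonneg fun y _ => div_nonneg (mul_nonneg (hμ y)
    (Sums.psi_nonneg (div_nonneg (hdx y) (hr d).le))) (hpos _).le
  have hT0 : 0 ≤ 32 / 2 ^ D * (3 * Real.log k) := by positivity
  refine ⟨fun d => qq μ (fun y => dx y / rho W d) + ε + A d + 32 / 2 ^ D * (3 * Real.log k) + B d,
    fun d => ⟨?_, fun r h0 h8 => ?_, ?_⟩, ?_⟩
  · linarith [hA0 d, hB0 d]
  · rw [Mb_scale k μ dx (hr d), Mb_scale k μ dx (hr d), Real.log_div (hpos _).ne' (hpos _).ne']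
    have h1 := hA0 d
    have h2 := hB0 d
    have h3 := hq d
    rcases lt_or_ge (32 / 2 ^ D) r with h | h
    · have := dyad hmono hW d D r h (by linarith)
      linarith
    · have h4 := mul_le_mul_of_nonneg_left (hosc (32 * rho W d) (r * rho W d)) h0.le
      have h5 := mul_le_mul_of_nonneg_right h (by linarith : 0 ≤ 3 * Real.log k)
      linarith
  · simp only [Mb_scale k μ dx (hr d), div_mul_cancel₀ _ (hr d).ne']
    linarith [hA0 d, hq d]
  · simp only [sum_add_distrib, sum_const, card_range, nsmul_eq_mul]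
    have h1 := sums.1 Y μ dx k W D hμ hdx hK hW
    have h2 : Real.log (24 * k + 1) ≤ 6 * Real.log k := by
      have h3 : (2 : ℝ) ^ 5 ≤ (k : ℝ) ^ 5 := by gcongr
      have h4 := Real.log_le_log (by positivity) (by nlinarith : 24 * (k : ℝ) + 1 ≤ k ^ 5 * k)
      rw [← pow_succ, Real.log_pow] at h4
      exact_mod_cast h4
    have h3 : ∑ d ∈ range D, A d ≤ 64 * (3 * Real.log k) := by
      rw [sum_comm]
      refine le_trans (sum_le_sum fun i _ => ?_)
        ((sum_mul _ _ _).symm.trans_le (mul_le_mul_of_nonneg_right (geo D) (by linarith)))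
      rw [← mul_sum]
      refine mul_le_mul_of_nonneg_left ?_ (by positivity)
      have := sum_range_sub' (fun d => f (32 * rho W (d + i))) D
      simp only [add_right_comm _ 1 i] at this
      rw [this]
      exact hosc _ _
    have h4 : ∑ d ∈ range D, B d ≤ 6 * (3 * Real.log k) := by
      rw [sum_comm]
      refine le_trans ?_ (mul_le_mul_of_nonneg_left ((harm μ dx hμ hc univ).trans
        (hΛ _ (sum_nonneg fun y _ => hμ y) hK)) (by norm_num))
      rw [mul_sum]
      refine sum_le_sum fun y _ => ?_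
      rw [← sum_div, ← mul_sum, ← mul_div_assoc, mul_comm 6]
      exact div_le_div_of_nonneg_right
        (mul_le_mul_of_nonneg_left (psi_sum (hdx y) hW D) (hμ y)) (hpos _).le
    have h5 : (D : ℝ) * (32 / 2 ^ D * (3 * Real.log k)) ≤ 32 * (3 * Real.log k) := by
      rw [← mul_assoc]
      refine mul_le_mul_of_nonneg_right ?_ (by linarith)
      have : (D : ℝ) ≤ 2 ^ D := by exact_mod_cast (Nat.lt_two_pow_self (n := D)).le
      rw [← mul_div_assoc, div_le_iff₀ (by positivity)]
      linarith
    linarith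

end Vale.Agent.P304
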