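import Vale.Agent.P304.Tree

namespace Vale.Agent.P304

open Finset
open scoped Classical

theorem exists_min_dist (Y : Type) [Fintype Y] [MetricSpace Y] :
    ∃ η : ℝ, 0 < η ∧ ∀ x y : Y, x ≠ y → η ≤ dist x y := by
  by_cases h : (univ.filter fun q : Y × Y => q.1 ≠ q.2).Nonempty
  · obtain ⟨q, hq, hmin⟩ := Finset.exists_min_image _ (fun q : Y × Y => dist q.1 q.2) h
    refine ⟨dist q.1 q.2, dist_pos.mpr (by simpa using hq), fun x y hxy => ?_⟩
    exact hmin (x, y) (by simpa using hxy)
  · exact ⟨1, one_pos, fun x y hxy => absurd ⟨(x, y), by simpa using hxy⟩ h⟩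

theorem game (h1 : TreeStmt) (h2 : ScaleStmt) (h3 : SumStmt) : GameStmt := by
  obtain ⟨C1, hC1, h1⟩ := h1
  obtain ⟨C2, hC2, h2⟩ := h2
  obtain ⟨h3, h4⟩ := h3
  refine ⟨C1 * (C2 * 225 + 6), by positivity, ?_⟩
  intro k hk Y Ω _ _ _ G T
  obtain ⟨η, hη, hmin⟩ := exists_min_dist Y
  set W : ℝ := 1 + ∑ q : Y × Y, dist q.1 q.2 with hWdef
  have hW : 0 < W := by positivity
  have hdiam : ∀ y y' : Y, dist y y' ≤ W := fun y y' => by
    have := Finset.single_le_sum (f := fun q : Y × Y => dist q.1 q.2)
      (fun q _ => dist_nonneg) (mem_univ (y, y'))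
    simp only at this
    linarith
  obtain ⟨n, hn⟩ : ∃ n : ℕ, rho W n ≤ η := by
    obtain ⟨n, hn⟩ := exists_pow_lt_of_lt_one (div_pos hη hW) (by norm_num : (1 / 2 : ℝ) < 1)
    refine ⟨n, ?_⟩
    rw [lt_div_iff₀ hW, mul_comm, rho_eq] at hn
    have := rho_pos hW n
    linarith
  choose lab0 anc0 hnear hshift hchg using fun d => h2 k hk Y Ω G T (rho W d) (rho_pos hW d)
  set lab : ℕ → List Y → Y → Y ⊕ Fin (T + 1) :=
    fun d => if d = n then fun _ y => Sum.inl y else lab0 d with hlab
  set anc : ℕ → List Y → Y ⊕ Fin (T + 1) → Y :=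
    fun d => if d = n then fun _ c => Sum.elim id (fun _ => G.s0) c else anc0 d with hanc
  have hE : Emb T (n + 1) W lab anc := by
    refine ⟨by omega, hW, hdiam, ?_, ?_, ?_, ?_⟩
    · intro d _ l hl y
      by_cases hd : d = n
      · have := rho_pos hW d
        simp only [hlab, hanc, if_pos hd, Sum.elim_inl, id, dist_self]
        positivity
      · simp only [hlab, hanc, if_neg hd]; exact hnear d l hl y
    · intro d _ r l hl y y' hy
      by_cases hd : d = n
      · have := rho_pos hW d
        simp only [hlab, hanc, if_pos hd, dist_self]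
        positivity
      · simp only [hlab, hanc, if_neg hd] at hy ⊢; exact hshift d r l hl y y' hy
    · intro l y; simp [hlab, hanc]
    · intro l l' c; simp [hanc]
  obtain ⟨A, hA⟩ := h1 k hk Y Ω _ G T (n + 1) W lab anc hE
  refine ⟨A, hA.trans ?_⟩
  have hL := log_ge_of_two_le hk
  set Lg := Real.log k with hLg
  set R := G.E fun ω => ∑ t ∈ range T, G.ell t ω with hR
  have hR0 : 0 ≤ R := G.E_nonneg fun ω => Finset.sum_nonneg fun t _ => G.ell_nonneg t ω
  have hlog : Real.log (24 * (k : ℝ) + 1) ≤ 6 * Lg := by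
    have hk' : (2 : ℝ) ≤ k := by exact_mod_cast hk
    have e : (24 * (k : ℝ) + 1) ≤ (k : ℝ) ^ 6 := by
      have h5 : (2 : ℝ) ^ 5 ≤ (k : ℝ) ^ 5 := pow_le_pow_left₀ (by norm_num) hk' 5
      have : (k : ℝ) ^ 6 = k ^ 5 * k := by ring
      nlinarith
    have := Real.log_le_log (by positivity) e
    rw [Real.log_pow] at this
    exact_mod_cast this
  -- the last level
  have hlast : (G.E fun ω => ∑ t ∈ range T, rho W n * G.chg (lab n) (anc n) (rho W n) t ω) ≤ R := by
    refine G.E_mono fun ω => Finset.sum_le_sum fun t _ => ?_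
    have e1 : G.lbad (lab n) (anc n) (rho W n) t ω = 0 := by
      unfold Game.lbad
      refine Finset.sum_eq_zero fun i _ => if_pos (Or.inl ?_)
      simp [hanc]
    have e2 : G.lchg (lab n) t ω = if G.o t ω (G.idx t ω) = G.req t ω then 0 else 1 := by
      unfold Game.lchg
      rw [Finset.sum_eq_single (G.idx t ω)]
      · simp [hlab, G.o_succ_idx]
      · intro i _ hi; simp [hlab, G.o_succ_ne t ω hi]
      · simp
    rw [Game.chg, e1, e2, add_zero]
    split_ifs with h
    · rw [mul_zero]; exact G.ell_nonneg t ω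
    · rw [mul_one]; exact hn.trans (hmin _ _ h)
  have hcharge : ∀ t ω, ∑ d ∈ range n, rho W d * G.charge (rho W d) t ω ≤
      (6 + 216 * Lg) * G.ell t ω := by
    intro t ω
    have a1 := h4 (G.ell t ω) W n (G.ell_nonneg t ω) hW
    have a2 := h3 Y (G.mu (G.hist (t + 1) ω)) (fun y => dist y (G.req t ω)) k W n
      (G.mu_nonneg _) (fun _ => dist_nonneg) (G.sum_mu_le _) hW
    have a3 : ∑ d ∈ range n, rho W d * G.charge (rho W d) t ω =
        ∑ d ∈ range n, rho W d * min 1 ((G.ell t ω / rho W d) ^ 2) + G.ell t ω *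
          ∑ d ∈ range n, qq (G.mu (G.hist (t + 1) ω)) (fun y => dist y (G.req t ω) / rho W d) := by
      rw [Finset.mul_sum, ← Finset.sum_add_distrib]
      refine Finset.sum_congr rfl fun d _ => ?_
      have := (rho_pos hW d).ne'
      unfold Game.charge
      field_simp
    have a4 := mul_le_mul_of_nonneg_left (a2.trans (by linarith : _ ≤ 216 * Lg))
      (G.ell_nonneg t ω)
    rw [a3]; linarith
  have hmain : (G.E fun ω => ∑ t ∈ range T, ∑ d ∈ range n,
      rho W d * G.chg (lab d) (anc d) (rho W d) t ω) ≤ C2 * Lg * ((6 + 216 * Lg) * R) := by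
    calc _ = ∑ d ∈ range n, rho W d *
          G.E fun ω => ∑ t ∈ range T, G.chg (lab0 d) (anc0 d) (rho W d) t ω := by
          simp only [← G.E_mul]
          rw [← G.E_sum]
          congr 1
          funext ω
          rw [Finset.sum_comm]
          refine Finset.sum_congr rfl fun d hd => ?_
          have hd' : d ≠ n := by have := mem_range.mp hd; omega
          simp only [hlab, hanc, if_neg hd', Finset.mul_sum]
      _ ≤ ∑ d ∈ range n, rho W d *
          (C2 * Lg * G.E fun ω => ∑ t ∈ range T, G.charge (rho W d) t ω) :=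
          Finset.sum_le_sum fun d _ => mul_le_mul_of_nonneg_left (hchg d) (rho_pos hW d).le
      _ = C2 * Lg * G.E fun ω => ∑ t ∈ range T, ∑ d ∈ range n,
            rho W d * G.charge (rho W d) t ω := by
          have : (G.E fun ω => ∑ t ∈ range T, ∑ d ∈ range n, rho W d * G.charge (rho W d) t ω) =
              ∑ d ∈ range n, rho W d * G.E fun ω => ∑ t ∈ range T, G.charge (rho W d) t ω := by
            simp only [← G.E_mul]
            rw [← G.E_sum]
            congr 1
            funext ω
            rw [Finset.sum_comm]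
            simp only [Finset.mul_sum]
          rw [this, Finset.mul_sum]
          exact Finset.sum_congr rfl fun d _ => by ring
      _ ≤ _ := by
          refine mul_le_mul_of_nonneg_left ?_ (by positivity)
          rw [hR, ← G.E_mul]
          refine G.E_mono fun ω => ?_
          rw [Finset.mul_sum]
          exact Finset.sum_le_sum fun t _ => hcharge t ω
  have hsum : (G.E fun ω => ∑ t ∈ range T, ∑ d ∈ range (n + 1),
      rho W d * G.chg (lab d) (anc d) (rho W d) t ω) ≤ C2 * Lg * ((6 + 216 * Lg) * R) + R := by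
    simp only [Finset.sum_range_succ, Finset.sum_add_distrib]
    rw [G.E_add]
    exact add_le_add hmain hlast
  have e1 : C2 * Lg * ((6 + 216 * Lg) * R) ≤ C2 * 225 * Lg ^ 2 * R := by
    have : Lg * (6 + 216 * Lg) ≤ 225 * Lg ^ 2 := by nlinarith
    have := mul_le_mul_of_nonneg_left this (mul_nonneg hC2 hR0)
    nlinarith
  have e2 : 2 * R ≤ 6 * Lg ^ 2 * R := by
    refine mul_le_mul_of_nonneg_right ?_ hR0
    nlinarith
  calc _ ≤ C1 * Lg ^ 2 * ((C2 * 225 + 6) * Lg ^ 2 * R) := by
        refine mul_le_mul_of_nonneg_left ?_ (by positivity)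
        nlinarith
    _ = _ := by ring

end Vale.Agent.P304
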