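import Vale.Agent.P304.Stmts

/-! Ultrametric matching by a swap argument. -/

namespace Vale.Agent.P304

open Finset
open scoped Classical

namespace Match

variable {Λ : Type}

theorem exists_fiber {β : Type} [Fintype β] [DecidableEq β] (n : β → ℕ) {k : ℕ} (h : ∑ b, n b = k) :
    ∃ f : Fin k → β, ∀ b, (univ.filter fun i => f i = b).card = n b := by
  let e := (Fintype.equivFinOfCardEq (α := Σ b, Fin (n b)) (n := k) (by simp [h])).symm
  refine ⟨fun i => (e i).1, fun b => ?_⟩
  rw [card_filter, Equiv.sum_comp e fun x => if x.1 = b then 1 else 0, Fintype.sum_sigma,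
    sum_eq_single b (fun x _ hx => by simp [hx]) (by simp)]
  simp

theorem suffix_iff {u v : List Λ} : u <:+ v ↔ top u.length v = u := by
  rw [List.suffix_iff_eq_drop, top, eq_comm]

theorem top_top {e d : ℕ} (h : e ≤ d) (v : List Λ) : top e (top d v) = top e v := by
  simp only [top, List.drop_drop, List.length_drop]
  exact congrArg (List.drop · v) (by omega)

theorem top_mono {e d : ℕ} (h : e ≤ d) {x y : List Λ} (hxy : top d x = top d y) :
    top e x = top e y := by
  rw [← top_top h x, hxy, top_top h]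

theorem length_top {d : ℕ} {v : List Λ} (h : d ≤ v.length) : (top d v).length = d := by
  simp only [top, List.length_drop]
  omega

theorem cnt_cons [Fintype Λ] {k D : ℕ} (C : Cfg k Λ D) {u : List Λ} (hu : u.length < D) :
    ∑ c, cntAt C (c :: u) = cntAt C u := by
  simp only [cntAt, card_filter]
  rw [sum_comm]
  refine sum_congr rfl fun i _ => ?_
  have hv : (C i).toList.length = D := (C i).toList_length
  generalize (C i).toList = v at hv
  by_cases h : u <:+ v
  · obtain ⟨w, rfl⟩ := h
    rcases List.eq_nil_or_concat w with rfl | ⟨w, c, rfl⟩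
    · simp only [List.nil_append] at hv
      omega
    · have h1 : c :: u <:+ w.concat c ++ u := ⟨w, by simp⟩
      rw [if_pos (List.suffix_append _ _), sum_eq_single c, if_pos h1]
      · intro b _ hb
        refine if_neg fun h2 => hb ?_
        have : b :: u = c :: u := (suffix_iff.1 h2).symm.trans (suffix_iff (u := c :: u).1 h1)
        exact (List.cons.inj this).1
      · simp
  · rw [if_neg h]
    exact sum_eq_zero fun c _ => if_neg fun h2 => h ((List.suffix_cons c u).trans h2)

theorem exists_cfg [Fintype Λ] {k D : ℕ} (m : List Λ → ℕ) (h0 : m [] = k)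
    (h : ∀ u, u.length < D → ∑ c, m (c :: u) = m u) :
    ∃ C : Cfg k Λ D, ∀ u, u.length ≤ D → cntAt C u = m u := by
  have h1 : ∀ d ≤ D, ∑ u ∈ lists Λ d, (m u : ℝ) = k := by
    intro d hd
    induction d with
    | zero => simp [lists_zero, h0]
    | succ d ih =>
      rw [sum_lists_succ, ← ih (by omega)]
      refine sum_congr rfl fun u hu => ?_
      rw [← h u (by rw [mem_lists.1 hu]; omega), Nat.cast_sum]
  have h2 : ∑ u : lists Λ D, m u.1 = k := by
    rw [sum_coe_sort (lists Λ D) m]
    exact_mod_cast h1 D le_rfl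
  obtain ⟨f, hf⟩ := exists_fiber _ h2
  let C : Cfg k Λ D := fun i => ⟨(f i).1, mem_lists.1 (f i).2⟩
  have h3 : ∀ j (u : List Λ), u.length + j = D → cntAt C u = m u := by
    intro j
    induction j with
    | zero =>
      intro u hu
      rw [← hf ⟨u, mem_lists.2 hu⟩, cntAt]
      refine congrArg card (filter_congr fun i _ => ⟨fun h4 => Subtype.ext ?_, fun h4 => ?_⟩)
      · exact (h4.eq_of_length (hu.trans (mem_lists.1 (f i).2).symm)).symm
      · change u <:+ (f i).1
        rw [h4]
    | succ j ih =>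
      intro u hu
      rw [← cnt_cons C (by omega), ← h u (by omega)]
      exact sum_congr rfl fun c _ => ih _ (by rw [List.length_cons]; omega)
  exact ⟨C, fun u hu => h3 (D - u.length) u (by omega)⟩

theorem swap_lt {D d : ℕ} (hd : d < D) {a a' b b' : List Λ}
    (h1 : top (d + 1) a = top (d + 1) b') (h2 : top (d + 1) a ≠ top (d + 1) b)
    (h3 : top (d + 1) a' ≠ top (d + 1) b') :
    tdist D a b' + tdist D a' b < tdist D a b + tdist D a' b' := by
  simp only [tdist, ← sum_add_distrib, ← mul_add]
  refine sum_lt_sum (fun e _ => mul_le_mul_of_nonneg_left ?_ (by positivity))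
    ⟨d, mem_range.2 hd, mul_lt_mul_of_pos_left ?_ (by positivity)⟩
  · rcases le_total e d with he | he
    · have h4 := top_mono (Nat.succ_le_succ he) h1
      rw [if_pos h4, ← h4]
      by_cases h5 : top (e + 1) a = top (e + 1) b
      · rw [if_pos h5, h5]
      · rw [if_neg h5]
        split_ifs <;> norm_num
    · rw [if_neg fun h => h2 (top_mono (Nat.succ_le_succ he) h),
        if_neg fun h => h3 (top_mono (Nat.succ_le_succ he) h)]
      split_ifs <;> norm_num
  · rw [if_pos h1, if_neg h2, if_neg h3]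
    split_ifs <;> norm_num

theorem sum_swap_lt {k : ℕ} (f : Fin k → Fin k → ℝ) {i j : Fin k} (hij : i ≠ j)
    (h : f i j + f j i < f i i + f j j) : ∑ l, f l (Equiv.swap i j l) < ∑ l, f l l := by
  have hj : j ∈ univ.erase i := mem_erase.2 ⟨hij.symm, mem_univ _⟩
  rw [← add_sum_erase _ _ (mem_univ i), ← add_sum_erase _ _ hj,
    ← add_sum_erase _ (fun l => f l l) (mem_univ i), ← add_sum_erase _ (fun l => f l l) hj,
    Equiv.swap_apply_left, Equiv.swap_apply_right, ← add_assoc, ← add_assoc]
  refine add_lt_add_of_lt_of_le h (sum_le_sum fun l hl => ?_)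
  rw [Equiv.swap_apply_of_ne_of_ne (ne_of_mem_erase (mem_of_mem_erase hl)) (ne_of_mem_erase hl)]

theorem cnt_perm {k D : ℕ} (C : Cfg k Λ D) (τ : Equiv.Perm (Fin k)) (u : List Λ) :
    cntAt (fun i => C (τ i) : Cfg k Λ D) u = cntAt C u := by
  simp only [cntAt, card_filter]
  exact Equiv.sum_comp τ fun i => if u <:+ (C i).toList then 1 else 0

theorem leave_le {k : ℕ} (P Q : Fin k → Prop) [DecidablePred P] [DecidablePred Q]
    [∀ i, Decidable (P i ∧ ¬ Q i)] (h : ∀ i j, P i → ¬ Q i → Q j → P j) :
    ∑ i, (if P i ∧ ¬ Q i then (1 : ℝ) else 0) ≤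
      |((univ.filter P).card : ℝ) - (univ.filter Q).card| := by
  by_cases h1 : ∃ i, P i ∧ ¬ Q i
  · obtain ⟨i, h1, h2⟩ := h1
    refine le_trans (le_of_eq ?_) (le_abs_self _)
    simp only [card_filter, Nat.cast_sum, ← sum_sub_distrib]
    refine sum_congr rfl fun j _ => ?_
    have := h i j h1 h2
    by_cases hQ : Q j
    · simp [hQ, this hQ]
    · simp [hQ]
  · rw [sum_eq_zero fun i _ => if_neg fun h2 => h1 ⟨i, h2⟩]
    exact abs_nonneg _

end Match

open Match in
theorem matchTree : MatchStmt := by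
  intro k D Λ _ C m h0 h
  obtain ⟨C₀, hC₀⟩ := exists_cfg m h0 h
  obtain ⟨τ, -, hτ⟩ := exists_min_image (univ : Finset (Equiv.Perm (Fin k)))
    (fun τ => ∑ i, tdist D (C i).toList (C₀ (τ i)).toList) univ_nonempty
  refine ⟨fun i => C₀ (τ i), fun u hu => (cnt_perm C₀ τ u).trans (hC₀ u hu), ?_⟩
  simp only [tdist]
  rw [sum_comm]
  refine sum_le_sum fun d hd => ?_
  rw [← mul_sum]
  refine mul_le_mul_of_nonneg_left ?_ (by positivity)
  have hd' := mem_range.1 hd
  have e : ∀ i, (if top (d + 1) (C i).toList = top (d + 1) (C₀ (τ i)).toList then (0 : ℝ) else 1) =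
      ∑ u ∈ lists Λ (d + 1), if u <:+ (C i).toList ∧ ¬ u <:+ (C₀ (τ i)).toList then 1 else 0 := by
    intro i
    have hl : (top (d + 1) (C i).toList).length = d + 1 :=
      length_top (by rw [(C i).toList_length]; omega)
    rw [sum_eq_single (top (d + 1) (C i).toList)]
    · simp only [suffix_iff, hl, true_and, ite_not, eq_comm]
    · intro u hu hne
      refine if_neg fun h1 => hne ?_
      rw [← mem_lists.1 hu, suffix_iff.1 h1.1]
    · exact fun h1 => absurd (mem_lists.2 hl) h1
  simp only [e]
  rw [sum_comm]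
  refine sum_le_sum fun u hu => ?_
  have hu' := mem_lists.1 hu
  rw [← hC₀ u (by omega), ← cnt_perm C₀ τ u]
  refine leave_le (fun i => u <:+ (C i).toList) (fun i => u <:+ (C₀ (τ i)).toList)
    fun i j h1 h2 h3 => ?_
  by_contra h4
  rw [suffix_iff, hu'] at h1 h2 h3 h4
  have hij : i ≠ j := fun h5 => h2 (h5 ▸ h3)
  refine absurd (hτ (τ * Equiv.swap i j) (mem_univ _)) (not_le.2 ?_)
  exact sum_swap_lt (fun a b => tdist D (C a).toList (C₀ (τ b)).toList) hij
    (swap_lt hd' (h1.trans h3.symm) (fun h5 => h2 (h5.symm.trans h1))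
      fun h5 => h4 (h5.trans h3))

end Vale.Agent.P304
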