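import Vale.Agent.P304.Stmts

/-! Movement of the fractional allocation in one step. -/

namespace Vale.Agent.P304

open Finset
open scoped Classical

namespace Move

theorem sig_step {m m' : ℝ} (h : m ≤ m') : 0 ≤ sig m' - sig m ∧ sig m' - sig m ≤ 2 * (m' - m) := by
  have hf := Int.floor_le_floor h
  have e := Int.floor_add_fract m
  have e' := Int.floor_add_fract m'
  have f0 := Int.fract_nonneg m
  have f1 := Int.fract_lt_one m
  have g0 := Int.fract_nonneg m'
  have g1 := Int.fract_lt_one m'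
  unfold sig
  rcases hf.eq_or_lt with h1 | h1
  · have h2 : (⌊m⌋ : ℝ) = ⌊m'⌋ := by exact_mod_cast h1
    rcases le_total 0 (Int.fract m - 1 / 2) with h3 | h3 <;>
      rcases le_total 0 (Int.fract m' - 1 / 2) with h4 | h4 <;>
      simp only [max_eq_right, max_eq_left, h3, h4] <;> constructor <;> linarith
  · have h2 : (⌊m⌋ : ℝ) + 1 ≤ ⌊m'⌋ := by exact_mod_cast h1
    rcases le_total 0 (Int.fract m - 1 / 2) with h3 | h3 <;>
      rcases le_total 0 (Int.fract m' - 1 / 2) with h4 | h4 <;>
      simp only [max_eq_right, max_eq_left, h3, h4] <;> constructor <;> linarith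

theorem sig_lip (m m' : ℝ) : |sig m' - sig m| ≤ 2 * |m' - m| := by
  rcases le_total m m' with h | h
  · obtain ⟨h1, h2⟩ := sig_step h
    rw [abs_of_nonneg h1, abs_of_nonneg (by linarith)]; exact h2
  · obtain ⟨h1, h2⟩ := sig_step h
    rw [abs_sub_comm, abs_sub_comm m', abs_of_nonneg h1, abs_of_nonneg (by linarith)]; exact h2

theorem hh_lip (k : ℕ) {ρ : ℝ} (h0 : 0 ≤ ρ) (h1 : ρ ≤ RR k) (y y' : ℝ) :
    |hh k ρ y' - hh k ρ y| ≤ 4 * |y' - y| := by
  have hR : (0 : ℝ) < RR k := by unfold RR; positivity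
  have a0 : 0 ≤ ρ / RR k := div_nonneg h0 hR.le
  have a1 : ρ / RR k ≤ 1 := (div_le_one hR).mpr h1
  unfold hh
  rw [max_comm, max_comm 0]
  refine (abs_max_sub_max_le_abs _ _ _).trans ?_
  have : 1 + ρ / (2 * k * RR k) - (4 - ρ / RR k) * y' - (1 + ρ / (2 * k * RR k) -
      (4 - ρ / RR k) * y) = -((4 - ρ / RR k) * (y' - y)) := by ring
  rw [this, abs_neg, abs_mul, abs_of_nonneg (by linarith)]
  exact mul_le_mul_of_nonneg_right (by linarith) (abs_nonneg _)

theorem min_split (r r' c : ℝ) :
    |min r' c - min r c| + |r' - min r' c - (r - min r c)| ≤ |r' - r| := by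
  rcases le_total r r' with h | h
  · rw [abs_of_nonneg (sub_nonneg.mpr h), abs_of_nonneg (sub_nonneg.mpr (min_le_min_right c h)),
      abs_of_nonneg]
    · linarith
    · rcases le_total r c with h1 | h1 <;> rcases le_total r' c with h2 | h2 <;>
        simp only [min_eq_left, min_eq_right, h1, h2] <;> linarith
  · rw [abs_of_nonpos (sub_nonpos.mpr h), abs_of_nonpos (sub_nonpos.mpr (min_le_min_right c h)),
      abs_of_nonpos]
    · linarith
    · rcases le_total r c with h1 | h1 <;> rcases le_total r' c with h2 | h2 <;>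
        simp only [min_eq_left, min_eq_right, h1, h2] <;> linarith

variable {L : Type} [Fintype L]

/-- some ancestor of the node changed its tracked mass -/
def U (a a' : TD L) : List (Option L) → Prop
  | [] => a'.nu [] ≠ a.nu []
  | x :: u => U a a' u ∨ a'.nu (x :: u) ≠ a.nu (x :: u)

omit [Fintype L] in
theorem nu_eq {a a' : TD L} {u : List (Option L)} (h : ¬U a a' u) : a'.nu u = a.nu u := by
  cases u with
  | nil => exact not_not.mp h
  | cons x u => exact not_not.mp fun h' => h (Or.inr h')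

omit [Fintype L] in
theorem heavy_iff {a a' : TD L} {u : List (Option L)} {c : L} (h : a'.nu u = a.nu u)
    (hc : a'.nu (some c :: u) = a.nu (some c :: u)) : a'.Heavy c u ↔ a.Heavy c u := by
  unfold TD.Heavy; rw [h, hc]

omit [Fintype L] in
theorem cnt_eq {a a' : TD L} : ∀ {u : List (Option L)}, ¬U a a' u → a'.cnt u = a.cnt u
  | [], _ => rfl
  | none :: u, h => by
    have := cnt_eq (u := u) fun h' => h (Or.inl h')
    simp only [TD.cnt, this]
  | some c :: u, h => by
    have h1 : ¬U a a' u := fun h' => h (Or.inl h')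
    have := cnt_eq h1
    simp only [TD.cnt, this, heavy_iff (nu_eq h1) (nu_eq h)]

noncomputable def X (k : ℕ) (a a' : TD L) (u : List (Option L)) : ℝ :=
  if U a a' u then a.Z k u + a'.Z k u else |a'.Z k u - a.Z k u|

noncomputable def Q (k : ℕ) (a a' : TD L) (u : List (Option L)) : ℝ :=
  |a'.nu u - a.nu u| + ∑ i ∈ range k, |a'.yy u i - a.yy u i|

omit [Fintype L] in
theorem Q_nonneg (k : ℕ) (a a' : TD L) (u : List (Option L)) : 0 ≤ Q k a a' u :=
  add_nonneg (abs_nonneg _) (Finset.sum_nonneg fun _ _ => abs_nonneg _)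

theorem abs_le_X {k : ℕ} {a a' : TD L} (ha : a.Good k) (ha' : a'.Good k) (u : List (Option L)) :
    |a'.Z k u - a.Z k u| ≤ X k a a' u := by
  unfold X
  split_ifs
  · have := ha.z_nonneg u
    have := ha'.z_nonneg u
    rw [abs_le]; constructor <;> linarith
  · exact le_rfl

omit [Fintype L] in
theorem light_lip {k : ℕ} {a a' : TD L} {u : List (Option L)} (h : a'.cnt u = a.cnt u) (c : L) :
    |a'.lightZ k c u - a.lightZ k c u| ≤
      8 * ∑ i ∈ range k, |a'.yy (some c :: u) i - a.yy (some c :: u) i| := by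
  unfold TD.lightZ
  rw [h]
  split_ifs with h1
  · have h2 : (a.cnt u : ℝ) + 1 ≤ RR k := by exact_mod_cast h1
    have h3 : (0 : ℝ) ≤ a.cnt u := Nat.cast_nonneg _
    refine (sig_lip _ _).trans ?_
    rw [← Finset.sum_sub_distrib]
    have h4 := Finset.abs_sum_le_sum_abs (fun i => hh k (RR k - a.cnt u - 1 / 2)
      (a'.yy (some c :: u) i) - hh k (RR k - a.cnt u - 1 / 2) (a.yy (some c :: u) i)) (range k)
    have h5 : ∑ i ∈ range k, |hh k (RR k - a.cnt u - 1 / 2) (a'.yy (some c :: u) i) -
        hh k (RR k - a.cnt u - 1 / 2) (a.yy (some c :: u) i)| ≤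
        ∑ i ∈ range k, 4 * |a'.yy (some c :: u) i - a.yy (some c :: u) i| :=
      Finset.sum_le_sum fun i _ => hh_lip k (by linarith) (by linarith) _ _
    rw [← Finset.mul_sum] at h5
    linarith
  · simp only [sub_self, abs_zero]
    exact mul_nonneg (by norm_num) (Finset.sum_nonneg fun _ _ => abs_nonneg _)

theorem X_child {k : ℕ} {a a' : TD L} (ha : a.Good k) (ha' : a'.Good k)
    (hj : ∀ u, a'.nu u ≠ a.nu u → 1 / 20 * (a.nu u + 1 / 8) < |a'.nu u - a.nu u|)
    {u : List (Option L)} (hu : ¬U a a' u) (c : L)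
    (hc : ¬(a'.nu (some c :: u) = a.nu (some c :: u) ∧ a.Heavy c u)) :
    X k a a' (some c :: u) ≤ 82 * Q k a a' (some c :: u) := by
  have hs : 0 ≤ ∑ i ∈ range k, |a'.yy (some c :: u) i - a.yy (some c :: u) i| :=
    Finset.sum_nonneg fun _ _ => abs_nonneg _
  unfold X Q
  by_cases h : a'.nu (some c :: u) = a.nu (some c :: u)
  · have hU : ¬U a a' (some c :: u) := fun h' => h'.elim hu fun h'' => h'' h
    have hH : ¬a.Heavy c u := fun h' => hc ⟨h, h'⟩
    have hH' : ¬a'.Heavy c u := fun h' => hH ((heavy_iff (nu_eq hu) h).mp h')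
    rw [if_neg hU]
    have e : a.Z k (some c :: u) = a.lightZ k c u := by simp only [TD.Z, TD.realZ, if_neg hH]
    have e' : a'.Z k (some c :: u) = a'.lightZ k c u := by simp only [TD.Z, TD.realZ, if_neg hH']
    rw [e, e']
    have := light_lip (k := k) (cnt_eq hu) c
    have := abs_nonneg (a'.nu (some c :: u) - a.nu (some c :: u))
    linarith
  · rw [if_pos (show U a a' (some c :: u) from Or.inr h)]
    have h1 := hj _ h
    have h2 := ha.z_le c u
    have h3 := ha'.z_le c u
    have h4 := le_abs_self (a'.nu (some c :: u) - a.nu (some c :: u))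
    linarith

/-- description of the heavy child and of the parked remainder -/
theorem heavy_Z {k : ℕ} {a : TD L} (ha : a.Good k) {u : List (Option L)} {c : L}
    (hc : a.Heavy c u) :
    a.Z k (some c :: u) = min (a.Z k u - ∑ c' ∈ univ.erase c, a.Z k (some c' :: u))
        (2 * a.nu (some c :: u)) ∧
      a.Z k (none :: u) = (a.Z k u - ∑ c' ∈ univ.erase c, a.Z k (some c' :: u)) -
        a.Z k (some c :: u) := by
  constructor
  · have e : ∑ c', (if a.Heavy c' u then 0 else a.lightZ k c' u) =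
        ∑ c' ∈ univ.erase c, a.Z k (some c' :: u) := by
      rw [← Finset.add_sum_erase _ _ (mem_univ c), if_pos hc, zero_add]
      refine Finset.sum_congr rfl fun c' hc' => ?_
      have hH : ¬a.Heavy c' u := fun h => (Finset.ne_of_mem_erase hc') (ha.heavy_unique _ _ _ h hc)
      simp only [TD.Z, TD.realZ, if_neg hH]
    rw [← e]
    simp only [TD.Z, TD.realZ, if_pos hc]
  · have h := a.Z_cons k u
    rw [Fintype.sum_option, ← Finset.add_sum_erase _ _ (mem_univ c)] at h
    linarith

theorem X_step {k : ℕ} {a a' : TD L} (ha : a.Good k) (ha' : a'.Good k)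
    (hn : ∀ u, a'.nu (none :: u) = a.nu (none :: u))
    (hj : ∀ u, a'.nu u ≠ a.nu u → 1 / 20 * (a.nu u + 1 / 8) < |a'.nu u - a.nu u|)
    (u : List (Option L)) :
    ∑ x, X k a a' (x :: u) ≤ X k a a' u + 164 * ∑ x, Q k a a' (x :: u) := by
  have hQ : ∑ c, Q k a a' (some c :: u) ≤ ∑ x, Q k a a' (x :: u) := by
    rw [Fintype.sum_option]
    have := Q_nonneg k a a' (none :: u)
    linarith
  have hQ0 : 0 ≤ ∑ c, Q k a a' (some c :: u) := Finset.sum_nonneg fun _ _ => Q_nonneg _ _ _ _
  by_cases hu : U a a' u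
  · have e : ∀ x, X k a a' (x :: u) = a.Z k (x :: u) + a'.Z k (x :: u) := fun x => by
      unfold X; rw [if_pos (show U a a' (x :: u) from Or.inl hu)]
    simp only [e, Finset.sum_add_distrib, TD.Z_cons]
    unfold X
    rw [if_pos hu]
    linarith
  · have e0 : X k a a' (none :: u) = |a'.Z k (none :: u) - a.Z k (none :: u)| := by
      unfold X
      rw [if_neg (show ¬U a a' (none :: u) from fun h => h.elim hu fun h' => h' (hn u))]
    have e1 : X k a a' u = |a'.Z k u - a.Z k u| := by unfold X; rw [if_neg hu]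
    rw [Fintype.sum_option, e0, e1]
    by_cases hc : ∃ c, a'.nu (some c :: u) = a.nu (some c :: u) ∧ a.Heavy c u
    · obtain ⟨c, hc1, hc2⟩ := hc
      have hc2' : a'.Heavy c u := (heavy_iff (nu_eq hu) hc1).mpr hc2
      have e2 : X k a a' (some c :: u) = |a'.Z k (some c :: u) - a.Z k (some c :: u)| := by
        unfold X
        rw [if_neg (show ¬U a a' (some c :: u) from fun h => h.elim hu fun h' => h' hc1)]
      obtain ⟨z1, z2⟩ := heavy_Z ha hc2
      obtain ⟨z1', z2'⟩ := heavy_Z ha' hc2'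
      have hm := min_split (a.Z k u - ∑ c' ∈ univ.erase c, a.Z k (some c' :: u))
        (a'.Z k u - ∑ c' ∈ univ.erase c, a'.Z k (some c' :: u)) (2 * a.nu (some c :: u))
      rw [hc1] at z1'
      rw [← z1, ← z1', ← z2, ← z2'] at hm
      have h1 : ∑ c' ∈ univ.erase c, X k a a' (some c' :: u) ≤
          ∑ c' ∈ univ.erase c, 82 * Q k a a' (some c' :: u) :=
        Finset.sum_le_sum fun c' hc' => X_child ha ha' hj hu c' fun h =>
          (Finset.ne_of_mem_erase hc') (ha.heavy_unique _ _ _ h.2 hc2)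
      have h2 : ∑ c' ∈ univ.erase c, Q k a a' (some c' :: u) ≤ ∑ c, Q k a a' (some c :: u) :=
        Finset.sum_le_sum_of_subset_of_nonneg (Finset.subset_univ _) fun _ _ _ =>
          Q_nonneg _ _ _ _
      have h3 : |∑ c' ∈ univ.erase c, (a'.Z k (some c' :: u) - a.Z k (some c' :: u))| ≤
          ∑ c' ∈ univ.erase c, X k a a' (some c' :: u) :=
        (Finset.abs_sum_le_sum_abs _ _).trans (Finset.sum_le_sum fun c' _ => abs_le_X ha ha' _)
      have h4 := abs_sub (a'.Z k u - a.Z k u)
        (∑ c' ∈ univ.erase c, (a'.Z k (some c' :: u) - a.Z k (some c' :: u)))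
      have h5 : a'.Z k u - ∑ c' ∈ univ.erase c, a'.Z k (some c' :: u) -
          (a.Z k u - ∑ c' ∈ univ.erase c, a.Z k (some c' :: u)) = a'.Z k u - a.Z k u -
          ∑ c' ∈ univ.erase c, (a'.Z k (some c' :: u) - a.Z k (some c' :: u)) := by
        rw [Finset.sum_sub_distrib]; ring
      rw [h5] at hm
      rw [← Finset.add_sum_erase _ _ (mem_univ c), e2]
      rw [← Finset.mul_sum] at h1
      linarith
    · have h1 : ∑ c', X k a a' (some c' :: u) ≤ ∑ c', 82 * Q k a a' (some c' :: u) :=
        Finset.sum_le_sum fun c' _ => X_child ha ha' hj hu c' fun h => hc ⟨c', h⟩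
      have h3 : |∑ c', (a'.Z k (some c' :: u) - a.Z k (some c' :: u))| ≤
          ∑ c', X k a a' (some c' :: u) :=
        (Finset.abs_sum_le_sum_abs _ _).trans (Finset.sum_le_sum fun c' _ => abs_le_X ha ha' _)
      have h4 := abs_sub (a'.Z k u - a.Z k u)
        (∑ c', (a'.Z k (some c' :: u) - a.Z k (some c' :: u)))
      have z := a.Z_cons k u
      have z' := a'.Z_cons k u
      rw [Fintype.sum_option] at z z'
      have h5 : a'.Z k (none :: u) - a.Z k (none :: u) = a'.Z k u - a.Z k u -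
          ∑ c', (a'.Z k (some c' :: u) - a.Z k (some c' :: u)) := by
        rw [Finset.sum_sub_distrib]; linarith
      rw [h5]
      rw [← Finset.mul_sum] at h1
      linarith

end Move

open Move in
theorem move : MoveStmt := by
  intro k L _ a a' D ha ha' h0 hn hj
  set QQ : ℕ → ℝ := fun j => ∑ u ∈ lists (Option L) (j + 1), Q k a a' u with hQQ
  have hQ0 : ∀ j, 0 ≤ QQ j := fun j => Finset.sum_nonneg fun _ _ => Q_nonneg _ _ _ _
  have key : ∀ d, ∑ u ∈ lists (Option L) d, X k a a' u ≤ 164 * ∑ j ∈ range d, QQ j := by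
    intro d
    induction d with
    | zero =>
      rw [lists_zero, Finset.sum_singleton]
      unfold X
      rw [if_neg (show ¬U a a' [] from fun h => h h0)]
      simp [TD.Z]
    | succ d ih =>
      rw [sum_lists_succ, Finset.sum_range_succ]
      have h1 : ∑ u ∈ lists (Option L) d, ∑ x, X k a a' (x :: u) ≤
          ∑ u ∈ lists (Option L) d, (X k a a' u + 164 * ∑ x, Q k a a' (x :: u)) :=
        Finset.sum_le_sum fun u _ => X_step ha ha' hn hj u
      rw [Finset.sum_add_distrib, ← Finset.mul_sum, ← sum_lists_succ d (Q k a a')] at h1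
      simp only [hQQ] at ih ⊢
      linarith
  have h1 : ∑ d ∈ range D, (1 / 2 : ℝ) ^ d *
      ∑ u ∈ lists (Option L) (d + 1), |a'.Z k u - a.Z k u| ≤
      ∑ d ∈ range D, 164 * ((1 / 2 : ℝ) ^ d * ∑ j ∈ range (d + 1), QQ j) := by
    refine Finset.sum_le_sum fun d _ => ?_
    have h2 : ∑ u ∈ lists (Option L) (d + 1), |a'.Z k u - a.Z k u| ≤
        164 * ∑ j ∈ range (d + 1), QQ j :=
      (Finset.sum_le_sum fun u _ => abs_le_X ha ha' u).trans (key (d + 1))
    have h3 := mul_le_mul_of_nonneg_left h2 (by positivity : (0 : ℝ) ≤ (1 / 2) ^ d)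
    linarith
  rw [← Finset.mul_sum] at h1
  have h2 := sum_half_cum D QQ hQ0
  have h3 : 0 ≤ ∑ j ∈ range D, (1 / 2 : ℝ) ^ j * QQ j :=
    Finset.sum_nonneg fun j _ => mul_nonneg (by positivity) (hQ0 j)
  change _ ≤ 400 * ∑ j ∈ range D, (1 / 2 : ℝ) ^ j * QQ j
  linarith

end Vale.Agent.P304
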