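import Vale.Agent.P304.Stmts

namespace Vale.Agent.P304

open Finset
open scoped Classical

namespace Park

/-- ramp from 3 to 4 -/
noncomputable def gg (s : ℝ) : ℝ := min 1 (max 0 (s - 3))

theorem gg_nonneg (s : ℝ) : 0 ≤ gg s := le_min zero_le_one (le_max_left _ _)

theorem gg_le_one (s : ℝ) : gg s ≤ 1 := min_le_left _ _

theorem gg_one {s : ℝ} (h : 4 ≤ s) : gg s = 1 :=
  min_eq_left (le_max_of_le_right (by linarith))

theorem gg_zero {s : ℝ} (h : s ≤ 3) : gg s = 0 := by
  rw [gg, max_eq_left (by linarith), min_eq_right zero_le_one]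

theorem gg_lip {s s' e : ℝ} (he : 0 ≤ e) (h : s' ≤ s + e) : gg s' ≤ gg s + e := by
  unfold gg
  rcases le_total 1 (max 0 (s - 3)) with h1 | h1
  · rw [min_eq_left h1]
    exact (min_le_left _ _).trans (by linarith)
  · rw [min_eq_right h1]
    refine (min_le_right _ _).trans (max_le ?_ ?_)
    · linarith [le_max_left 0 (s - 3)]
    · linarith [le_max_right 0 (s - 3)]

theorem rho_eq (W : ℝ) (d : ℕ) : rho W d = W / 2 * (1 / 2) ^ d := by
  rw [rho, pow_succ, one_div_pow]; field_simp

theorem rho_pos {W : ℝ} (hW : 0 < W) (d : ℕ) : 0 < rho W d := by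
  unfold rho; positivity

theorem path_length {Y L : Type} (lab : ℕ → List Y → Y → L) (l : List Y) (y : Y) (d : ℕ) :
    (path lab l y d).length = d := by
  induction d with
  | zero => rfl
  | succ d ih => simp [path, ih]

theorem path_ne {Y L : Type} (lab : ℕ → List Y → Y → L) (l l' : List Y) (y y' : Y) (d : ℕ) :
    (if path lab l y d = path lab l' y' d then (0 : ℝ) else 1) ≤
      ∑ j ∈ range d, if lab j l y = lab j l' y' then (0 : ℝ) else 1 := by
  induction d with
  | zero => simp [path]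
  | succ d ih =>
    rw [sum_range_succ]
    have h0 : (0 : ℝ) ≤ ∑ j ∈ range d, if lab j l y = lab j l' y' then (0 : ℝ) else 1 :=
      sum_nonneg fun j _ => by split_ifs <;> norm_num
    by_cases h1 : lab d l y = lab d l' y'
    · rw [if_pos h1, add_zero]
      by_cases h2 : path lab l y d = path lab l' y' d
      · rw [if_pos (by simp [path, h1, h2])]; exact h0
      · rw [if_neg h2] at ih
        split_ifs
        · exact h0
        · exact ih
    · rw [if_neg h1]
      split_ifs <;> linarith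

/-- parked mass per unit of tracked mass -/
noncomputable def kap {Y L : Type} (Zf nf : List Y → List (Option L) → ℝ) (l : List Y)
    (v : List (Option L)) : ℝ := Zf l (none :: v) / (nf l v + 1 / 8)

section Z

variable {k : ℕ} {Y Ω L : Type} [Fintype Ω] [Fintype L] {G : Game k Y Ω}
  {lab : ℕ → List Y → Y → L} {Zf nf : List Y → List (Option L) → ℝ}

theorem z_child (hZ : ZProps G lab Zf nf) {l : List Y} (hl : G.Reach l) (x : Option L)
    (u : List (Option L)) : Zf l (x :: u) ≤ Zf l u := by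
  rw [← hZ.z_cons l u]
  exact single_le_sum (f := fun x => Zf l (x :: u)) (fun _ _ => hZ.z_nonneg l hl _) (mem_univ x)

theorem z_two (hZ : ZProps G lab Zf nf) {l : List Y} (hl : G.Reach l) (c : L)
    (u : List (Option L)) : Zf l (none :: u) + Zf l (some c :: u) ≤ Zf l u := by
  rw [← hZ.z_cons l u, Fintype.sum_option]
  exact add_le_add le_rfl (single_le_sum (f := fun x => Zf l (some x :: u))
    (fun _ _ => hZ.z_nonneg l hl _) (mem_univ c))

theorem z_le_k (hZ : ZProps G lab Zf nf) {l : List Y} (hl : G.Reach l) (u : List (Option L)) :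
    Zf l u ≤ k := by
  induction u with
  | nil => exact (hZ.z_root l).le
  | cons x u ih => exact (z_child hZ hl x u).trans ih

theorem den_pos (hZ : ZProps G lab Zf nf) (l : List Y) (v : List (Option L)) :
    0 < nf l v + 1 / 8 := by
  linarith [hZ.n_nonneg l v]

theorem kap_nonneg (hZ : ZProps G lab Zf nf) {l : List Y} (hl : G.Reach l)
    (v : List (Option L)) : 0 ≤ kap Zf nf l v :=
  div_nonneg (hZ.z_nonneg l hl _) (den_pos hZ l v).le

theorem kap_le (hZ : ZProps G lab Zf nf) {l : List Y} (hl : G.Reach l) (c : L)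
    (w : List (Option L)) : kap Zf nf l (some c :: w) ≤ 2 := by
  rw [kap, div_le_iff₀ (den_pos hZ l _)]
  linarith [z_child hZ hl none (some c :: w), hZ.z_le l hl c w]

theorem kap_init (hZ : ZProps G lab Zf nf) (d : ℕ) :
    kap Zf nf [] (path lab [] G.s0 d) ≤ 0 := by
  refine div_nonpos_of_nonpos_of_nonneg ?_ (den_pos hZ _ _).le
  have h1 := z_two hZ G.reach_nil (lab d [] G.s0) (path lab [] G.s0 d)
  have h2 := hZ.z_init (d + 1)
  have h3 := z_le_k hZ G.reach_nil (path lab [] G.s0 d)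
  rw [path] at h2
  linarith

theorem kap_req (hZ : ZProps G lab Zf nf) {r : Y} {l : List Y} (hl : G.Reach (r :: l)) (m : ℕ) :
    ∑ d ∈ range m, kap Zf nf (r :: l) (path lab (r :: l) r (d + 1)) ≤ 2 * Real.log k := by
  have key : ∀ d, kap Zf nf (r :: l) (path lab (r :: l) r (d + 1)) ≤
      2 * Real.log (Zf (r :: l) (path lab (r :: l) r (d + 1))) -
        2 * Real.log (Zf (r :: l) (path lab (r :: l) r (d + 1 + 1))) := by
    intro d
    have h1 := z_two hZ hl (lab (d + 1) (r :: l) r) (path lab (r :: l) r (d + 1))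
    have h2 := hZ.z_req r l hl (d + 1)
    have h3 := hZ.z_req r l hl (d + 1 + 1)
    have h4 : Zf (r :: l) (path lab (r :: l) r (d + 1)) ≤
        2 * nf (r :: l) (path lab (r :: l) r (d + 1)) := hZ.z_le _ hl _ _
    have h5 := hZ.z_nonneg _ hl (none :: path lab (r :: l) r (d + 1))
    change _ + Zf (r :: l) (path lab (r :: l) r (d + 1 + 1)) ≤ _ at h1
    rw [kap, div_le_iff₀ (den_pos hZ _ _)]
    generalize Zf (r :: l) (path lab (r :: l) r (d + 1)) = a at *
    generalize Zf (r :: l) (path lab (r :: l) r (d + 1 + 1)) = b at *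
    generalize Zf (r :: l) (none :: path lab (r :: l) r (d + 1)) = z at *
    generalize nf (r :: l) (path lab (r :: l) r (d + 1)) = n at *
    have h6 := Real.log_le_sub_one_of_pos (show 0 < b / a by positivity)
    rw [Real.log_div (by positivity) (by positivity), div_sub_one (by positivity),
      le_div_iff₀ (by positivity)] at h6
    have h7 : 0 ≤ Real.log a - Real.log b :=
      sub_nonneg.2 (Real.log_le_log (by positivity) (by linarith))
    nlinarith
  refine (sum_le_sum fun d _ => key d).trans ?_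
  rw [sum_range_sub' (fun d => 2 * Real.log (Zf (r :: l) (path lab (r :: l) r (d + 1))))]
  have h1 := Real.log_nonneg (hZ.z_req r l hl (m + 1))
  have h2 := Real.log_le_log (by linarith [hZ.z_req r l hl (0 + 1)])
    (z_le_k hZ hl (path lab (r :: l) r (0 + 1)))
  linarith

omit [Fintype L] in
theorem ce_NN_nonneg (l : List Y) (u : List (Option L)) :
    0 ≤ G.ce l (fun ω => G.NN lab l.length ω u) :=
  G.ce_nonneg fun _ _ => Nat.cast_nonneg _

theorem ce_kap (hZ : ZProps G lab Zf nf) {l : List Y} (hl : G.Reach l) (c : L)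
    (w : List (Option L)) : 1 / 2 * Zf l (none :: some c :: w) ≤
      G.ce l (fun ω => G.NN lab l.length ω (some c :: w)) * kap Zf nf l (some c :: w) := by
  have h0 := hZ.z_nonneg l hl (none :: some c :: w)
  rcases h0.eq_or_lt with h | h
  · rw [← h, mul_zero]
    exact mul_nonneg (ce_NN_nonneg l _) (kap_nonneg hZ hl _)
  · have h1 := hZ.z_pos l hl c w (h.trans_le (z_child hZ hl none _))
    have h2 := (abs_le.1 (hZ.n_approx l (some c :: w))).1
    rw [kap, ← mul_div_assoc, le_div_iff₀ (den_pos hZ _ _)]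
    nlinarith

theorem ce_dkap (hZ : ZProps G lab Zf nf) {l : List Y} (hl : G.Reach l) (l' : List Y) (c : L)
    (w : List (Option L)) : G.ce l' (fun ω => G.NN lab l'.length ω (some c :: w)) *
      |kap Zf nf l' (some c :: w) - kap Zf nf l (some c :: w)| ≤
      2 * |Zf l' (none :: some c :: w) - Zf l (none :: some c :: w)| +
        4 * |nf l' (some c :: w) - nf l (some c :: w)| := by
  have h2 := (abs_le.1 (hZ.n_approx l' (some c :: w))).2
  have h3 := den_pos hZ l' (some c :: w)
  have h4 := den_pos hZ l (some c :: w)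
  have e : (nf l' (some c :: w) + 1 / 8) * (kap Zf nf l' (some c :: w) - kap Zf nf l (some c :: w)) =
      (Zf l' (none :: some c :: w) - Zf l (none :: some c :: w)) -
        kap Zf nf l (some c :: w) * (nf l' (some c :: w) - nf l (some c :: w)) := by
    have a1 : kap Zf nf l' (some c :: w) * (nf l' (some c :: w) + 1 / 8) =
      Zf l' (none :: some c :: w) := div_mul_cancel₀ _ h3.ne'
    have a2 : kap Zf nf l (some c :: w) * (nf l (some c :: w) + 1 / 8) =
      Zf l (none :: some c :: w) := div_mul_cancel₀ _ h4.ne'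
    linarith
  have h5 : (nf l' (some c :: w) + 1 / 8) *
      |kap Zf nf l' (some c :: w) - kap Zf nf l (some c :: w)| ≤
      |Zf l' (none :: some c :: w) - Zf l (none :: some c :: w)| +
        2 * |nf l' (some c :: w) - nf l (some c :: w)| := by
    rw [← abs_of_pos h3, ← abs_mul, e]
    refine (abs_sub _ _).trans (add_le_add le_rfl ?_)
    rw [abs_mul, abs_of_nonneg (kap_nonneg hZ hl _)]
    exact mul_le_mul_of_nonneg_right (kap_le hZ hl c w) (abs_nonneg _)
  have h6 := abs_nonneg (kap Zf nf l' (some c :: w) - kap Zf nf l (some c :: w))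
  nlinarith

theorem sum_NN (lab : ℕ → List Y → Y → L) (t : ℕ) (ω : Ω) (d : ℕ)
    (f : L → List (Option L) → ℝ) :
    ∑ i, f (lab d (G.hist t ω) (G.o t ω i)) (path lab (G.hist t ω) (G.o t ω i) d) =
      ∑ w ∈ lists (Option L) d, ∑ c : L, f c w * G.NN lab t ω (some c :: w) := by
  have h1 : ∀ w ∈ lists (Option L) d, ∀ c : L, f c w * G.NN lab t ω (some c :: w) =
      ∑ i, if path lab (G.hist t ω) (G.o t ω i) d = w then
        (if lab d (G.hist t ω) (G.o t ω i) = c then f c w else 0) else 0 := by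
    intro w hw c
    rw [Game.NN, card_filter, List.length_cons, mem_lists.1 hw]
    push_cast
    rw [mul_sum]
    refine sum_congr rfl fun i _ => ?_
    by_cases a : path lab (G.hist t ω) (G.o t ω i) d = w <;>
      by_cases b : lab d (G.hist t ω) (G.o t ω i) = c <;> simp [path, a, b]
  rw [sum_congr rfl fun w hw => sum_congr rfl fun c _ => h1 w hw c]
  simp only [sum_comm (t := (univ : Finset (Fin k)))]
  refine sum_congr rfl fun i _ => ?_
  rw [sum_eq_single (path lab (G.hist t ω) (G.o t ω i) d)]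
  · simp
  · intro w _ hw
    simp [Ne.symm hw]
  · intro h
    exact absurd (mem_lists.2 (path_length _ _ _ _)) h

/-- the history-dependent part of the change of the potential -/
noncomputable def ph (Zf nf : List Y → List (Option L) → ℝ) (anc : List Y → L → Y)
    (l l' : List Y) (c : L) (w : List (Option L)) : ℝ :=
  |kap Zf nf l' (some c :: w) - kap Zf nf l (some c :: w)| -
    if anc l c = anc l' c then 0 else kap Zf nf l' (some c :: w)

theorem ce_ph (hZ : ZProps G lab Zf nf) (anc : List Y → L → Y) {l l' : List Y} (hl : G.Reach l)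
    (hl' : G.Reach l') (d : ℕ) :
    G.ce l' (fun ω => ∑ i, ph Zf nf anc l l' (lab d l' (G.o l'.length ω i))
      (path lab l' (G.o l'.length ω i) d)) ≤
      2 * ∑ u ∈ lists (Option L) (d + 1 + 1), |Zf l' u - Zf l u| +
        4 * ∑ u ∈ lists (Option L) (d + 1), |nf l' u - nf l u| -
        1 / 2 * ∑ w ∈ lists (Option L) d, ∑ c : L,
          if anc l c = anc l' c then 0 else Zf l' (none :: some c :: w) := by
  have e1 : G.ce l' (fun ω => ∑ i, ph Zf nf anc l l' (lab d l' (G.o l'.length ω i))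
      (path lab l' (G.o l'.length ω i) d)) = ∑ w ∈ lists (Option L) d, ∑ c : L,
        ph Zf nf anc l l' c w * G.ce l' (fun ω => G.NN lab l'.length ω (some c :: w)) := by
    simp only [← G.ce_mul, ← G.ce_sum]
    refine G.ce_congr fun ω hω => ?_
    have := sum_NN (G := G) lab l'.length ω d (ph Zf nf anc l l')
    rwa [hω] at this
  have e2 : ∑ w ∈ lists (Option L) d, ∑ c : L,
      |Zf l' (none :: some c :: w) - Zf l (none :: some c :: w)| ≤
      ∑ u ∈ lists (Option L) (d + 1 + 1), |Zf l' u - Zf l u| := by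
    rw [sum_lists_succ, sum_lists_succ]
    refine sum_le_sum fun w _ => ?_
    rw [Fintype.sum_option]
    refine le_add_of_nonneg_of_le (sum_nonneg fun _ _ => abs_nonneg _) (sum_le_sum fun c _ => ?_)
    exact single_le_sum (f := fun x => |Zf l' (x :: some c :: w) - Zf l (x :: some c :: w)|)
      (fun _ _ => abs_nonneg _) (mem_univ none)
  have e3 : ∑ w ∈ lists (Option L) d, ∑ c : L, |nf l' (some c :: w) - nf l (some c :: w)| ≤
      ∑ u ∈ lists (Option L) (d + 1), |nf l' u - nf l u| := by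
    rw [sum_lists_succ]
    refine sum_le_sum fun w _ => ?_
    rw [Fintype.sum_option]
    exact le_add_of_nonneg_left (abs_nonneg _)
  have e4 : ∑ w ∈ lists (Option L) d, ∑ c : L,
        ph Zf nf anc l l' c w * G.ce l' (fun ω => G.NN lab l'.length ω (some c :: w)) ≤
      ∑ w ∈ lists (Option L) d, ∑ c : L,
        (2 * |Zf l' (none :: some c :: w) - Zf l (none :: some c :: w)| +
          4 * |nf l' (some c :: w) - nf l (some c :: w)| -
          1 / 2 * if anc l c = anc l' c then 0 else Zf l' (none :: some c :: w)) := by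
    refine sum_le_sum fun w _ => sum_le_sum fun c _ => ?_
    have h1 := ce_kap hZ hl' c w
    have h2 := ce_dkap hZ hl l' c w
    unfold ph
    split_ifs <;> nlinarith
  simp only [sum_sub_distrib, sum_add_distrib, ← mul_sum] at e4
  rw [e1]
  linarith

end Z

section Step

variable {k : ℕ} {Y Ω L : Type} [MetricSpace Y] [Fintype Ω] [Fintype L] {G : Game k Y Ω}
  {lab : ℕ → List Y → Y → L} {Zf nf : List Y → List (Option L) → ℝ}

/-- one term of the potential -/
noncomputable def tm (lab : ℕ → List Y → Y → L) (anc : List Y → L → Y)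
    (Zf nf : List Y → List (Option L) → ℝ) (ρ : ℝ) (d : ℕ) (l : List Y) (y : Y) : ℝ :=
  kap Zf nf l (path lab l y (d + 1)) * gg (dist y (anc l (lab d l y)) / ρ)

theorem tm_step (hZ : ZProps G lab Zf nf) (anc : List Y → L → Y) {ρ : ℝ} (hρ : 0 < ρ) (d : ℕ)
    {l l' : List Y} (hl : G.Reach l) (hl' : G.Reach l') (y y' : Y) :
    tm lab anc Zf nf ρ d l' y' - tm lab anc Zf nf ρ d l y ≤
      ph Zf nf anc l l' (lab d l' y') (path lab l' y' d) +
        4 * (if path lab l y (d + 1) = path lab l' y' (d + 1) then (0 : ℝ) else 1) +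
        4 * (if anc l (lab d l y) = anc l' (lab d l y) ∨
          (4 * ρ ≤ dist y (anc l (lab d l y)) ∧ dist y (anc l' (lab d l y)) ≤ 3 * ρ)
          then (0 : ℝ) else 1) +
        kap Zf nf l' (path lab l' y' (d + 1)) * (dist y y' / ρ) := by
  have k0 := kap_nonneg hZ hl (path lab l y (d + 1))
  have k1 := kap_nonneg hZ hl' (path lab l' y' (d + 1))
  have k2 : kap Zf nf l' (path lab l' y' (d + 1)) ≤ 2 := kap_le hZ hl' _ _
  have e0 : 0 ≤ dist y y' / ρ := by positivity
  have e1 := mul_nonneg k1 e0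
  have t0 : 0 ≤ tm lab anc Zf nf ρ d l y := mul_nonneg k0 (gg_nonneg _)
  have t1 : tm lab anc Zf nf ρ d l' y' ≤ 2 :=
    (mul_le_of_le_one_right k1 (gg_le_one _)).trans k2
  have p0 : |kap Zf nf l' (path lab l' y' (d + 1)) - kap Zf nf l (path lab l' y' (d + 1))| -
      kap Zf nf l' (path lab l' y' (d + 1)) ≤ ph Zf nf anc l l' (lab d l' y') (path lab l' y' d) := by
    unfold ph
    split_ifs
    · exact sub_le_sub_left k1 _
    · exact le_rfl
  have a0 := abs_nonneg
    (kap Zf nf l' (path lab l' y' (d + 1)) - kap Zf nf l (path lab l' y' (d + 1)))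
  by_cases h1 : path lab l y (d + 1) = path lab l' y' (d + 1)
  swap
  · rw [if_neg h1]
    split_ifs <;> linarith
  rw [if_pos h1]
  have hc : lab d l y = lab d l' y' := by
    simp only [path, List.cons.injEq, Option.some.injEq] at h1
    exact h1.1
  have lip : ∀ a : Y, gg (dist y' a / ρ) ≤ gg (dist y a / ρ) + dist y y' / ρ := fun a =>
    gg_lip e0 (by
      rw [← add_div]
      exact div_le_div_of_nonneg_right (by linarith [dist_triangle_left y' a y]) hρ.le)
  by_cases h2 : anc l (lab d l y) = anc l' (lab d l y)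
  · rw [if_pos (Or.inl h2)]
    have p1 : ph Zf nf anc l l' (lab d l' y') (path lab l' y' d) =
        |kap Zf nf l' (path lab l' y' (d + 1)) - kap Zf nf l (path lab l' y' (d + 1))| := by
      rw [ph, ← hc, if_pos h2, sub_zero, hc]; rfl
    rw [p1, tm, tm, h1, ← hc, ← h2]
    have h3 := mul_le_mul_of_nonneg_left (lip (anc l (lab d l y))) k1
    have h4 := le_abs_self
      (kap Zf nf l' (path lab l' y' (d + 1)) - kap Zf nf l (path lab l' y' (d + 1)))
    have h5 := gg_nonneg (dist y (anc l (lab d l y)) / ρ)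
    have h6 := gg_le_one (dist y (anc l (lab d l y)) / ρ)
    nlinarith
  by_cases h3 : 4 * ρ ≤ dist y (anc l (lab d l y)) ∧ dist y (anc l' (lab d l y)) ≤ 3 * ρ
  · rw [if_pos (Or.inr h3), tm, tm, h1, ← hc, gg_one ((le_div_iff₀ hρ).2 h3.1)]
    have h4 := lip (anc l' (lab d l y))
    rw [gg_zero ((div_le_iff₀ hρ).2 h3.2), zero_add] at h4
    have h5 := mul_le_mul_of_nonneg_left h4 k1
    have h6 := le_abs_self
      (kap Zf nf l' (path lab l' y' (d + 1)) - kap Zf nf l (path lab l' y' (d + 1)))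
    rw [← hc] at p0
    linarith
  · rw [if_neg (not_or.2 ⟨h2, h3⟩)]
    linarith

/-- the potential -/
noncomputable def Psi (G : Game k Y Ω) (lab : ℕ → List Y → Y → L) (anc : ℕ → List Y → L → Y)
    (Zf nf : List Y → List (Option L) → ℝ) (W : ℝ) (m t : ℕ) (ω : Ω) : ℝ :=
  ∑ d ∈ range m, rho W d * ∑ i, tm lab (anc d) Zf nf (rho W d) d (G.hist t ω) (G.o t ω i)

/-- the history-dependent part -/
noncomputable def Ph (G : Game k Y Ω) (lab : ℕ → List Y → Y → L) (anc : ℕ → List Y → L → Y)
    (Zf nf : List Y → List (Option L) → ℝ) (W : ℝ) (m : ℕ) (l' : List Y) (ω : Ω) : ℝ :=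
  ∑ d ∈ range m, rho W d * ∑ i, ph Zf nf (anc d) l'.tail l' (lab d l' (G.o l'.length ω i))
    (path lab l' (G.o l'.length ω i) d)

omit [Fintype L] in
theorem mover (t : ℕ) (ω : Ω) (d : ℕ) (ρ : ℝ) :
    ∑ i, kap Zf nf (G.hist (t + 1) ω) (path lab (G.hist (t + 1) ω) (G.o (t + 1) ω i) (d + 1)) *
      (dist (G.o t ω i) (G.o (t + 1) ω i) / ρ) =
    kap Zf nf (G.hist (t + 1) ω) (path lab (G.hist (t + 1) ω) (G.req t ω) (d + 1)) *
      (G.ell t ω / ρ) := by
  rw [sum_eq_single (G.idx t ω), G.o_succ_idx, Game.ell]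
  · intro i _ hi
    rw [G.o_succ_ne t ω hi, dist_self, zero_div, mul_zero]
  · intro h; exact absurd (mem_univ _) h

omit [MetricSpace Y] [Fintype L] in
theorem lchg_nonneg (lab : List Y → Y → L) (t : ℕ) (ω : Ω) : 0 ≤ G.lchg lab t ω :=
  sum_nonneg fun _ _ => by split_ifs <;> norm_num

omit [Fintype L] in
theorem lbad_nonneg (lab : List Y → Y → L) (anc : List Y → L → Y) (ρ : ℝ) (t : ℕ) (ω : Ω) :
    0 ≤ G.lbad lab anc ρ t ω :=
  sum_nonneg fun _ _ => by split_ifs <;> norm_num

theorem Psi_step (hZ : ZProps G lab Zf nf) (anc : ℕ → List Y → L → Y) {W : ℝ} (hW : 0 < W)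
    (D t : ℕ) (ω : Ω) :
    Psi G lab anc Zf nf W (D - 1) (t + 1) ω - Psi G lab anc Zf nf W (D - 1) t ω ≤
      Ph G lab anc Zf nf W (D - 1) (G.hist (t + 1) ω) ω +
        (8 * ∑ d ∈ range D, rho W d * G.chg (lab d) (anc d) (rho W d) t ω +
          2 * (Real.log k * G.ell t ω)) := by
  have h1 : ∀ d ∈ range (D - 1), rho W d * ∑ i, tm lab (anc d) Zf nf (rho W d) d
        (G.hist (t + 1) ω) (G.o (t + 1) ω i) -
      rho W d * ∑ i, tm lab (anc d) Zf nf (rho W d) d (G.hist t ω) (G.o t ω i) ≤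
      rho W d * ∑ i, ph Zf nf (anc d) (G.hist t ω) (G.hist (t + 1) ω)
          (lab d (G.hist (t + 1) ω) (G.o (t + 1) ω i))
          (path lab (G.hist (t + 1) ω) (G.o (t + 1) ω i) d) +
        2 * W * ((1 / 2) ^ d * ∑ j ∈ range (d + 1), G.lchg (lab j) t ω) +
        4 * (rho W d * G.lbad (lab d) (anc d) (rho W d) t ω) +
        kap Zf nf (G.hist (t + 1) ω) (path lab (G.hist (t + 1) ω) (G.req t ω) (d + 1)) *
          G.ell t ω := by
    intro d _
    have hρ := rho_pos hW d
    have h2 := sum_le_sum fun i (_ : i ∈ univ) => tm_step hZ (anc d) hρ d (G.reach_hist t ω)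
      (G.reach_hist (t + 1) ω) (G.o t ω i) (G.o (t + 1) ω i)
    simp only [sum_sub_distrib, sum_add_distrib, ← mul_sum] at h2
    rw [mover] at h2
    have h3 := sum_le_sum fun i (_ : i ∈ univ) => path_ne lab (G.hist t ω) (G.hist (t + 1) ω)
      (G.o t ω i) (G.o (t + 1) ω i) (d + 1)
    rw [sum_comm] at h3
    change _ ≤ ∑ j ∈ range (d + 1), G.lchg (lab j) t ω at h3
    change _ ≤ _ + _ + 4 * G.lbad (lab d) (anc d) (rho W d) t ω + _ at h2
    have h4 := mul_le_mul_of_nonneg_left h2 hρ.le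
    have h5 := mul_le_mul_of_nonneg_left h3 hρ.le
    have e1 : rho W d * (kap Zf nf (G.hist (t + 1) ω)
        (path lab (G.hist (t + 1) ω) (G.req t ω) (d + 1)) * (G.ell t ω / rho W d)) =
        kap Zf nf (G.hist (t + 1) ω) (path lab (G.hist (t + 1) ω) (G.req t ω) (d + 1)) *
          G.ell t ω := by field_simp
    have e2 : 2 * W * ((1 / 2) ^ d * ∑ j ∈ range (d + 1), G.lchg (lab j) t ω) =
        4 * (rho W d * ∑ j ∈ range (d + 1), G.lchg (lab j) t ω) := by rw [rho_eq]; ring
    rw [e2, ← e1]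
    linarith
  have h2 := sum_le_sum h1
  simp only [sum_sub_distrib, sum_add_distrib, ← mul_sum, ← sum_mul] at h2
  have h3 := mul_le_mul_of_nonneg_left
    (sum_half_cum (D - 1) (fun j => G.lchg (lab j) t ω) fun j => lchg_nonneg _ _ _)
    (show 0 ≤ 2 * W by positivity)
  have h4 := mul_le_mul_of_nonneg_right
    (kap_req hZ (G.reach_hist (t + 1) ω) (D - 1)) (G.ell_nonneg t ω)
  have h5 : 2 * W * (2 * ∑ j ∈ range (D - 1), (1 / 2 : ℝ) ^ j * G.lchg (lab j) t ω) +
      4 * ∑ d ∈ range (D - 1), rho W d * G.lbad (lab d) (anc d) (rho W d) t ω ≤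
      8 * ∑ d ∈ range D, rho W d * G.chg (lab d) (anc d) (rho W d) t ω := by
    refine le_trans ?_ (mul_le_mul_of_nonneg_left (sum_le_sum_of_subset_of_nonneg
      (range_subset_range.2 (Nat.sub_le D 1)) fun d _ _ => mul_nonneg (rho_pos hW d).le
        (add_nonneg (lchg_nonneg _ _ _) (lbad_nonneg _ _ _ _ _))) (by norm_num))
    rw [mul_sum, mul_sum, mul_sum, mul_sum, ← sum_add_distrib]
    refine sum_le_sum fun d _ => ?_
    have h6 := mul_nonneg (rho_pos hW d).le (lbad_nonneg (G := G) (lab d) (anc d) (rho W d) t ω)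
    have e : 2 * W * (2 * ((1 / 2 : ℝ) ^ d * G.lchg (lab d) t ω)) =
        8 * (rho W d * G.lchg (lab d) t ω) := by rw [rho_eq]; ring
    rw [e, Game.chg, mul_add]
    linarith
  unfold Psi Ph
  rw [G.hist_length]
  change _ ≤ ∑ d ∈ range (D - 1), rho W d * ∑ i, ph Zf nf (anc d) (G.hist t ω) _ _ _ + _
  rw [← G.hist_succ] at h4
  linarith

omit [MetricSpace Y] in
theorem ce_Ph (hZ : ZProps G lab Zf nf) (anc : ℕ → List Y → L → Y) {W : ℝ} (hW : 0 < W)
    (D : ℕ) {r : Y} {l : List Y} (hl : G.Reach (r :: l)) :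
    G.ce (r :: l) (Ph G lab anc Zf nf W (D - 1) (r :: l)) ≤
      4 * W * mvZ D Zf nf l (r :: l) - W / 4 * park D anc Zf l (r :: l) := by
  unfold Ph
  rw [G.ce_sum]
  simp only [G.ce_mul, List.tail_cons]
  have h1 := sum_le_sum fun d (_ : d ∈ range (D - 1)) => mul_le_mul_of_nonneg_left
    (ce_ph hZ (anc d) (G.reach_tail hl) hl d) (rho_pos hW d).le
  refine h1.trans ?_
  have e : ∀ (d : ℕ) (a b c : ℝ), rho W d * (2 * a + 4 * b - 1 / 2 * c) =
      2 * W * ((1 / 2) ^ (d + 1) * a) + 2 * W * ((1 / 2) ^ d * b) - W / 4 * ((1 / 2) ^ d * c) := by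
    intro d a b c; rw [rho_eq]; ring
  simp only [e, sum_sub_distrib, sum_add_distrib, ← mul_sum]
  have n0 : ∀ d, 0 ≤ (1 / 2 : ℝ) ^ d * ∑ u ∈ lists (Option L) (d + 1),
      (|Zf (r :: l) u - Zf l u| + |nf (r :: l) u - nf l u|) := fun d =>
    mul_nonneg (by positivity) (sum_nonneg fun _ _ => by positivity)
  have h2 : ∑ d ∈ range (D - 1), (1 / 2 : ℝ) ^ (d + 1) *
      ∑ u ∈ lists (Option L) (d + 1 + 1), |Zf (r :: l) u - Zf l u| ≤ mvZ D Zf nf l (r :: l) := by
    rcases D with _ | D
    · simp [mvZ]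
    · rw [mvZ, sum_range_succ', Nat.add_sub_cancel]
      refine le_add_of_le_of_nonneg (sum_le_sum fun d _ => ?_) (n0 0)
      exact mul_le_mul_of_nonneg_left (sum_le_sum fun u _ => le_add_of_nonneg_right (abs_nonneg _))
        (by positivity)
  have h3 : ∑ d ∈ range (D - 1), (1 / 2 : ℝ) ^ d *
      ∑ u ∈ lists (Option L) (d + 1), |nf (r :: l) u - nf l u| ≤ mvZ D Zf nf l (r :: l) := by
    refine le_trans (sum_le_sum fun d _ => ?_) (sum_le_sum_of_subset_of_nonneg
      (range_subset_range.2 (Nat.sub_le D 1)) fun d _ _ => n0 d)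
    exact mul_le_mul_of_nonneg_left (sum_le_sum fun u _ => le_add_of_nonneg_left (abs_nonneg _))
      (by positivity)
  have h4 := mul_le_mul_of_nonneg_left h2 (show 0 ≤ 2 * W by positivity)
  have h5 := mul_le_mul_of_nonneg_left h3 (show 0 ≤ 2 * W by positivity)
  unfold park
  linarith

theorem E_step (hZ : ZProps G lab Zf nf) (anc : ℕ → List Y → L → Y) {W : ℝ} (hW : 0 < W)
    (D t : ℕ) :
    G.E (Psi G lab anc Zf nf W (D - 1) (t + 1)) - G.E (Psi G lab anc Zf nf W (D - 1) t) ≤
      4 * W * G.E (fun ω => mvZ D Zf nf (G.hist t ω) (G.hist (t + 1) ω)) -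
        W / 4 * G.E (fun ω => park D anc Zf (G.hist t ω) (G.hist (t + 1) ω)) +
        (8 * G.E (fun ω => ∑ d ∈ range D, rho W d * G.chg (lab d) (anc d) (rho W d) t ω) +
          2 * (Real.log k * G.E (G.ell t))) := by
  have h1 := G.E_mono (Psi_step hZ anc hW D t)
  rw [G.E_sub, G.E_add, G.E_add, G.E_mul, G.E_mul, G.E_mul,
    ← G.E_ce (t + 1) (Ph G lab anc Zf nf W (D - 1))] at h1
  have h2 := G.E_mono fun ω => ce_Ph hZ anc hW D (G.reach_hist (t + 1) ω)
  rw [G.E_sub, G.E_mul, G.E_mul] at h2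
  exact h1.trans (add_le_add h2 le_rfl)

end Step

end Park

open Park in
theorem parkBound : ParkStmt := by
  refine ⟨32, by norm_num, fun k hk Y Ω L _ _ _ G T D W lab anc Zf nf hW hZ => ?_⟩
  have h1 := sum_le_sum fun t (_ : t ∈ range T) => E_step hZ anc hW D t
  rw [sum_range_sub (fun t => G.E (Psi G lab anc Zf nf W (D - 1) t))] at h1
  simp only [sum_sub_distrib, sum_add_distrib, ← mul_sum] at h1
  have h2 : 0 ≤ G.E (Psi G lab anc Zf nf W (D - 1) T) :=
    G.E_nonneg fun ω => sum_nonneg fun d _ => mul_nonneg (rho_pos hW d).le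
      (sum_nonneg fun i _ => mul_nonneg (kap_nonneg hZ (G.reach_hist T ω) _) (gg_nonneg _))
  have h3 : G.E (Psi G lab anc Zf nf W (D - 1) 0) ≤ 0 := by
    rw [← G.E_const 0]
    exact G.E_mono fun ω => sum_nonpos fun d _ => mul_nonpos_of_nonneg_of_nonpos (rho_pos hW d).le
      (sum_nonpos fun i _ => mul_nonpos_of_nonpos_of_nonneg (kap_init hZ _) (gg_nonneg _))
  have h4 : 0 ≤ W * ∑ t ∈ range T, G.E fun ω => mvZ D Zf nf (G.hist t ω) (G.hist (t + 1) ω) :=
    mul_nonneg hW.le (sum_nonneg fun t _ => G.E_nonneg fun ω => sum_nonneg fun d _ =>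
      mul_nonneg (by positivity) (sum_nonneg fun _ _ => by positivity))
  have h5 : 0 ≤ Real.log k * ∑ t ∈ range T, G.E (G.ell t) :=
    mul_nonneg (Real.log_natCast_nonneg k) (sum_nonneg fun t _ => G.E_nonneg (G.ell_nonneg t))
  rw [G.E_sum, G.E_sum, G.E_sum, G.E_sum]
  linarith

end Vale.Agent.P304
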