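import Vale.Agent.P304.Stmts

/-! Balanced rounding, one step. -/

namespace Vale.Agent.P304

open Finset
open scoped Classical

namespace Round

theorem exists_min {S ι : Type} [Fintype S] (f : ι → S → ℝ) (cost g0 : S → ℝ)
    (h0 : ∀ s, 0 ≤ g0 s) : ∃ g : S → ℝ, (∀ s, 0 ≤ g s) ∧ ∑ s, g s = ∑ s, g0 s ∧
      (∀ i, ∑ s, g s * f i s = ∑ s, g0 s * f i s) ∧ ∑ s, g s * cost s ≤ ∑ s, g0 s * cost s ∧
      ∀ s1 s2 t1 t2, s1 ≠ s2 → 0 < g s1 → 0 < g s2 → (∀ i, f i t1 + f i t2 = f i s1 + f i s2) →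
        cost s1 + cost s2 ≤ cost t1 + cost t2 := by
  let K : Set (S → ℝ) := {g | (∀ s, 0 ≤ g s) ∧ ∑ s, g s = ∑ s, g0 s ∧
    ∀ i, ∑ s, g s * f i s = ∑ s, g0 s * f i s}
  have hK : IsCompact K := by
    refine (isCompact_Icc (a := fun _ => 0) (b := fun _ => ∑ s, g0 s)).of_isClosed_subset ?_ ?_
    · simp only [K, Set.ofPred_and, Set.ofPred_forall]
      exact (isClosed_iInter fun s => isClosed_le continuous_const (continuous_apply s)).inter
        ((isClosed_eq (by fun_prop) continuous_const).inter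
          (isClosed_iInter fun i => isClosed_eq (by fun_prop) continuous_const))
    · rintro g ⟨h1, h2, -⟩
      exact ⟨h1, fun s => h2 ▸ single_le_sum (fun s _ => h1 s) (mem_univ s)⟩
  obtain ⟨g, ⟨h1, h2, h3⟩, hmin⟩ := hK.exists_isMinOn ⟨g0, h0, rfl, fun _ => rfl⟩
    (f := fun g => ∑ s, g s * cost s) (by fun_prop)
  refine ⟨g, h1, h2, h3, hmin (⟨h0, rfl, fun _ => rfl⟩ : g0 ∈ K),
    fun s1 s2 t1 t2 hne p1 p2 hf => ?_⟩
  set ε := min (g s1) (g s2) with hε
  have hε0 : 0 < ε := lt_min p1 p2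
  let g' : S → ℝ := fun s => g s + ε * ((if s = t1 then 1 else 0) + (if s = t2 then 1 else 0) -
    (if s = s1 then 1 else 0) - (if s = s2 then 1 else 0))
  have key : ∀ F : S → ℝ,
      ∑ s, g' s * F s = ∑ s, g s * F s + ε * (F t1 + F t2 - F s1 - F s2) := fun F => by
    simp only [g', add_mul, mul_assoc, sum_add_distrib, ← mul_sum, sub_mul, sum_sub_distrib,
      ite_mul, one_mul, zero_mul, sum_ite_eq', mem_univ, if_true]
  have hg' : g' ∈ K := by
    refine ⟨fun s => ?_, ?_, fun i => ?_⟩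
    · have a1 : ε ≤ g s1 := min_le_left _ _
      have a2 : ε ≤ g s2 := min_le_right _ _
      have a3 := h1 s
      simp only [g']
      by_cases e1 : s = s1
      · subst e1
        rw [if_pos rfl, if_neg hne]
        split_ifs <;> linarith
      · rw [if_neg e1]
        by_cases e2 : s = s2
        · subst e2
          rw [if_pos rfl]
          split_ifs <;> linarith
        · rw [if_neg e2]
          split_ifs <;> linarith
    · have := key fun _ => 1
      simp only [mul_one] at this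
      rw [this, h2]; ring
    · rw [key, h3, hf]; ring
  have h4 : ∑ s, g s * cost s ≤ ∑ s, g' s * cost s := hmin hg'
  rw [key] at h4
  nlinarith

theorem sum_prod_mul {V : Type} [Fintype V] [DecidableEq V] (K : V → Bool → ℝ) (hK : ∀ v, ∑ β, K v β = 1)
    (v0 : V) (F : Bool → ℝ) :
    ∑ b : V → Bool, (∏ v, K v (b v)) * F (b v0) = ∑ β, K v0 β * F β := by
  have e : ∀ b : V → Bool, (∏ v, K v (b v)) * F (b v0) =
      ∏ v, K v (b v) * if v = v0 then F (b v) else 1 := fun b => by
    rw [prod_mul_distrib, prod_ite_eq', if_pos (mem_univ _)]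
  simp only [e]
  rw [← Fintype.piFinset_univ,
    ← prod_univ_sum (fun _ => univ) fun v β => K v β * if v = v0 then F β else 1,
    prod_eq_single v0]
  · simp
  · intro v _ hv
    simp only [if_neg hv, mul_one, hK]
  · simp

theorem sum_prod_one {V : Type} [Fintype V] [DecidableEq V] (K : V → Bool → ℝ) (hK : ∀ v, ∑ β, K v β = 1) :
    ∑ b : V → Bool, ∏ v, K v (b v) = 1 := by
  rw [← Fintype.piFinset_univ, ← prod_univ_sum (fun _ => univ) K]
  simp only [hK, prod_const_one]

theorem sum_congr_pos {X : Type} [Fintype X] {π F G : X → ℝ} (hπ : ∀ x, 0 ≤ π x)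
    (h : ∀ x, 0 < π x → F x = G x) : ∑ x, π x * F x = ∑ x, π x * G x :=
  sum_congr rfl fun x _ => by
    rcases (hπ x).eq_or_lt with e | e
    · rw [← e, zero_mul, zero_mul]
    · rw [h x e]

theorem sum_le_pos {X : Type} [Fintype X] {π F G : X → ℝ} (hπ : ∀ x, 0 ≤ π x)
    (h : ∀ x, 0 < π x → F x ≤ G x) : ∑ x, π x * F x ≤ ∑ x, π x * G x :=
  sum_le_sum fun x _ => by
    rcases (hπ x).eq_or_lt with e | e
    · rw [← e, zero_mul, zero_mul]
    · exact mul_le_mul_of_nonneg_left (h x e) e.le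

theorem exists_neg_of_sum {X : Type} [Fintype X] {π F : X → ℝ} (hπ : ∀ x, 0 ≤ π x)
    (h : ∑ x, π x * F x = 0) {x : X} (hx : 0 < π x) (hF : 0 < F x) :
    ∃ y, 0 < π y ∧ F y < 0 := by
  by_contra hc
  push Not at hc
  refine (sum_pos' (fun y _ => ?_) ⟨x, mem_univ _, mul_pos hx hF⟩).ne' h
  rcases (hπ y).eq_or_lt with e | e
  · rw [← e, zero_mul]
  · exact mul_nonneg e.le (hc y e)

/-- The monotone coupling of two two-point laws. -/
theorem kernel {X : Type} [Fintype X] (π : X → ℝ) (hπ : ∀ x, 0 ≤ π x) (hs : ∑ x, π x = 1)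
    (N : X → ℕ) (z z' : ℝ) (hz' : 0 ≤ z')
    (hN : ∀ x, 0 < π x → ⌊z⌋₊ ≤ N x ∧ N x ≤ ⌊z⌋₊ + 1) (hm : ∑ x, π x * N x = z) :
    ∃ κ : X → ℝ, (∀ x, 0 ≤ κ x ∧ κ x ≤ 1) ∧ ∑ x, π x * κ x = z' - ⌊z'⌋₊ ∧
      ∑ x, π x * ((1 - κ x) * |(N x : ℝ) - ⌊z'⌋₊| + κ x * |(N x : ℝ) - (⌊z'⌋₊ + 1)|) ≤
        |z' - z| := by
  have hz : 0 ≤ z := hm ▸ sum_nonneg fun x _ => mul_nonneg (hπ x) (Nat.cast_nonneg _)
  have a1 := Nat.floor_le hz
  have a2 := Nat.lt_floor_add_one z
  have a3 := Nat.floor_le hz'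
  have a4 := Nat.lt_floor_add_one z'
  generalize ⌊z⌋₊ = a at *
  generalize ⌊z'⌋₊ = a' at *
  have lin : ∀ (κ : X → ℝ) (p q r : ℝ), ∑ x, π x * (p + q * κ x + r * N x) =
      p + q * ∑ x, π x * κ x + r * z := fun κ p q r => by
    simp only [mul_add, sum_add_distrib, ← sum_mul, hs, one_mul, mul_left_comm (π _), ← mul_sum, hm]
  have up : ∀ κ : X → ℝ, ∑ x, π x * κ x = z' - a' → (∀ x, 0 < π x →
      (1 - κ x) * |(N x : ℝ) - a'| + κ x * |(N x : ℝ) - (a' + 1)| = a' + 1 * κ x + -1 * N x) →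
      ∑ x, π x * ((1 - κ x) * |(N x : ℝ) - a'| + κ x * |(N x : ℝ) - (a' + 1)|) ≤ |z' - z| := by
    intro κ h1 h2
    rw [sum_congr_pos hπ h2, lin, h1]
    exact le_trans (le_of_eq (by ring)) (le_abs_self _)
  have dn : ∀ κ : X → ℝ, ∑ x, π x * κ x = z' - a' → (∀ x, 0 < π x →
      (1 - κ x) * |(N x : ℝ) - a'| + κ x * |(N x : ℝ) - (a' + 1)| = -a' + -1 * κ x + 1 * N x) →
      ∑ x, π x * ((1 - κ x) * |(N x : ℝ) - a'| + κ x * |(N x : ℝ) - (a' + 1)|) ≤ |z' - z| := by
    intro κ h1 h2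
    rw [sum_congr_pos hπ h2, lin, h1]
    exact le_trans (le_of_eq (by ring)) (neg_le_abs _)
  have hc : ∑ x, π x * (z' - a') = z' - a' := by rw [← sum_mul, hs, one_mul]
  rcases lt_trichotomy a a' with h | rfl | h
  · refine ⟨fun _ => z' - a', fun _ => ⟨by linarith, by linarith⟩, hc, up _ hc fun x hx => ?_⟩
    have : (N x : ℝ) ≤ a' := by exact_mod_cast (hN x hx).2.trans h
    rw [abs_of_nonpos (by linarith), abs_of_nonpos (by linarith)]; ring
  · have two : ∀ x, 0 < π x → ¬ N x = a → (N x : ℝ) = a + 1 := fun x hx h => by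
      have := hN x hx
      exact_mod_cast (by omega : N x = a + 1)
    rcases le_or_gt z z' with h | h
    · have hp : 0 < a + 1 - z := by linarith
      set t := (z' - z) / (a + 1 - z) with ht
      have t1 : t * (a + 1 - z) = z' - z := div_mul_cancel₀ _ hp.ne'
      have e : ∑ x, π x * (if N x = a then t else 1) = z' - a := by
        rw [sum_congr_pos (G := fun x => (t - (1 - t) * a) + 0 * 0 + (1 - t) * N x) hπ
          fun x hx => ?_, lin fun _ => 0]
        · linear_combination t1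
        · split_ifs with h1
          · rw [h1]; ring
          · rw [two x hx h1]; ring
      refine ⟨fun x => if N x = a then t else 1, fun x => ?_, e, up _ e fun x hx => ?_⟩
      · beta_reduce
        split_ifs
        · exact ⟨div_nonneg (by linarith) hp.le, (div_le_one hp).2 (by linarith)⟩
        · exact ⟨zero_le_one, le_rfl⟩
      · split_ifs with h1
        · rw [h1]; simp
        · rw [two x hx h1]; simp
    · have hp : 0 < z - a := by linarith
      set t := (z' - a) / (z - a) with ht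
      have t1 : t * (z - a) = z' - a := div_mul_cancel₀ _ hp.ne'
      have e : ∑ x, π x * (if N x = a then 0 else t) = z' - a := by
        rw [sum_congr_pos (G := fun x => (-t * a) + 0 * 0 + t * N x) hπ
          fun x hx => ?_, lin fun _ => 0]
        · linear_combination t1
        · split_ifs with h1
          · rw [h1]; ring
          · rw [two x hx h1]; ring
      refine ⟨fun x => if N x = a then 0 else t, fun x => ?_, e, dn _ e fun x hx => ?_⟩
      · beta_reduce
        split_ifs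
        · exact ⟨le_rfl, zero_le_one⟩
        · exact ⟨div_nonneg (by linarith) hp.le, (div_le_one hp).2 (by linarith)⟩
      · split_ifs with h1
        · rw [h1]; simp
        · rw [two x hx h1]; simp; ring
  · refine ⟨fun _ => z' - a', fun _ => ⟨by linarith, by linarith⟩, hc, dn _ hc fun x hx => ?_⟩
    have : (a' : ℝ) + 1 ≤ N x := by exact_mod_cast le_trans h (hN x hx).1
    rw [abs_of_nonneg (by linarith), abs_of_nonneg (by linarith)]; ring

variable {Λ : Type} [Fintype Λ]

theorem sum_suffix {u l : List Λ} (h : u.length < l.length) :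
    ∑ c, (if c :: u <:+ l then 1 else 0 : ℕ) = if u <:+ l then 1 else 0 := by
  split_ifs with h1
  · obtain ⟨t, rfl⟩ := h1
    rcases List.eq_nil_or_concat t with rfl | ⟨t', c0, rfl⟩
    · simp at h
    · have h2 : c0 :: u <:+ t'.concat c0 ++ u := ⟨t', by simp⟩
      rw [sum_eq_single c0, if_pos h2]
      · intro c _ hc
        rw [if_neg]
        intro h3
        exact hc (List.cons.inj ((List.suffix_of_suffix_length_le h3 h2 (by simp)).eq_of_length
          (by simp))).1
      · simp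
  · exact sum_eq_zero fun c _ => if_neg fun h2 => h1 ((List.suffix_cons c u).trans h2)

theorem cntAt_cons {k D : ℕ} (C : Cfg k Λ D) {u : List Λ} (hu : u.length < D) :
    ∑ c, cntAt C (c :: u) = cntAt C u := by
  simp only [cntAt, card_filter]
  rw [sum_comm]
  exact sum_congr rfl fun i _ => sum_suffix (by simpa using hu)

omit [Fintype Λ] in
theorem cntAt_nil {k D : ℕ} (C : Cfg k Λ D) : cntAt C [] = k := by simp [cntAt]

noncomputable def AA (D : ℕ) (N m : List Λ → ℝ) : ℝ :=
  ∑ d ∈ range D, (1 / 2 : ℝ) ^ d * ∑ u ∈ lists Λ (d + 1), |N u - m u|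

noncomputable def BB (D : ℕ) (m : List Λ → ℝ) : ℝ :=
  ∑ d ∈ range D, (1 / 2 : ℝ) ^ d * ∑ u ∈ lists Λ d, |m u - ∑ c, m (c :: u)|

theorem BB_nonneg (D : ℕ) (m : List Λ → ℝ) : 0 ≤ BB D m :=
  sum_nonneg fun _ _ => mul_nonneg (by positivity) (sum_nonneg fun _ _ => abs_nonneg _)

theorem BB_le (D : ℕ) (N m : List Λ → ℝ) (hN : ∀ u, u.length < D → ∑ c, N (c :: u) = N u) :
    BB D m ≤ |N [] - m []| + 3 / 2 * AA D N m := by
  set Q : ℕ → ℝ := fun d => ∑ u ∈ lists Λ d, |N u - m u| with hQ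
  have h1 : BB D m ≤ ∑ d ∈ range D, (1 / 2 : ℝ) ^ d * (Q d + Q (d + 1)) := by
    refine sum_le_sum fun d hd => mul_le_mul_of_nonneg_left ?_ (by positivity)
    simp only [hQ]
    rw [sum_lists_succ, ← sum_add_distrib]
    refine sum_le_sum fun u hu => ?_
    have e : m u - ∑ c, m (c :: u) = -(N u - m u) + ∑ c, (N (c :: u) - m (c :: u)) := by
      rw [sum_sub_distrib, hN u (by rw [mem_lists.1 hu]; exact mem_range.1 hd)]; ring
    rw [e]
    refine (abs_add_le _ _).trans (add_le_add (abs_neg _).le (abs_sum_le_sum_abs _ _))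
  have h2 : ∑ d ∈ range (D + 1), (1 / 2 : ℝ) ^ d * Q d =
      |N [] - m []| + 1 / 2 * AA D N m := by
    rw [sum_range_succ', AA, mul_sum (range D), add_comm]
    refine congrArg₂ _ (by simp [hQ, lists_zero]) (sum_congr rfl fun d _ => ?_)
    rw [pow_succ]; ring
  rw [sum_range_succ] at h2
  have h3 : 0 ≤ (1 / 2 : ℝ) ^ D * Q D :=
    mul_nonneg (by positivity) (sum_nonneg fun _ _ => abs_nonneg _)
  simp only [mul_add, sum_add_distrib] at h1
  have h4 : ∑ d ∈ range D, (1 / 2 : ℝ) ^ d * Q (d + 1) = AA D N m := rfl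
  linarith

theorem sum_ind (D j e : ℕ) (w : List Λ) (hw : w.length = e + j) :
    ∑ d ∈ range D, (1 / 2 : ℝ) ^ d * ∑ v ∈ lists Λ (d + j), (if v = w then 1 else 0) =
      if e < D then (1 / 2 : ℝ) ^ e else 0 := by
  have : ∀ d, (1 / 2 : ℝ) ^ d * ∑ v ∈ lists Λ (d + j), (if v = w then (1 : ℝ) else 0) =
      if d = e then (1 / 2 : ℝ) ^ d else 0 := fun d => by
    rw [sum_ite_eq', mul_ite, mul_one, mul_zero]
    exact if_congr (by rw [mem_lists]; omega) rfl rfl
  rw [sum_congr rfl fun d _ => this d, sum_ite_eq']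
  exact if_congr mem_range rfl rfl

theorem step {D : ℕ} (N m m' : List Λ → ℝ) (c : Λ) (u : List Λ) (σ : ℝ) (hu : u.length < D)
    (hσ : σ = 1 ∨ σ = -1) (h : ∀ v, m' v = m v + if v = c :: u then σ else 0)
    (hδ : 1 ≤ σ * (m u - ∑ c, m (c :: u))) :
    AA D N m' + 4 * BB D m' < AA D N m + 4 * BB D m := by
  have hσ' : |σ| = 1 := by rcases hσ with rfl | rfl <;> simp
  have h1 : AA D N m' ≤ AA D N m + (1 / 2 : ℝ) ^ u.length := by
    have := sum_ind D 1 u.length (c :: u) rfl
    rw [if_pos hu] at this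
    rw [← this, AA, AA, ← sum_add_distrib]
    refine sum_le_sum fun d _ => ?_
    rw [← mul_add, ← sum_add_distrib]
    refine mul_le_mul_of_nonneg_left (sum_le_sum fun v _ => ?_) (by positivity)
    rw [h, ← sub_sub]
    refine (abs_sub _ _).trans (add_le_add le_rfl ?_)
    split_ifs
    exacts [hσ'.le, abs_zero.le]
  have h2 : BB D m' + (1 / 2 : ℝ) ^ u.length ≤ BB D m + (1 / 2 : ℝ) ^ (u.length + 1) := by
    have e1 := sum_ind D 0 u.length u rfl
    have e2 := sum_ind D 0 (u.length + 1) (c :: u) rfl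
    rw [if_pos hu] at e1
    have e3 : (if u.length + 1 < D then (1 / 2 : ℝ) ^ (u.length + 1) else 0) ≤
        (1 / 2 : ℝ) ^ (u.length + 1) := by
      split_ifs
      exacts [le_rfl, by positivity]
    refine le_trans ?_ (add_le_add le_rfl e3)
    rw [← e1, ← e2, BB, BB, ← sum_add_distrib, ← sum_add_distrib]
    refine sum_le_sum fun d _ => ?_
    rw [← mul_add, ← mul_add, add_zero, ← sum_add_distrib, ← sum_add_distrib]
    refine mul_le_mul_of_nonneg_left (sum_le_sum fun v _ => ?_) (by positivity)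
    have e4 : ∑ c', m' (c' :: v) = ∑ c', m (c' :: v) + if v = u then σ else 0 := by
      simp only [h, sum_add_distrib, List.cons.injEq]
      by_cases hv : v = u <;> simp [hv]
    rw [e4, h]
    by_cases hv : v = u
    · subst hv
      rw [if_neg (List.cons_ne_self c v).symm, if_pos rfl, if_pos rfl,
        if_neg (List.cons_ne_self c v).symm]
      rcases hσ with rfl | rfl
      · rw [abs_of_nonneg (by linarith), abs_of_nonneg (by linarith)]; linarith
      · rw [abs_of_nonpos (by linarith), abs_of_nonpos (by linarith)]; linarith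
    · rw [if_neg hv, if_neg hv, add_zero, add_zero, add_sub_right_comm]
      refine (abs_add_le _ _).trans (add_le_add le_rfl ?_)
      split_ifs
      exacts [hσ'.le, abs_zero.le]
  have h3 : 0 < (1 / 2 : ℝ) ^ u.length := by positivity
  rw [pow_succ] at h2
  linarith

/-- The nodes of depth at most `D`. -/
abbrev Nd (Λ : Type) (D : ℕ) : Type := {u : List Λ // u.length ≤ D}

noncomputable instance (D : ℕ) : Fintype (Nd Λ D) := (List.finite_length_le Λ D).fintype

/-- The target counts. -/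
noncomputable def tg {D : ℕ} (Z : List Λ → ℝ) (b : Nd Λ D → Bool) (u : List Λ) : ℕ :=
  ⌊Z u⌋₊ + if h : u.length ≤ D then (b ⟨u, h⟩).toNat else 0

omit [Fintype Λ] in
theorem tg_eq {D : ℕ} (Z : List Λ → ℝ) (b : Nd Λ D → Bool) {u : List Λ} (h : u.length ≤ D) :
    tg Z b u = ⌊Z u⌋₊ + (b ⟨u, h⟩).toNat := by rw [tg, dif_pos h]

omit [Fintype Λ] in
theorem tg_update {D : ℕ} (Z : List Λ → ℝ) (b : Nd Λ D → Bool) (w : Nd Λ D) (β : Bool)
    (v : List Λ) : (tg Z (Function.update b w β) v : ℝ) =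
      tg Z b v + if v = w.1 then (β.toNat : ℝ) - (b w).toNat else 0 := by
  by_cases h : v.length ≤ D
  · rw [tg_eq _ _ h, tg_eq _ _ h]
    split_ifs with e
    · obtain rfl : w = ⟨v, h⟩ := Subtype.ext e.symm
      rw [Function.update_self]; push_cast; ring
    · rw [Function.update_of_ne fun e' => e (congrArg Subtype.val e'), add_zero]
  · rw [tg, tg, dif_neg h, dif_neg h, if_neg (fun e : v = w.1 => h (e ▸ w.2))]
    exact (add_zero _).symm

theorem exists_law {k D : ℕ} {Z Z' : List Λ → ℝ} {π : Cfg k Λ D → ℝ} (hc : Cons k D Z')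
    (hb : Bal Z π) : ∃ g : Cfg k Λ D × (Nd Λ D → Bool) → ℝ, (∀ s, 0 ≤ g s) ∧
      (∀ C, ∑ b, g (C, b) = π C) ∧ (∀ u, u.length ≤ D → ∑ s, g s * tg Z' s.2 u = Z' u) ∧
      (∀ s, 0 < g s → ∀ u, u.length < D → ∑ c, tg Z' s.2 (c :: u) = tg Z' s.2 u) ∧
      ∑ s, g s * AA D (fun u => cntAt s.1 u) (fun u => tg Z' s.2 u) ≤ 7 * AA D Z' Z := by
  obtain ⟨p0, p1, p2, p3⟩ := hb
  choose κ k0 k1 k2 using fun v : Nd Λ D => kernel π p0 p1 (fun C => cntAt C v.1) (Z v.1) (Z' v.1)
    (hc.2.1 _) (fun C hC => p2 C hC _ v.2) (p3 _ v.2)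
  let K : Cfg k Λ D → Nd Λ D → Bool → ℝ := fun C v β => if β then κ v C else 1 - κ v C
  have hK : ∀ C v, ∑ β, K C v β = 1 := fun C v => by simp [K]
  let g0 : Cfg k Λ D × (Nd Λ D → Bool) → ℝ := fun s => π s.1 * ∏ v, K s.1 v (s.2 v)
  have g1 : ∀ s, 0 ≤ g0 s := fun s => mul_nonneg (p0 _) (prod_nonneg fun v _ => by
    simp only [K]
    split_ifs
    exacts [(k0 v _).1, sub_nonneg.2 (k0 v _).2])
  have g2 : ∀ (v : Nd Λ D) (F : Cfg k Λ D → Bool → ℝ), ∑ s, g0 s * F s.1 (s.2 v) =
      ∑ C, π C * ((1 - κ v C) * F C false + κ v C * F C true) := fun v F => by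
    rw [Fintype.sum_prod_type]
    refine sum_congr rfl fun C _ => ?_
    simp only [g0, mul_assoc, ← mul_sum]
    rw [sum_prod_mul _ (hK C) v (F C)]
    simp [K, add_comm]
  have g3 : ∀ u, u.length ≤ D → ∑ s, g0 s * |(cntAt s.1 u : ℝ) - tg Z' s.2 u| ≤ |Z' u - Z u| := by
    intro u hu
    simp only [tg_eq _ _ hu]
    rw [g2 ⟨u, hu⟩ fun C β => |(cntAt C u : ℝ) - (⌊Z' u⌋₊ + β.toNat : ℕ)|]
    simpa using k2 ⟨u, hu⟩
  have g4 : ∀ C, ∑ b, g0 (C, b) = π C := fun C => by
    simp only [g0, ← mul_sum]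
    rw [sum_prod_one _ (hK C), mul_one]
  obtain ⟨g, h1, h2, h3, h4, h5⟩ := exists_min (ι := Cfg k Λ D ⊕ Nd Λ D)
    (Sum.elim (fun C s => if s.1 = C then 1 else 0) fun v s => ((s.2 v).toNat : ℝ))
    (fun s => AA D (fun u => cntAt s.1 u) (fun u => tg Z' s.2 u) + 4 * BB D fun u => tg Z' s.2 u)
    g0 g1
  have h6 : ∑ s, g s = 1 := by
    rw [h2, Fintype.sum_prod_type, ← p1]
    exact sum_congr rfl fun C _ => g4 C
  have h7 : ∀ u, u.length ≤ D → ∑ s, g s * tg Z' s.2 u = Z' u := fun u hu => by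
    have e1 := h3 (Sum.inr ⟨u, hu⟩)
    simp only [Sum.elim_inr] at e1
    rw [g2 ⟨u, hu⟩ fun _ β => (β.toNat : ℝ)] at e1
    simp only [Bool.toNat_false, Bool.toNat_true, Nat.cast_zero, Nat.cast_one, mul_zero, mul_one,
      zero_add, k1] at e1
    simp only [tg_eq _ _ hu, Nat.cast_add, mul_add, sum_add_distrib, ← sum_mul, h6, e1]
    ring
  refine ⟨g, h1, fun C => ?_, h7, fun s hs u hu => ?_, ?_⟩
  · have e1 := h3 (Sum.inl C)
    simp only [Sum.elim_inl, Fintype.sum_prod_type, mul_ite, mul_one, mul_zero] at e1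
    rw [sum_comm, sum_comm (f := fun x y => if x = C then g0 (x, y) else 0)] at e1
    simpa [g4] using e1
  · have m0 : ∑ s, g s * ((tg Z' s.2 u : ℝ) - ∑ c, (tg Z' s.2 (c :: u) : ℝ)) = 0 := by
      simp only [mul_sub, sum_sub_distrib, mul_sum]
      rw [sum_comm, h7 u hu.le, sum_congr rfl fun c _ => h7 (c :: u) hu, hc.2.2 u hu, sub_self]
    have key : ∀ s1 s2, 0 < g s1 → 0 < g s2 → ∑ c, tg Z' s1.2 (c :: u) < tg Z' s1.2 u →
        tg Z' s2.2 u < ∑ c, tg Z' s2.2 (c :: u) → False := by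
      intro s1 s2 q1 q2 r1 r2
      have r3 : tg Z' s1.2 u ≤ tg Z' s2.2 u + 1 := by
        rw [tg_eq _ _ hu.le, tg_eq _ _ hu.le]
        have := Bool.toNat_le (s1.2 ⟨u, hu.le⟩)
        omega
      obtain ⟨c, -, hc'⟩ := exists_lt_of_sum_lt (show ∑ c, tg Z' s1.2 (c :: u) <
        ∑ c, tg Z' s2.2 (c :: u) by omega)
      let w : Nd Λ D := ⟨c :: u, hu⟩
      rw [tg_eq _ _ w.2, tg_eq _ _ w.2] at hc'
      change _ + (s1.2 w).toNat < _ + (s2.2 w).toNat at hc'
      have b1 : s1.2 w = false := by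
        cases e1 : s1.2 w
        · rfl
        · have := Bool.toNat_le (s2.2 w)
          rw [e1, Bool.toNat_true] at hc'
          omega
      have b2 : s2.2 w = true := by
        cases e2 : s2.2 w
        · rw [e2, Bool.toNat_false] at hc'
          omega
        · rfl
      have h8 := h5 s1 s2 (s1.1, Function.update s1.2 w true) (s2.1, Function.update s2.2 w false)
        (fun e => by rw [e, b2] at b1; exact absurd b1 (by simp)) q1 q2 (by
          rintro (C | v)
          · rfl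
          · simp only [Sum.elim_inr]
            by_cases hv : v = w
            · subst hv
              simp [b1, b2]
            · rw [Function.update_of_ne hv, Function.update_of_ne hv])
      have t1 := step (D := D) (fun u => cntAt s1.1 u) (fun u => tg Z' s1.2 u)
        (fun u => tg Z' (Function.update s1.2 w true) u) c u 1 hu (Or.inl rfl)
        (fun v => by rw [tg_update, b1]; simp [w]) (by
          have : ((∑ c, tg Z' s1.2 (c :: u) + 1 : ℕ) : ℝ) ≤ tg Z' s1.2 u := by exact_mod_cast r1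
          push_cast at this
          linarith)
      have t2 := step (D := D) (fun u => cntAt s2.1 u) (fun u => tg Z' s2.2 u)
        (fun u => tg Z' (Function.update s2.2 w false) u) c u (-1) hu (Or.inr rfl)
        (fun v => by rw [tg_update, b2]; simp [w]) (by
          have : ((tg Z' s2.2 u + 1 : ℕ) : ℝ) ≤ (∑ c, tg Z' s2.2 (c :: u) : ℕ) := by
            exact_mod_cast r2
          push_cast at this
          linarith)
      simp only at h8
      linarith
    rcases lt_trichotomy (∑ c, tg Z' s.2 (c :: u)) (tg Z' s.2 u) with h | h | h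
    · obtain ⟨s2, q2, r2⟩ := exists_neg_of_sum h1 m0 hs (sub_pos.2 (by exact_mod_cast h))
      exact (key s s2 hs q2 h (by exact_mod_cast sub_neg.1 r2)).elim
    · exact h
    · obtain ⟨s2, q2, r2⟩ := exists_neg_of_sum
        (F := fun s => ∑ c, (tg Z' s.2 (c :: u) : ℝ) - tg Z' s.2 u) h1 (by
          rw [← neg_eq_zero, ← m0, ← sum_neg_distrib]
          exact sum_congr rfl fun s _ => by ring) hs (sub_pos.2 (by exact_mod_cast h))
      exact (key s2 s q2 hs (by exact_mod_cast sub_neg.1 r2) h).elim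
  · refine le_trans (sum_le_pos h1 fun s _ => le_add_of_nonneg_right
      (mul_nonneg (by norm_num) (BB_nonneg _ _))) (h4.trans ?_)
    have e0 : ∑ s, g0 s * |(cntAt s.1 [] : ℝ) - tg Z' s.2 []| ≤ 0 := by
      have e1 := p3 [] (Nat.zero_le _)
      simp only [cntAt_nil, ← sum_mul, p1, one_mul] at e1
      simpa only [hc.1, ← e1, sub_self, abs_zero] using g3 [] (Nat.zero_le _)
    have e1 : ∑ s, g0 s * AA D (fun u => cntAt s.1 u) (fun u => tg Z' s.2 u) ≤ AA D Z' Z := by
      simp only [AA, mul_sum]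
      rw [sum_comm]
      refine sum_le_sum fun d hd => ?_
      rw [sum_comm]
      refine sum_le_sum fun u hu => ?_
      simp only [mul_left_comm (g0 _), ← mul_sum]
      exact mul_le_mul_of_nonneg_left (g3 u (by rw [mem_lists.1 hu]; exact mem_range.1 hd))
        (by positivity)
    refine le_trans (sum_le_pos (G := fun s => 4 * |(cntAt s.1 [] : ℝ) - tg Z' s.2 []| +
      7 * AA D (fun u => cntAt s.1 u) (fun u => tg Z' s.2 u)) g1 fun s _ => ?_) ?_
    · have := BB_le D (fun u => cntAt s.1 u) (fun u => tg Z' s.2 u) fun u hu => by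
        exact_mod_cast cntAt_cons s.1 hu
      linarith
    · simp only [mul_add, sum_add_distrib, mul_left_comm (g0 _), ← mul_sum]
      linarith

end Round

open Round in
theorem round (h : MatchStmt) : RoundStmt := by
  intro k D Λ _ Z Z' π hc hb
  obtain ⟨g, h1, h2, h3, h4, h5⟩ := exists_law hc hb
  have h6 : ∑ s, g s = 1 := by
    rw [Fintype.sum_prod_type, ← hb.2.1]
    exact sum_congr rfl fun C _ => h2 C
  have hroot : ∀ s, 0 < g s → tg Z' s.2 [] = k := fun s hs => by
    have e : ∀ s : Cfg k Λ D × (Nd Λ D → Bool), k ≤ tg Z' s.2 [] := fun s => by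
      rw [tg_eq _ _ (Nat.zero_le _), hc.1, Nat.floor_natCast]; omega
    by_contra hne
    obtain ⟨y, -, hy⟩ := exists_neg_of_sum (F := fun s => (tg Z' s.2 [] : ℝ) - k) h1 (by
      simp only [mul_sub, sum_sub_distrib, ← sum_mul, h6, h3 [] (Nat.zero_le _), hc.1, one_mul,
        sub_self]) hs (sub_pos.2 (by exact_mod_cast lt_of_le_of_ne (e s) (Ne.symm hne)))
    exact absurd (e y) (not_le.2 (by exact_mod_cast sub_neg.1 hy))
  have hm : ∀ s : Cfg k Λ D × (Nd Λ D → Bool), ∃ C' : Cfg k Λ D, 0 < g s →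
      (∀ u, u.length ≤ D → cntAt C' u = tg Z' s.2 u) ∧
      ∑ i, tdist D (s.1 i).toList (C' i).toList ≤
        AA D (fun u => cntAt s.1 u) (fun u => tg Z' s.2 u) := fun s => by
    by_cases hs : 0 < g s
    · exact (h k D Λ s.1 _ (hroot s hs) (h4 s hs)).imp fun _ hC _ => hC
    · exact ⟨s.1, fun h' => absurd h' hs⟩
  choose mt hmt using hm
  have key : ∀ F : Cfg k Λ D → Cfg k Λ D → ℝ,
      ∑ C, ∑ C', (∑ b, if mt (C, b) = C' then g (C, b) else 0) * F C C' =
        ∑ s, g s * F s.1 (mt s) := fun F => by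
    rw [Fintype.sum_prod_type]
    refine sum_congr rfl fun C _ => ?_
    simp only [sum_mul]
    rw [sum_comm]
    simp
  have nn : ∀ C C', 0 ≤ ∑ b, if mt (C, b) = C' then g (C, b) else 0 := fun C C' =>
    sum_nonneg fun b _ => by split_ifs; exacts [h1 _, le_rfl]
  refine ⟨fun C C' => ∑ b, if mt (C, b) = C' then g (C, b) else 0, nn, fun C => ?_,
    ⟨fun C' => sum_nonneg fun C _ => nn C C', ?_, fun C' hC' u hu => ?_, fun u hu => ?_⟩, ?_⟩
  · rw [sum_comm, ← h2]
    simp
  · have := key fun _ _ => 1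
    simp only [mul_one] at this
    rw [sum_comm, this, h6]
  · obtain ⟨C, -, hC⟩ := exists_lt_of_sum_lt (s := univ) (f := fun _ => (0 : ℝ))
      (by simpa using hC')
    obtain ⟨b, -, hb'⟩ := exists_lt_of_sum_lt (s := univ) (f := fun _ => (0 : ℝ))
      (by simpa using hC)
    split_ifs at hb' with e
    · rw [← e, (hmt _ hb').1 u hu, tg_eq _ _ hu]
      have := Bool.toNat_le (b ⟨u, hu⟩)
      simp only
      omega
    · exact absurd hb' (lt_irrefl _)
  · simp only [sum_mul (s := univ) (f := fun C => ∑ b, if mt (C, b) = _ then g (C, b) else 0)]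
    rw [sum_comm, key fun _ C' => (cntAt C' u : ℝ), ← h3 u hu]
    exact sum_congr_pos h1 fun s hs => by rw [(hmt s hs).1 u hu]
  · rw [key]
    exact (sum_le_pos h1 fun s hs => (hmt s hs).2).trans h5

end Vale.Agent.P304
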