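import Vale.Agent.P304.Stmts

namespace Vale.Agent.P304

open Finset
open scoped Classical

/-- the metric divided by `ρ` -/
@[reducible] noncomputable def scaled {Y : Type} (m : MetricSpace Y) (ρ : ℝ) (hρ : 0 < ρ) :
    MetricSpace Y where
  dist x y := @dist Y m.toDist x y / ρ
  dist_self x := by simp
  dist_comm x y := by rw [dist_comm]
  dist_triangle x y z := by
    rw [← add_div]; exact div_le_div_of_nonneg_right (dist_triangle x y z) hρ.le
  eq_of_dist_eq_zero := by
    intro x y h
    rcases div_eq_zero_iff.mp h with h | h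
    · exact eq_of_dist_eq_zero h
    · exact absurd h hρ.ne'

theorem scale (h : ScaleOneStmt) : ScaleStmt := by
  obtain ⟨C, hC, h⟩ := h
  refine ⟨C, hC, ?_⟩
  intro k hk Y Ω _ m _ G T ρ hρ
  obtain ⟨lab, anc, h1, h2, h3⟩ := @h k hk Y Ω _ (scaled m ρ hρ) _ G T
  refine ⟨lab, anc, ?_, ?_, ?_⟩
  · intro l hl y
    have := h1 l hl y
    change @dist Y m.toDist _ _ / ρ ≤ 11 at this
    rwa [div_le_iff₀ hρ] at this
  · intro r l hl y y' hy
    have := h2 r l hl y y' hy
    change @dist Y m.toDist _ _ / ρ ≤ 50 at this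
    rwa [div_le_iff₀ hρ] at this
  · have e1 : ∀ t ω, @Game.chg k Y Ω _ _ G (scaled m ρ hρ) lab anc 1 t ω =
        G.chg lab anc ρ t ω := by
      intro t ω
      unfold Game.chg Game.lbad
      congr 1
      refine Finset.sum_congr rfl fun i _ => if_congr (or_congr Iff.rfl ?_) rfl rfl
      change 4 * 1 ≤ @dist Y m.toDist _ _ / ρ ∧ @dist Y m.toDist _ _ / ρ ≤ 3 * 1 ↔ _
      rw [le_div_iff₀ hρ, div_le_iff₀ hρ, mul_one, mul_one]
    have e2 : ∀ t ω, @Game.charge k Y Ω _ (scaled m ρ hρ) _ G 1 t ω = G.charge ρ t ω := by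
      intro t ω
      unfold Game.charge Game.ell
      simp only [div_one]
      rfl
    simpa only [e1, e2] using h3

end Vale.Agent.P304
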