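import Vale.Agent.P304.ScaleA

namespace Vale.Agent.P304

open Finset
open scoped Classical

namespace ScaleOne

theorem qq_nonneg {Y : Type} [Fintype Y] {μ dx : Y → ℝ} (hμ : ∀ y, 0 ≤ μ y)
    (hd : ∀ y, 0 ≤ dx y) : 0 ≤ qq μ dx := by
  unfold qq
  split_ifs with h
  · exact le_min zero_le_one (div_nonneg (Finset.sum_nonneg fun y _ =>
      mul_nonneg (hμ y) (Sums.psi_nonneg (hd y))) (by linarith))
  · exact le_rfl

theorem telescope (T : ℕ) (a b Φ : ℕ → ℝ) (h : ∀ t < T, a t + Φ (t + 1) - Φ t ≤ b t)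
    (h0 : Φ 0 ≤ 0) (hT : 0 ≤ Φ T) : ∑ t ∈ range T, a t ≤ ∑ t ∈ range T, b t := by
  have h1 : ∑ t ∈ range T, (a t + (Φ (t + 1) - Φ t)) ≤ ∑ t ∈ range T, b t :=
    Finset.sum_le_sum fun t ht => by have := h t (mem_range.mp ht); linarith
  rw [Finset.sum_add_distrib, Finset.sum_range_sub] at h1
  linarith

variable {k : ℕ} {Y Ω : Type} [Fintype Y] [MetricSpace Y] [Fintype Ω] (G : Game k Y Ω)

/-- the exported properties of the cores -/
structure CP (S : List Y → Finset Y) (tag : List Y → Y → ℕ) (Zn : List Y → Finset Y) : Prop where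
  init : S [] = {G.s0}
  sep : ∀ l, Sep (S l)
  inj : ∀ l, Set.InjOn (tag l) (S l)
  tle : ∀ l, ∀ a ∈ S l, tag l a ≤ l.length
  rel : ∀ r l, CoreRel (S l) (tag l) (S (r :: l)) (tag (r :: l)) (Zn (r :: l))
  hvy : ∀ r l, Hvy (G.mu (r :: l)) r → ∃ a ∈ S (r :: l), dist r a ≤ 7

noncomputable def zc (Zn : List Y → Finset Y) (t : ℕ) (ω : Ω) : ℝ :=
  ∑ i, if G.o t ω i ∈ Zn (G.hist (t + 1) ω) then 1 else 0

noncomputable def nh (t : ℕ) (ω : Ω) : ℝ :=
  if Hvy (G.mu (G.hist (t + 1) ω)) (G.req t ω) then 0 else min 1 (G.ell t ω)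

noncomputable def rs (S : List Y → Finset Y) (t : ℕ) (ω : Ω) : ℝ :=
  if Reset (2 * k + 1) S (G.req t ω) (G.hist t ω) then 1 else 0

omit [Fintype Y] [MetricSpace Y] in
theorem zc_nonneg (Zn : List Y → Finset Y) (t : ℕ) (ω : Ω) : 0 ≤ zc G Zn t ω :=
  Finset.sum_nonneg fun _ _ => by split_ifs <;> norm_num

theorem nh_nonneg (t : ℕ) (ω : Ω) : 0 ≤ nh G t ω := by
  unfold nh; split_ifs
  · exact le_rfl
  · exact le_min zero_le_one (G.ell_nonneg t ω)

variable {G} {S : List Y → Finset Y} {tag : List Y → Y → ℕ} {Zn : List Y → Finset Y}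

theorem reset_step (h : CP G S tag Zn) (t : ℕ) (ω : Ω) :
    k * rs G S t ω + (((ctr (2 * k + 1) S (G.hist (t + 1) ω)).length : ℝ) +
      ∑ i, aa (ctr (2 * k + 1) S (G.hist (t + 1) ω)) (S (G.hist (t + 1) ω)) (G.o (t + 1) ω i)) -
      (((ctr (2 * k + 1) S (G.hist t ω)).length : ℝ) +
      ∑ i, aa (ctr (2 * k + 1) S (G.hist t ω)) (S (G.hist t ω)) (G.o t ω i)) ≤
      zc G Zn t ω + 2 * nh G t ω := by
  have hz := zc_nonneg G Zn t ω
  have hn := nh_nonneg G t ω
  rw [G.hist_succ]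
  set l := G.hist t ω with hl
  set x := G.req t ω with hx
  set z := G.o t ω (G.idx t ω) with hzdef
  have hrel := h.rel x l
  by_cases hR : Reset (2 * k + 1) S x l
  · have e1 : rs G S t ω = 1 := if_pos hR
    have e2 : ∑ i, aa (ctr (2 * k + 1) S (x :: l)) (S (x :: l)) (G.o (t + 1) ω i) ≤ k := by
      refine (Finset.sum_le_sum fun i _ => aa_le_one _ _ _).trans ?_
      simp
    have e3 : 0 ≤ ∑ i, aa (ctr (2 * k + 1) S l) (S l) (G.o t ω i) :=
      Finset.sum_nonneg fun i _ => aa_nonneg _ _ _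
    have e4 : (2 * k + 1 : ℝ) ≤ (ctr (2 * k + 1) S l).length := by
      have := not_lt.mp hR.2
      exact_mod_cast this
    have e5 : ((ctr (2 * k + 1) S (x :: l)).length : ℝ) = 1 := by rw [ctr_reset hR]; simp
    rw [e1, e5]; linarith
  · have e1 : rs G S t ω = 0 := if_neg hR
    have hzc : zc G Zn t ω = ∑ i, if G.o t ω i ∈ Zn (x :: l) then 1 else 0 := rfl
    have hnh : nh G t ω = if Hvy (G.mu (x :: l)) x then 0 else min 1 (dist z x) := rfl
    by_cases hK : Keep (2 * k + 1) S x l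
    · have e2 := G.sum_o_succ t ω (aa (ctr (2 * k + 1) S l) (S (x :: l)))
      have e3 : ∑ i, aa (ctr (2 * k + 1) S l) (S (x :: l)) (G.o t ω i) ≤
          ∑ i, aa (ctr (2 * k + 1) S l) (S l) (G.o t ω i) + zc G Zn t ω := by
        rw [hzc, ← Finset.sum_add_distrib]
        refine Finset.sum_le_sum fun i _ => ?_
        have := aa_rel hrel (ctr (2 * k + 1) S l) [] (G.o t ω i)
        rwa [List.append_nil] at this
      have e4 : aa (ctr (2 * k + 1) S l) (S (x :: l)) x ≤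
          aa (ctr (2 * k + 1) S l) (S (x :: l)) z + 2 * nh G t ω := by
        rw [hnh]
        split_ifs with hH
        · obtain ⟨a, ha, h7⟩ := h.hvy x l hH
          have := aa_nonneg (ctr (2 * k + 1) S l) (S (x :: l)) z
          rw [aa, cd_eq_zero ha (by linarith)]
          linarith
        · exact aa_lip _ _ _ _
      rw [e1, ctr_keep hK, e2]
      linarith
    · have hlt : (ctr (2 * k + 1) S l).length < 2 * k + 1 := by
        by_contra h'; exact hR ⟨hK, h'⟩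
      have hH : ¬ Hvy (G.mu (x :: l)) x := fun hH => by
        obtain ⟨a, ha, h7⟩ := h.hvy x l hH
        exact hK (Or.inl ⟨a, ha, by linarith⟩)
      set c := ctr (2 * k + 1) S l with hc
      have m1 : md c x = 1 := by
        refine le_antisymm (md_le_one _ _) (le_mdg _ _ le_rfl fun y hy => ?_)
        by_contra h'
        exact hK (Or.inr ⟨y, hy, (not_le.mp h').le⟩)
      have m2 : cd (S (x :: l)) x = 1 := by
        refine le_antisymm (cd_le_one _ _) (le_mdg _ _ le_rfl fun y hy => ?_)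
        refine le_max_of_le_right ?_
        by_contra h'
        exact hK (Or.inl ⟨y, Finset.mem_toList.mp hy, by linarith [not_le.mp h']⟩)
      have m3 : aa (c ++ [x]) (S (x :: l)) x = 0 := by
        have : md (c ++ [x]) x = 0 := by
          refine le_antisymm ((mdg_le id x (z := x) (by simp)).trans (by simp)) (md_nonneg _ _)
        rw [aa, this, zero_mul]
      have m4 : 1 ≤ aa c (S (x :: l)) z + 2 * min 1 (dist z x) := by
        have := aa_lip c (S (x :: l)) z x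
        rwa [aa, m1, m2, mul_one] at this
      have e3 : ∑ i, (aa (c ++ [x]) (S (x :: l)) (G.o (t + 1) ω i) +
          if i = G.idx t ω then 1 - 2 * min 1 (dist z x) else 0) ≤
          ∑ i, (aa c (S l) (G.o t ω i) + if G.o t ω i ∈ Zn (x :: l) then 1 else 0) := by
        refine Finset.sum_le_sum fun i _ => ?_
        by_cases hi : i = G.idx t ω
        · rw [if_pos hi, hi, G.o_succ_idx, ← hx, m3, ← hzdef]
          have := aa_rel hrel c [] z
          rw [List.append_nil] at this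
          linarith
        · rw [if_neg hi, G.o_succ_ne t ω hi, add_zero]
          exact aa_rel hrel c [x] _
      rw [Finset.sum_add_distrib, Finset.sum_add_distrib, ← hzc] at e3
      simp only [Finset.sum_ite_eq', mem_univ, if_true] at e3
      rw [e1, ctr_app hK hlt, hnh, if_neg hH]
      simp only [List.length_append, List.length_singleton, Nat.cast_add, Nat.cast_one]
      linarith

theorem reset_sum (h : CP G S tag Zn) (T : ℕ) (ω : Ω) :
    ∑ t ∈ range T, k * rs G S t ω ≤ ∑ t ∈ range T, (zc G Zn t ω + 2 * nh G t ω) := by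
  refine telescope T _ _ (fun t => ((ctr (2 * k + 1) S (G.hist t ω)).length : ℝ) +
      ∑ i, aa (ctr (2 * k + 1) S (G.hist t ω)) (S (G.hist t ω)) (G.o t ω i))
    (fun t _ => reset_step h t ω) ?_ ?_
  · simp only [G.hist_zero, ctr, G.o_zero, List.length_nil, Nat.cast_zero, zero_add]
    refine (Finset.sum_eq_zero fun i _ => ?_).le
    rw [aa, cd_eq_zero (a := G.s0) (by simp [h.init]) (by simp), mul_zero]
  · exact add_nonneg (by positivity) (Finset.sum_nonneg fun i _ => aa_nonneg _ _ _)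

/-- the labelling for given radii -/
noncomputable def labL (k T : ℕ) (S : List Y → Finset Y) (tag : List Y → Y → ℕ) (R : ℝ)
    (rad : ℕ → ℝ) (l : List Y) (y : Y) : Y ⊕ Fin (T + 1) :=
  lab T (S l) (tag l) (ctr (2 * k + 1) S l) R rad y

noncomputable def ancL (T : ℕ) (s0 : Y) (S : List Y → Finset Y) (tag : List Y → Y → ℕ)
    (l : List Y) : Y ⊕ Fin (T + 1) → Y :=
  anc T s0 (S l) (tag l)

noncomputable def cut (G : Game k Y Ω) (T : ℕ) (S : List Y → Finset Y) (tag : List Y → Y → ℕ)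
    (R : ℝ) (rad : ℕ → ℝ) (t : ℕ) (ω : Ω) : ℝ :=
  if labL k T S tag R rad (G.hist (t + 1) ω) (G.o t ω (G.idx t ω)) =
    labL k T S tag R rad (G.hist (t + 1) ω) (G.req t ω) then 0 else 1

theorem chg_step (h : CP G S tag Zn) {T : ℕ} {R : ℝ} (hR : 10 ≤ R ∧ R ≤ 11) {rad : ℕ → ℝ}
    (hr : ∀ j, 2 ≤ rad j ∧ rad j ≤ 3) (t : ℕ) (ht : t < T) (ω : Ω) :
    G.chg (labL k T S tag R rad) (ancL T G.s0 S tag) 1 t ω +
      (∑ i, if Df (S (G.hist (t + 1) ω)) (ctr (2 * k + 1) S (G.hist (t + 1) ω)) R rad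
        (G.o (t + 1) ω i) then (1 : ℝ) else 0) -
      (∑ i, if Df (S (G.hist t ω)) (ctr (2 * k + 1) S (G.hist t ω)) R rad
        (G.o t ω i) then (1 : ℝ) else 0) ≤
      3 * zc G Zn t ω + 2 * (k * rs G S t ω) + cut G T S tag R rad t ω := by
  have e1 : G.lchg (labL k T S tag R rad) t ω ≤
      ∑ i, (if labL k T S tag R rad (G.hist t ω) (G.o t ω i) =
        labL k T S tag R rad (G.hist (t + 1) ω) (G.o t ω i) then (0 : ℝ) else 1) +
      cut G T S tag R rad t ω := by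
    have : cut G T S tag R rad t ω =
        ∑ i, if i = G.idx t ω then cut G T S tag R rad t ω else 0 := by simp
    rw [this, ← Finset.sum_add_distrib]
    refine Finset.sum_le_sum fun i _ => ?_
    by_cases hi : i = G.idx t ω
    · rw [if_pos hi, hi, G.o_succ_idx, cut]
      split_ifs <;> first | (norm_num; done) | simp_all
    · rw [if_neg hi, G.o_succ_ne t ω hi, add_zero]
      split_ifs <;> norm_num
  have e2 : G.lbad (labL k T S tag R rad) (ancL T G.s0 S tag) 1 t ω ≤ zc G Zn t ω := by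
    refine Finset.sum_le_sum fun i _ => ?_
    by_cases hi : G.o t ω i ∈ Zn (G.hist (t + 1) ω)
    · rw [if_pos hi]; split_ifs <;> norm_num
    · rw [if_neg hi, if_pos]
      exact good G.s0 (h.sep _) (h.inj _) (h.inj _)
        (fun a ha => (h.tle _ a ha).trans (by simp; omega)) (h.rel _ _) hR rad _ hi
  have e3 := G.sum_o_succ t ω fun y => if Df (S (G.hist (t + 1) ω))
    (ctr (2 * k + 1) S (G.hist (t + 1) ω)) R rad y then (1 : ℝ) else 0
  have e4 : ¬ Df (S (G.hist (t + 1) ω)) (ctr (2 * k + 1) S (G.hist (t + 1) ω)) R rad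
      (G.req t ω) := by
    intro hD
    rcases ctr_cover (2 * k + 1) S (G.req t ω) (G.hist t ω) with ⟨a, ha, h9⟩ | ⟨y, hy, h1⟩
    · exact hD.1 ⟨a, ha, by linarith [hR.1]⟩
    · exact not_unc (fun j => (hr j).1) (h1.trans (by norm_num)) hy hD.2
  have e5 : 0 ≤ if Df (S (G.hist (t + 1) ω)) (ctr (2 * k + 1) S (G.hist (t + 1) ω)) R rad
      (G.o t ω (G.idx t ω)) then (1 : ℝ) else 0 := by split_ifs <;> norm_num
  have e6 : ∑ i, ((if labL k T S tag R rad (G.hist t ω) (G.o t ω i) =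
        labL k T S tag R rad (G.hist (t + 1) ω) (G.o t ω i) then (0 : ℝ) else 1) +
      if Df (S (G.hist (t + 1) ω)) (ctr (2 * k + 1) S (G.hist (t + 1) ω)) R rad
        (G.o t ω i) then (1 : ℝ) else 0) ≤
      ∑ i, ((if Df (S (G.hist t ω)) (ctr (2 * k + 1) S (G.hist t ω)) R rad
        (G.o t ω i) then (1 : ℝ) else 0) +
        (2 * (if G.o t ω i ∈ Zn (G.hist (t + 1) ω) then 1 else 0) + 2 * rs G S t ω)) := by
    refine Finset.sum_le_sum fun i _ => ?_
    by_cases hi : G.o t ω i ∈ Zn (G.hist (t + 1) ω)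
    · rw [if_pos hi, rs]; split_ifs <;> norm_num
    · by_cases hres : Reset (2 * k + 1) S (G.req t ω) (G.hist t ω)
      · rw [if_neg hi, rs, if_pos hres]; split_ifs <;> norm_num
      · obtain ⟨c', hc'⟩ := ctr_ext hres
        rw [if_neg hi, rs, if_neg hres]
        have := relabel (T := T) (h.sep _) (h.sep _) (h.rel (G.req t ω) (G.hist t ω)) hR rad
          (ctr (2 * k + 1) S (G.hist t ω)) c' hi
        rw [← hc'] at this
        simp only [mul_zero, add_zero]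
        exact this
  simp only [Finset.sum_add_distrib, ← Finset.mul_sum, Finset.sum_const, card_univ,
    Fintype.card_fin, nsmul_eq_mul] at e6
  rw [if_neg e4] at e3
  have hzc : zc G Zn t ω = ∑ i, if G.o t ω i ∈ Zn (G.hist (t + 1) ω) then 1 else 0 := rfl
  rw [Game.chg, e3]
  linarith

theorem chg_sum (h : CP G S tag Zn) {T : ℕ} {R : ℝ} (hR : 10 ≤ R ∧ R ≤ 11) {rad : ℕ → ℝ}
    (hr : ∀ j, 2 ≤ rad j ∧ rad j ≤ 3) (ω : Ω) :
    ∑ t ∈ range T, G.chg (labL k T S tag R rad) (ancL T G.s0 S tag) 1 t ω ≤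
      ∑ t ∈ range T, (5 * zc G Zn t ω + 4 * nh G t ω) +
        ∑ t ∈ range T, cut G T S tag R rad t ω := by
  have h1 := telescope T _ _ (fun t => ∑ i, if Df (S (G.hist t ω))
    (ctr (2 * k + 1) S (G.hist t ω)) R rad (G.o t ω i) then (1 : ℝ) else 0)
    (fun t ht => chg_step h hR hr t ht ω) (by
      refine (Finset.sum_eq_zero fun i _ => if_neg fun hD => hD.1 ⟨G.s0, ?_, ?_⟩).le
      · simp [h.init]
      · simp only [G.o_zero, dist_self]; linarith [hR.1])
    (Finset.sum_nonneg fun i _ => by split_ifs <;> norm_num)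
  have h2 := reset_sum h T ω
  simp only [Finset.sum_add_distrib, ← Finset.mul_sum] at h1 h2 ⊢
  linarith

theorem cut_avg (h : CP G S tag Zn) (T : ℕ) {η κ : ℝ} (hκ : 0 ≤ κ)
    (hη : ∀ x y : Y, x ≠ y → η ≤ dist x y) {Ξ : Type} [Fintype Ξ] {w R : Ξ → ℝ}
    {rad : Ξ → ℕ → ℝ} (hw : ∀ ξ, 0 ≤ w ξ) (hw1 : ∑ ξ, w ξ = 1)
    (hR : ∀ ξ, 10 ≤ R ξ ∧ R ξ ≤ 11)
    (h1 : ∀ a b e : ℝ, η ≤ e → |a - b| ≤ e →
      ∑ ξ, w ξ * (if (a ≤ R ξ ↔ b ≤ R ξ) then 0 else 1) ≤ κ * e)
    (h2 : ∀ (c : List Y) (x z : Y), c.length ≤ 2 * k + 1 → η ≤ dist x z →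
      (∃ y ∈ c, dist x y ≤ 2 ∧ dist z y ≤ 2) →
      ∑ ξ, w ξ * (if cov (rad ξ) 0 c x = cov (rad ξ) 0 c z then 0 else 1) ≤ κ * dist x z)
    (t : ℕ) (ω : Ω) :
    ∑ ξ, w ξ * cut G T S tag (R ξ) (rad ξ) t ω ≤
      min 1 (G.ell t ω ^ 2) + 2 * κ * nh G t ω := by
  have hn := nh_nonneg G t ω
  have hm : 0 ≤ min 1 (G.ell t ω ^ 2) := le_min zero_le_one (sq_nonneg _)
  have hzero : (∀ ξ, cut G T S tag (R ξ) (rad ξ) t ω = 0) →
      ∑ ξ, w ξ * cut G T S tag (R ξ) (rad ξ) t ω ≤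
        min 1 (G.ell t ω ^ 2) + 2 * κ * nh G t ω := fun h0 => by
    simp only [h0, mul_zero, Finset.sum_const_zero]; positivity
  set l := G.hist t ω with hl
  set x := G.req t ω with hx
  set z := G.o t ω (G.idx t ω) with hz
  have hell : G.ell t ω = dist z x := rfl
  have hcut : ∀ ξ, cut G T S tag (R ξ) (rad ξ) t ω =
      if lab T (S (x :: l)) (tag (x :: l)) (ctr (2 * k + 1) S (x :: l)) (R ξ) (rad ξ) z =
        lab T (S (x :: l)) (tag (x :: l)) (ctr (2 * k + 1) S (x :: l)) (R ξ) (rad ξ) x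
      then 0 else 1 := fun ξ => rfl
  rcases le_total 1 (dist z x) with h3 | h3
  · have : min 1 (G.ell t ω ^ 2) = 1 := min_eq_left (by rw [hell]; nlinarith)
    have e : ∑ ξ, w ξ * cut G T S tag (R ξ) (rad ξ) t ω ≤ ∑ ξ, w ξ := by
      refine Finset.sum_le_sum fun ξ _ => mul_le_of_le_one_right (hw ξ) ?_
      rw [hcut]; split_ifs <;> norm_num
    have : 0 ≤ 2 * κ * nh G t ω := by positivity
    linarith
  by_cases hzx : z = x
  · exact hzero fun ξ => by rw [hcut, hzx, if_pos rfl]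
  by_cases h9 : ∃ a ∈ S (x :: l), dist x a ≤ 9
  · obtain ⟨a, ha, h9⟩ := h9
    refine hzero fun ξ => ?_
    have := dist_triangle z x a
    rw [hcut, lab_core (h.sep _) _ _ (hR ξ).2 _ ha (by linarith [(hR ξ).1]),
      lab_core (h.sep _) _ _ (hR ξ).2 _ ha (by linarith [(hR ξ).1]), if_pos rfl]
  have hH : ¬ Hvy (G.mu (x :: l)) x := fun hH => by
    obtain ⟨a, ha, h7⟩ := h.hvy x l hH
    exact h9 ⟨a, ha, by linarith⟩
  have hnh : nh G t ω = dist z x := by
    have : nh G t ω = if Hvy (G.mu (x :: l)) x then 0 else min 1 (dist z x) := rfl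
    rw [this, if_neg hH, min_eq_right h3]
  obtain ⟨y, hy, hy1⟩ := (ctr_cover (2 * k + 1) S x l).resolve_left h9
  obtain ⟨a0, h0⟩ : ∃ a0, ∀ a ∈ S (x :: l), dist x a ≤ 12 → a = a0 := by
    by_cases h12 : ∃ a ∈ S (x :: l), dist x a ≤ 12
    · obtain ⟨a0, ha0, h12⟩ := h12
      exact ⟨a0, fun a ha h' => core_unique (h.sep _) ha ha0 x (by linarith) (by linarith)⟩
    · exact ⟨x, fun a ha h' => absurd ⟨a, ha, h'⟩ h12⟩
  have b1 := h1 (dist x a0) (dist z a0) (dist x z) (hη _ _ (Ne.symm hzx))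
    (abs_dist_sub_le x z a0)
  have b2 := h2 (ctr (2 * k + 1) S (x :: l)) x z (ctr_length_le (by omega) _ _)
    (hη _ _ (Ne.symm hzx)) ⟨y, hy, by linarith, by linarith [dist_triangle z x y]⟩
  have b3 : ∑ ξ, w ξ * cut G T S tag (R ξ) (rad ξ) t ω ≤
      ∑ ξ, w ξ * (if (dist x a0 ≤ R ξ ↔ dist z a0 ≤ R ξ) then 0 else 1) +
      ∑ ξ, w ξ * (if cov (rad ξ) 0 (ctr (2 * k + 1) S (x :: l)) x =
        cov (rad ξ) 0 (ctr (2 * k + 1) S (x :: l)) z then 0 else 1) := by
    rw [← Finset.sum_add_distrib]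
    refine Finset.sum_le_sum fun ξ _ => ?_
    rw [← mul_add, hcut]
    exact mul_le_mul_of_nonneg_left (cut_le (h.sep _) _ _ (hR ξ) _ h3 a0 h0) (hw ξ)
  rw [hnh, dist_comm z x]
  linarith

theorem exists_le_avg {Ξ : Type} [Fintype Ξ] {w : Ξ → ℝ} (hw : ∀ ξ, 0 ≤ w ξ)
    (hw1 : ∑ ξ, w ξ = 1) (f : Ξ → ℝ) : ∃ ξ, f ξ ≤ ∑ ξ, w ξ * f ξ := by
  have hne : (univ : Finset Ξ).Nonempty := by
    by_contra h'
    rw [Finset.not_nonempty_iff_eq_empty] at h'
    rw [h'] at hw1; simp at hw1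
  obtain ⟨ξ, -, hξ⟩ := Finset.exists_min_image univ f hne
  refine ⟨ξ, ?_⟩
  calc f ξ = ∑ ξ', w ξ' * f ξ := by rw [← Finset.sum_mul, hw1, one_mul]
    _ ≤ _ := Finset.sum_le_sum fun ξ' _ =>
        mul_le_mul_of_nonneg_left (hξ ξ' (mem_univ _)) (hw ξ')

end ScaleOne

open ScaleOne in
theorem scaleOne (h1 : CoresStmt) (h2 : NonHvyStmt) (h3 : CutStmt) : ScaleOneStmt := by
  obtain ⟨C1, hC1, h1⟩ := h1
  obtain ⟨C2, hC2, h2⟩ := h2
  refine ⟨5 * C1 + 54 * C2 + 2, by positivity, ?_⟩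
  intro k hk Y Ω _ _ _ G T
  obtain ⟨S, tag, Zn, p1, p2, p3, p4, p5, p6, hZ⟩ := h1 k hk Y Ω G T
  have h : CP G S tag Zn := ⟨p1, p2, p3, p4, p5, p6⟩
  obtain ⟨η, hη, hmin⟩ := exists_min_dist Y
  obtain ⟨Ξ, _, w, R, rad, hw, hw1, hR, hr, c1, c2⟩ := h3 (2 * k + 1) η (by omega) hη
  have hL := log_ge_of_two_le hk
  have hlog : Real.log (((2 * k + 1 : ℕ) : ℝ) + 1) ≤ 3 * Real.log k := by
    have hk' : (2 : ℝ) ≤ k := by exact_mod_cast hk
    have e : (((2 * k + 1 : ℕ) : ℝ) + 1) ≤ (k : ℝ) ^ 3 := by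
      push_cast
      have : (k : ℝ) ^ 3 = k ^ 2 * k := by ring
      nlinarith
    have := Real.log_le_log (by positivity) e
    rw [Real.log_pow] at this
    exact_mod_cast this
  have hlog0 : 0 ≤ Real.log (((2 * k + 1 : ℕ) : ℝ) + 1) :=
    Real.log_nonneg (by have : (0 : ℝ) ≤ ((2 * k + 1 : ℕ) : ℝ) := Nat.cast_nonneg _; linarith)
  set κ := 8 * Real.log (((2 * k + 1 : ℕ) : ℝ) + 1) with hκ
  obtain ⟨ξ, hξ⟩ := exists_le_avg hw hw1 fun ξ =>
    G.E fun ω => ∑ t ∈ range T, cut G T S tag (R ξ) (rad ξ) t ω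
  refine ⟨labL k T S tag (R ξ) (rad ξ), ancL T G.s0 S tag, ?_, ?_, ?_⟩
  · intro l hl y
    exact near G.s0 (p2 l) (p3 l) (fun a ha => (p4 l a ha).trans hl) (hR ξ)
      (fun j => (hr ξ j).2) _ y
  · intro r l hl y y' hy
    exact shift G.s0 (p2 l) (p2 _) (p3 l) (p3 _) (fun a ha => (p4 l a ha).trans hl.le)
      (fun a ha => (p4 _ a ha).trans (by simpa using hl)) (p5 r l) (hR ξ) _ _ _ y y' hy
  · set Q := G.E fun ω => ∑ t ∈ range T, G.charge 1 t ω with hQ
    have hch : ∀ t ω, min 1 (G.ell t ω ^ 2) ≤ G.charge 1 t ω := fun t ω => by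
      unfold Game.charge
      simp only [div_one]
      exact le_add_of_nonneg_right (mul_nonneg (G.ell_nonneg t ω)
        (qq_nonneg (G.mu_nonneg _) fun _ => dist_nonneg))
    have hQ0 : 0 ≤ Q := G.E_nonneg fun ω => Finset.sum_nonneg fun t _ =>
      (le_min zero_le_one (sq_nonneg _)).trans (hch t ω)
    have a1 : (G.E fun ω => ∑ t ∈ range T, nh G t ω) ≤ C2 * Q := by
      rw [hQ, G.E_sum, G.E_sum, Finset.mul_sum]
      exact Finset.sum_le_sum fun t _ => h2 k Y Ω G t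
    have a2 : (G.E fun ω => ∑ t ∈ range T, zc G Zn t ω) ≤ C1 * Real.log k * Q := hZ
    have a3 : ∑ ξ, w ξ * (G.E fun ω => ∑ t ∈ range T, cut G T S tag (R ξ) (rad ξ) t ω) ≤
        Q + 2 * κ * G.E fun ω => ∑ t ∈ range T, nh G t ω := by
      simp only [← G.E_mul]
      rw [← G.E_sum, hQ, ← G.E_add]
      refine G.E_mono fun ω => ?_
      simp only [Finset.mul_sum]
      rw [Finset.sum_comm, ← Finset.sum_add_distrib]
      refine Finset.sum_le_sum fun t _ => ?_
      exact (cut_avg h T (by positivity) hmin hw hw1 hR c1 (c2 Y) t ω).trans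
        (add_le_add_left (hch t ω) _)
    have a4 : (G.E fun ω => ∑ t ∈ range T,
        G.chg (labL k T S tag (R ξ) (rad ξ)) (ancL T G.s0 S tag) 1 t ω) ≤
        5 * (G.E fun ω => ∑ t ∈ range T, zc G Zn t ω) +
        4 * (G.E fun ω => ∑ t ∈ range T, nh G t ω) +
        G.E fun ω => ∑ t ∈ range T, cut G T S tag (R ξ) (rad ξ) t ω := by
      rw [← G.E_mul, ← G.E_mul, ← G.E_add, ← G.E_add]
      refine G.E_mono fun ω => ?_
      have := chg_sum (T := T) h (hR ξ) (hr ξ) ω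
      simp only [Finset.sum_add_distrib, ← Finset.mul_sum] at this
      exact this
    have a5 : 2 * κ * (G.E fun ω => ∑ t ∈ range T, nh G t ω) ≤ 48 * Real.log k * (C2 * Q) :=
      mul_le_mul (by rw [hκ]; linarith) a1
        (G.E_nonneg fun ω => Finset.sum_nonneg fun t _ => nh_nonneg G t ω) (by positivity)
    have a6 : Q ≤ 2 * Real.log k * Q := le_mul_of_one_le_left hQ0 (by linarith)
    have a7 : 4 * (C2 * Q) ≤ 6 * Real.log k * (C2 * Q) :=
      mul_le_mul_of_nonneg_right (by linarith) (by positivity)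
    nlinarith

end Vale.Agent.P304
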