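import Vale.Agent.P304.Stmts

/-! The allocation process driven by the lazy trackers. -/

namespace Vale.Agent.P304

open Finset
open scoped Classical

namespace TA

variable {k : ℕ} {Y Ω L : Type} [Fintype Ω] (G : Game k Y Ω) (lab : ℕ → List Y → Y → L)

theorem path_length (l : List Y) (y : Y) (d : ℕ) : (path lab l y d).length = d := by
  induction d with
  | zero => rfl
  | succ d ih => simp [path, ih]

theorem NN_nil (t : ℕ) (ω : Ω) : G.NN lab t ω [] = k := by
  simp [Game.NN, path]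

theorem NN_none (t : ℕ) (ω : Ω) (u : List (Option L)) : G.NN lab t ω (none :: u) = 0 := by
  simp [Game.NN, path]

theorem NN_le (t : ℕ) (ω : Ω) (u : List (Option L)) : G.NN lab t ω u ≤ k := by
  simpa [Game.NN] using card_le_univ
    (univ.filter fun i => path lab (G.hist t ω) (G.o t ω i) u.length = u)

theorem NN_zero (ω ω' : Ω) (u : List (Option L)) : G.NN lab 0 ω u = G.NN lab 0 ω' u := rfl

theorem NN_some [Fintype L] (t : ℕ) (ω : Ω) (u : List (Option L)) :
    ∑ c : L, G.NN lab t ω (some c :: u) = G.NN lab t ω u := by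
  simp only [Game.NN, card_filter]
  rw [sum_comm]
  refine sum_congr rfl fun i _ => ?_
  simp only [List.length_cons, path, List.cons.injEq, Option.some.injEq]
  by_cases h : path lab (G.hist t ω) (G.o t ω i) u.length = u <;> simp [h]

theorem NN_cast (t : ℕ) (ω : Ω) (u : List (Option L)) :
    (G.NN lab t ω u : ℝ) =
      ∑ i, if path lab (G.hist t ω) (G.o t ω i) u.length = u then 1 else 0 := by
  simp [Game.NN]

theorem path_ne (l l' : List Y) (y y' : Y) (d : ℕ) :
    (if path lab l y d = path lab l' y' d then 0 else 1 : ℝ) ≤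
      ∑ j ∈ range d, if lab j l y = lab j l' y' then 0 else 1 := by
  induction d with
  | zero => simp [path]
  | succ d ih =>
    rw [sum_range_succ]
    have h0 : (0 : ℝ) ≤ ∑ j ∈ range d, if lab j l y = lab j l' y' then 0 else 1 :=
      sum_nonneg fun j _ => by split_ifs <;> norm_num
    by_cases h1 : lab d l y = lab d l' y'
    · simpa [path, h1] using ih
    · rw [if_neg h1, if_neg (by simp [path, h1])]
      linarith

theorem sum_ind (S : Finset (List (Option L))) (p p' : List (Option L)) :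
    ∑ u ∈ S, |(if p' = u then 1 else 0 : ℝ) - if p = u then 1 else 0| ≤
      2 * if p = p' then 0 else 1 := by
  by_cases h : p = p'
  · simp [h]
  · rw [if_neg h]
    have h1 : ∀ p : List (Option L), ∑ u ∈ S, (if p = u then 1 else 0 : ℝ) ≤ 1 := fun p => by
      rw [sum_ite_eq]; split_ifs <;> norm_num
    refine (sum_le_sum (g := fun u => (if p' = u then 1 else 0 : ℝ) + if p = u then 1 else 0)
      fun u _ => ?_).trans ?_
    · split_ifs <;> norm_num
    · rw [sum_add_distrib]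
      linarith [h1 p, h1 p']

theorem sum_dNN [Fintype L] (t : ℕ) (ω : Ω) (d : ℕ) :
    ∑ u ∈ lists (Option L) d, |(G.NN lab (t + 1) ω u : ℝ) - G.NN lab t ω u| ≤
      2 * ∑ j ∈ range d, G.lchg (lab j) t ω := by
  calc _ ≤ ∑ u ∈ lists (Option L) d, ∑ i,
        |(if path lab (G.hist (t + 1) ω) (G.o (t + 1) ω i) d = u then 1 else 0 : ℝ) -
          if path lab (G.hist t ω) (G.o t ω i) d = u then 1 else 0| := by
        refine sum_le_sum fun u hu => ?_
        rw [NN_cast, NN_cast, mem_lists.1 hu, ← sum_sub_distrib]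
        exact abs_sum_le_sum_abs _ _
    _ ≤ ∑ i, 2 * ∑ j ∈ range d, if lab j (G.hist t ω) (G.o t ω i) =
          lab j (G.hist (t + 1) ω) (G.o (t + 1) ω i) then (0 : ℝ) else 1 := by
        rw [sum_comm]
        refine sum_le_sum fun i _ => (sum_ind _ _ _).trans ?_
        exact mul_le_mul_of_nonneg_left (path_ne lab _ _ _ _ d) (by norm_num)
    _ = _ := by
        rw [← mul_sum, sum_comm]
        rfl

theorem sum_slot (a b : ℕ) (k : ℕ) :
    ∑ i ∈ range k, |(if b ≤ i then 1 else 0 : ℝ) - if a ≤ i then 1 else 0| ≤ |(b : ℝ) - a| := by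
  wlog h : a ≤ b generalizing a b
  · have := this b a (le_of_not_ge h)
    rw [abs_sub_comm]
    exact (sum_congr rfl fun i _ => abs_sub_comm _ _).le.trans this
  have h1 : ∀ i, |(if b ≤ i then 1 else 0 : ℝ) - if a ≤ i then 1 else 0| =
      if i ∈ Ico a b then 1 else 0 := fun i => by
    simp only [mem_Ico]
    by_cases h2 : b ≤ i
    · simp [h2, h.trans h2]
    · by_cases h3 : a ≤ i <;> simp [h2, h3, not_le.1 h2]
  simp only [h1]
  rw [sum_boole, abs_of_nonneg (sub_nonneg.2 (Nat.cast_le.2 h)), ← Nat.cast_sub h, Nat.cast_le,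
    ← Nat.card_Ico]
  exact card_le_card fun i hi => (mem_filter.1 hi).2

/-- the tracked data -/
noncomputable def td (l : List Y) : TD L where
  nu u := G.trk (fun t ω => (G.NN lab t ω u : ℝ)) (1 / 20) (1 / 8) l
  yy u i := G.trk (fun t ω => if G.NN lab t ω u ≤ i then 1 else 0) (1 / (16 * RR k)) (1 / k) l

theorem nu_nonneg (l : List Y) (u : List (Option L)) : 0 ≤ (td G lab l).nu u :=
  G.trk_nonneg _ _ (fun _ _ => Nat.cast_nonneg _) l

theorem nu_approx (l : List Y) (u : List (Option L)) :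
    |G.ce l (fun ω => G.NN lab l.length ω u) - (td G lab l).nu u| ≤
      1 / 20 * ((td G lab l).nu u + 1 / 8) :=
  G.trk_approx (X := fun t ω => (G.NN lab t ω u : ℝ)) (by norm_num) (by norm_num)
    (fun _ _ => Nat.cast_nonneg _) l

theorem alloc_td [Fintype L] (h2 : AllocStmt) (hk : 2 ≤ k) {l : List Y} (hl : G.Reach l) :
    (td G lab l).Good k ∧ ∀ u (j : ℕ), 1 ≤ j →
      (∀ ω, G.hist l.length ω = l → j ≤ G.NN lab l.length ω u) → (j : ℝ) ≤ (td G lab l).Z k u := by
  have h0 : ∀ (u : List (Option L)) (i t : ℕ) (ω : Ω),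
      (0 : ℝ) ≤ if G.NN lab t ω u ≤ i then 1 else 0 := fun u i t ω => by
    split_ifs <;> norm_num
  obtain ⟨h3, h4⟩ := h2 k L Ω (td G lab l) (G.post l) (G.NN lab l.length) hk (G.post_nonneg l)
    (G.sum_post hl) (NN_nil G lab _) (NN_some G lab _) (NN_none G lab _) (nu_nonneg G lab l)
    (nu_approx G lab l) (fun u i => G.trk_nonneg _ _ (h0 u i) l) fun u i =>
      G.trk_approx (X := fun t ω => if G.NN lab t ω u ≤ i then 1 else 0) (by positivity)
        (by positivity) (h0 u i) l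
  exact ⟨h3, fun u j hj h => h4 u j hj fun ω hω => h ω (G.hist_of_post_pos hω)⟩

theorem zprops [Fintype L] (h2 : AllocStmt) (hk : 2 ≤ k) :
    ZProps G lab (fun l => (td G lab l).Z k) (fun l => (td G lab l).nu) where
  z_root _ := rfl
  z_cons l u := TD.Z_cons _ k u
  z_nonneg l hl := (alloc_td G lab h2 hk hl).1.z_nonneg
  n_nonneg := nu_nonneg G lab
  z_le l hl := (alloc_td G lab h2 hk hl).1.z_le
  z_pos l hl := (alloc_td G lab h2 hk hl).1.z_pos
  n_approx := nu_approx G lab
  z_req r l hl d := by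
    have := (alloc_td G lab h2 hk hl).2 (path lab (r :: l) r d) 1 le_rfl fun ω hω => by
      refine card_pos.2 ⟨G.idx l.length ω, mem_filter.2 ⟨mem_univ _, ?_⟩⟩
      have h1 : G.req l.length ω = r := (List.cons.inj hω).1
      rw [hω, path_length, List.length_cons, G.o_succ_idx, h1]
    simpa using this
  z_init d := (alloc_td G lab h2 hk G.reach_nil).2 _ k (by omega) fun ω _ => by
    simp [Game.NN, path_length]

theorem move_td [Fintype L] (h2 : AllocStmt) (h3 : MoveStmt) (hk : 2 ≤ k) (D t : ℕ) (ω : Ω) :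
    mvZ D (fun l => (td G lab l).Z k) (fun l => (td G lab l).nu) (G.hist t ω)
        (G.hist (t + 1) ω) ≤
      401 * ∑ d ∈ range D, (1 / 2 : ℝ) ^ d * ∑ u ∈ lists (Option L) (d + 1),
        (|(td G lab (G.hist (t + 1) ω)).nu u - (td G lab (G.hist t ω)).nu u| + ∑ i ∈ range k,
          |(td G lab (G.hist (t + 1) ω)).yy u i - (td G lab (G.hist t ω)).yy u i|) := by
  have hc : ∀ (u : List (Option L)) (c : ℕ), (∀ t ω, G.NN lab t ω u = c) → ∀ l, G.Reach l →
      (td G lab l).nu u = c := fun u c h l hl => by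
    simp only [td, h]
    exact G.trk_const _ _ _ hl
  have r0 := G.reach_hist t ω
  have r1 := G.reach_hist (t + 1) ω
  have h4 := h3 k L _ _ D (alloc_td G lab h2 hk r0).1 (alloc_td G lab h2 hk r1).1
    (by rw [hc _ _ (NN_nil G lab) _ r0, hc _ _ (NN_nil G lab) _ r1])
    (fun u => by
      rw [hc _ _ (fun t ω => NN_none G lab t ω u) _ r0,
        hc _ _ (fun t ω => NN_none G lab t ω u) _ r1])
    fun u hu => (G.trk_jump (fun t ω => (G.NN lab t ω u : ℝ)) (1 / 20) (1 / 8) (G.req t ω)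
      (G.hist t ω) hu).1
  have h5 : ∑ d ∈ range D, (1 / 2 : ℝ) ^ d * ∑ u ∈ lists (Option L) (d + 1),
      |(td G lab (G.hist (t + 1) ω)).nu u - (td G lab (G.hist t ω)).nu u| ≤
      ∑ d ∈ range D, (1 / 2 : ℝ) ^ d * ∑ u ∈ lists (Option L) (d + 1),
        (|(td G lab (G.hist (t + 1) ω)).nu u - (td G lab (G.hist t ω)).nu u| + ∑ i ∈ range k,
          |(td G lab (G.hist (t + 1) ω)).yy u i - (td G lab (G.hist t ω)).yy u i|) :=
    sum_le_sum fun d _ => mul_le_mul_of_nonneg_left (sum_le_sum fun u _ =>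
      le_add_of_nonneg_right (sum_nonneg fun _ _ => abs_nonneg _)) (by positivity)
  have h6 : mvZ D (fun l => (td G lab l).Z k) (fun l => (td G lab l).nu) (G.hist t ω)
      (G.hist (t + 1) ω) = ∑ d ∈ range D, (1 / 2 : ℝ) ^ d * ∑ u ∈ lists (Option L) (d + 1),
        |(td G lab (G.hist (t + 1) ω)).Z k u - (td G lab (G.hist t ω)).Z k u| +
      ∑ d ∈ range D, (1 / 2 : ℝ) ^ d * ∑ u ∈ lists (Option L) (d + 1),
        |(td G lab (G.hist (t + 1) ω)).nu u - (td G lab (G.hist t ω)).nu u| := by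
    simp only [mvZ, sum_add_distrib, mul_add]
  linarith

theorem log_facts (hk : 2 ≤ k) : 4 / (1 / 20) * Real.log ((k + 1 / 8) / (1 / 8)) ≤
      600 * Real.log k ^ 2 ∧
    4 / (1 / (16 * (RR k : ℝ))) * Real.log ((1 + 1 / k) / (1 / k)) ≤ 1152 * Real.log k ^ 2 := by
  have hk' : (2 : ℝ) ≤ k := by exact_mod_cast hk
  have l2 := Real.log_two_gt_d9
  have hL : Real.log 2 ≤ Real.log k := Real.log_le_log (by norm_num) hk'
  constructor
  · have h1 : Real.log ((k + 1 / 8) / (1 / 8)) ≤ 5 * Real.log k := by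
      have h2 : (2 : ℝ) ^ 4 ≤ (k : ℝ) ^ 4 := pow_le_pow_left₀ (by norm_num) hk' 4
      have h3 := Real.log_pow (k : ℝ) 5
      push_cast at h3
      rw [← h3]
      refine Real.log_le_log (by positivity) ?_
      rw [pow_succ]
      nlinarith
    nlinarith
  · have h1 : Real.log ((1 + 1 / k) / (1 / k)) ≤ 2 * Real.log k := by
      have h3 := Real.log_pow (k : ℝ) 2
      push_cast at h3
      rw [← h3]
      refine Real.log_le_log (by positivity) ?_
      have : (1 + 1 / (k : ℝ)) / (1 / k) = k + 1 := by field_simp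
      rw [this]
      nlinarith
    have h2 : (RR k : ℝ) ≤ 9 * Real.log k := by
      have h3 : ((2 ^ Nat.log 2 k : ℕ) : ℝ) ≤ k :=
        Nat.cast_le.2 (Nat.pow_log_le_self 2 (by omega))
      push_cast at h3
      have h4 := Real.log_le_log (by positivity) h3
      rw [Real.log_pow] at h4
      have h5 : (0 : ℝ) ≤ Nat.log 2 k := Nat.cast_nonneg _
      simp only [RR]
      push_cast
      nlinarith
    have h3 : 4 / (1 / (16 * (RR k : ℝ))) = 64 * RR k := by
      rw [one_div, div_inv_eq_mul]; ring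
    rw [h3]
    have h4 : (0 : ℝ) ≤ RR k := Nat.cast_nonneg _
    calc _ ≤ 64 * (RR k : ℝ) * (2 * Real.log k) := mul_le_mul_of_nonneg_left h1 (by positivity)
      _ ≤ 64 * (9 * Real.log k) * (2 * Real.log k) := by
        refine mul_le_mul_of_nonneg_right (by linarith) (by linarith)
      _ = _ := by ring

theorem track_td (h1 : TrackStmt) (hk : 2 ≤ k) (T : ℕ) (u : List (Option L)) :
    (G.E fun ω => ∑ t ∈ range T,
      (|(td G lab (G.hist (t + 1) ω)).nu u - (td G lab (G.hist t ω)).nu u| + ∑ i ∈ range k,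
          |(td G lab (G.hist (t + 1) ω)).yy u i - (td G lab (G.hist t ω)).yy u i|)) ≤
      1752 * Real.log k ^ 2 *
        G.E fun ω => ∑ t ∈ range T, |(G.NN lab (t + 1) ω u : ℝ) - G.NN lab t ω u| := by
  obtain ⟨c1, c2⟩ := log_facts hk
  have hR : (1 : ℝ) ≤ RR k := by
    simp only [RR]; push_cast
    linarith [(Nat.cast_nonneg (Nat.log 2 k) : (0 : ℝ) ≤ _)]
  have hk' : (0 : ℝ) < k := by positivity
  have e0 : 0 ≤ G.E fun ω => ∑ t ∈ range T, |(G.NN lab (t + 1) ω u : ℝ) - G.NN lab t ω u| :=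
    G.E_nonneg fun ω => sum_nonneg fun _ _ => abs_nonneg _
  have a1 := (h1 k Y Ω G (fun t ω => (G.NN lab t ω u : ℝ)) (1 / 20) (1 / 8) k T (by norm_num)
    (by norm_num) (by norm_num) (fun _ _ => Nat.cast_nonneg _)
    (fun t ω => Nat.cast_le.2 (NN_le G lab t ω u))
    (fun ω ω' => by rw [NN_zero G lab ω ω'])).trans (mul_le_mul_of_nonneg_right c1 e0)
  have a2 : ∀ i : ℕ, (G.E fun ω => ∑ t ∈ range T,
      |(td G lab (G.hist (t + 1) ω)).yy u i - (td G lab (G.hist t ω)).yy u i|) ≤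
      1152 * Real.log k ^ 2 * G.E fun ω => ∑ t ∈ range T,
        |(if G.NN lab (t + 1) ω u ≤ i then 1 else 0 : ℝ) - if G.NN lab t ω u ≤ i then 1 else 0| :=
    fun i => (h1 k Y Ω G (fun t ω => if G.NN lab t ω u ≤ i then 1 else 0) (1 / (16 * RR k))
      (1 / k) 1 T (by positivity) (by rw [div_le_one (by positivity)]; linarith) (by positivity)
      (fun _ _ => by split_ifs <;> norm_num) (fun _ _ => by split_ifs <;> norm_num)
      (fun ω ω' => by rw [NN_zero G lab ω ω'])).trans (mul_le_mul_of_nonneg_right c2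
        (G.E_nonneg fun ω => sum_nonneg fun _ _ => abs_nonneg _))
  have a3 : (G.E fun ω => ∑ t ∈ range T, ∑ i ∈ range k,
      |(td G lab (G.hist (t + 1) ω)).yy u i - (td G lab (G.hist t ω)).yy u i|) ≤
      1152 * Real.log k ^ 2 *
        G.E fun ω => ∑ t ∈ range T, |(G.NN lab (t + 1) ω u : ℝ) - G.NN lab t ω u| := by
    simp only [sum_comm (s := range T) (t := range k)]
    rw [G.E_sum]
    refine (sum_le_sum fun i _ => a2 i).trans ?_
    rw [← mul_sum, ← G.E_sum]
    refine mul_le_mul_of_nonneg_left (G.E_mono fun ω => ?_) (by positivity)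
    rw [sum_comm]
    exact sum_le_sum fun t _ => sum_slot _ _ k
  simp only [sum_add_distrib]
  rw [G.E_add]
  simp only [td] at a3 ⊢
  linarith

theorem E_swap (T D : ℕ) (S : ℕ → Finset (List (Option L)))
    (f : ℕ → Ω → List (Option L) → ℝ) :
    (G.E fun ω => ∑ t ∈ range T, ∑ d ∈ range D, (1 / 2 : ℝ) ^ d * ∑ u ∈ S d, f t ω u) =
      ∑ d ∈ range D, (1 / 2 : ℝ) ^ d * ∑ u ∈ S d, G.E fun ω => ∑ t ∈ range T, f t ω u := by
  simp only [sum_comm (s := range T) (t := range D)]
  rw [G.E_sum]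
  refine sum_congr rfl fun d _ => ?_
  rw [← G.E_sum, ← G.E_mul]
  refine congrArg _ (funext fun ω => ?_)
  rw [← mul_sum, sum_comm]

end TA

open TA in
theorem ta (h1 : TrackStmt) (h2 : AllocStmt) (h3 : MoveStmt) : TAStmt := by
  refine ⟨401 * 1752 * 4, by norm_num, fun k hk Y Ω L _ _ G lab T D =>
    ⟨_, _, zprops G lab h2 hk, ?_⟩⟩
  refine (G.E_mono fun ω => sum_le_sum fun t _ => move_td G lab h2 h3 hk D t ω).trans ?_
  simp only [← mul_sum]
  rw [G.E_mul, E_swap]
  have b1 : ∑ d ∈ range D, (1 / 2 : ℝ) ^ d * ∑ u ∈ lists (Option L) (d + 1),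
      (G.E fun ω => ∑ t ∈ range T,
      (|(td G lab (G.hist (t + 1) ω)).nu u - (td G lab (G.hist t ω)).nu u| + ∑ i ∈ range k,
          |(td G lab (G.hist (t + 1) ω)).yy u i - (td G lab (G.hist t ω)).yy u i|)) ≤
      1752 * Real.log k ^ 2 * ∑ d ∈ range D, (1 / 2 : ℝ) ^ d * ∑ u ∈ lists (Option L) (d + 1),
        G.E fun ω => ∑ t ∈ range T, |(G.NN lab (t + 1) ω u : ℝ) - G.NN lab t ω u| := by
    rw [mul_sum]
    refine sum_le_sum fun d _ => ?_
    rw [mul_left_comm, mul_sum (a := 1752 * Real.log k ^ 2)]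
    exact mul_le_mul_of_nonneg_left (sum_le_sum fun u _ => track_td G lab h1 hk T u)
      (by positivity)
  rw [← E_swap G T D _ fun t ω u => |(G.NN lab (t + 1) ω u : ℝ) - G.NN lab t ω u|] at b1
  have b2 : (G.E fun ω => ∑ t ∈ range T, ∑ d ∈ range D, (1 / 2 : ℝ) ^ d *
      ∑ u ∈ lists (Option L) (d + 1), |(G.NN lab (t + 1) ω u : ℝ) - G.NN lab t ω u|) ≤
      4 * G.E fun ω => ∑ t ∈ range T, ∑ d ∈ range D, (1 / 2 : ℝ) ^ d * G.lchg (lab d) t ω := by
    rw [← G.E_mul]
    refine G.E_mono fun ω => ?_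
    rw [mul_sum]
    refine sum_le_sum fun t _ => ?_
    have b3 := sum_half_cum D (fun j => G.lchg (lab j) t ω) fun j =>
      sum_nonneg fun _ _ => by split_ifs <;> norm_num
    have b4 : ∑ d ∈ range D, (1 / 2 : ℝ) ^ d *
        ∑ u ∈ lists (Option L) (d + 1), |(G.NN lab (t + 1) ω u : ℝ) - G.NN lab t ω u| ≤
        2 * ∑ d ∈ range D, (1 / 2 : ℝ) ^ d * ∑ j ∈ range (d + 1), G.lchg (lab j) t ω := by
      rw [mul_sum]
      refine sum_le_sum fun d _ => ?_
      rw [mul_left_comm]
      exact mul_le_mul_of_nonneg_left (sum_dNN G lab t ω (d + 1)) (by positivity)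
    linarith
  have b5 := mul_le_mul_of_nonneg_left b2 (show 0 ≤ 1752 * Real.log k ^ 2 by positivity)
  linarith

end Vale.Agent.P304
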