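import Vale.Agent.P304.Stmts

/-! P304: movement of the lazy tracker (entropy potential). -/

namespace Vale.Agent.P304

open Finset
open scoped Classical

namespace Track

theorem key {x y : ℝ} (hx : 0 < x) (hy : 0 < y) : x * (Real.log y - Real.log x) ≤ y - x := by
  rw [← Real.log_div hy.ne' hx.ne']
  have h := mul_le_mul_of_nonneg_left (Real.log_le_sub_one_of_pos (div_pos hy hx)) hx.le
  rwa [mul_sub, mul_div_cancel₀ _ hx.ne', mul_one] at h

/-- the potential -/
noncomputable def Φ (δ x a : ℝ) : ℝ := (x + δ) * (Real.log (x + δ) - Real.log (a + δ)) - (x - a)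

theorem Φ_nonneg {δ x a : ℝ} (hx : 0 < x + δ) (ha : 0 < a + δ) : 0 ≤ Φ δ x a := by
  have := key hx ha
  unfold Φ
  linarith

theorem Φ_step {δ K x x' a : ℝ} (hδ : 0 < δ) (hx : 0 ≤ x) (hx' : 0 ≤ x') (hx1 : x' ≤ K)
    (ha : 0 ≤ a) (ha1 : a ≤ K) :
    Φ δ x' a ≤ Φ δ x a + Real.log ((K + δ) / δ) * |x' - x| := by
  have h1 := key (x := x + δ) (y := x' + δ) (by linarith) (by linarith)
  have h2 : |Real.log (x' + δ) - Real.log (a + δ)| ≤ Real.log ((K + δ) / δ) := by
    rw [Real.log_div (by linarith) hδ.ne', abs_le]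
    have := Real.log_le_log hδ (show δ ≤ x' + δ by linarith)
    have := Real.log_le_log hδ (show δ ≤ a + δ by linarith)
    have := Real.log_le_log (by linarith) (show x' + δ ≤ K + δ by linarith)
    have := Real.log_le_log (by linarith) (show a + δ ≤ K + δ by linarith)
    constructor <;> linarith
  have h3 : (Real.log (x' + δ) - Real.log (a + δ)) * (x' - x) ≤
      Real.log ((K + δ) / δ) * |x' - x| := by
    refine (le_abs_self _).trans ?_
    rw [abs_mul]
    exact mul_le_mul_of_nonneg_right h2 (abs_nonneg _)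
  unfold Φ
  linarith

theorem Φ_jump {δ w a b : ℝ} (hw : 0 < w) (hw1 : w ≤ 1) (ha : 0 < a + δ) (hb : 0 < b + δ)
    (h : w * (a + δ) < |b - a|) : w / 4 * |b - a| ≤ Φ δ b a := by
  have e1 : b - a = (b + δ) - (a + δ) := by ring
  unfold Φ
  rw [e1] at h ⊢
  generalize a + δ = A at *
  generalize b + δ = B at *
  rcases le_total A B with hAB | hAB
  · rw [abs_of_nonneg (sub_nonneg.2 hAB)] at h ⊢
    have h1 := Real.le_log_one_add_of_nonneg (div_nonneg (sub_nonneg.2 hAB) ha.le)
    have h2 : 1 + (B - A) / A = B / A := by field_simp; ring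
    have h3 : 2 * ((B - A) / A) / ((B - A) / A + 2) = 2 * (B - A) / (A + B) := by
      rw [div_add' _ _ _ ha.ne', ← mul_div_assoc, div_div_div_cancel_right₀ ha.ne']
      ring
    rw [h2, h3, Real.log_div hb.ne' ha.ne', div_le_iff₀ (by linarith)] at h1
    refine le_of_mul_le_mul_right ?_ (show 0 < A + B by linarith)
    have h4 := mul_le_mul_of_nonneg_left h1 hb.le
    have h5 : 0 ≤ B - A := sub_nonneg.2 hAB
    nlinarith [mul_nonneg h5 (sub_nonneg.2 h.le), mul_nonneg (mul_nonneg h5 h5) (sub_nonneg.2 hw1)]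
  · rw [abs_of_nonpos (sub_nonpos.2 hAB)] at h ⊢
    have hM : 0 < (A + B) / 2 := by linarith
    have h1 := key hb hM
    have h2 := key hM ha
    refine le_of_mul_le_mul_right ?_ hM
    have h3 := mul_le_mul_of_nonneg_left h1 hM.le
    have h4 := mul_le_mul_of_nonneg_left h2 hb.le
    have h5 : 0 ≤ A - B := sub_nonneg.2 hAB
    nlinarith [mul_nonneg h5 (sub_nonneg.2 h.le), mul_nonneg (mul_nonneg h5 h5) hw.le]

end Track

open Track

theorem track : TrackStmt := by
  intro k Y Ω _ G X w δ K T hw hw1 hδ h0 hK hX0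
  obtain ⟨ω0⟩ := G.nonempty
  have hK0 : 0 ≤ K := (h0 0 ω0).trans (hK 0 ω0)
  have ha := G.trk_nonneg w δ h0
  have ha1 := G.trk_le w δ hK0 hK
  set L := Real.log ((K + δ) / δ) with hL
  have hstep : ∀ t, (G.E fun ω => w / 4 * |G.trk X w δ (G.hist (t + 1) ω) -
      G.trk X w δ (G.hist t ω)| + Φ δ (X (t + 1) ω) (G.trk X w δ (G.hist (t + 1) ω))) ≤
      G.E fun ω => Φ δ (X t ω) (G.trk X w δ (G.hist t ω)) + L * |X (t + 1) ω - X t ω| := by
    intro t
    refine le_trans (G.E_le_of_ce (t + 1)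
      (fun l ω => w / 4 * |G.trk X w δ l - G.trk X w δ l.tail| + Φ δ (X (t + 1) ω) (G.trk X w δ l))
      (fun l ω => Φ δ (X (t + 1) ω) (G.trk X w δ l.tail)) fun ω => ?_)
      (G.E_mono fun ω => Φ_step hδ (h0 _ _) (h0 _ _) (hK _ _) (ha _) (ha1 _))
    have hr := G.reach_hist (t + 1) ω
    rw [G.hist_succ] at hr ⊢
    simp only [List.tail_cons]
    by_cases hj : G.trk X w δ (G.req t ω :: G.hist t ω) = G.trk X w δ (G.hist t ω)
    · simp [hj]
    · obtain ⟨h1, h2⟩ := G.trk_jump X w δ _ _ hj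
      rw [G.hist_length] at h2
      have h3 := Φ_jump hw hw1 (by linarith [ha (G.hist t ω)])
        (by linarith [ha (G.req t ω :: G.hist t ω)]) h1
      generalize G.trk X w δ (G.req t ω :: G.hist t ω) = b at *
      generalize G.trk X w δ (G.hist t ω) = a at *
      have h4 : (fun ω' => w / 4 * |b - a| + Φ δ (X (t + 1) ω') b) = fun ω' =>
          Φ δ (X (t + 1) ω') a + ((Real.log (a + δ) - Real.log (b + δ)) * X (t + 1) ω' +
            (w / 4 * |b - a| + δ * (Real.log (a + δ) - Real.log (b + δ)) + (b - a))) := by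
        funext ω'
        unfold Φ
        ring
      rw [h4, G.ce_add, G.ce_add, G.ce_mul, G.ce_const hr, ← h2]
      unfold Φ at h3
      linarith
  have hsum : ∀ T, w / 4 * (G.E fun ω => ∑ t ∈ range T,
      |G.trk X w δ (G.hist (t + 1) ω) - G.trk X w δ (G.hist t ω)|) +
      (G.E fun ω => Φ δ (X T ω) (G.trk X w δ (G.hist T ω))) ≤
      L * G.E fun ω => ∑ t ∈ range T, |X (t + 1) ω - X t ω| := by
    intro T
    induction T with
    | zero =>
      have h1 : ∀ ω, G.trk X w δ [] = X 0 ω := fun ω => by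
        rw [Game.trk, G.ce_congr (X' := fun _ => X 0 ω) fun ω' _ => hX0 ω' ω,
          G.ce_const G.reach_nil]
      have h2 : (fun ω => Φ δ (X 0 ω) (G.trk X w δ (G.hist 0 ω))) = fun _ => 0 := by
        funext ω
        rw [G.hist_zero, h1 ω]
        simp [Φ]
      rw [h2]
      simp [G.E_const]
    | succ T ih =>
      have h1 := hstep T
      simp only [sum_range_succ, G.E_add, G.E_mul] at h1 ⊢
      linarith
  have h1 := hsum T
  have h2 : 0 ≤ G.E fun ω => Φ δ (X T ω) (G.trk X w δ (G.hist T ω)) :=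
    G.E_nonneg fun ω => Φ_nonneg (by linarith [h0 T ω]) (by linarith [ha (G.hist T ω)])
  rw [mul_assoc, div_mul_eq_mul_div, le_div_iff₀ hw]
  linarith

end Vale.Agent.P304
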