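import Vale.Agent.P304.Alloc
import Vale.Agent.P304.Bayes
import Vale.Agent.P304.CoreStep
import Vale.Agent.P304.Cores
import Vale.Agent.P304.Cut
import Vale.Agent.P304.Derand
import Vale.Agent.P304.GameFin
import Vale.Agent.P304.Match
import Vale.Agent.P304.Move
import Vale.Agent.P304.MoveGen
import Vale.Agent.P304.MoveHvy
import Vale.Agent.P304.NonHvy
import Vale.Agent.P304.Park
import Vale.Agent.P304.Round
import Vale.Agent.P304.Scale
import Vale.Agent.P304.ScaleOne
import Vale.Agent.P304.Sums
import Vale.Agent.P304.TA
import Vale.Agent.P304.TB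
import Vale.Agent.P304.Track

namespace Vale.Agent.P304

theorem bayes : BayesStmt :=
  bayes_of_game (game (tree (ta track alloc move) (tb (round matchTree) derand) parkBound)
    (scale (scaleOne (cores coreStep moveGen moveHvy nonHvy) nonHvy cutLaw)) sums)

end Vale.Agent.P304
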