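import Vale.Agent.P304.GameFin
import Vale.Agent.P304.Scale
import Vale.Agent.P304.StmtsE

/-! P304: assembly of the game bound with exponent two. -/

namespace Vale.Agent.P304

open Finset
open scoped Classical

theorem tree2 (h1 : TA2Stmt) (h2 : TBStmt) (h3 : ParkStmt) : Tree2Stmt := by
  obtain ⟨C1, hC1, h1⟩ := h1
  obtain ⟨C3, hC3, h3⟩ := h3
  refine ⟨700 * ((1 + C3) * (2 * C1) + 3 * C3), by positivity, ?_⟩
  intro k hk Y Ω L _ _ _ _ G T D W lab anc hE
  obtain ⟨Zf, nf, hZ, hmv⟩ := h1 k hk Y Ω L G lab T D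
  obtain ⟨A, hA⟩ := h2 k Y Ω L G T D W lab anc Zf nf hE hZ
  have hp := h3 k hk Y Ω L G T D W lab anc Zf nf hE.W_pos hZ
  refine ⟨A, hA.trans ?_⟩
  have hW := hE.W_pos
  have hL := log_ge_of_two_le hk
  set Lg := Real.log k
  set M := G.E fun ω => ∑ t ∈ range T, mvZ D Zf nf (G.hist t ω) (G.hist (t + 1) ω)
  set P := G.E fun ω => ∑ t ∈ range T, park D anc Zf (G.hist t ω) (G.hist (t + 1) ω)
  set Q := G.E fun ω => ∑ t ∈ range T, ∑ d ∈ range D,
    rho W d * G.chg (lab d) (anc d) (rho W d) t ω with hQ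
  set R := G.E fun ω => ∑ t ∈ range T, G.ell t ω
  have hsplit : (G.E fun ω => ∑ t ∈ range T, (mvZ D Zf nf (G.hist t ω) (G.hist (t + 1) ω) +
      park D anc Zf (G.hist t ω) (G.hist (t + 1) ω))) = M + P := by
    simp only [Finset.sum_add_distrib]; rw [G.E_add]
  have hQ0 : 0 ≤ Q := G.E_nonneg fun ω => Finset.sum_nonneg fun t _ =>
    Finset.sum_nonneg fun d _ => mul_nonneg (rho_pos hW d).le (G.chg_nonneg _ _ _ _ _)
  have hR0 : 0 ≤ R := G.E_nonneg fun ω => Finset.sum_nonneg fun t _ => G.ell_nonneg t ω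
  have hl : W * (G.E fun ω => ∑ t ∈ range T, ∑ d ∈ range D,
      (1 / 2 : ℝ) ^ d * G.lchg (lab d) t ω) ≤ 2 * Q := by
    rw [hQ, ← G.E_mul, ← G.E_mul]
    refine G.E_mono fun ω => ?_
    simp only [Finset.mul_sum]
    refine Finset.sum_le_sum fun t _ => Finset.sum_le_sum fun d _ => ?_
    rw [← mul_assoc, rho_eq, mul_assoc]
    refine mul_le_mul_of_nonneg_left (mul_le_mul_of_nonneg_left ?_ (rho_pos hW d).le)
      (by norm_num)
    exact le_add_of_nonneg_right (G.lbad_nonneg _ _ _ _ _)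
  have hM : W * M ≤ C1 * Lg * (2 * Q) := by
    calc W * M ≤ W * (C1 * Lg * G.E fun ω => ∑ t ∈ range T, ∑ d ∈ range D,
          (1 / 2 : ℝ) ^ d * G.lchg (lab d) t ω) := mul_le_mul_of_nonneg_left hmv hW.le
      _ = C1 * Lg * (W * G.E fun ω => ∑ t ∈ range T, ∑ d ∈ range D,
          (1 / 2 : ℝ) ^ d * G.lchg (lab d) t ω) := by ring
      _ ≤ _ := mul_le_mul_of_nonneg_left hl (by positivity)
  have e1 : Q ≤ 3 * Lg * Q := le_mul_of_one_le_left hQ0 (by nlinarith)
  have e2 : Lg * R ≤ 3 * Lg * R := by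
    refine mul_le_mul_of_nonneg_right ?_ hR0
    nlinarith
  have e3 : C3 * (W * M) ≤ C3 * (C1 * Lg * (2 * Q)) := mul_le_mul_of_nonneg_left hM hC3
  have e4 : C3 * Q ≤ C3 * (3 * Lg * Q) := mul_le_mul_of_nonneg_left e1 hC3
  have e5 : C3 * (Lg * R) ≤ C3 * (3 * Lg * R) := mul_le_mul_of_nonneg_left e2 hC3
  have e6 : 0 ≤ (1 + C3) * (2 * C1) * Lg * R := by positivity
  rw [hsplit]
  nlinarith

theorem scale2 (h : ScaleOne2Stmt) : Scale2Stmt := by
  obtain ⟨C, hC, h⟩ := h
  refine ⟨C, hC, ?_⟩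
  intro k hk Y Ω _ m _ G T ρ ε H hρ hε hε' hH
  obtain ⟨η, hη, hmin⟩ := exists_min_dist Y
  obtain ⟨N, hN⟩ := exists_nat_ge (max 64 (16 * ρ / η))
  have hN1 : (64 : ℝ) ≤ N := (le_max_left _ _).trans hN
  have hN2 : 16 * ρ / η ≤ N := (le_max_right _ _).trans hN
  have hOK : @Par.OK ⟨k, N, ε⟩ Y (scaled m ρ hρ) := by
    refine @Par.OK.mk ⟨k, N, ε⟩ Y (scaled m ρ hρ) hk (by exact_mod_cast hN1) hε hε' ?_
    intro y y' hy
    change 16 / (N : ℝ) ≤ @dist Y m.toDist y y' / ρ
    have h1 := hmin y y' hy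
    rw [div_le_iff₀ hη] at hN2
    rw [div_le_div_iff₀ (by linarith) hρ]
    nlinarith
  obtain ⟨lab, anc, h1, h2, h3⟩ := @h ⟨k, N, ε⟩ Y Ω _ (scaled m ρ hρ) _ G T H hOK hH
  refine ⟨lab, anc, ?_, ?_, ?_⟩
  · intro l hl y
    have := h1 l hl y
    change @dist Y m.toDist _ _ / ρ ≤ 11 at this
    rwa [div_le_iff₀ hρ] at this
  · intro r l hl y y' hy
    have := h2 r l hl y y' hy
    change @dist Y m.toDist _ _ / ρ ≤ 50 at this
    rwa [div_le_iff₀ hρ] at this
  · have e1 : ∀ t ω, @Game.chg k Y Ω _ _ G (scaled m ρ hρ) lab anc 1 t ω =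
        G.chg lab anc ρ t ω := by
      intro t ω
      unfold Game.chg Game.lbad
      congr 1
      refine Finset.sum_congr rfl fun i _ => if_congr (or_congr Iff.rfl ?_) rfl rfl
      change 4 * 1 ≤ @dist Y m.toDist _ _ / ρ ∧ @dist Y m.toDist _ _ / ρ ≤ 3 * 1 ↔ _
      rw [le_div_iff₀ hρ, div_le_iff₀ hρ, mul_one, mul_one]
    have e2 : ∀ t ω, @Game.ch2 k Y Ω (scaled m ρ hρ) _ G H 1 t ω = G.ch2 H ρ t ω := by
      intro t ω
      unfold Game.ch2 Game.ell
      simp only [div_one]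
      rfl
    simpa only [e1, e2] using h3

theorem game2 (h1 : Tree2Stmt) (h2 : Scale2Stmt) (h3 : Sum2Stmt) (h4 : SumStmt) : Game2Stmt := by
  obtain ⟨C1, hC1, h1⟩ := h1
  obtain ⟨C2, hC2, h2⟩ := h2
  obtain ⟨C3, hC3, h3⟩ := h3
  obtain ⟨-, h4⟩ := h4
  refine ⟨C1 * (C2 * (6 + C3) + 3), by positivity, ?_⟩
  intro k hk Y Ω _ _ _ G T
  obtain ⟨η, hη, hmin⟩ := exists_min_dist Y
  set W : ℝ := 1 + ∑ q : Y × Y, dist q.1 q.2 with hWdef
  have hW : 0 < W := by positivity
  have hdiam : ∀ y y' : Y, dist y y' ≤ W := fun y y' => by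
    have := Finset.single_le_sum (f := fun q : Y × Y => dist q.1 q.2)
      (fun q _ => dist_nonneg) (mem_univ (y, y'))
    simp only at this
    linarith
  obtain ⟨n, hn⟩ : ∃ n : ℕ, rho W n ≤ η := by
    obtain ⟨n, hn⟩ := exists_pow_lt_of_lt_one (div_pos hη hW) (by norm_num : (1 / 2 : ℝ) < 1)
    refine ⟨n, ?_⟩
    rw [lt_div_iff₀ hW, mul_comm, rho_eq] at hn
    have := rho_pos hW n
    linarith
  have hk' : (2 : ℝ) ≤ k := by exact_mod_cast hk
  set ε : ℝ := 1 / (400 * (k : ℝ) ^ 2 * (n + 1)) with hεdef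
  have hε : 0 < ε := by positivity
  have hn0 : (0 : ℝ) ≤ n := Nat.cast_nonneg n
  have hε1 : ε ≤ 1 / (400 * (k : ℝ) ^ 2) :=
    one_div_le_one_div_of_le (by positivity) (le_mul_of_one_le_right (by positivity) (by linarith))
  have hε2 : ε * n ≤ 1 := by
    rw [hεdef, div_mul_eq_mul_div, one_mul, div_le_one (by positivity)]
    have h4 : (1 : ℝ) ≤ 400 * (k : ℝ) ^ 2 := by nlinarith
    nlinarith [mul_le_mul_of_nonneg_right h4 hn0]
  choose H hH hHs using fun l : List Y => h3 k Y (G.mu l) (fun y => dist y (l.headD G.s0)) W ε n hk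
    (G.mu_nonneg _) (fun _ => dist_nonneg) (G.sum_mu_le _) hW hε.le hε2
  choose lab0 anc0 hnear hshift hchg using fun d => h2 k hk Y Ω G T (rho W d) ε (fun l => H l d)
    (rho_pos hW d) hε hε1 fun r l => hH (r :: l) d
  set lab : ℕ → List Y → Y → Y ⊕ Fin (T + 1) :=
    fun d => if d = n then fun _ y => Sum.inl y else lab0 d with hlab
  set anc : ℕ → List Y → Y ⊕ Fin (T + 1) → Y :=
    fun d => if d = n then fun _ c => Sum.elim id (fun _ => G.s0) c else anc0 d with hanc
  have hE : Emb T (n + 1) W lab anc := by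
    refine ⟨by omega, hW, hdiam, ?_, ?_, ?_, ?_⟩
    · intro d _ l hl y
      by_cases hd : d = n
      · have := rho_pos hW d
        simp only [hlab, hanc, if_pos hd, Sum.elim_inl, id, dist_self]
        positivity
      · simp only [hlab, hanc, if_neg hd]; exact hnear d l hl y
    · intro d _ r l hl y y' hy
      by_cases hd : d = n
      · have := rho_pos hW d
        simp only [hlab, hanc, if_pos hd, dist_self]
        positivity
      · simp only [hlab, hanc, if_neg hd] at hy ⊢; exact hshift d r l hl y y' hy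
    · intro l y; simp [hlab, hanc]
    · intro l l' c; simp [hanc]
  obtain ⟨A, hA⟩ := h1 k hk Y Ω _ G T (n + 1) W lab anc hE
  refine ⟨A, hA.trans ?_⟩
  have hL := log_ge_of_two_le hk
  set Lg := Real.log k with hLg
  set R := G.E fun ω => ∑ t ∈ range T, G.ell t ω with hR
  have hR0 : 0 ≤ R := G.E_nonneg fun ω => Finset.sum_nonneg fun t _ => G.ell_nonneg t ω
  -- the last level
  have hlast : (G.E fun ω => ∑ t ∈ range T, rho W n * G.chg (lab n) (anc n) (rho W n) t ω) ≤ R := by
    refine G.E_mono fun ω => Finset.sum_le_sum fun t _ => ?_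
    have e1 : G.lbad (lab n) (anc n) (rho W n) t ω = 0 := by
      unfold Game.lbad
      refine Finset.sum_eq_zero fun i _ => if_pos (Or.inl ?_)
      simp [hanc]
    have e2 : G.lchg (lab n) t ω = if G.o t ω (G.idx t ω) = G.req t ω then 0 else 1 := by
      unfold Game.lchg
      rw [Finset.sum_eq_single (G.idx t ω)]
      · simp [hlab, G.o_succ_idx]
      · intro i _ hi; simp [hlab, G.o_succ_ne t ω hi]
      · simp
    rw [Game.chg, e1, e2, add_zero]
    split_ifs with h
    · rw [mul_zero]; exact G.ell_nonneg t ω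
    · rw [mul_one]; exact hn.trans (hmin _ _ h)
  have hcharge : ∀ t ω, ∑ d ∈ range n, rho W d * G.ch2 (fun l => H l d) (rho W d) t ω ≤
      (6 + C3) * Lg * G.ell t ω := by
    intro t ω
    have a1 := mul_le_mul_of_nonneg_left (h4 (G.ell t ω) W n (G.ell_nonneg t ω) hW)
      (show 0 ≤ Lg by linarith)
    have a3 : ∑ d ∈ range n, rho W d * G.ch2 (fun l => H l d) (rho W d) t ω =
        Lg * ∑ d ∈ range n, rho W d * min 1 ((G.ell t ω / rho W d) ^ 2) + G.ell t ω *
          ∑ d ∈ range n, H (G.hist (t + 1) ω) d := by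
      rw [Finset.mul_sum, Finset.mul_sum, ← Finset.sum_add_distrib]
      refine Finset.sum_congr rfl fun d _ => ?_
      have := (rho_pos hW d).ne'
      unfold Game.ch2
      rw [← hLg]
      field_simp
    have a4 := mul_le_mul_of_nonneg_left (hHs (G.hist (t + 1) ω)) (G.ell_nonneg t ω)
    rw [a3]; linarith
  have hmain : (G.E fun ω => ∑ t ∈ range T, ∑ d ∈ range n,
      rho W d * G.chg (lab d) (anc d) (rho W d) t ω) ≤ C2 * ((6 + C3) * Lg * R) := by
    calc _ = ∑ d ∈ range n, rho W d *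
          G.E fun ω => ∑ t ∈ range T, G.chg (lab0 d) (anc0 d) (rho W d) t ω := by
          simp only [← G.E_mul]
          rw [← G.E_sum]
          congr 1
          funext ω
          rw [Finset.sum_comm]
          refine Finset.sum_congr rfl fun d hd => ?_
          have hd' : d ≠ n := by have := mem_range.mp hd; omega
          simp only [hlab, hanc, if_neg hd', Finset.mul_sum]
      _ ≤ ∑ d ∈ range n, rho W d *
          (C2 * G.E fun ω => ∑ t ∈ range T, G.ch2 (fun l => H l d) (rho W d) t ω) :=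
          Finset.sum_le_sum fun d _ => mul_le_mul_of_nonneg_left (hchg d) (rho_pos hW d).le
      _ = C2 * G.E fun ω => ∑ t ∈ range T, ∑ d ∈ range n,
            rho W d * G.ch2 (fun l => H l d) (rho W d) t ω := by
          have : (G.E fun ω => ∑ t ∈ range T, ∑ d ∈ range n,
              rho W d * G.ch2 (fun l => H l d) (rho W d) t ω) = ∑ d ∈ range n, rho W d *
                G.E fun ω => ∑ t ∈ range T, G.ch2 (fun l => H l d) (rho W d) t ω := by
            simp only [← G.E_mul]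
            rw [← G.E_sum]
            congr 1
            funext ω
            rw [Finset.sum_comm]
            simp only [Finset.mul_sum]
          rw [this, Finset.mul_sum]
          exact Finset.sum_congr rfl fun d _ => by ring
      _ ≤ _ := by
          refine mul_le_mul_of_nonneg_left ?_ hC2
          rw [hR, ← G.E_mul]
          refine G.E_mono fun ω => ?_
          rw [Finset.mul_sum]
          exact Finset.sum_le_sum fun t _ => hcharge t ω
  have hsum : (G.E fun ω => ∑ t ∈ range T, ∑ d ∈ range (n + 1),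
      rho W d * G.chg (lab d) (anc d) (rho W d) t ω) ≤ C2 * ((6 + C3) * Lg * R) + R := by
    simp only [Finset.sum_range_succ, Finset.sum_add_distrib]
    rw [G.E_add]
    exact add_le_add hmain hlast
  have e2 : 2 * R ≤ 3 * Lg * R := by
    refine mul_le_mul_of_nonneg_right ?_ hR0
    linarith
  calc _ ≤ C1 * Lg * ((C2 * (6 + C3) + 3) * Lg * R) := by
        refine mul_le_mul_of_nonneg_left ?_ (by positivity)
        nlinarith
    _ = _ := by ring

end Vale.Agent.P304
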