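import Vale.Agent.P304.Compact
import Vale.Agent.P304.StmtsE

/-! P304: the outer reductions with exponent two. -/

namespace Vale.Agent.P304

open Finset MeasureTheory ServeAux Cpt
open scoped Classical BoundedContinuousFunction

theorem main_of_bayes2.{u} (h : Bayes2Stmt) : Main2Stmt.{u} := by
  obtain ⟨C, hC, h⟩ := h
  refine ⟨C, fun k hk X _ s => ?_⟩
  have i0 : Fin k := ⟨0, by omega⟩
  have : Nonempty (Fin k) := ⟨i0⟩
  have hc : ∀ σ : List X, ∃ c : ℕ → Fin k, cost (fun l => c l.length) s σ < opt s σ + 1 :=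
    fun σ => exists_lt_of_ciInf_lt (lt_add_one (opt s σ))
  choose c hc using hc
  have hCL : 0 ≤ C * Real.log k ^ 2 := by positivity
  have ha : ∀ (n : ℕ) (σ : Fin n → List X) (p : Fin n → ℝ), (∀ i, 0 ≤ p i) → ∑ i, p i = 1 →
      ∃ A : List X → Fin k, ∑ i, p i * (cost A s (σ i) - (C * Real.log k ^ 2 * opt s (σ i) +
        C * Real.log k ^ 2 * (1 + ∑ j, dist (s j) (s i0)))) ≤ 0 := by
    intro n σ p hp hp1
    set Z : Finset X := univ.image s ∪ univ.biUnion fun i => (σ i).toFinset with hZ
    set e : Fin Z.card → X := fun j => Z.equivFin.symm j with he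
    have hei : Function.Injective e := Subtype.val_injective.comp Z.equivFin.symm.injective
    have hsZ : ∀ j, s j ∈ Z := fun j => mem_union_left _ (mem_image_of_mem _ (mem_univ j))
    have : Nonempty (Fin Z.card) := ⟨Z.equivFin ⟨_, hsZ i0⟩⟩
    obtain ⟨ret, hret⟩ := hei.hasLeftInverse
    have hre : ∀ x ∈ Z, e (ret x) = x := by
      intro x hx
      have h1 : e (Z.equivFin ⟨x, hx⟩) = x := by simp [he]
      rw [← h1, hret]
    have hσ : ∀ i, ((σ i).map ret).map e = σ i := by
      intro i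
      rw [List.map_map]
      conv_rhs => rw [← List.map_id (σ i)]
      exact List.map_congr_left fun x hx => hre x (mem_union_right _
        (mem_biUnion.2 ⟨i, mem_univ _, List.mem_toFinset.2 hx⟩))
    have hs : (fun j => e (ret (s j))) = s := funext fun j => hre _ (hsZ j)
    let : MetricSpace (Fin Z.card) := MetricSpace.induced e hei inferInstance
    have hd : ∀ a b : Fin Z.card, dist (e a) (e b) = dist a b := fun _ _ => rfl
    obtain ⟨A, hA⟩ := h k hk (Fin Z.card) (Fin n) p hp hp1 (fun j => ret (s j))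
      (fun i => (σ i).map ret) (fun i => c (σ i)) (ret (s i0))
    have h1 : ∀ (A : List X → Fin k) (A' : List (Fin Z.card) → Fin k),
        (∀ l, A (l.map e) = A' l) → ∀ i,
        cost A' (fun j => ret (s j)) ((σ i).map ret) = cost A s (σ i) := by
      intro A A' hA i
      have := serve_map e hd A A' hA ((σ i).map ret) [] fun j => ret (s j)
      rw [hs, hσ] at this
      exact this.symm
    refine ⟨fun l => A (l.map ret), ?_⟩
    simp only [h1 (fun l => A (l.map ret)) A fun l => by
      rw [List.map_map, hret.comp_eq_id, List.map_id]] at hA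
    have h2 : ∀ i, cost (fun l => c (σ i) l.length) (fun j => ret (s j)) ((σ i).map ret) =
        cost (fun l => c (σ i) l.length) s (σ i) := fun i =>
      h1 (fun l => c (σ i) l.length) _ (fun l => by rw [List.length_map]) i
    simp only [h2, ← hd, hre _ (hsZ _)] at hA
    have h3 : ∑ i, p i * cost (fun l => c (σ i) l.length) s (σ i) ≤
        ∑ i, p i * opt s (σ i) + 1 := by
      refine (sum_le_sum fun i _ => mul_le_mul_of_nonneg_left (hc (σ i)).le (hp i)).trans
        (le_of_eq ?_)
      simp only [mul_add, sum_add_distrib, mul_one, hp1]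
    have h4 := mul_le_mul_of_nonneg_left h3 hCL
    simp only [mul_sub, mul_add (p _), sum_sub_distrib, sum_add_distrib, ← sum_mul, hp1,
      mul_left_comm (p _) (C * Real.log k ^ 2) (opt s _), ← mul_sum]
    linarith
  let : MeasurableSpace (List X → Fin k) := borel _
  have : BorelSpace (List X → Fin k) := ⟨rfl⟩
  obtain ⟨P, hP⟩ := compact (Ω := List X → Fin k) (fun σ => BoundedContinuousFunction.mkOfCompact
    ⟨fun A => cost A s σ, continuous_serve σ [] s⟩) (fun σ => C * Real.log k ^ 2 * opt s σ +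
      C * Real.log k ^ 2 * (1 + ∑ j, dist (s j) (s i0))) ha
  refine ⟨List X → Fin k, borel _, P, P.2, fun A => A,
    C * Real.log k ^ 2 * (1 + ∑ j, dist (s j) (s i0)) + 1,
    fun l => (continuous_apply l).measurable, fun σ => ⟨?_, ?_⟩⟩
  · exact (BoundedContinuousFunction.mkOfCompact
      ⟨fun A => cost A s σ, continuous_serve σ [] s⟩).integrable _
  · rw [← add_assoc]
    exact hP σ

theorem bayes_of_game2 (h : Game2Stmt) : Bayes2Stmt := by
  obtain ⟨C, hC, h⟩ := h
  refine ⟨C + 5, by linarith, ?_⟩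
  intro k hk Y _ _ Ω _ p hp hp1 s σ c y0
  have hsum : ∀ f : Ω → ℝ, ∑ ω : {ω // 0 < p ω}, p ω * f ω = ∑ ω, p ω * f ω := by
    intro f
    rw [← sum_subtype (univ.filter fun ω => 0 < p ω) (by simp) fun ω => p ω * f ω]
    refine sum_filter_of_ne fun ω _ hne => (hp ω).lt_of_ne' fun h0 => hne ?_
    rw [h0, zero_mul]
  let G : Game k Y {ω // 0 < p ω} :=
    { p := fun ω => p ω
      p_pos := fun ω => ω.2
      p_sum := by simpa [hp1] using hsum fun _ => 1
      s0 := y0
      idx := fun t ω => c ω (t + 1)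
      req := fun t ω => if h : t < (σ ω).length then (σ ω)[t] else
        fin (fun l => c ω l.length) [] (fun _ => y0) (σ ω) (c ω (t + 1)) }
  have hreq1 : ∀ t (ω : {ω // 0 < p ω}) (h : t < (σ ω).length), G.req t ω = (σ ω)[t] :=
    fun t ω h => dif_pos h
  have hreq2 : ∀ t (ω : {ω // 0 < p ω}), ¬ t < (σ ω).length →
      G.req t ω = fin (fun l => c ω l.length) [] (fun _ => y0) (σ ω) (c ω (t + 1)) :=
    fun t ω h => dif_neg h
  have hidx : ∀ t (ω : {ω // 0 < p ω}), G.idx t ω = c ω (t + 1) := fun _ _ => rfl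
  have h1 : ∀ (ω : {ω // 0 < p ω}) t,
      G.o t ω = fin (fun l => c ω l.length) [] (fun _ => y0) ((σ ω).take t) ∧
      ∑ j ∈ range t, G.ell j ω = cost (fun l => c ω l.length) (fun _ => y0) ((σ ω).take t) := by
    intro ω t
    induction t with
    | zero => exact ⟨rfl, rfl⟩
    | succ t ih =>
      rw [sum_range_succ, G.o_succ, Game.ell, ih.1, ih.2, hidx]
      by_cases ht : t < (σ ω).length
      · rw [List.take_succ_eq_append_getElem ht, hreq1 t ω ht, fin_snoc, cost, cost, serve_snoc]
        simp [Nat.min_eq_left (Nat.succ_le_of_lt ht)]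
      · rw [hreq2 t ω ht, List.take_of_length_le (not_lt.1 ht),
          List.take_of_length_le ((not_lt.1 ht).trans (Nat.le_succ t))]
        simp
  have h2 : ∀ (ω : {ω // 0 < p ω}) t, ∃ pad, (G.hist t ω).reverse = (σ ω).take t ++ pad ∧
      (t ≤ (σ ω).length → pad = []) := by
    intro ω t
    induction t with
    | zero => exact ⟨[], rfl, fun _ => rfl⟩
    | succ t ih =>
      obtain ⟨pad, h3, h4⟩ := ih
      rw [G.hist_succ, List.reverse_cons, h3]
      by_cases ht : t < (σ ω).length
      · refine ⟨[], ?_, fun _ => rfl⟩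
        rw [h4 ht.le, List.take_succ_eq_append_getElem ht, hreq1 t ω ht]
        simp
      · refine ⟨pad ++ [G.req t ω], ?_, fun h => absurd h ht⟩
        rw [List.take_of_length_le (not_lt.1 ht),
          List.take_of_length_le ((not_lt.1 ht).trans (Nat.le_succ t)), List.append_assoc]
  set T := univ.sup fun ω => (σ ω).length with hT
  have hT' : ∀ ω, (σ ω).length ≤ T := fun ω => le_sup (f := fun ω => (σ ω).length) (mem_univ ω)
  obtain ⟨A, hA⟩ := h k hk Y _ G T
  refine ⟨A, ?_⟩
  have h3 : ∑ ω, p ω * cost A (fun _ => y0) (σ ω) ≤ G.onCost A T := by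
    rw [← hsum]
    refine G.E_mono (X := fun ω => cost A (fun _ => y0) (σ ω)) fun ω => ?_
    obtain ⟨pad, h3, -⟩ := h2 ω T
    rw [h3, List.take_of_length_le (hT' ω)]
    exact cost_le_append _ _ _ _
  have h4 : (G.E fun ω => ∑ t ∈ range T, G.ell t ω) =
      ∑ ω, p ω * cost (fun l => c ω l.length) (fun _ => y0) (σ ω) := by
    rw [← hsum]
    refine sum_congr rfl fun ω _ => ?_
    change p ω * (∑ t ∈ range T, G.ell t ω) = _
    rw [(h1 ω T).2, List.take_of_length_le (hT' ω)]
  have h5 : ∀ (f g : Ω → ℝ) (D : ℝ), (∀ ω, f ω ≤ g ω + D) →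
      ∑ ω, p ω * f ω ≤ ∑ ω, p ω * g ω + D := by
    intro f g D hfg
    refine (sum_le_sum fun ω _ => mul_le_mul_of_nonneg_left (hfg ω) (hp ω)).trans (le_of_eq ?_)
    simp only [mul_add, sum_add_distrib, ← sum_mul, hp1, one_mul]
  have h6 := h5 (fun ω => cost A s (σ ω)) (fun ω => cost A (fun _ => y0) (σ ω)) _
    fun ω => serve_le A (σ ω) [] s fun _ => y0
  have h7 := h5 (fun ω => cost (fun l => c ω l.length) (fun _ => y0) (σ ω))
    (fun ω => cost (fun l => c ω l.length) s (σ ω)) _
    fun ω => serve_le _ (σ ω) [] (fun _ => y0) s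
  simp only [dist_comm y0] at h7
  have h8 : 0 ≤ ∑ ω, p ω * cost (fun l => c ω l.length) s (σ ω) :=
    sum_nonneg fun ω _ => mul_nonneg (hp ω) (cost_nonneg _ _ _)
  have h9 : 0 ≤ ∑ i, dist (s i) y0 := sum_nonneg fun _ _ => dist_nonneg
  have hL : (0.69 : ℝ) ≤ Real.log k :=
    le_trans (by linarith [Real.log_two_gt_d9])
      (Real.log_le_log two_pos (by exact_mod_cast hk : (2 : ℝ) ≤ k))
  have hL4 : (0.2 : ℝ) ≤ Real.log k ^ 2 :=
    le_trans (by norm_num) (pow_le_pow_left₀ (by norm_num) hL 2)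
  rw [h4] at hA
  have h10 := mul_le_mul_of_nonneg_left h7 (show 0 ≤ C * Real.log k ^ 2 by positivity)
  nlinarith [mul_le_mul_of_nonneg_right hL4 h8, mul_le_mul_of_nonneg_right hL4 h9]

end Vale.Agent.P304
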