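import Vale.Agent.P304.StmtsT
import Vale.Agent.P304.TA

/-! The allocation process with one logarithm. -/

namespace Vale.Agent.P304

open Finset
open scoped Classical

namespace TA2

variable {k : ℕ} {Y Ω L : Type} [Fintype Ω] [Fintype L] (G : Game k Y Ω)
  (lab : ℕ → List Y → Y → L)

/-- expected total weighted sum over the edges -/
noncomputable def WE (T D : ℕ) (f : ℕ → Ω → L → List (Option L) → ℝ) : ℝ :=
  G.E fun ω => ∑ t ∈ range T, wsum D (f t ω)

theorem WE_swap (T D : ℕ) (f : ℕ → Ω → L → List (Option L) → ℝ) :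
    WE G T D f = ∑ d ∈ range D, (1 / 2 : ℝ) ^ d * ∑ u ∈ lists (Option L) d,
      G.E fun ω => ∑ t ∈ range T, ∑ c, f t ω c u :=
  TA.E_swap G T D (fun d => lists (Option L) d) fun t ω u => ∑ c, f t ω c u

theorem WE_node (T D : ℕ) (f g : ℕ → Ω → L → List (Option L) → ℝ) (C : ℝ)
    (h : ∀ u, (G.E fun ω => ∑ t ∈ range T, ∑ c, f t ω c u) ≤
      C * G.E fun ω => ∑ t ∈ range T, ∑ c, g t ω c u) :
    WE G T D f ≤ C * WE G T D g := by
  rw [WE_swap, WE_swap, mul_sum]
  refine sum_le_sum fun d _ => ?_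
  rw [mul_left_comm, mul_sum (a := C)]
  exact mul_le_mul_of_nonneg_left (sum_le_sum fun u _ => h u) (by positivity)

theorem WE_edge (T D : ℕ) (f g : ℕ → Ω → L → List (Option L) → ℝ) (C : ℝ)
    (h : ∀ c u, (G.E fun ω => ∑ t ∈ range T, f t ω c u) ≤
      C * G.E fun ω => ∑ t ∈ range T, g t ω c u) :
    WE G T D f ≤ C * WE G T D g := by
  refine WE_node G T D f g C fun u => ?_
  have e : ∀ f : ℕ → Ω → L → List (Option L) → ℝ,
      (G.E fun ω => ∑ t ∈ range T, ∑ c, f t ω c u) =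
        ∑ c, G.E fun ω => ∑ t ∈ range T, f t ω c u := fun f => by
    rw [← G.E_sum]
    exact congrArg _ (funext fun ω => sum_comm)
  rw [e, e, mul_sum]
  exact sum_le_sum fun c _ => h c u

theorem wsum_add (D : ℕ) (f g : L → List (Option L) → ℝ) :
    (wsum D fun c u => f c u + g c u) = wsum D f + wsum D g := by
  simp only [wsum, sum_add_distrib, mul_add]

theorem wsum_mul (D : ℕ) (a : ℝ) (f : L → List (Option L) → ℝ) :
    (wsum D fun c u => a * f c u) = a * wsum D f := by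
  simp only [wsum, ← mul_sum]
  rw [mul_sum]
  exact sum_congr rfl fun d _ => by ring

theorem WE_add (T D : ℕ) (f g : ℕ → Ω → L → List (Option L) → ℝ) :
    (WE G T D fun t ω c u => f t ω c u + g t ω c u) = WE G T D f + WE G T D g := by
  simp only [WE]
  rw [← G.E_add]
  refine congrArg _ (funext fun ω => ?_)
  rw [← sum_add_distrib]
  exact sum_congr rfl fun t _ => wsum_add D _ _

theorem WE_mul (T D : ℕ) (a : ℝ) (f : ℕ → Ω → L → List (Option L) → ℝ) :
    (WE G T D fun t ω c u => a * f t ω c u) = a * WE G T D f := by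
  simp only [WE]
  rw [← G.E_mul]
  refine congrArg _ (funext fun ω => ?_)
  rw [mul_sum]
  exact sum_congr rfl fun t _ => wsum_mul D _ _

/-- total weighted change of the offline counts -/
noncomputable def NT (T D : ℕ) : ℝ :=
  G.E fun ω => ∑ t ∈ range T, ∑ d ∈ range D, (1 / 2 : ℝ) ^ d *
    ∑ u ∈ lists (Option L) (d + 1), |(G.NN lab (t + 1) ω u : ℝ) - G.NN lab t ω u|

theorem NT_le (T D : ℕ) : NT G lab T D ≤
    4 * G.E fun ω => ∑ t ∈ range T, ∑ d ∈ range D, (1 / 2 : ℝ) ^ d * G.lchg (lab d) t ω := by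
  rw [← G.E_mul]
  refine G.E_mono fun ω => ?_
  rw [mul_sum]
  refine sum_le_sum fun t _ => ?_
  have b3 := sum_half_cum D (fun j => G.lchg (lab j) t ω) fun j =>
    sum_nonneg fun _ _ => by split_ifs <;> norm_num
  have b4 : ∑ d ∈ range D, (1 / 2 : ℝ) ^ d *
      ∑ u ∈ lists (Option L) (d + 1), |(G.NN lab (t + 1) ω u : ℝ) - G.NN lab t ω u| ≤
      2 * ∑ d ∈ range D, (1 / 2 : ℝ) ^ d * ∑ j ∈ range (d + 1), G.lchg (lab j) t ω := by
    rw [mul_sum]
    refine sum_le_sum fun d _ => ?_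
    rw [mul_left_comm]
    exact mul_le_mul_of_nonneg_left (TA.sum_dNN G lab t ω (d + 1)) (by positivity)
  linarith

theorem WE_dN_le (T D : ℕ) :
    (WE G T D fun t ω c u => G.dN lab t ω (some c :: u)) ≤ NT G lab T D := by
  refine G.E_mono fun ω => sum_le_sum fun t _ => sum_le_sum fun d _ => ?_
  refine mul_le_mul_of_nonneg_left ?_ (by positivity)
  rw [sum_lists_succ]
  refine sum_le_sum fun u _ => ?_
  rw [Fintype.sum_option]
  exact le_add_of_nonneg_left (abs_nonneg _)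

theorem WE_dN_nonneg (T D : ℕ) :
    0 ≤ WE G T D fun t ω c u => G.dN lab t ω (some c :: u) :=
  G.E_nonneg fun _ => sum_nonneg fun _ _ => sum_nonneg fun _ _ =>
    mul_nonneg (by positivity) (sum_nonneg fun _ _ => sum_nonneg fun _ _ => abs_nonneg _)

theorem y_zero {l : List Y} {v : List (Option L)} {i : ℕ}
    (h : ∀ ω, G.hist l.length ω = l → i < G.NN lab l.length ω v) : (G.ts lab l).y v i = 0 := by
  have e : (G.ts lab l).y v i = G.ce l fun ω => G.hid lab l.length ω v i := rfl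
  rw [e, ← G.ce_zero l]
  refine G.ce_congr fun ω hω => ?_
  simp only [Game.hid]
  rw [if_neg (not_le.2 (h ω hω))]

theorem zprops (hI : InvStmt) (hT : TsStmt) (hk : 2 ≤ k) :
    ZProps G lab (fun l => (G.ts lab l).Zf k) (fun l => (TA.td G lab l).nu) := by
  have hk' : (2 : ℝ) ≤ k := by exact_mod_cast hk
  have hP := (hT k Y Ω L G lab hk).1
  have hA : ∀ l u, |(G.ts lab l).nu u - (TA.td G lab l).nu u| ≤
      1 / 20 * ((TA.td G lab l).nu u + 1 / 8) := fun l u => TA.nu_approx G lab l u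
  refine ⟨fun _ => rfl, fun l u => ?_, fun l hl => ?_, TA.nu_nonneg G lab, fun l hl c u => ?_,
    fun l hl c u h => ?_, TA.nu_approx G lab, fun r l hl d => ?_, fun d => ?_⟩
  · rw [Fintype.sum_option]
    simp [TS.Zf]
  · exact (hI k L _ hk (hP l hl).1 (hP l hl).2).2.2.1
  · obtain ⟨-, -, -, h4, h5, -⟩ := hI k L _ hk (hP l hl).1 (hP l hl).2
    have h0 := TA.nu_nonneg G lab l (some c :: u)
    have h1 := (abs_le.1 (hA l (some c :: u))).2
    by_cases h : 0 < (G.ts lab l).Zf k (some c :: u)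
    · have h6 := h5 c u h
      have h7 := h4 c u
      linarith
    · linarith [not_lt.1 h]
  · obtain ⟨-, -, -, -, h5, -⟩ := hI k L _ hk (hP l hl).1 (hP l hl).2
    have h1 := (abs_le.1 (hA l (some c :: u))).2
    have h6 := h5 c u h
    linarith
  · cases d with
    | zero =>
      have : (G.ts lab (r :: l)).Zf k (path lab (r :: l) r 0) = k := rfl
      rw [this]; linarith
    | succ d =>
      obtain ⟨-, -, -, -, -, h6⟩ := hI k L _ hk (hP _ hl).1 (hP _ hl).2
      have := h6 (lab d (r :: l) r) (path lab (r :: l) r d) 1 le_rfl (by omega) fun i hi => by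
        refine y_zero G lab fun ω hω => ?_
        have hi0 : i = 0 := by omega
        rw [hi0]
        refine card_pos.2 ⟨G.idx l.length ω, mem_filter.2 ⟨mem_univ _, ?_⟩⟩
        have h1 : G.req l.length ω = r := (List.cons.inj hω).1
        rw [hω, List.length_cons, List.length_cons, TA.path_length, G.o_succ_idx, h1]
        rfl
      simpa [path] using this
  · cases d with
    | zero => exact le_rfl
    | succ d =>
      obtain ⟨-, -, -, -, -, h6⟩ := hI k L _ hk (hP _ G.reach_nil).1 (hP _ G.reach_nil).2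
      exact h6 (lab d [] G.s0) (path lab [] G.s0 d) k (by omega) le_rfl fun i hi => by
        refine y_zero G lab fun ω _ => ?_
        have : G.NN lab ([] : List Y).length ω (some (lab d [] G.s0) :: path lab [] G.s0 d) = k := by
          simp [Game.NN, TA.path_length, path]
        rw [this]; exact hi

omit [Fintype L] in
theorem track_nu (h1 : TrackStmt) (hk : 2 ≤ k) (T : ℕ) (u : List (Option L)) :
    (G.E fun ω => ∑ t ∈ range T,
      |(TA.td G lab (G.hist (t + 1) ω)).nu u - (TA.td G lab (G.hist t ω)).nu u|) ≤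
      400 * Real.log k *
        G.E fun ω => ∑ t ∈ range T, |(G.NN lab (t + 1) ω u : ℝ) - G.NN lab t ω u| := by
  have hk' : (2 : ℝ) ≤ k := by exact_mod_cast hk
  have c1 : 4 / (1 / 20) * Real.log ((k + 1 / 8) / (1 / 8)) ≤ 400 * Real.log k := by
    have h1 : Real.log ((k + 1 / 8) / (1 / 8)) ≤ 5 * Real.log k := by
      have h2 : (2 : ℝ) ^ 4 ≤ (k : ℝ) ^ 4 := pow_le_pow_left₀ (by norm_num) hk' 4
      have h3 := Real.log_pow (k : ℝ) 5
      push_cast at h3
      rw [← h3]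
      refine Real.log_le_log (by positivity) ?_
      rw [pow_succ]
      nlinarith
    linarith
  have e0 : 0 ≤ G.E fun ω => ∑ t ∈ range T, |(G.NN lab (t + 1) ω u : ℝ) - G.NN lab t ω u| :=
    G.E_nonneg fun ω => sum_nonneg fun _ _ => abs_nonneg _
  exact (h1 k Y Ω G (fun t ω => (G.NN lab t ω u : ℝ)) (1 / 20) (1 / 8) k T (by norm_num)
    (by norm_num) (by norm_num) (fun _ _ => Nat.cast_nonneg _)
    (fun t ω => Nat.cast_le.2 (TA.NN_le G lab t ω u))
    (fun ω ω' => by rw [TA.NN_zero G lab ω ω'])).trans (mul_le_mul_of_nonneg_right c1 e0)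

theorem track_all (h1 : TrackStmt) (hk : 2 ≤ k) (T D : ℕ) :
    (G.E fun ω => ∑ t ∈ range T, ∑ d ∈ range D, (1 / 2 : ℝ) ^ d *
      ∑ u ∈ lists (Option L) (d + 1),
        |(TA.td G lab (G.hist (t + 1) ω)).nu u - (TA.td G lab (G.hist t ω)).nu u|) ≤
      400 * Real.log k * NT G lab T D := by
  rw [NT, TA.E_swap G T D _ fun t ω u => |(G.NN lab (t + 1) ω u : ℝ) - G.NN lab t ω u|,
    TA.E_swap G T D _ fun t ω u =>
      |(TA.td G lab (G.hist (t + 1) ω)).nu u - (TA.td G lab (G.hist t ω)).nu u|, mul_sum]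
  refine sum_le_sum fun d _ => ?_
  rw [mul_left_comm, mul_sum (a := 400 * Real.log k)]
  exact mul_le_mul_of_nonneg_left (sum_le_sum fun u _ => track_nu G lab h1 hk T u)
    (by positivity)

theorem arith {C3 C4 C5 C6 e w N W1 W2 W3 W4 W5 W6 : ℝ} (c3 : 0 ≤ C3) (c4 : 0 ≤ C4)
    (c5 : 0 ≤ C5) (c6 : 0 ≤ C6) (he : 1 ≤ e) (hw : 0 < w) (hwe : w * e ≤ 1) (hN : 0 ≤ N)
    (h6 : W6 ≤ C4 * N) (h5 : W5 ≤ C3 * e * W6) (h1 : W1 ≤ C5 * N) (h2 : W2 ≤ C5 * e * N)
    (h3 : W3 ≤ C5 * (N + w * W5)) (h4 : W4 ≤ C6 * e * (N + W1 + W3 + W6)) :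
    W1 + W2 + W3 + W4 + w * W5 + e * W6 ≤
      (2 * C5 + C5 * (1 + C3 * C4) + C6 * (1 + C5 + C5 * (1 + C3 * C4) + C4) + C3 * C4 + C4) *
        e * N := by
  have he0 : 0 ≤ e := by linarith
  have a5 : w * W5 ≤ C3 * C4 * N := by
    have b1 : W5 ≤ C3 * e * (C4 * N) :=
      h5.trans (mul_le_mul_of_nonneg_left h6 (mul_nonneg c3 he0))
    have b2 : w * W5 ≤ w * (C3 * e * (C4 * N)) := mul_le_mul_of_nonneg_left b1 hw.le
    have b3 : w * e * (C3 * C4 * N) ≤ 1 * (C3 * C4 * N) :=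
      mul_le_mul_of_nonneg_right hwe (by positivity)
    nlinarith
  have a3 : W3 ≤ C5 * (1 + C3 * C4) * N := by
    have : C5 * (N + w * W5) ≤ C5 * (N + C3 * C4 * N) :=
      mul_le_mul_of_nonneg_left (by linarith) c5
    nlinarith
  have a4 : W4 ≤ C6 * (1 + C5 + C5 * (1 + C3 * C4) + C4) * e * N := by
    have : C6 * e * (N + W1 + W3 + W6) ≤
        C6 * e * (N + C5 * N + C5 * (1 + C3 * C4) * N + C4 * N) :=
      mul_le_mul_of_nonneg_left (by linarith) (mul_nonneg c6 he0)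
    nlinarith
  have a6 : e * W6 ≤ C4 * e * N := by
    have := mul_le_mul_of_nonneg_left h6 he0
    nlinarith
  have up : ∀ x : ℝ, 0 ≤ x → x * N ≤ x * e * N := fun x hx => by
    have : x * N * 1 ≤ x * N * e := mul_le_mul_of_nonneg_left he (mul_nonneg hx hN)
    nlinarith
  have u1 := up C5 c5
  have u3 := up (C5 * (1 + C3 * C4)) (by positivity)
  have u5 := up (C3 * C4) (by positivity)
  nlinarith

end TA2

open TA2 in
theorem ta2 (hF : ParamStmt) (hI : InvStmt) (hT : TsStmt) (h1 : TrackStmt) (h2 : MoveTStmt)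
    (h3 : LamStmt) (h4 : CTogStmt) (h5 : DStmt) (h6 : VSumStmt) : TA2Stmt := by
  obtain ⟨C2, c2, h2⟩ := h2
  obtain ⟨C3, c3, h3⟩ := h3
  obtain ⟨C4, c4, h4⟩ := h4
  obtain ⟨C5, c5, h5⟩ := h5
  obtain ⟨C6, c6, h6⟩ := h6
  set K : ℝ := 2 * C5 + C5 * (1 + C3 * C4) + C6 * (1 + C5 + C5 * (1 + C3 * C4) + C4) +
    C3 * C4 + C4 with hK
  have hK0 : 0 ≤ K := by positivity
  refine ⟨4 * (8 * C2 * K + 400), by positivity, fun k hk Y Ω L _ _ G lab T D =>
    ⟨_, _, zprops G lab hI hT hk, ?_⟩⟩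
  have F := hF k hk
  obtain ⟨hP, hTr⟩ := hT k Y Ω L G lab hk
  have hP0 := fun t ω => hP _ (G.reach_hist t ω)
  have hTr0 : ∀ t ω, (G.ts lab (G.hist t ω)).Trans k (G.ts lab (G.hist (t + 1) ω)) :=
    fun t ω => hTr _ _ (G.reach_hist (t + 1) ω)
  have he : (1 : ℝ) ≤ el k := by
    have := F.el_ge
    exact_mod_cast (by omega : 1 ≤ el k)
  have hwe : om k * el k ≤ 1 := by rw [F.om_el]; norm_num
  have hL : 0 ≤ Real.log k := by linarith [F.el_le]
  have b6 := WE_node G T D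
    (fun t ω c u => (G.ts lab (G.hist t ω)).D6 k (G.ts lab (G.hist (t + 1) ω)) c u)
    (fun t ω c u => G.dN lab t ω (some c :: u)) C4 fun u => h4 k Y Ω L G lab T u hk
  have b5 : (WE G T D fun t ω c u =>
      (G.ts lab (G.hist t ω)).D5 k (G.ts lab (G.hist (t + 1) ω)) c u) ≤ C3 * el k *
      WE G T D fun t ω c u =>
        (G.ts lab (G.hist t ω)).D6 k (G.ts lab (G.hist (t + 1) ω)) c u := by
    simp only [WE]
    rw [← G.E_mul]
    refine G.E_mono fun ω => ?_
    rw [mul_sum]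
    exact sum_le_sum fun t _ => h3 k L _ _ hk (hP0 t ω).1 (hP0 t ω).2 (hP0 (t + 1) ω).1
      (hP0 (t + 1) ω).2 (hTr0 t ω) D
  have b1 := WE_edge G T D
    (fun t ω c u => (G.ts lab (G.hist t ω)).D1 k (G.ts lab (G.hist (t + 1) ω)) (some c :: u))
    (fun t ω c u => G.dN lab t ω (some c :: u)) C5 fun c u => (h5 k Y Ω L G lab T c u hk).1
  have b2 := WE_edge G T D
    (fun t ω c u => (G.ts lab (G.hist t ω)).D2 k (G.ts lab (G.hist (t + 1) ω)) (some c :: u))
    (fun t ω c u => G.dN lab t ω (some c :: u)) (C5 * el k)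
    fun c u => (h5 k Y Ω L G lab T c u hk).2.1
  have b3 := WE_edge G T D
    (fun t ω c u => (G.ts lab (G.hist t ω)).D3 k (G.ts lab (G.hist (t + 1) ω)) (some c :: u))
    (fun t ω c u => G.dN lab t ω (some c :: u) +
      om k * (G.ts lab (G.hist t ω)).D5 k (G.ts lab (G.hist (t + 1) ω)) c u) C5
    fun c u => (h5 k Y Ω L G lab T c u hk).2.2
  have b4 := WE_node G T D
    (fun t ω c u => (G.ts lab (G.hist t ω)).D4 k (G.ts lab (G.hist (t + 1) ω)) c u)
    (fun t ω c u => G.dN lab t ω (some c :: u) +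
      (G.ts lab (G.hist t ω)).D1 k (G.ts lab (G.hist (t + 1) ω)) (some c :: u) +
      (G.ts lab (G.hist t ω)).D3 k (G.ts lab (G.hist (t + 1) ω)) (some c :: u) +
      (G.ts lab (G.hist t ω)).D6 k (G.ts lab (G.hist (t + 1) ω)) c u) (C6 * el k)
    fun u => h6 k Y Ω L G lab T u hk
  rw [WE_add, WE_mul] at b3
  rw [WE_add, WE_add, WE_add] at b4
  have a1 := arith c3 c4 c5 c6 he F.om_pos hwe (WE_dN_nonneg G lab T D) b6 b5 b1 b2 b3 b4
  rw [← hK, ← WE_mul, ← WE_mul G T D (el k), ← WE_add, ← WE_add, ← WE_add, ← WE_add,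
    ← WE_add] at a1
  have a2 : (G.E fun ω => ∑ t ∈ range T, ∑ d ∈ range D, (1 / 2 : ℝ) ^ d *
      ∑ u ∈ lists (Option L) (d + 1),
        |(G.ts lab (G.hist (t + 1) ω)).Zf k u - (G.ts lab (G.hist t ω)).Zf k u|) ≤
      C2 * (K * el k * WE G T D fun t ω c u => G.dN lab t ω (some c :: u)) := by
    refine le_trans ?_ (mul_le_mul_of_nonneg_left a1 c2)
    simp only [WE]
    rw [← G.E_mul]
    refine G.E_mono fun ω => ?_
    rw [mul_sum]
    exact sum_le_sum fun t _ => h2 k L _ _ hk (hP0 t ω).1 (hP0 t ω).2 (hP0 (t + 1) ω).1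
      (hP0 (t + 1) ω).2 (hTr0 t ω) D
  have a3 := track_all G lab h1 hk T D
  have a4 := NT_le G lab T D
  have a5 := WE_dN_le G lab T D
  have a6 := WE_dN_nonneg G lab T D
  have a7 : C2 * (K * el k * WE G T D fun t ω c u => G.dN lab t ω (some c :: u)) ≤
      8 * C2 * K * Real.log k * NT G lab T D := by
    have : (el k : ℝ) * (WE G T D fun t ω c u => G.dN lab t ω (some c :: u)) ≤
        8 * Real.log k * NT G lab T D :=
      mul_le_mul F.el_le a5 a6 (by positivity)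
    have := mul_le_mul_of_nonneg_left this (mul_nonneg c2 hK0)
    linarith
  have a8 := mul_le_mul_of_nonneg_left a4
    (show 0 ≤ (8 * C2 * K + 400) * Real.log k by positivity)
  simp only [mvZ, sum_add_distrib, mul_add]
  rw [G.E_add]
  linarith

end Vale.Agent.P304
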