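import Vale.Agent.P304.StmtsT

/-! First consequences of the posterior properties and of the accuracy of the tracked data. -/

namespace Vale.Agent.P304

open Finset
open scoped Classical

namespace TBasic

theorem r_lo {w y h : ℝ} (hw : 0 < w) (hw' : w ≤ 1 / 10) (hy : 1 / 20 < y) (hh : 0 ≤ h)
    (e : |y - h| ≤ w * (h + 1 / 20)) :
    y * (1 - 2 * w) ≤ h ∧ y ≤ (1 + 3 * w) * h ∧ h ≤ y * (1 + 3 * w) ∧ (1 - 3 * w) * h ≤ y := by
  obtain ⟨e1, e2⟩ := abs_le.1 e
  have a1 : y * (1 - w) ≤ h * (1 + w) := by nlinarith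
  have a2 : h * (1 - w) ≤ y * (1 + w) := by nlinarith
  have hy0 : 0 ≤ y := by linarith
  have b1 : 0 ≤ y * (w * w) := by positivity
  have b2 : 0 ≤ h * (w * w) := by positivity
  have b3 : 0 ≤ h * (w * (1 - 3 * w)) := mul_nonneg hh (mul_nonneg hw.le (by linarith))
  have b4 : 0 ≤ y * (w * (1 - 3 * w)) := mul_nonneg hy0 (mul_nonneg hw.le (by linarith))
  have b5 : 0 ≤ h * w := by positivity
  refine ⟨le_of_mul_le_mul_right (a := 1 + w) (by nlinarith) (by linarith),
    le_of_mul_le_mul_right (a := 1 - w) (by nlinarith) (by linarith),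
    le_of_mul_le_mul_right (a := 1 - w) (by nlinarith) (by linarith),
    le_of_mul_le_mul_right (a := 1 + w) (by nlinarith) (by linarith)⟩

theorem r_hi {w p q th : ℝ} (hw : 0 < w) (hw' : w ≤ 1 / 10) (hq : 0 ≤ q) (hth : 0 < th)
    (e : |q - p| ≤ w * (p + th)) : (1 + 3 * w) * max 0 (p - 2 * w * th) ≤ (1 + 5 * w) * q := by
  obtain ⟨e1, -⟩ := abs_le.1 e
  rcases le_total (p - 2 * w * th) 0 with h | h
  · rw [max_eq_left h, mul_zero]; positivity
  · rw [max_eq_right h]
    have b1 : 0 ≤ w * th * (1 - 2 * w) := mul_nonneg (by positivity) (by linarith)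
    have a1 : (p - 2 * w * th) * (1 - w) ≤ q := by nlinarith
    have a2 := mul_le_mul_of_nonneg_left a1 (show 0 ≤ 1 + 3 * w by linarith)
    have b2 : 0 ≤ q * (w * (1 - 5 * w)) := mul_nonneg hq (mul_nonneg hw.le (by linarith))
    exact le_of_mul_le_mul_right (a := 1 - w) (by nlinarith) (by linarith)

theorem r_low {w w0 p q th : ℝ} (hw0 : w0 ≤ w) (hw : 0 < w) (hw' : w ≤ 1 / 10) (hq : 0 ≤ q)
    (hp : 0 ≤ p) (hth : 0 < th) (e : |q - p| ≤ w * (p + th)) :
    (1 + w0) * q - 4 * (w * th) ≤ (1 + 3 * w) * max 0 (p - 2 * w * th) := by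
  obtain ⟨-, e2⟩ := abs_le.1 e
  have a1 : (1 + w0) * q ≤ (1 + w) * q := mul_le_mul_of_nonneg_right (by linarith) hq
  have a2 : (1 + w) * q ≤ (1 + w) * (p + w * (p + th)) :=
    mul_le_mul_of_nonneg_left (by linarith) (by linarith)
  have a3 : (1 + 3 * w) * (p - 2 * w * th) ≤ (1 + 3 * w) * max 0 (p - 2 * w * th) :=
    mul_le_mul_of_nonneg_left (le_max_right _ _) (by linarith)
  have b1 : 0 ≤ p * (w * (1 - w)) := mul_nonneg hp (mul_nonneg hw.le (by linarith))
  have b2 : 0 ≤ w * th * (1 - 7 * w) := mul_nonneg (by positivity) (by linarith)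
  nlinarith

variable {k : ℕ} {L : Type} [Fintype L] {a : TS L}

theorem thi_pos (F : Facts k) (j : ℕ) : 0 < thi j := lt_of_lt_of_le (by positivity) (F.thi_pow j)

theorem gl_nonneg (F : Facts k) (j : ℕ) : 0 ≤ gl k j := by
  unfold gl
  split_ifs
  · exact (one_div_pos.2 (thi_pos F j)).le
  · exact le_rfl

theorem nu_child (P : a.Post k) (c : L) (u : List (Option L)) : a.nu (some c :: u) ≤ a.nu u :=
  (single_le_sum (f := fun c => a.nu (some c :: u)) (fun _ _ => P.nu_nonneg _) (mem_univ c)).trans
    (P.child u)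

theorem gl_mul (F : Facts k) (P : a.Post k) (A : a.Acc k) (c : L) (u : List (Option L)) :
    gl k (a.cl (some c :: u)) * a.nu u ≤ a.nu (some c :: u) := by
  unfold gl
  split_ifs with h
  · rw [one_div, inv_mul_le_iff₀ (thi_pos F _)]
    exact (A.cl_hi c u h.2).le
  · rw [zero_mul]; exact P.nu_nonneg _

theorem dl_nonneg (F : Facts k) (u : List (Option L)) : 0 ≤ dl k a.cl u :=
  sum_nonneg fun _ _ => gl_nonneg F _

theorem dl_le (F : Facts k) (P : a.Post k) (A : a.Acc k) (u : List (Option L)) :
    dl k a.cl u ≤ 1 := by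
  rcases (P.nu_nonneg u).eq_or_lt with h | h
  · refine le_trans (le_of_eq (sum_eq_zero fun c _ => if_neg fun hc => ?_)) zero_le_one
    have h1 := A.cl_hi c u hc.2
    have h2 := le_antisymm ((nu_child P c u).trans h.symm.le) (P.nu_nonneg _)
    rw [h2, mul_zero, ← h] at h1
    exact lt_irrefl _ h1
  · refine le_of_mul_le_mul_right ?_ h
    rw [one_mul, dl, sum_mul]
    exact (sum_le_sum fun c _ => gl_mul F P A c u).trans (P.child u)

theorem inc_nonneg (F : Facts k) (c : L) (u : List (Option L)) : 0 ≤ inc k a.cl c u := by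
  unfold inc
  split_ifs
  · exact dl_nonneg F u
  · exact mul_nonneg (by norm_num) (F.eta_pos _).le

theorem La_nonneg (F : Facts k) : ∀ u : List (Option L), 0 ≤ La k a.cl u
  | [] => le_rfl
  | none :: u => La_nonneg F u
  | some c :: u => add_nonneg (La_nonneg F u) (inc_nonneg F c u)

theorem edge (F : Facts k) (P : a.Post k) (A : a.Acc k) (c : L) (u : List (Option L)) :
    a.nu (some c :: u) * Real.exp (Real.log 2 / 18 * inc k a.cl c u) ≤ a.nu u := by
  unfold inc
  split_ifs with h
  · have h1 : dl k a.cl u * a.nu u + a.nu (some c :: u) ≤ a.nu u := by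
      refine le_trans ?_ (P.child u)
      rw [dl, sum_mul, ← add_sum_erase _ _ (mem_univ c), ← add_sum_erase _ _ (mem_univ c), h,
        gl, if_neg (fun hc => absurd hc.1 (by norm_num)), zero_mul, zero_add, add_comm]
      exact add_le_add le_rfl (sum_le_sum fun c' _ => gl_mul F P A c' u)
    have h2 := Real.add_one_le_exp (-dl k a.cl u)
    have h3 : Real.log 2 / 18 * dl k a.cl u ≤ dl k a.cl u :=
      mul_le_of_le_one_left (dl_nonneg F u) (by linarith [Real.log_two_lt_d9])
    have h4 : a.nu (some c :: u) ≤ Real.exp (-dl k a.cl u) * a.nu u := by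
      have := mul_le_mul_of_nonneg_right h2 (P.nu_nonneg u)
      linarith
    calc _ ≤ Real.exp (-dl k a.cl u) * a.nu u * Real.exp (dl k a.cl u) :=
          mul_le_mul h4 (Real.exp_le_exp.2 h3) (Real.exp_pos _).le
            (mul_nonneg (Real.exp_pos _).le (P.nu_nonneg u))
      _ = a.nu u := by rw [mul_right_comm, ← Real.exp_add, neg_add_cancel, Real.exp_zero, one_mul]
  · have h1 : 1 ≤ a.cl (some c :: u) := Nat.one_le_iff_ne_zero.2 h
    rw [show Real.log 2 / 18 * (9 * eta (a.cl (some c :: u))) =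
      Real.log 2 / 2 * eta (a.cl (some c :: u)) by ring, mul_comm]
    exact (mul_le_mul_of_nonneg_right (F.eta_tlo _ h1) (P.nu_nonneg _)).trans (A.cl_lo c u h1)

theorem path (F : Facts k) (P : a.Post k) (A : a.Acc k) :
    ∀ v : List (Option L), a.nu v * Real.exp (Real.log 2 / 18 * La k a.cl v) ≤ k
  | [] => by simp [La, P.nu_root]
  | none :: u => by rw [P.nu_none, zero_mul]; positivity
  | some c :: u => by
    rw [La, mul_add, Real.exp_add, mul_comm (Real.exp _), ← mul_assoc]
    exact (mul_le_mul_of_nonneg_right (edge F P A c u) (Real.exp_pos _).le).trans (path F P A u)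

theorem nu_le (F : Facts k) (P : a.Post k) (A : a.Acc k) (v : List (Option L)) : a.nu v ≤ k :=
  (le_mul_of_one_le_right (P.nu_nonneg v) (Real.one_le_exp
    (mul_nonneg (by positivity) (La_nonneg F v)))).trans (path F P A v)

theorem La_big (hk : 2 ≤ k) (F : Facts k) (P : a.Post k) (A : a.Acc k) (v : List (Option L))
    (h : 18 * (el k : ℝ) < La k a.cl v) : a.nu v ≤ 1 / 8 := by
  have h1 : (2 : ℝ) ^ el k ≤ Real.exp (Real.log 2 / 18 * La k a.cl v) := by
    rw [← Real.exp_log (show (0 : ℝ) < 2 ^ el k by positivity), Real.log_pow, Real.exp_le_exp]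
    have := mul_le_mul_of_nonneg_left h.le (show 0 ≤ Real.log 2 / 18 by positivity)
    linarith
  have h2 := (mul_le_mul_of_nonneg_left (F.pow_el.trans h1) (P.nu_nonneg v)).trans (path F P A v)
  have hk' : (0 : ℝ) < k := by exact_mod_cast (by omega : 0 < k)
  exact le_of_mul_le_mul_right (a := (8 * k : ℝ)) (by linarith) (by positivity)

theorem lam_nonneg (F : Facts k) (u : List (Option L)) : 0 ≤ lam k a.cl u :=
  le_min (La_nonneg F u) (by positivity)

theorem ss_lo (F : Facts k) (u : List (Option L)) : 7 / 2 ≤ ss k a.cl u :=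
  F.ss_lo _ (lam_nonneg F u)

theorem one_slot (P : a.Post k) (v : List (Option L)) {i : ℕ} (hi : i < k) :
    1 - a.y v i ≤ a.nu v :=
  (single_le_sum (f := fun i => 1 - a.y v i) (fun i _ => sub_nonneg.2 (P.y_le v i))
    (mem_range.2 hi)).trans (P.slots v)

theorem dead (hk : 2 ≤ k) (F : Facts k) (P : a.Post k) (A : a.Acc k) (c : L)
    (u : List (Option L)) (h : a.cl (some c :: u) = jm k + 2) : a.nu (some c :: u) ≤ 1 / 8 := by
  have h1 := A.cl_lo c u (by omega)
  rw [h, show jm k + 2 - 1 = jm k + 1 from rfl] at h1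
  have h2 := (mul_le_mul_of_nonneg_right F.tlo_dead (P.nu_nonneg (some c :: u))).trans
    (h1.trans (nu_le F P A u))
  have hk' : (0 : ℝ) < k := by exact_mod_cast (by omega : 0 < k)
  exact le_of_mul_le_mul_right (a := (8 * k : ℝ)) (by linarith) (by positivity)

theorem small_dp (P : a.Post k) (A : a.Acc k) (v : List (Option L)) {i : ℕ} (hi : i < k)
    (h : a.nu v ≤ 1 / 2) : ¬ a.dp v i := fun hd => by
  linarith [one_slot P v hi, A.dp_hi v i hd]

theorem yh_all (F : Facts k) (A : a.Acc k) (v : List (Option L)) (i : ℕ) (h : ¬ a.dp v i) :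
    a.y v i * (1 - 2 * om k) ≤ a.yh v i ∧ a.y v i ≤ (1 + 3 * om k) * a.yh v i ∧
      a.yh v i ≤ a.y v i * (1 + 3 * om k) ∧ (1 - 3 * om k) * a.yh v i ≤ a.y v i :=
  r_lo F.om_pos (F.om_le.trans (by norm_num)) (not_le.1 fun h' => h (A.dp_lo v i h'))
    (A.yh_nonneg v i) (A.yh_near v i)

omit [Fintype L] in
theorem bb_add_mx (s : ℝ) (v : List (Option L)) : a.bb k v + a.mx k s v =
    ∑ i ∈ range k, if a.dp v i then 1 else ph k (s * a.yh v i) := by
  rw [TS.bb, TS.mx, ← sum_add_distrib]
  exact sum_congr rfl fun i _ => by split_ifs <;> simp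

theorem term (F : Facts k) (A : a.Acc k) {s : ℝ} (hs : 3 ≤ s) (v : List (Option L)) (i : ℕ) :
    (if a.dp v i then 1 else ph k (s * a.yh v i)) = 0 ∨
      ((if a.dp v i then 1 else ph k (s * a.yh v i)) ≤ 1 ∧ 16 / 25 ≤ 1 - a.y v i) := by
  split_ifs with h
  · exact Or.inr ⟨le_rfl, by linarith [A.dp_hi v i h]⟩
  · have h0 := A.yh_nonneg v i
    rcases le_total (103 / 100) (s * a.yh v i) with h' | h'
    · exact Or.inl (F.ph_zero _ h')
    · refine Or.inr ⟨F.ph_le _ (mul_nonneg (by linarith) h0), ?_⟩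
      have h1 := mul_le_mul_of_nonneg_right hs h0
      have h2 := mul_le_mul_of_nonneg_right F.om_le h0
      have h3 := (yh_all F A v i h).2.1
      linarith

theorem bb_le (P : a.Post k) (A : a.Acc k) (v : List (Option L)) :
    17 / 20 * a.bb k v ≤ a.nu v := by
  rw [TS.bb, mul_sum]
  refine (sum_le_sum fun i _ => ?_).trans (P.slots v)
  split_ifs with h
  · linarith [A.dp_hi v i h]
  · linarith [P.y_le v i]

omit [Fintype L] in
theorem sg_nonneg (v : List (Option L)) : 0 ≤ a.sg k v :=
  sum_nonneg fun i _ => by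
    split_ifs
    · exact le_rfl
    · exact sum_nonneg fun j _ => by split_ifs <;> positivity

theorem sg_le (F : Facts k) (P : a.Post k) (A : a.Acc k) (c : L) (u : List (Option L)) :
    a.sg k (some c :: u) ≤ 2 * a.nu (some c :: u) := by
  refine le_trans ?_ (mul_le_mul_of_nonneg_left (P.slots _) zero_le_two)
  rw [TS.sg, mul_sum]
  refine sum_le_sum fun i _ => ?_
  have h1 := P.y_le (some c :: u) i
  split_ifs
  · linarith
  · by_cases h : ∃ j ∈ range (nn k + 1), a.on (some c :: u) i j
    · obtain ⟨j, hj, h⟩ := h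
      have h2 := A.on_hi c u i j h
      have h3 := F.tt_hi j (mem_range.1 hj).le
      have h4 := F.wd_hi j
      have h5 := mul_le_mul_of_nonneg_right (ss_lo (a := a) F u) (P.y_nonneg (some c :: u) i)
      refine le_trans (sum_le_sum fun j _ => ?_) (F.quarter.trans (by linarith))
      split_ifs
      · exact le_rfl
      · positivity
    · rw [sum_eq_zero fun j hj => if_neg fun h' => h ⟨j, hj, h'⟩]
      linarith

theorem EY_nonneg (P : a.Post k) (v : List (Option L)) : 0 ≤ a.EY k a.y v :=
  sum_nonneg fun i _ => by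
    split_ifs
    · exact P.y_nonneg v i
    · exact le_rfl

theorem EY_le (A : a.Acc k) (v : List (Option L)) : a.EY k a.y v ≤ 3 / 20 * a.bb k v := by
  rw [TS.bb, mul_sum]
  refine sum_le_sum fun i _ => ?_
  split_ifs with h
  · linarith [A.dp_hi v i h]
  · linarith

theorem sum_EY_le (u : List (Option L)) : ∑ c, a.EY k a.y (some c :: u) ≤ a.SS k a.y u :=
  sum_le_sum fun c _ => le_add_of_nonneg_right (by
    split_ifs
    · exact sg_nonneg _
    · exact le_rfl)

theorem EY_le_SS (P : a.Post k) (c : L) (u : List (Option L)) :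
    a.EY k a.y (some c :: u) ≤ a.SS k a.y u :=
  (single_le_sum (f := fun c => a.EY k a.y (some c :: u)) (fun _ _ => EY_nonneg P _)
    (mem_univ c)).trans (sum_EY_le u)

theorem SS_nonneg (P : a.Post k) (u : List (Option L)) : 0 ≤ a.SS k a.y u :=
  (sum_nonneg fun _ _ => EY_nonneg P _).trans (sum_EY_le u)

theorem pi_nonneg (P : a.Post k) (c : L) (u : List (Option L)) : 0 ≤ a.pi k c u :=
  div_nonneg (EY_nonneg P _) (SS_nonneg P u)

theorem pi_sum (P : a.Post k) (u : List (Option L)) : ∑ c, a.pi k c u ≤ 1 := by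
  simp only [TS.pi, ← sum_div]
  exact div_le_one_of_le₀ (sum_EY_le u) (SS_nonneg P u)

theorem pit_hi (F : Facts k) (P : a.Post k) (A : a.Acc k) (c : L) (u : List (Option L)) :
    a.pit k (some c :: u) ≤ (1 + 5 * (om k * eta (a.cl (some c :: u)))) * a.pi k c u := by
  have hw := mul_pos F.om_pos (F.eta_pos (a.cl (some c :: u)))
  unfold TS.pit
  split_ifs
  · exact r_hi hw ((F.om_eta _ (A.cl_le c u)).trans (by norm_num)) (pi_nonneg P c u) (F.tht_pos _)
      (A.pih_near c u)
  · exact mul_nonneg (by linarith) (pi_nonneg P c u)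

theorem w_tht (F : Facts k) (j : ℕ) : 4 * (om k * eta j * tht j) = om k / 450 * (1 / thi j) := by
  have h1 := (F.eta_pos j).ne'
  have h2 := (thi_pos F j).ne'
  unfold tht
  field_simp
  ring

theorem pit_lo (hk : 2 ≤ k) (F : Facts k) (P : a.Post k) (A : a.Acc k) (c : L)
    (u : List (Option L)) (h : a.cl (some c :: u) ≠ 0) :
    (1 + om k) * a.pi k c u - om k / 450 * gl k (a.cl (some c :: u)) ≤ a.pit k (some c :: u) := by
  unfold TS.pit gl
  split_ifs with hl
  · rw [← w_tht F]
    refine r_low (le_mul_of_one_le_right F.om_pos.le ?_) (mul_pos F.om_pos (F.eta_pos _))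
      ((F.om_eta _ (A.cl_le c u)).trans (by norm_num)) (pi_nonneg P c u) (A.pih_nonneg c u)
      (F.tht_pos _) (A.pih_near c u)
    rw [eta, one_le_div two_pos]
    exact le_self_pow₀ one_le_two h
  · have h1 : a.cl (some c :: u) = jm k + 2 := by
      have := A.cl_le c u
      unfold Lt at hl
      omega
    have h2 : a.EY k a.y (some c :: u) = 0 := sum_eq_zero fun i hi =>
      if_neg (small_dp P A _ (mem_range.1 hi) ((dead hk F P A c u h1).trans (by norm_num)))
    rw [TS.pi, h2]
    simp

theorem pih_sum (F : Facts k) (P : a.Post k) (A : a.Acc k) (u : List (Option L)) :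
    ∑ c, (if Lt k (a.cl (some c :: u)) then a.pih (some c :: u) else 0) ≤ 2 := by
  have h : ∀ c, (if Lt k (a.cl (some c :: u)) then a.pih (some c :: u) else 0) ≤
      3 / 2 * a.pi k c u + 1 / 2 * gl k (a.cl (some c :: u)) := fun c => by
    have h0 := pi_nonneg P c u
    unfold gl
    split_ifs
    · have h1 := (abs_le.1 (A.pih_near c u)).1
      have h2 := w_tht F (a.cl (some c :: u))
      have h3 := mul_le_mul_of_nonneg_right (F.om_eta _ (A.cl_le c u)) (A.pih_nonneg c u)
      have h4 := (one_div_pos.2 (thi_pos F (a.cl (some c :: u)))).le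
      have h5 := mul_le_mul_of_nonneg_right F.om_le h4
      have h6 := A.pih_nonneg c u
      linarith
    · linarith
  refine (sum_le_sum fun c _ => h c).trans ?_
  rw [sum_add_distrib, ← mul_sum, ← mul_sum]
  have h1 : ∑ c, gl k (a.cl (some c :: u)) ≤ 1 := dl_le F P A u
  linarith [pi_sum P u]

end TBasic

open TBasic in
theorem basic (hF : ParamStmt) : BasicStmt := by
  intro k L _ a hk P A
  have F := hF k hk
  have hk' : (0 : ℝ) < k := by exact_mod_cast (by omega : 0 < k)
  exact
  { heavy_unique := fun c c' u h h' => by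
      by_contra hne
      have h1 := A.cl_hi c u (by omega)
      have h2 := A.cl_hi c' u (by omega)
      rw [h, thi, if_pos rfl] at h1
      rw [h', thi, if_pos rfl] at h2
      have h3 := (sum_le_sum_of_subset_of_nonneg (f := fun c => a.nu (some c :: u))
        (subset_univ {c, c'}) fun _ _ _ => P.nu_nonneg _).trans (P.child u)
      rw [sum_pair hne] at h3
      linarith [P.nu_nonneg u]
    dl_nonneg := dl_nonneg F
    dl_le := dl_le F P A
    La_nonneg := La_nonneg F
    La_big := La_big hk F P A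
    lam_nonneg := lam_nonneg F
    lam_le := fun _ => min_le_right _ _
    ss_lo := ss_lo F
    ss_hi := fun u => F.ss_hi _ ((min_le_right _ _).trans (by
      have : (0 : ℝ) ≤ el k := Nat.cast_nonneg _
      linarith))
    ee_pos := fun u => by unfold ee eef; positivity
    nu_le := nu_le F P A
    nu_child := nu_child P
    dead := dead hk F P A
    small_dp := fun v _ hi => small_dp P A v hi
    small_slot := fun v s hs h => sum_eq_zero fun i hi => F.ph_zero _ (by
      have h1 := one_slot P v (mem_range.1 hi)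
      have h2 := mul_le_mul_of_nonneg_right hs (P.y_nonneg v i)
      linarith)
    yh_lo := fun v i h => (yh_all F A v i h).1
    yh_lo' := fun v i h => (yh_all F A v i h).2.1
    yh_hi := fun v i h => (yh_all F A v i h).2.2.1
    yh_hi' := fun v i h => (yh_all F A v i h).2.2.2
    bb_nonneg := fun v => sum_nonneg fun i _ => by split_ifs <;> norm_num
    bb_nat := fun v => by
      by_cases h : ∃ i ∈ range k, a.dp v i
      · obtain ⟨i, hi, h⟩ := h
        refine Or.inr (le_trans (if_pos h).ge (single_le_sum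
          (f := fun i => if a.dp v i then (1 : ℝ) else 0) (fun i _ => ?_) hi))
        split_ifs <;> norm_num
      · exact Or.inl (sum_eq_zero fun i hi => if_neg fun h' => h ⟨i, hi, h'⟩)
    bb_le := bb_le P A
    mx_nonneg := fun s v => sum_nonneg fun i _ => by
      split_ifs
      · exact le_rfl
      · exact F.ph_nonneg _
    cap := fun s v hs => by
      refine le_trans ?_ (mul_le_mul_of_nonneg_left (P.slots v) (by norm_num))
      rw [bb_add_mx, mul_sum]
      refine sum_le_sum fun i _ => ?_
      rcases term F A hs v i with h | h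
      · rw [h]; linarith [P.y_le v i]
      · linarith [h.1, h.2]
    cap_pos := fun s v hs h => by
      rw [bb_add_mx] at h
      obtain ⟨i, hi, h'⟩ := exists_ne_zero_of_sum_ne_zero h.ne'
      exact ((term F A hs v i).resolve_left h').2.trans (one_slot P v (mem_range.1 hi))
    lo_le_hi := fun c u => add_le_add le_rfl (sum_le_sum fun i _ => by
      split_ifs
      · exact le_rfl
      · exact F.ph_anti (mul_le_mul_of_nonneg_right (mul_le_mul_of_nonneg_left
          (by linarith [F.om_pos]) (by linarith [ss_lo (a := a) F u])) (A.yh_nonneg _ _)))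
    sg_nonneg := sg_nonneg
    sg_le := sg_le F P A
    EY_nonneg := EY_nonneg P
    EY_le := EY_le A
    EY_le_SS := EY_le_SS P
    SS_nonneg := SS_nonneg P
    SS_le := fun u => by
      refine le_trans ?_ (mul_le_mul_of_nonneg_left (P.child u) (by norm_num))
      rw [TS.SS, mul_sum]
      refine sum_le_sum fun c _ => ?_
      have h1 := EY_le A (some c :: u)
      have h2 := bb_le P A (some c :: u)
      have h3 := sg_le F P A c u
      have h4 := P.nu_nonneg (some c :: u)
      split_ifs <;> linarith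
    pi_nonneg := pi_nonneg P
    pi_sum := pi_sum P
    pi_mul := fun c u => by
      rcases (SS_nonneg P u).eq_or_lt with h | h
      · rw [← h, mul_zero]
        exact le_antisymm (EY_nonneg P _) ((EY_le_SS P c u).trans h.ge)
      · exact div_mul_cancel₀ _ h.ne'
    pit_nonneg := fun v => by
      have := mul_pos F.om_pos (F.eta_pos (a.cl v))
      unfold TS.pit
      split_ifs
      · exact mul_nonneg (by linarith) (le_max_left _ _)
      · exact le_rfl
    pit_hi := pit_hi F P A
    pit_lo := pit_lo hk F P A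
    pit_sum := fun u => by
      refine (sum_le_sum (g := fun c => 6 / 5 * a.pi k c u) fun c _ => (pit_hi F P A c u).trans
        (mul_le_mul_of_nonneg_right ?_ (pi_nonneg P c u))).trans ?_
      · linarith [F.om_eta _ (A.cl_le c u)]
      · rw [← mul_sum]
        linarith [pi_sum P u]
    pih_sum := pih_sum F P A }

end Vale.Agent.P304
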