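import Vale.Agent.P304.StmtsT
import Vale.Agent.P304.TA

/-! The total price of the class changes. -/

namespace Vale.Agent.P304

open Finset
open scoped Classical

namespace TCTog

noncomputable def pd (k i : ℕ) : ℝ := (1 / 2) ^ i + 2 ^ i / el k

noncomputable def be (k i : ℕ) : ℝ := 6 * (pd k i + tlo i / thi i)

noncomputable def al (k i : ℕ) : ℝ := (1 + be k i) / thi i

noncomputable def ca (k j : ℕ) : ℝ := ∑ i ∈ range (jm k + 2), if i < j then 0 else al k i

noncomputable def cb (k j : ℕ) : ℝ :=
  ∑ i ∈ range (jm k + 2), if i < j then be k i - al k i else -al k i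

noncomputable def Phi (k j : ℕ) (A B : ℝ) : ℝ := ca k j * A + cb k j * B

theorem Phi_eq (k j : ℕ) (A B : ℝ) : Phi k j A B =
    ∑ i ∈ range (jm k + 2), if i < j then (be k i - al k i) * B else al k i * (A - B) := by
  rw [Phi, ca, cb, sum_mul, sum_mul, ← sum_add_distrib]
  refine sum_congr rfl fun i _ => ?_
  split_ifs <;> ring

variable {k : ℕ} (F : Facts k)
include F

theorem thi_ge (i : ℕ) : 9 / 5 ≤ thi i := by linarith [F.tlo_thi i, F.tlo_ge i]

theorem thi_pos (i : ℕ) : 0 < thi i := by linarith [thi_ge F i]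

theorem el_pos : (0 : ℝ) < el k := by
  have : (5 : ℝ) ≤ el k := by exact_mod_cast F.el_ge
  linarith

theorem pd_nonneg (i : ℕ) : 0 ≤ pd k i := by
  have := el_pos F
  unfold pd
  positivity

theorem be_nonneg (i : ℕ) : 0 ≤ be k i := by
  have h1 := pd_nonneg F i
  have h2 : 0 ≤ tlo i / thi i := div_nonneg (by linarith [F.tlo_ge i]) (thi_pos F i).le
  unfold be
  linarith

theorem al_nonneg (i : ℕ) : 0 ≤ al k i :=
  div_nonneg (by linarith [be_nonneg F i]) (thi_pos F i).le

theorem al_le (i : ℕ) : al k i ≤ be k i := by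
  have h0 := thi_pos F i
  have h1 : 9 ≤ be k i * thi i := by
    have h2 := mul_nonneg (pd_nonneg F i) h0.le
    have h3 : be k i * thi i = 6 * (pd k i * thi i + tlo i) := by
      unfold be
      field_simp
    linarith [F.tlo_ge i]
  have h2 := mul_le_mul_of_nonneg_left (thi_ge F i) (be_nonneg F i)
  rw [al, div_le_iff₀ h0]
  linarith

theorem sum_be : ∑ i ∈ range (jm k + 2), be k i ≤ 78 := by
  have h1 : ∑ i ∈ range (jm k + 2), (1 / 2 : ℝ) ^ i ≤ 2 := sum_geometric_two_le _
  have h2 : ∑ i ∈ range (jm k + 2), (2 : ℝ) ^ i ≤ 8 * el k := by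
    rw [geom_sum_eq (by norm_num), pow_add]
    linarith [F.jm_hi]
  have h3 := F.ratio_sum
  have h4 : (∑ i ∈ range (jm k + 2), (2 : ℝ) ^ i) / el k ≤ 8 := by
    rwa [div_le_iff₀ (el_pos F)]
  simp only [be, pd, ← mul_sum, sum_add_distrib, ← sum_div]
  linarith

theorem be_le {i : ℕ} (hi : i ∈ range (jm k + 2)) : be k i ≤ 78 :=
  (single_le_sum (fun i _ => be_nonneg F i) hi).trans (sum_be F)

theorem tail_sum (j n : ℕ) : ∑ i ∈ range n, (if i < j then 0 else 1 / thi i) +
    2 / thi (max n j) ≤ 2 / thi j := by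
  induction n with
  | zero => simp
  | succ n ih =>
    rw [sum_range_succ]
    by_cases h : n < j
    · rw [if_pos h, max_eq_right (by omega), add_zero]
      rwa [max_eq_right h.le] at ih
    · rw [if_neg h, max_eq_left (by omega)]
      rw [max_eq_left (by omega)] at ih
      have h1 : 2 / thi (n + 1) ≤ 1 / thi n := by
        rw [div_le_div_iff₀ (thi_pos F _) (thi_pos F _)]
        linarith [F.thi_double n]
      have h2 : 2 / thi n = 1 / thi n + 1 / thi n := by ring
      linarith

theorem ca_nonneg (j : ℕ) : 0 ≤ ca k j :=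
  sum_nonneg fun i _ => by
    split_ifs
    exacts [le_rfl, al_nonneg F i]

theorem ca_le (j : ℕ) : ca k j ≤ 158 * ((if j = 0 then 1 else 0) + gl k j) := by
  have h1 : ca k j ≤ 79 * ∑ i ∈ range (jm k + 2), (if i < j then 0 else 1 / thi i) := by
    rw [mul_sum]
    refine sum_le_sum fun i hi => ?_
    split_ifs
    · simp
    · rw [al, mul_one_div]
      exact div_le_div_of_nonneg_right (by linarith [be_le F hi]) (thi_pos F i).le
  have h2 := tail_sum F j (jm k + 2)
  have h3 : 0 ≤ 2 / thi (max (jm k + 2) j) := div_nonneg (by norm_num) (thi_pos F _).le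
  have h4 : 2 / thi j = 2 * (1 / thi j) := by ring
  by_cases h0 : j = 0
  · have h5 : 1 / thi j ≤ 1 := by
      rw [div_le_one (thi_pos F j)]
      linarith [thi_ge F j]
    have h6 : gl k j = 0 := if_neg (by simp [Lt, h0])
    rw [if_pos h0, h6]
    linarith
  · by_cases h5 : j ≤ jm k + 1
    · have h6 : gl k j = 1 / thi j := if_pos ⟨by omega, h5⟩
      rw [if_neg h0, h6]
      linarith
    · have h6 : gl k j = 0 := if_neg fun h => h5 h.2
      have h7 : ca k j = 0 := sum_eq_zero fun i hi => if_pos (by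
        have := mem_range.1 hi
        omega)
      rw [if_neg h0, h6, h7]
      norm_num

theorem cb_le (j : ℕ) : |cb k j| ≤ 78 := by
  refine (abs_sum_le_sum_abs _ _).trans ((sum_le_sum fun i _ => ?_).trans (sum_be F))
  have h1 := al_nonneg F i
  have h2 := al_le F i
  split_ifs <;> rw [abs_le] <;> constructor <;> linarith

theorem Phi_nonneg (j : ℕ) {A B : ℝ} (hB : 0 ≤ B) (hA : B ≤ A) : 0 ≤ Phi k j A B := by
  rw [Phi_eq]
  refine sum_nonneg fun i _ => ?_
  split_ifs
  · exact mul_nonneg (sub_nonneg.2 (al_le F i)) hB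
  · exact mul_nonneg (al_nonneg F i) (sub_nonneg.2 hA)

theorem Phi_lip (j : ℕ) (A B A' B' : ℝ) : Phi k j A' B' ≤ Phi k j A B +
    158 * ((if j = 0 then 1 else 0) + gl k j) * |A' - A| + 78 * |B' - B| := by
  have h1 : ca k j * (A' - A) ≤ 158 * ((if j = 0 then 1 else 0) + gl k j) * |A' - A| :=
    (mul_le_mul_of_nonneg_left (le_abs_self _) (ca_nonneg F j)).trans
      (mul_le_mul_of_nonneg_right (ca_le F j) (abs_nonneg _))
  have h2 : cb k j * (B' - B) ≤ 78 * |B' - B| := by
    refine (le_abs_self _).trans ?_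
    rw [abs_mul]
    exact mul_le_mul_of_nonneg_right (cb_le F j) (abs_nonneg _)
  unfold Phi
  linarith

theorem Phi_jump {j j' : ℕ} (hj : j ≤ jm k + 2) (hj' : j' ≤ jm k + 2) {A B : ℝ} (hA : 0 ≤ A)
    (hB : 0 ≤ B) (up : j < j' → thi (j' - 1) * B ≤ A) (down : j' < j → A < tlo j' * B) :
    1 / 2 * pay k j j' A B + Phi k j' A B ≤ Phi k j A B := by
  rcases lt_trichotomy j j' with h | h | h
  · have h1 : pay k j j' A B = A / thi j := if_pos h
    have h2 : 0 ≤ A / thi j := div_nonneg hA (thi_pos F j).le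
    have h3 : A / thi j = ∑ i ∈ range (jm k + 2), if i = j then A / thi j else 0 := by
      rw [sum_ite_eq', if_pos (mem_range.2 (by omega))]
    suffices A / thi j + Phi k j' A B ≤ Phi k j A B by linarith
    rw [h3, Phi_eq, Phi_eq, ← sum_add_distrib]
    refine sum_le_sum fun i _ => ?_
    by_cases h4 : i < j
    · rw [if_neg (by omega), if_pos (by omega), if_pos h4, zero_add]
    · by_cases h5 : i < j'
      · have h6 : thi i * B ≤ A :=
          (mul_le_mul_of_nonneg_right (F.thi_mono (by omega)) hB).trans (up h)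
        have h7 : be k i * B ≤ be k i * (A / thi i) := by
          refine mul_le_mul_of_nonneg_left ?_ (be_nonneg F i)
          rw [le_div_iff₀ (thi_pos F i)]
          linarith
        have h8 : al k i * A = A / thi i + be k i * (A / thi i) := by
          unfold al
          ring
        have h9 : (if i = j then A / thi j else 0) ≤ A / thi i := by
          split_ifs with h10
          · rw [h10]
          · exact div_nonneg hA (thi_pos F i).le
        rw [if_pos h5, if_neg h4]
        linarith
      · rw [if_neg (by omega), if_neg h5, if_neg h4, zero_add]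
  · subst h
    simp [pay]
  · have h1 : pay k j j' A B = B * ((1 / 2) ^ j' + 2 ^ j / el k) := by
      rw [pay, if_neg (by omega), if_pos h]
    have he := el_pos F
    have h3 : B * (1 / 2) ^ j' + B * (2 ^ (j - 1) / el k) = ∑ i ∈ range (jm k + 2),
        ((if i = j' then B * (1 / 2) ^ i else 0) + if i = j - 1 then B * (2 ^ i / el k) else 0) := by
      rw [sum_add_distrib, sum_ite_eq', sum_ite_eq', if_pos (mem_range.2 (by omega)),
        if_pos (mem_range.2 (by omega))]
    have h2 : (2 : ℝ) ^ j = 2 * 2 ^ (j - 1) := by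
      rw [← pow_succ']
      congr 1
      omega
    have h2' : 0 ≤ B * (1 / 2) ^ j' := by positivity
    suffices B * (1 / 2) ^ j' + B * (2 ^ (j - 1) / el k) + Phi k j' A B ≤ Phi k j A B by
      rw [h1, h2]
      have : B * (2 * 2 ^ (j - 1) / el k) = 2 * (B * (2 ^ (j - 1) / el k)) := by ring
      linarith
    rw [h3, Phi_eq, Phi_eq, ← sum_add_distrib]
    refine sum_le_sum fun i _ => ?_
    by_cases h4 : i < j'
    · rw [if_neg (by omega), if_neg (by omega), if_pos h4, if_pos (by omega)]
      simp
    · by_cases h5 : i < j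
      · have h6 : A ≤ tlo i * B :=
          (down h).le.trans (mul_le_mul_of_nonneg_right (F.tlo_mono (by omega)) hB)
        have h7 := mul_le_mul_of_nonneg_left h6 (al_nonneg F i)
        have h8 : tlo i / thi i ≤ 5 / 6 := by
          rw [div_le_iff₀ (thi_pos F i)]
          exact F.tlo_thi i
        have h9 : al k i * tlo i ≤ be k i - pd k i := by
          have e1 : al k i * tlo i = tlo i / thi i + be k i * (tlo i / thi i) := by
            unfold al
            ring
          have e2 := mul_le_mul_of_nonneg_left h8 (be_nonneg F i)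
          have e3 : be k i = 6 * (pd k i + tlo i / thi i) := rfl
          linarith
        have h10 := mul_le_mul_of_nonneg_right h9 hB
        have h11 : (if i = j' then B * (1 / 2) ^ i else 0) ≤ B * (1 / 2) ^ i := by
          split_ifs
          · exact le_rfl
          · positivity
        have h12 : (if i = j - 1 then B * (2 ^ i / el k) else 0) ≤ B * (2 ^ i / el k) := by
          split_ifs
          · exact le_rfl
          · positivity
        have h13 : pd k i * B = B * (1 / 2) ^ i + B * (2 ^ i / el k) := by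
          unfold pd
          ring
        rw [if_neg h4, if_pos h5]
        linarith
      · rw [if_neg (by omega), if_neg (by omega), if_neg h4, if_neg h5]
        simp

omit F in
theorem weight_le {L : Type} [Fintype L] {a : TS L} (B : a.Basic k) (u : List (Option L)) :
    ∑ c, ((if a.cl (some c :: u) = 0 then 1 else 0) + gl k (a.cl (some c :: u))) ≤ 2 := by
  have h1 : (univ.filter fun c => a.cl (some c :: u) = 0).card ≤ 1 :=
    card_le_one.2 fun c hc c' hc' => B.heavy_unique c c' u (mem_filter.1 hc).2 (mem_filter.1 hc').2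
  have h2 : ((univ.filter fun c => a.cl (some c :: u) = 0).card : ℝ) ≤ 1 := by exact_mod_cast h1
  have h3 := B.dl_le u
  rw [sum_add_distrib, sum_boole]
  unfold dl at h3
  linarith

end TCTog

open TCTog in
theorem ctog (hF : ParamStmt) (hB : BasicStmt) (hT : TsStmt) : CTogStmt := by
  refine ⟨800, by norm_num, fun k Y Ω L _ _ G lab T u hk => ?_⟩
  have F := hF k hk
  obtain ⟨hPA, hTr⟩ := hT k Y Ω L G lab hk
  have hchild : ∀ t ω c, (G.NN lab t ω (some c :: u) : ℝ) ≤ G.NN lab t ω u := fun t ω c => by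
    rw [← TA.NN_some G lab t ω u]
    exact_mod_cast single_le_sum (f := fun c => G.NN lab t ω (some c :: u))
      (fun _ _ => Nat.zero_le _) (mem_univ c)
  let Ψ : List Y → ℕ → Ω → ℝ := fun l t ω =>
    ∑ c, Phi k ((G.ts lab l).cl (some c :: u)) (G.NN lab t ω u) (G.NN lab t ω (some c :: u))
  have hce : ∀ l l' : List Y, G.ce l' (Ψ l l'.length) =
      ∑ c, Phi k ((G.ts lab l).cl (some c :: u)) ((G.ts lab l').nu u)
        ((G.ts lab l').nu (some c :: u)) := by
    intro l l'
    simp only [Ψ, G.ce_sum, Phi, G.ce_add, G.ce_mul]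
    rfl
  have hstep : ∀ t, (G.E fun ω => 1 / 2 * (∑ c, (G.ts lab (G.hist t ω)).D6 k
      (G.ts lab (G.hist (t + 1) ω)) c u) + Ψ (G.hist (t + 1) ω) (t + 1) ω) ≤
      G.E fun ω => Ψ (G.hist t ω) t ω + 400 * ∑ c, G.dN lab t ω (some c :: u) := by
    intro t
    refine le_trans (G.E_le_of_ce (t + 1)
      (fun l ω => 1 / 2 * (∑ c, (G.ts lab l.tail).D6 k (G.ts lab l) c u) + Ψ l (t + 1) ω)
      (fun l ω => Ψ l.tail (t + 1) ω) fun ω => ?_) (G.E_mono fun ω => ?_)
    · have hr := G.reach_hist (t + 1) ω
      have e1 := hce (G.hist (t + 1) ω) (G.hist (t + 1) ω)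
      have e2 := hce (G.hist (t + 1) ω).tail (G.hist (t + 1) ω)
      rw [G.hist_length] at e1 e2
      rw [G.ce_add, G.ce_const hr]
      change _ + G.ce _ (Ψ _ (t + 1)) ≤ G.ce _ (Ψ _ (t + 1))
      rw [e1, e2, mul_sum, ← sum_add_distrib]
      have h1 := hPA _ hr
      have h2 := hPA _ (G.reach_hist t ω)
      have h3 := hTr _ _ hr
      exact sum_le_sum fun c _ => Phi_jump F (h2.2.cl_le c u) (h1.2.cl_le c u)
        (h1.1.nu_nonneg _) (h1.1.nu_nonneg _) (h3.up c u) (h3.down c u)
    · have h2 := hPA _ (G.reach_hist t ω)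
      have h3 := weight_le (hB k L _ hk h2.1 h2.2) u
      have h4 : |(G.NN lab (t + 1) ω u : ℝ) - G.NN lab t ω u| ≤
          ∑ c, G.dN lab t ω (some c :: u) := by
        rw [← TA.NN_some G lab t ω u, ← TA.NN_some G lab (t + 1) ω u, Nat.cast_sum, Nat.cast_sum,
          ← sum_sub_distrib]
        exact abs_sum_le_sum_abs _ _
      have h5 := sum_le_sum fun c (_ : c ∈ univ) => Phi_lip F
        ((G.ts lab (G.hist t ω)).cl (some c :: u)) (G.NN lab t ω u) (G.NN lab t ω (some c :: u))
        (G.NN lab (t + 1) ω u) (G.NN lab (t + 1) ω (some c :: u))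
      rw [sum_add_distrib, sum_add_distrib, ← sum_mul, ← mul_sum, ← mul_sum] at h5
      have h6 := mul_le_mul_of_nonneg_right h3
        (abs_nonneg ((G.NN lab (t + 1) ω u : ℝ) - G.NN lab t ω u))
      have h7 := abs_nonneg ((G.NN lab (t + 1) ω u : ℝ) - G.NN lab t ω u)
      change Ψ (G.hist t ω) (t + 1) ω ≤ Ψ (G.hist t ω) t ω + _ + 78 *
        ∑ c, G.dN lab t ω (some c :: u) at h5
      change Ψ (G.hist t ω) (t + 1) ω ≤ _
      linarith
  have hzero : ∀ ω, Ψ (G.hist 0 ω) 0 ω = 0 := by
    intro ω
    refine sum_eq_zero fun c _ => ?_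
    have h1 := (hPA _ (G.reach_hist 0 ω)).2
    have hnu : ∀ v, (G.ts lab (G.hist 0 ω)).nu v = G.NN lab 0 ω v := fun v =>
      (G.ce_congr (X' := fun _ => (G.NN lab 0 ω v : ℝ)) fun ω' _ => rfl).trans
        (G.ce_const G.reach_nil _)
    have h2 : G.NN lab 0 ω (some c :: u) = 0 ∨ G.NN lab 0 ω (some c :: u) = k := by
      by_cases h : path lab [] G.s0 (some c :: u).length = some c :: u
      · right
        simp only [Game.NN, Game.hist_zero, Game.o_zero, h, filter_true, card_univ,
          Fintype.card_fin]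
      · left
        simp only [Game.NN, Game.hist_zero, Game.o_zero, h, filter_false, card_empty]
    rw [Phi_eq]
    refine sum_eq_zero fun i hi => ?_
    rcases h2 with h2 | h2
    · have h3 : jm k + 2 ≤ (G.ts lab (G.hist 0 ω)).cl (some c :: u) := by
        by_contra h3
        have := h1.cl_hi c u (by omega)
        rw [hnu, hnu, h2, Nat.cast_zero, mul_zero] at this
        exact absurd this (not_lt.2 (Nat.cast_nonneg _))
      rw [if_pos ((mem_range.1 hi).trans_le h3), h2, Nat.cast_zero, mul_zero]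
    · have h4 : (G.NN lab 0 ω u : ℝ) = k :=
        le_antisymm (by exact_mod_cast TA.NN_le G lab 0 ω u)
          (by simpa only [h2] using hchild 0 ω c)
      have h3 : (G.ts lab (G.hist 0 ω)).cl (some c :: u) = 0 := by
        by_contra h3
        have h5 := h1.cl_lo c u (by omega)
        rw [hnu, hnu, h2, h4] at h5
        have h6 : (2 : ℝ) ≤ k := by exact_mod_cast hk
        have h7 := mul_le_mul_of_nonneg_right
          (F.tlo_ge ((G.ts lab (G.hist 0 ω)).cl (some c :: u) - 1)) (show (0 : ℝ) ≤ k by linarith)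
        linarith
      rw [if_neg (by omega), h4, h2, sub_self, mul_zero]
  have hsum : ∀ T, 1 / 2 * (G.E fun ω => ∑ t ∈ range T, ∑ c, (G.ts lab (G.hist t ω)).D6 k
      (G.ts lab (G.hist (t + 1) ω)) c u) + (G.E fun ω => Ψ (G.hist T ω) T ω) ≤
      400 * G.E fun ω => ∑ t ∈ range T, ∑ c, G.dN lab t ω (some c :: u) := by
    intro T
    induction T with
    | zero => simp only [hzero, range_zero, sum_empty, G.E_const, mul_zero, add_zero, le_refl]
    | succ T ih =>
      have h1 := hstep T
      simp only [sum_range_succ, G.E_add, G.E_mul] at h1 ⊢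
      linarith
  have h1 := hsum T
  have h2 : 0 ≤ G.E fun ω => Ψ (G.hist T ω) T ω :=
    G.E_nonneg fun ω => sum_nonneg fun c _ => Phi_nonneg F _ (Nat.cast_nonneg _) (hchild T ω c)
  linarith

end Vale.Agent.P304
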