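import Vale.Agent.P304.TLight

/-! The heavy child. -/

namespace Vale.Agent.P304

open Finset
open scoped Classical

namespace THeavy

open TX TLight

variable {k : ℕ} {L : Type} [Fintype L] {a : TS L}

theorem drop_slot (F : Facts k) (on : ℕ → Prop) {U U' D : ℝ} (hD : 0 ≤ D)
    (h1 : 7 / 40 * (om k * D) ≤ U' - U) (h2 : U' - U ≤ 10 * om k)
    (hon : ∀ j, on j → U ≤ tt k j + 2 / 3 * wd k j) :
    4 / 225 * (om k * D) * ((∑ j ∈ range (nn k + 1), if on j then (1 / 4) ^ j else 0) -
      (1 / 4) ^ nn k) ≤ ph k U - ph k U' := by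
  have hwD : 0 ≤ om k * D := mul_nonneg F.om_pos.le hD
  have hσ : 0 ≤ ∑ j ∈ range (nn k), (if on j then (1 / 4 : ℝ) ^ j else 0) :=
    Finset.sum_nonneg fun j _ => by split_ifs <;> positivity
  have h3 : (∑ j ∈ range (nn k + 1), if on j then (1 / 4 : ℝ) ^ j else 0) - (1 / 4) ^ nn k ≤
      ∑ j ∈ range (nn k), (if on j then (1 / 4 : ℝ) ^ j else 0) := by
    rw [Finset.sum_range_succ]
    have : (0 : ℝ) < (1 / 4) ^ nn k := by positivity
    split_ifs <;> linarith
  have hm : ∀ j, 0 ≤ max 0 (tt k j - U) - max 0 (tt k j - U') := fun j =>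
    sub_nonneg.2 (max_le_max le_rfl (by linarith))
  have h4 : (U' - U) / 4 * ∑ j ∈ range (nn k), (if on j then (1 / 4 : ℝ) ^ j else 0) ≤
      ∑ j ∈ range (nn k + 1), (1 / 4) ^ j * (max 0 (tt k j - U) - max 0 (tt k j - U')) := by
    rw [Finset.sum_range_succ', Finset.mul_sum]
    refine le_trans (Finset.sum_le_sum fun j _ => ?_)
      (le_add_of_nonneg_right (mul_nonneg (by positivity) (hm 0)))
    split_ifs with h
    · have h5 := hon j h
      have h6 := F.wd_lo j
      rw [F.tt_succ, max_eq_right (by linarith), max_eq_right (by linarith), pow_succ]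
      exact le_of_eq (by ring)
    · rw [mul_zero]
      exact mul_nonneg (by positivity) (hm _)
  rw [ph_sub, le_div_iff₀ (by linarith [F.ZZ_lo])]
  refine le_trans ?_ h4
  have h5 := mul_le_mul_of_nonneg_left h3 (show 0 ≤ 4 / 225 * (om k * D) by positivity)
  refine le_trans (mul_le_mul_of_nonneg_right h5 (by linarith [F.ZZ_lo])) ?_
  generalize (∑ j ∈ range (nn k), (if on j then (1 / 4 : ℝ) ^ j else 0)) = σ at *
  have h6 := mul_le_mul_of_nonneg_left F.ZZ_hi (mul_nonneg hwD hσ)
  have h7 := mul_le_mul_of_nonneg_right h1 hσ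
  nlinarith [mul_nonneg hwD hσ]

theorem drop (F : Facts k) (hP : a.Post k) (hA : a.Acc k) (B : a.Basic k) (c : L)
    (u : List (Option L)) {D : ℝ} (hD : 0 ≤ D) (hD1 : D ≤ 1) :
    a.slot k (ssf k (lam k a.cl u + D)) (some c :: u) +
      4 / 225 * (om k * D) * (a.EY k a.y (some c :: u) + a.sg k (some c :: u) - ee k a.cl u) ≤
      a.slot k (ss k a.cl u) (some c :: u) := by
  have hw := F.om_pos
  have hw' := F.om_le
  have hwD : 0 ≤ om k * D := mul_nonneg hw.le hD
  have hs := B.ss_lo u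
  have hs' := B.ss_hi u
  have hel : (5 : ℝ) ≤ el k := by exact_mod_cast F.el_ge
  have hl := B.lam_le u
  have t1 := F.ss_hi (lam k a.cl u + D) (by linarith)
  have t2 : ssf k (lam k a.cl u + D) - ss k a.cl u ≤ 4 * om k := by
    have h := F.ss_lip (lam k a.cl u) (lam k a.cl u + D) (by linarith) (by linarith)
    rw [add_sub_cancel_left, abs_of_nonneg hD] at h
    have h' : ssf k (lam k a.cl u + D) - ss k a.cl u ≤ 4 * om k * D := (le_abs_self _).trans h
    nlinarith
  have t3 : 7 / 2 * (om k * D) ≤ ssf k (lam k a.cl u + D) - ss k a.cl u := by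
    have h : ss k a.cl u * (om k * D + 1) ≤ ssf k (lam k a.cl u + D) := by
      rw [ssf_add]
      exact mul_le_mul_of_nonneg_left (Real.add_one_le_exp _) (by linarith)
    nlinarith
  have t4 : (k : ℝ) * (1 / 4) ^ nn k ≤ ee k a.cl u := F.ee_lo _ (B.lam_nonneg u)
  generalize ssf k (lam k a.cl u + D) = s' at *
  have t5 : 4 / 225 * (om k * D) * (a.sg k (some c :: u) - k * (1 / 4) ^ nn k) ≤
      a.mt k (ss k a.cl u) (some c :: u) - a.mt k s' (some c :: u) := by
    have e : (k : ℝ) * (1 / 4) ^ nn k = ∑ _i ∈ range k, (1 / 4 : ℝ) ^ nn k := by simp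
    unfold TS.mt TS.sg
    rw [e, ← Finset.sum_sub_distrib, ← Finset.sum_sub_distrib, Finset.mul_sum]
    refine Finset.sum_le_sum fun i _ => ?_
    split_ifs with h
    · have : (0 : ℝ) < (1 / 4) ^ nn k := by positivity
      nlinarith
    · have hy : 1 / 20 ≤ a.y (some c :: u) i := le_of_lt (not_le.1 fun h' => h (hA.dp_lo _ i h'))
      have hy' := hP.y_le (some c :: u) i
      refine drop_slot F _ hD ?_ ?_ (hA.on_hi c u i)
      · nlinarith
      · nlinarith
  have hE := B.EY_nonneg (some c :: u)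
  have t6 : 4 / 225 * (om k * D) ≤ mb k * (s' - ss k a.cl u) := by nlinarith [F.mb_lo]
  have t7 := mul_le_mul_of_nonneg_right t6 hE
  have t8 := mul_le_mul_of_nonneg_left t4 hwD
  rw [slot_eq F hP hA _ (s := s') (by linarith) (by linarith),
    slot_eq F hP hA _ (s := ss k a.cl u) (by linarith) (by linarith)]
  linarith

theorem share {q P D w G : ℝ} (hw : 0 ≤ w) (hq : 0 ≤ q) (hq1 : q ≤ 1) (hD : 0 ≤ D) (hD1 : D ≤ 1)
    (hG : G ≤ D) (h : (1 + w) * (1 - q) - w / 450 * G ≤ P) : 1 - P ≤ q * (1 + w * D / 225) := by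
  have h1 := mul_le_mul_of_nonneg_left hG hw
  have h2 := mul_nonneg hw hD
  rcases le_total q (1 / 2) with h3 | h3
  · nlinarith [mul_nonneg hq h2]
  · nlinarith [mul_nonneg hw (sub_nonneg.2 hq1)]

theorem rest (F : Facts k) (hP : a.Post k) (hA : a.Acc k) (B : a.Basic k) (c : L)
    (u : List (Option L)) (hc : a.cl (some c :: u) = 0) {X : ℝ} (hX0 : 0 ≤ X)
    (hx : 0 ≤ a.mx k (ss k a.cl u * (1 - 3 * om k)) (some c :: u) -
      a.mt k (ss k a.cl u) (some c :: u))
    (hX1 : X ≤ mb k * ss k a.cl u * a.SS k a.y u +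
      (a.mx k (ss k a.cl u * (1 - 3 * om k)) (some c :: u) - a.mt k (ss k a.cl u) (some c :: u)))
    (hX2 : X ≤ 4 * a.SS k a.y u) :
    a.slot k (ss k a.cl u) (some c :: u) -
      4 / 225 * (om k * dl k a.cl u) * (a.EY k a.y (some c :: u) + a.sg k (some c :: u)) ≤
      a.dem k c u - X * (1 - ∑ c' ∈ univ.erase c, a.pit k (some c' :: u)) := by
  have hw := F.om_pos
  have hs := B.ss_lo u
  have hs' := B.ss_hi u
  have hD := B.dl_nonneg u
  have hwD := mul_nonneg hw.le hD
  have hE := B.EY_nonneg (some c :: u)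
  have hg := B.sg_nonneg (some c :: u)
  have hms : 0 ≤ mb k * ss k a.cl u := mul_nonneg (by linarith [F.mb_lo]) (by linarith)
  have hne : ∀ c' ∈ univ.erase c, a.cl (some c' :: u) ≠ 0 := fun c' h h' =>
    ne_of_mem_erase h (B.heavy_unique _ _ u h' hc)
  have key : X * (1 - ∑ c' ∈ univ.erase c, a.pit k (some c' :: u)) ≤
      mb k * ss k a.cl u * (a.EY k a.y (some c :: u) + a.sg k (some c :: u)) +
      (a.mx k (ss k a.cl u * (1 - 3 * om k)) (some c :: u) - a.mt k (ss k a.cl u) (some c :: u)) +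
      4 / 225 * (om k * dl k a.cl u) * (a.EY k a.y (some c :: u) + a.sg k (some c :: u)) := by
    rcases (B.SS_nonneg u).eq_or_lt with hS | hS
    · have : X = 0 := by linarith
      rw [this, zero_mul]
      positivity
    · have h1 : a.SS k a.y u = a.EY k a.y (some c :: u) + a.sg k (some c :: u) +
          ∑ c' ∈ univ.erase c, a.EY k a.y (some c' :: u) := by
        unfold TS.SS
        rw [← Finset.add_sum_erase univ _ (mem_univ c), if_pos hc]
        congr 1
        exact Finset.sum_congr rfl fun c' h => by rw [if_neg (hne c' h), add_zero]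
      have h2 : 0 ≤ ∑ c' ∈ univ.erase c, a.EY k a.y (some c' :: u) :=
        Finset.sum_nonneg fun c' _ => B.EY_nonneg _
      obtain ⟨q, hq⟩ : ∃ q, q = (a.EY k a.y (some c :: u) + a.sg k (some c :: u)) / a.SS k a.y u :=
        ⟨_, rfl⟩
      have hqS : q * a.SS k a.y u = a.EY k a.y (some c :: u) + a.sg k (some c :: u) := by
        rw [hq, div_mul_cancel₀ _ hS.ne']
      have hq0 : 0 ≤ q := by rw [hq]; positivity
      have hq1 : q ≤ 1 := by rw [hq, div_le_one hS]; linarith
      have h3 : ∑ c' ∈ univ.erase c, a.pi k c' u = 1 - q := by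
        unfold TS.pi
        rw [← Finset.sum_div, div_eq_iff hS.ne']
        linarith
      have h4 := Finset.sum_le_sum fun c' h => B.pit_lo c' u (hne c' h)
      rw [Finset.sum_sub_distrib, ← Finset.mul_sum, ← Finset.mul_sum, h3] at h4
      have h5 : ∑ c' ∈ univ.erase c, gl k (a.cl (some c' :: u)) ≤ dl k a.cl u := by
        unfold dl
        rw [← Finset.add_sum_erase univ _ (mem_univ c), hc, gl, if_neg fun h => by
          have := h.1; omega, zero_add]
      have h6 := mul_le_mul_of_nonneg_left (share hw.le hq0 hq1 hD (B.dl_le u) h5 h4) hX0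
      have h7 := mul_le_mul_of_nonneg_left hX1 hq0
      have h8 := mul_le_mul_of_nonneg_left (mul_le_mul_of_nonneg_left hX2 hq0) hwD
      have h9 := mul_le_mul_of_nonneg_right hq1 hx
      rw [← hqS]
      nlinarith
  rw [slot_eq F hP hA _ (by linarith) (by linarith), TS.dem, if_pos hc, TS.hi]
  linarith

end THeavy

open THeavy TLight TX in
theorem heavy (hF : ParamStmt) (hB : BasicStmt) (hX : XStmt) (hL : LightStmt) : HeavyStmt := by
  intro k L _ a hk hP hA u z hz0 hz c hc
  have F := hF k hk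
  have B := hB k L a hk hP hA
  obtain ⟨hX1, hX2, -, hX4⟩ := hX k L a hk hP hA u z hz
  have hT := fun c' h => ((hL k L a hk hP hA u z hz0 hz).1 c' h).1
  have hs := B.ss_lo u
  have hs' := B.ss_hi u
  have hw := F.om_pos
  have hw' := F.om_le
  have he := B.ee_pos u
  have hD := B.dl_nonneg u
  have hD1 := B.dl_le u
  have hwD := mul_nonneg hw.le hD
  have hne : ∀ c' ∈ univ.erase c, a.cl (some c' :: u) ≠ 0 := fun c' h h' =>
    ne_of_mem_erase h (B.heavy_unique _ _ u h' hc)
  have hsplit : ∀ f g : L → ℝ, (∑ c', if a.cl (some c' :: u) = 0 then f c' else g c') =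
      f c + ∑ c' ∈ univ.erase c, g c' := fun f g => by
    rw [← Finset.add_sum_erase univ _ (mem_univ c), if_pos hc]
    congr 1
    exact Finset.sum_congr rfl fun c' h => if_neg (hne c' h)
  rw [hsplit, Finset.sum_const_zero, add_zero] at hX1
  have hR := rest F hP hA B c u hc (le_max_left _ _) (hX2 c).1 hX1 hX4
  have hd := drop F hP hA B c u hD hD1
  have h0 := slot_nonneg (a := a) F (ssf k (lam k a.cl u + dl k a.cl u)) (some c :: u)
  have h1 : ∑ c', a.dem k c' u - z - ee k a.cl u ≤ a.Xt k u z := le_max_right _ _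
  have h2 : ∑ c', a.dem k c' u = a.dem k c u + ∑ c' ∈ univ.erase c, a.lo k c' u := by
    rw [← Finset.add_sum_erase univ _ (mem_univ c)]
    congr 1
    exact Finset.sum_congr rfl fun c' h => if_neg (hne c' h)
  have h3 : ∑ c' ∈ univ.erase c, (a.lo k c' u - a.Xt k u z * a.pit k (some c' :: u)) =
      ∑ c' ∈ univ.erase c, a.lo k c' u -
        a.Xt k u z * ∑ c' ∈ univ.erase c, a.pit k (some c' :: u) := by
    rw [Finset.sum_sub_distrib, ← Finset.mul_sum]
  have h4 : ∑ c' ∈ univ.erase c, a.lz k z c' u ≤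
      ∑ c' ∈ univ.erase c, (a.lo k c' u - a.Xt k u z * a.pit k (some c' :: u)) :=
    Finset.sum_le_sum fun c' h => max_le (hT c' (hne c' h)) (by linarith)
  have h5 : om k * dl k a.cl u * ee k a.cl u ≤ dl k a.cl u * ee k a.cl u := by
    rw [mul_assoc]
    exact mul_le_of_le_one_left (by positivity) (by linarith)
  have h6 : dl k a.cl u * ee k a.cl u ≤ ee k a.cl u := mul_le_of_le_one_left he.le hD1
  have hXt : a.Xt k u z = max 0 (∑ c, a.dem k c u - z - ee k a.cl u) := rfl
  rw [← hXt] at hR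
  have hres : 0 ≤ z - ∑ c' ∈ univ.erase c, a.lz k z c' u := by
    rcases sum_max (univ.erase c) (fun c => a.lo k c u - a.Xt k u z * a.pit k (some c :: u))
      (2 * ee k a.cl u) (by linarith) (fun c' h => hT c' (hne c' h)) with h | h
    · exact sub_nonneg.2 (le_trans (le_of_eq h) hz0)
    · have h' : ∑ c' ∈ univ.erase c, a.lz k z c' u ≤ _ := h
      linarith
  have hhi : 0 ≤ a.hi k c u := add_nonneg (B.bb_nonneg _) (B.mx_nonneg _ _)
  have hcz : a.cz k z c u = min (z - ∑ c' ∈ univ.erase c, a.lz k z c' u) (a.hi k c u) := by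
    rw [TS.cz, if_pos hc, hsplit, zero_add]
  have hnn : 0 ≤ a.cz k z c u := by
    rw [hcz]
    exact le_min hres hhi
  refine ⟨hnn, ?_⟩
  rcases lt_or_ge (18 * (el k : ℝ)) (La k a.cl (some c :: u)) with hLa | hLa
  · rw [slot_big B _ hLa]
    linarith [B.ee_pos (some c :: u)]
  · have hi : inc k a.cl c u = dl k a.cl u := if_pos hc
    have hl := lam_succ c u (by rw [hi]; exact hD) hLa
    rw [hi] at hl
    have e1 : ss k a.cl (some c :: u) = ssf k (lam k a.cl u + dl k a.cl u) := by rw [ss, hl]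
    have e2 : ee k a.cl u * (dl k a.cl u / 4 + 1) ≤ ee k a.cl (some c :: u) := by
      conv_rhs => rw [ee, hl, eef_add]
      exact mul_le_mul_of_nonneg_left (Real.add_one_le_exp _) he.le
    rw [hcz, e1]
    refine le_min (by linarith [mul_nonneg hD he.le]) ?_
    have e3 : ss k a.cl u ≤ ssf k (lam k a.cl u + dl k a.cl u) := by
      rw [ssf_add]
      exact le_mul_of_one_le_right (by linarith) (Real.one_le_exp hwD)
    have e4 := slot_anti F hP e3 (some c :: u)
    have e5 := mul_nonneg (mul_nonneg (show 0 ≤ mb k by linarith [F.mb_lo])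
      (show 0 ≤ ss k a.cl u by linarith)) (B.EY_nonneg (some c :: u))
    rw [slot_eq F hP hA _ (s := ss k a.cl u) (by linarith) (by linarith)] at e4
    unfold TS.hi
    linarith [(hX2 c).1, B.ee_pos (some c :: u)]

end Vale.Agent.P304
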