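import Vale.Agent.P304.StmtsT
import Vale.Agent.P304.Alloc

/-! The invariant of the virtual allocation. -/

namespace Vale.Agent.P304

open Finset
open scoped Classical

namespace TInv

variable {L : Type} [Fintype L] {a : TS L} {k : ℕ}

lemma s_lo (F : Facts k) (B : a.Basic k) (u : List (Option L)) :
    3 ≤ ss k a.cl u * (1 - 3 * om k) ∧ 3 ≤ ss k a.cl u * (1 + 3 * om k) := by
  have h1 := B.ss_lo u
  have h2 := F.om_pos
  have h3 := F.om_le
  constructor <;> nlinarith

lemma lz_le (B : a.Basic k) (z : ℝ) (c : L) (u : List (Option L)) : a.lz k z c u ≤ a.lo k c u := by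
  have h1 : 0 ≤ a.lo k c u := add_nonneg (B.bb_nonneg _) (B.mx_nonneg _ _)
  have h2 : 0 ≤ a.Xt k u z * a.pit k (some c :: u) :=
    mul_nonneg (le_max_left _ _) (B.pit_nonneg _)
  have h3 := B.ee_pos u
  exact max_le h1 (by linarith)

lemma cz_le (F : Facts k) (B : a.Basic k) (z : ℝ) (c : L) (u : List (Option L)) :
    ∃ s : ℝ, 3 ≤ s ∧ a.cz k z c u ≤ a.bb k (some c :: u) + a.mx k s (some c :: u) := by
  unfold TS.cz
  split_ifs
  · exact ⟨_, (s_lo F B u).1, min_le_right _ _⟩
  · exact ⟨_, (s_lo F B u).2, lz_le B z c u⟩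

lemma base (F : Facts k) (B : a.Basic k) (P : a.Post k)
    (hL : ∀ u z, 0 ≤ z → a.slot k (ss k a.cl u) u - ee k a.cl u ≤ z →
      ∀ c, a.cl (some c :: u) ≠ 0 →
        a.slot k (ss k a.cl (some c :: u)) (some c :: u) - ee k a.cl (some c :: u) ≤
          a.lz k z c u)
    (hH : ∀ u z, 0 ≤ z → a.slot k (ss k a.cl u) u - ee k a.cl u ≤ z →
      ∀ c, a.cl (some c :: u) = 0 → 0 ≤ a.cz k z c u ∧
        a.slot k (ss k a.cl (some c :: u)) (some c :: u) - ee k a.cl (some c :: u) ≤
          a.cz k z c u) :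
    ∀ v, 0 ≤ a.Zv k v ∧ a.slot k (ss k a.cl v) v - ee k a.cl v ≤ a.Zv k v
  | [] => by
    refine ⟨Nat.cast_nonneg k, ?_⟩
    have h1 : a.slot k (ss k a.cl []) [] ≤ ∑ _i ∈ range k, (1 : ℝ) :=
      sum_le_sum fun i _ => F.ph_le _ (mul_nonneg (by linarith [B.ss_lo []]) (P.y_nonneg _ _))
    rw [sum_const, card_range, nsmul_eq_mul, mul_one] at h1
    have h2 := B.ee_pos []
    show _ ≤ (k : ℝ)
    linarith
  | none :: u => by
    refine ⟨le_rfl, ?_⟩
    rw [B.small_slot _ _ (by linarith [B.ss_lo (none :: u)]) (by rw [P.nu_none]; norm_num)]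
    have h2 := B.ee_pos (none :: u)
    show _ ≤ (0 : ℝ)
    linarith
  | some c :: u => by
    obtain ⟨h1, h2⟩ := base F B P hL hH u
    by_cases hc : a.cl (some c :: u) = 0
    · exact hH u _ h1 h2 c hc
    · have e : a.Zv k (some c :: u) = a.lz k (a.Zv k u) c u := if_neg hc
      rw [e]
      exact ⟨le_max_left _ _, hL u _ h1 h2 c hc⟩

lemma cons (B : a.Basic k) (u : List (Option L)) (z : ℝ)
    (h : (∀ c, a.cl (some c :: u) ≠ 0) → ∑ c, a.lz k z c u ≤ z) : ∑ c, a.cz k z c u ≤ z := by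
  by_cases hh : ∃ c, a.cl (some c :: u) = 0
  · obtain ⟨c0, h0⟩ := hh
    have e : ∀ c, a.cz k z c u = (if c = c0 then a.cz k z c0 u else 0) +
        if a.cl (some c :: u) = 0 then 0 else a.lz k z c u := fun c => by
      by_cases hc : a.cl (some c :: u) = 0
      · rw [B.heavy_unique c c0 u hc h0, if_pos rfl, if_pos h0, add_zero]
      · rw [if_neg (fun e => hc (by rw [e]; exact h0)), if_neg hc, zero_add]
        exact if_neg hc
    rw [sum_congr rfl fun c _ => e c, sum_add_distrib, sum_ite_eq', if_pos (mem_univ _)]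
    have : a.cz k z c0 u ≤ z - ∑ c', if a.cl (some c' :: u) = 0 then 0 else a.lz k z c' u := by
      unfold TS.cz
      rw [if_pos h0]
      exact min_le_left _ _
    linarith
  · have hh' : ∀ c, a.cl (some c :: u) ≠ 0 := fun c hc => hh ⟨c, hc⟩
    refine le_trans (le_of_eq (sum_congr rfl fun c _ => ?_)) (h hh')
    exact if_neg (hh' c)

lemma kap (hk : 2 ≤ k) : 0 < 1 / (4 * (k : ℝ)) ∧ 1 / (4 * (k : ℝ)) ≤ 1 / 8 := by
  have h : (2 : ℝ) ≤ k := by exact_mod_cast hk
  exact ⟨by positivity, one_div_le_one_div_of_le (by norm_num) (by linarith)⟩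

lemma zf_nonneg (hk : 2 ≤ k) (I : a.Inv k) : ∀ u, 0 ≤ a.Zf k u
  | [] => Nat.cast_nonneg k
  | some c :: u => Alloc.sig_nonneg (mul_nonneg (by linarith [(kap hk).1]) (I.nonneg _))
  | none :: u => by
    have h1 : ∑ c, sig ((1 + 1 / (4 * k)) * a.Zv k (some c :: u)) ≤
        sig ((1 + 1 / (4 * k)) * a.Zv k u) := by
      refine (Alloc.sig_sum _ _).trans (Alloc.sig_mono ?_)
      rw [← mul_sum]
      exact mul_le_mul_of_nonneg_left (I.cons u) (by linarith [(kap hk).1])
    have h2 : sig ((1 + 1 / (4 * k)) * a.Zv k u) ≤ a.Zf k u := by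
      have ih := zf_nonneg hk I u
      rcases u with _ | ⟨_ | c, w⟩
      · refine Alloc.sig_le_nat ?_
        have h : (0 : ℝ) < k := by exact_mod_cast (by omega : 0 < k)
        have e : (1 + 1 / (4 * (k : ℝ))) * k = k + 1 / 4 := by field_simp
        show (1 + 1 / (4 * (k : ℝ))) * k ≤ _
        rw [e]
        linarith
      · refine (Alloc.sig_le _).trans ?_
        show (1 + 1 / (4 * (k : ℝ))) * 0 ≤ _
        rw [mul_zero]
        exact ih
      · exact le_rfl
    show 0 ≤ a.Zf k u - ∑ c, sig ((1 + 1 / (4 * k)) * a.Zv k (some c :: u))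
    linarith

end TInv

theorem inv (hF : ParamStmt) (hB : BasicStmt) (hX : XStmt) (hL : LightStmt) (hH : HeavyStmt) :
    InvStmt := by
  intro k L _ a hk P A
  have F := hF k hk
  have B := hB k L a hk P A
  have hb := TInv.base F B P (fun u z h1 h2 c hc => ((hL k L a hk P A u z h1 h2).1 c hc).2)
    (hH k L a hk P A)
  have I : a.Inv k :=
    { nonneg := fun v => (hb v).1
      cons := fun u => TInv.cons B u _ (hL k L a hk P A u _ (hb u).1 (hb u).2).2
      low := fun v => (hb v).2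
      le_nu := fun v => by
        rcases v with _ | ⟨_ | c, u⟩
        · rw [P.nu_root]
          have : (0 : ℝ) ≤ k := Nat.cast_nonneg k
          show (k : ℝ) ≤ _
          linarith
        · rw [P.nu_none, mul_zero]
          exact le_rfl
        · obtain ⟨s, h1, h2⟩ := TInv.cz_le F B (a.Zv k u) c u
          exact h2.trans (B.cap s _ h1)
      pos_nu := fun c u h => by
        obtain ⟨s, h1, h2⟩ := TInv.cz_le F B (a.Zv k u) c u
        exact B.cap_pos s _ h1 (lt_of_lt_of_le h h2)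
      Xt_le := fun u => (hX k L a hk P A u _ (hb u).2).2.2.2 }
  obtain ⟨k1, k2⟩ := TInv.kap hk
  have hz : ∀ c u, a.Zf k (some c :: u) ≤ (1 + 1 / (4 * k)) * a.Zv k (some c :: u) :=
    fun c u => Alloc.sig_le _
  refine ⟨I, fun u => ?_, TInv.zf_nonneg hk I, fun c u => ?_, fun c u h => ?_,
    fun c u j h1 h2 h3 => ?_⟩
  · rw [Fintype.sum_option]
    exact sub_add_cancel _ _
  · have h1 := I.le_nu (some c :: u)
    have h2 := I.nonneg (some c :: u)
    have h3 := P.nu_nonneg (some c :: u)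
    have h4 := hz c u
    nlinarith
  · exact I.pos_nu c u ((pos_iff_pos_of_mul_pos (lt_of_lt_of_le h (hz c u))).mp (by linarith))
  · refine Alloc.le_sig ?_
    have h4 : (j : ℝ) ≤ a.slot k (ss k a.cl (some c :: u)) (some c :: u) := by
      have e : ∑ i ∈ range j, ph k (ss k a.cl (some c :: u) * a.y (some c :: u) i) = j := by
        rw [sum_congr rfl fun i hi => by
          rw [h3 i (mem_range.mp hi), mul_zero, F.ph_lin 0 zero_le_one, mul_zero, sub_zero]]
        simp
      rw [← e]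
      exact sum_le_sum_of_subset_of_nonneg (range_mono h2) fun _ _ _ => F.ph_nonneg _
    have h5 : ee k a.cl (some c :: u) ≤ 1 / (8 * k) := F.ee_k _ (B.lam_le _)
    have h6 := I.low (some c :: u)
    have h7 : (1 : ℝ) ≤ j := by exact_mod_cast h1
    have e : 1 / (8 * (k : ℝ)) = 1 / (4 * k) / 2 := by
      rw [div_div]
      congr 1
      ring
    rw [e] at h5
    generalize 1 / (4 * (k : ℝ)) = x at *
    nlinarith

end Vale.Agent.P304
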