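import Vale.Agent.P304.TX

/-! The children that are not heavy. -/

namespace Vale.Agent.P304

open Finset
open scoped Classical

namespace TLight

theorem sum_max {ι : Type} (s : Finset ι) (T : ι → ℝ) (e : ℝ) (he : 0 ≤ e)
    (hT : ∀ c ∈ s, 0 ≤ T c) :
    ∑ c ∈ s, max 0 (T c - e) = 0 ∨ ∑ c ∈ s, max 0 (T c - e) ≤ ∑ c ∈ s, T c - e := by
  by_cases h : ∀ c ∈ s, T c ≤ e
  · exact Or.inl (Finset.sum_eq_zero fun c hc => max_eq_left (by linarith [h c hc]))
  · right
    push Not at h
    obtain ⟨c, hc, hce⟩ := h
    rw [← Finset.add_sum_erase s _ hc, ← Finset.add_sum_erase s _ hc,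
      max_eq_right (by linarith)]
    have : ∑ x ∈ s.erase c, max 0 (T x - e) ≤ ∑ x ∈ s.erase c, T x :=
      Finset.sum_le_sum fun x hx => max_le (hT x (mem_of_mem_erase hx)) (by linarith)
    linarith

theorem eta_ge {j : ℕ} (hj : j ≠ 0) : 1 ≤ eta j := by
  obtain ⟨i, rfl⟩ := Nat.exists_eq_succ_of_ne_zero hj
  unfold eta
  have : (1 : ℝ) ≤ 2 ^ i := one_le_pow₀ (by norm_num)
  rw [pow_succ]
  linarith

theorem ssf_add (k : ℕ) (x d : ℝ) : ssf k (x + d) = ssf k x * Real.exp (om k * d) := by
  unfold ssf
  rw [mul_add, Real.exp_add]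
  ring

theorem eef_add (k : ℕ) (x d : ℝ) : eef k (x + d) = eef k x * Real.exp (d / 4) := by
  unfold eef
  rw [add_div, Real.exp_add]
  ring

variable {k : ℕ} {L : Type} [Fintype L] {a : TS L}

theorem lam_succ (c : L) (u : List (Option L)) (h0 : 0 ≤ inc k a.cl c u)
    (h : La k a.cl (some c :: u) ≤ 18 * el k) :
    lam k a.cl (some c :: u) = lam k a.cl u + inc k a.cl c u := by
  unfold lam
  have e : La k a.cl (some c :: u) = La k a.cl u + inc k a.cl c u := rfl
  rw [min_eq_left h, min_eq_left (by linarith), e]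

theorem slot_big (B : a.Basic k) (v : List (Option L)) (h : 18 * (el k : ℝ) < La k a.cl v) :
    a.slot k (ss k a.cl v) v = 0 :=
  B.small_slot v _ (by linarith [B.ss_lo v]) (by linarith [B.La_big v h])

theorem xpit (F : Facts k) (hA : a.Acc k) (B : a.Basic k) (c : L) (u : List (Option L)) {z : ℝ}
    (hc : a.cl (some c :: u) ≠ 0)
    (hX : a.Xt k u z ≤ (1 + 2 * om k) * (mb k * ss k a.cl u * a.SS k a.y u)) :
    a.Xt k u z * a.pit k (some c :: u) ≤ (1 + 9 * (om k * eta (a.cl (some c :: u)))) *
      (mb k * ss k a.cl u * a.EY k a.y (some c :: u)) := by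
  have hw := F.om_pos
  have hw' := F.om_le
  have h1 := F.om_eta _ (hA.cl_le c u)
  have h2 : om k ≤ om k * eta (a.cl (some c :: u)) := le_mul_of_one_le_right hw.le (eta_ge hc)
  have hms : 0 ≤ mb k * ss k a.cl u :=
    mul_nonneg (by linarith [F.mb_lo]) (by linarith [B.ss_lo u])
  have h3 := mul_le_mul hX (B.pit_hi c u) (B.pit_nonneg _)
    (mul_nonneg (by linarith) (mul_nonneg hms (B.SS_nonneg u)))
  have h4 := B.pi_mul c u
  have h5 := mul_nonneg hms (B.EY_nonneg (some c :: u))
  generalize om k * eta (a.cl (some c :: u)) = w at *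
  refine h3.trans ?_
  have e : (1 + 2 * om k) * (mb k * ss k a.cl u * a.SS k a.y u) * ((1 + 5 * w) * a.pi k c u) =
      (1 + 2 * om k) * (1 + 5 * w) * (mb k * ss k a.cl u * a.EY k a.y (some c :: u)) := by
    rw [← h4]
    ring
  rw [e]
  exact mul_le_mul_of_nonneg_right (by nlinarith) h5

end TLight

open TLight TX in
theorem light (hF : ParamStmt) (hB : BasicStmt) (hX : XStmt) : LightStmt := by
  intro k L _ a hk hP hA u z hz0 hz
  have F := hF k hk
  have B := hB k L a hk hP hA
  obtain ⟨-, -, hX3, hX4⟩ := hX k L a hk hP hA u z hz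
  have hs := B.ss_lo u
  have hs' := B.ss_hi u
  have hw := F.om_pos
  have hw' := F.om_le
  have hm := F.mb_lo
  have hm' := F.mb_hi
  have he := B.ee_pos u
  have hT : ∀ c, a.cl (some c :: u) ≠ 0 →
      0 ≤ a.lo k c u - a.Xt k u z * a.pit k (some c :: u) := fun c hc => by
    have h1 := xpit F hA B c u hc hX3
    have h2 := F.om_eta _ (hA.cl_le c u)
    have h3 : mb k * ss k a.cl u ≤ 1 * (351 / 100) :=
      mul_le_mul hm' hs' (by linarith) (by norm_num)
    have h4 := B.EY_nonneg (some c :: u)
    have h5 := B.EY_le (some c :: u)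
    have h6 := B.mx_nonneg (ss k a.cl u * (1 + 3 * om k)) (some c :: u)
    have h7 := mul_le_mul_of_nonneg_right h3 h4
    have h8 := mul_le_mul (show 1 + 9 * (om k * eta (a.cl (some c :: u))) ≤ 3 / 2 by linarith) h7
      (mul_nonneg (mul_nonneg (by linarith) (by linarith)) h4) (by norm_num)
    unfold TS.lo
    linarith
  refine ⟨fun c hc => ⟨hT c hc, ?_⟩, fun hall => ?_⟩
  · rcases lt_or_ge (18 * (el k : ℝ)) (La k a.cl (some c :: u)) with hL | hL
    · rw [slot_big B _ hL]
      exact le_trans (by linarith [B.ee_pos (some c :: u)]) (le_max_left _ _)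
    · refine le_trans ?_ (le_max_right _ _)
      have hη := eta_ge hc
      have hi : inc k a.cl c u = 9 * eta (a.cl (some c :: u)) := if_neg hc
      have hl := lam_succ c u (by rw [hi]; linarith) hL
      have h1 := xpit F hA B c u hc hX3
      have h2 : om k ≤ om k * eta (a.cl (some c :: u)) := le_mul_of_one_le_right hw.le hη
      have hv := B.ss_lo (some c :: u)
      have hv' := B.ss_hi (some c :: u)
      have e1 : ss k a.cl u * (1 + 9 * (om k * eta (a.cl (some c :: u)))) ≤
          ss k a.cl (some c :: u) := by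
        conv_rhs => rw [ss, hl, ssf_add, hi]
        refine mul_le_mul_of_nonneg_left ?_ (by linarith)
        linarith [Real.add_one_le_exp (om k * (9 * eta (a.cl (some c :: u))))]
      have e2 : ee k a.cl u * 2 ≤ ee k a.cl (some c :: u) := by
        conv_rhs => rw [ee, hl, eef_add, hi]
        refine mul_le_mul_of_nonneg_left ?_ he.le
        linarith [Real.add_one_le_exp (9 * eta (a.cl (some c :: u)) / 4)]
      have e3 : a.mt k (ss k a.cl (some c :: u)) (some c :: u) ≤
          a.mx k (ss k a.cl u * (1 + 3 * om k)) (some c :: u) := by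
        refine Finset.sum_le_sum fun i _ => ?_
        split_ifs with h
        · exact le_rfl
        · refine F.ph_anti ?_
          have hy := hP.y_nonneg (some c :: u) i
          have h3 := mul_le_mul_of_nonneg_left (B.yh_hi _ i h)
            (show 0 ≤ ss k a.cl u * (1 + 3 * om k) by positivity)
          have h4 := mul_le_mul_of_nonneg_right e1 hy
          refine h3.trans (le_trans ?_ h4)
          have h5 : (1 + 3 * om k) * (1 + 3 * om k) ≤
              1 + 9 * (om k * eta (a.cl (some c :: u))) := by nlinarith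
          have h6 := mul_le_mul_of_nonneg_left h5
            (show 0 ≤ ss k a.cl u * a.y (some c :: u) i by positivity)
          linarith
      have e4 := mul_le_mul_of_nonneg_left e1
        (mul_nonneg (show 0 ≤ mb k by linarith) (B.EY_nonneg (some c :: u)))
      rw [slot_eq F hP hA _ (by linarith) (by linarith)]
      unfold TS.lo
      linarith
  · have hd : ∑ c, a.dem k c u = ∑ c, a.lo k c u :=
      Finset.sum_congr rfl fun c _ => if_neg (hall c)
    have hsum : ∑ c, (a.lo k c u - a.Xt k u z * a.pit k (some c :: u)) ≤ z + ee k a.cl u := by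
      rw [Finset.sum_sub_distrib, ← Finset.mul_sum]
      have h1 : ∑ c, a.dem k c u - z - ee k a.cl u ≤ a.Xt k u z := le_max_right _ _
      have h0 : 0 ≤ a.Xt k u z := le_max_left _ _
      rcases h0.eq_or_lt with h | h
      · rw [← h] at h1 ⊢
        linarith
      · have hS : 0 < a.SS k a.y u := by linarith
        have h2 : ∑ c, a.pi k c u = 1 := by
          unfold TS.pi
          rw [← Finset.sum_div, div_eq_one_iff_eq hS.ne']
          unfold TS.SS
          exact Finset.sum_congr rfl fun c _ => by rw [if_neg (hall c), add_zero]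
        have h3 := Finset.sum_le_sum (s := univ) fun c _ => B.pit_lo c u (hall c)
        rw [Finset.sum_sub_distrib, ← Finset.mul_sum, ← Finset.mul_sum, h2] at h3
        have h4 : ∑ c, gl k (a.cl (some c :: u)) ≤ 1 := B.dl_le u
        have h5 : 1 ≤ ∑ c, a.pit k (some c :: u) := by nlinarith
        nlinarith
    rcases sum_max univ (fun c => a.lo k c u - a.Xt k u z * a.pit k (some c :: u))
      (2 * ee k a.cl u) (by linarith) (fun c _ => hT c (hall c)) with h | h
    · exact le_trans (le_of_eq h) hz0
    · exact le_trans h (by linarith)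

end Vale.Agent.P304
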