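import Vale.Agent.P304.StmtsT

/-! Movement of the virtual allocation at one node. -/

namespace Vale.Agent.P304

open Finset
open scoped Classical

namespace TMoveNode

theorem max0_lip (x y : ℝ) : |max 0 x - max 0 y| ≤ |x - y| := by
  rw [max_comm 0 x, max_comm 0 y]
  exact abs_max_sub_max_le_abs x y 0

theorem min_lip (a b c d : ℝ) : |min a b - min c d| ≤ |a - c| + |b - d| :=
  (abs_min_sub_min_le_max a b c d).trans
    (max_le (le_add_of_nonneg_right (abs_nonneg _)) (le_add_of_nonneg_left (abs_nonneg _)))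

theorem comb {L : Type} [Fintype L] (H : L → Prop) [DecidablePred H]
    (hH : ∀ c c', H c → H c' → c = c')
    (Z Z' T hi hi' p : L → ℝ) (z z' : ℝ) (hp : ∀ c, 0 ≤ p c) (hs : ∑ c, p c ≤ 6 / 5)
    (h1 : z ≤ z' → ∀ c, 0 ≤ T c - Z c ∧ T c - Z c ≤ p c * (z' - z))
    (h2 : z' ≤ z → ∀ c, 0 ≤ Z c - T c ∧ Z c - T c ≤ p c * (z - z')) :
    ∑ c, |(if H c then min (z' - ∑ c', if H c' then 0 else Z' c') (hi' c) else Z' c) -
        (if H c then min (z - ∑ c', if H c' then 0 else Z c') (hi c) else Z c)| ≤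
      7 / 5 * |z' - z| + 2 * (∑ c, if H c then 0 else |Z' c - T c|) + ∑ c, |hi' c - hi c| := by
  obtain ⟨x, hx⟩ : ∃ x, x = ∑ c, if H c then 0 else T c - Z c := ⟨_, rfl⟩
  obtain ⟨n, hn⟩ : ∃ n, n = ∑ c, if H c then 0 else |T c - Z c| := ⟨_, rfl⟩
  obtain ⟨W, hW⟩ : ∃ W, W = ∑ c, if H c then 0 else |Z' c - T c| := ⟨_, rfl⟩
  have hW0 : 0 ≤ W := hW ▸ sum_nonneg fun c _ => by split_ifs <;> positivity
  have key : n + |z' - z - x| ≤ 7 / 5 * |z' - z| := by
    rcases le_total z z' with h | h
    · have e1 : n = x := by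
        rw [hn, hx]
        exact sum_congr rfl fun c _ => by rw [abs_of_nonneg (h1 h c).1]
      have e2 : x ≤ (∑ c, p c) * (z' - z) := by
        rw [hx, sum_mul]
        refine sum_le_sum fun c _ => ?_
        split_ifs
        exacts [mul_nonneg (hp c) (by linarith), (h1 h c).2]
      have e3 := mul_le_mul_of_nonneg_right hs (sub_nonneg.2 h)
      rw [abs_of_nonneg (sub_nonneg.2 h), e1]
      rcases abs_cases (z' - z - x) with h3 | h3 <;> linarith [h3.1]
    · have e1 : n = -x := by
        rw [hn, hx, ← sum_neg_distrib]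
        refine sum_congr rfl fun c _ => ?_
        rw [abs_sub_comm, abs_of_nonneg (h2 h c).1]
        split_ifs <;> ring
      have e2 : n ≤ (∑ c, p c) * (z - z') := by
        rw [hn, sum_mul]
        refine sum_le_sum fun c _ => ?_
        rw [abs_sub_comm, abs_of_nonneg (h2 h c).1]
        split_ifs
        exacts [mul_nonneg (hp c) (by linarith), (h2 h c).2]
      have e3 := mul_le_mul_of_nonneg_right hs (sub_nonneg.2 h)
      rw [abs_of_nonpos (sub_nonpos.2 h)]
      rcases abs_cases (z' - z - x) with h3 | h3 <;> linarith [h3.1]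
  have hr : |(z' - ∑ c', if H c' then 0 else Z' c') - (z - ∑ c', if H c' then 0 else Z c')| ≤
      |z' - z - x| + W := by
    have e : (z' - ∑ c', if H c' then 0 else Z' c') - (z - ∑ c', if H c' then 0 else Z c') =
        (z' - z - x) - ∑ c, if H c then 0 else Z' c - T c := by
      have : (∑ c', if H c' then 0 else Z' c') = (∑ c', if H c' then 0 else Z c') + x +
          ∑ c, if H c then 0 else Z' c - T c := by
        rw [hx, ← sum_add_distrib, ← sum_add_distrib]
        refine sum_congr rfl fun c _ => ?_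
        split_ifs <;> ring
      rw [this]
      ring
    rw [e, hW]
    refine (abs_sub _ _).trans (add_le_add_right ((abs_sum_le_sum_abs _ _).trans
      (sum_le_sum fun c _ => ?_)) _)
    split_ifs <;> simp
  have hu : ∑ c, (if H c then |z' - z - x| + W else 0) ≤ |z' - z - x| + W := by
    have h3 : (univ.filter H).card ≤ 1 :=
      card_le_one.2 fun c hc c' hc' => hH c c' (mem_filter.1 hc).2 (mem_filter.1 hc').2
    have h4 : ((univ.filter H).card : ℝ) ≤ 1 := by exact_mod_cast h3
    rw [← sum_filter, sum_const, nsmul_eq_mul]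
    exact mul_le_of_le_one_left (add_nonneg (abs_nonneg _) hW0) h4
  have hall : ∑ c, |(if H c then min (z' - ∑ c', if H c' then 0 else Z' c') (hi' c) else Z' c) -
        (if H c then min (z - ∑ c', if H c' then 0 else Z c') (hi c) else Z c)| ≤
      ∑ c, ((if H c then |z' - z - x| + W else 0) + |hi' c - hi c| +
        (if H c then 0 else |T c - Z c|) + (if H c then 0 else |Z' c - T c|)) := by
    refine sum_le_sum fun c _ => ?_
    by_cases h : H c
    · simp only [if_pos h]
      linarith [min_lip (z' - ∑ c', if H c' then 0 else Z' c') (hi' c)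
        (z - ∑ c', if H c' then 0 else Z c') (hi c)]
    · simp only [if_neg h]
      linarith [abs_sub_le (Z' c) (T c) (Z c), abs_nonneg (hi' c - hi c)]
  rw [sum_add_distrib, sum_add_distrib, sum_add_distrib, ← hn, ← hW] at hall
  rw [← hW]
  linarith

variable {k : ℕ} {L : Type} [Fintype L] {a a' : TS L}

omit [Fintype L] in
theorem D1_nonneg (v : List (Option L)) : 0 ≤ a.D1 k a' v :=
  sum_nonneg fun _ _ => by split_ifs <;> norm_num

omit [Fintype L] in
theorem D2_nonneg (v : List (Option L)) : 0 ≤ a.D2 k a' v := sum_nonneg fun _ _ => abs_nonneg _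

omit [Fintype L] in
theorem D3_nonneg (v : List (Option L)) : 0 ≤ a.D3 k a' v :=
  sum_nonneg fun _ _ => sum_nonneg fun _ _ => by split_ifs <;> positivity

omit [Fintype L] in
theorem bb_lip (v : List (Option L)) : |a'.bb k v - a.bb k v| ≤ a.D1 k a' v := by
  unfold TS.bb TS.D1
  rw [← sum_sub_distrib]
  refine (abs_sum_le_sum_abs _ _).trans (sum_le_sum fun i _ => ?_)
  by_cases h1 : a.dp v i <;> by_cases h2 : a'.dp v i <;> simp [h1, h2]

omit [Fintype L] in
theorem sg_lip (F : Facts k) (v : List (Option L)) :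
    |a'.sg k v - a.sg k v| ≤ 4 / 3 * a.D1 k a' v + a.D3 k a' v := by
  unfold TS.sg TS.D1 TS.D3
  rw [← sum_sub_distrib, mul_sum, ← sum_add_distrib]
  refine (abs_sum_le_sum_abs _ _).trans (sum_le_sum fun i _ => ?_)
  have h0 : 0 ≤ ∑ j ∈ range (nn k + 1),
      if (a.on v i j ↔ a'.on v i j) then (0 : ℝ) else (1 / 4) ^ j :=
    sum_nonneg fun _ _ => by split_ifs <;> positivity
  have hb : ∀ b : TS L, |∑ j ∈ range (nn k + 1), if b.on v i j then (1 / 4 : ℝ) ^ j else 0| ≤
      4 / 3 := fun b => by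
    rw [abs_of_nonneg (sum_nonneg fun _ _ => by split_ifs <;> positivity)]
    refine (sum_le_sum fun j _ => ?_).trans F.quarter
    split_ifs
    · exact le_rfl
    · positivity
  by_cases h1 : a.dp v i <;> by_cases h2 : a'.dp v i
  · rw [if_pos h1, if_pos h2, if_pos (iff_of_true h1 h2)]
    simpa using h0
  · rw [if_pos h1, if_neg h2, if_neg (fun h => h2 (h.1 h1)), sub_zero]
    linarith [hb a']
  · rw [if_neg h1, if_pos h2, if_neg (fun h => h1 (h.2 h2)), zero_sub, abs_neg]
    linarith [hb a]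
  · rw [if_neg h1, if_neg h2, if_pos (iff_of_false h1 h2), mul_zero, zero_add, ← sum_sub_distrib]
    refine (abs_sum_le_sum_abs _ _).trans (sum_le_sum fun j _ => ?_)
    by_cases h3 : a.on v i j <;> by_cases h4 : a'.on v i j <;> simp [h3, h4]

theorem mx_lip (F : Facts k) (A : a.Acc k) (P' : a'.Post k) (A' : a'.Acc k) (B' : a'.Basic k)
    (v : List (Option L)) {s s' : ℝ} (h1 : 69 / 20 ≤ s) (h2 : s ≤ 4) (h3 : 69 / 20 ≤ s') :
    |a'.mx k s' v - a.mx k s v| ≤ a.D1 k a' v + 4 * a.D2 k a' v + |s' - s| * a'.nu v := by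
  have h4 := mul_le_mul_of_nonneg_left (P'.slots v) (abs_nonneg (s' - s))
  refine le_trans ?_ (add_le_add_right h4 _)
  unfold TS.mx TS.D1 TS.D2
  rw [← sum_sub_distrib, mul_sum, mul_sum, ← sum_add_distrib, ← sum_add_distrib]
  refine (abs_sum_le_sum_abs _ _).trans (sum_le_sum fun i _ => ?_)
  have h5 : 0 ≤ |s' - s| * (1 - a'.y v i) :=
    mul_nonneg (abs_nonneg _) (sub_nonneg.2 (P'.y_le v i))
  have h6 := abs_nonneg (a'.yh v i - a.yh v i)
  have hy := A.yh_nonneg v i
  have hy' := A'.yh_nonneg v i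
  by_cases d1 : a.dp v i <;> by_cases d2 : a'.dp v i
  · rw [if_pos d1, if_pos d2, if_pos (iff_of_true d1 d2), sub_zero, abs_zero]
    linarith
  · rw [if_pos d1, if_neg d2, if_neg (fun h => d2 (h.1 d1)), sub_zero,
      abs_of_nonneg (F.ph_nonneg _)]
    linarith [F.ph_le (s' * a'.yh v i) (mul_nonneg (by linarith) hy')]
  · rw [if_neg d1, if_pos d2, if_neg (fun h => d1 (h.2 d2)), zero_sub, abs_neg,
      abs_of_nonneg (F.ph_nonneg _)]
    linarith [F.ph_le (s * a.yh v i) (mul_nonneg (by linarith) hy)]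
  · rw [if_neg d1, if_neg d2, if_pos (iff_of_false d1 d2), zero_add]
    have e1 : |ph k (s * a'.yh v i) - ph k (s * a.yh v i)| ≤ 4 * |a'.yh v i - a.yh v i| := by
      refine (F.ph_lip _ _).trans ?_
      rw [← mul_sub, abs_mul, abs_of_nonneg (by linarith)]
      exact mul_le_mul_of_nonneg_right h2 h6
    have e2 : |ph k (s' * a'.yh v i) - ph k (s * a'.yh v i)| ≤ |s' - s| * (1 - a'.y v i) := by
      by_cases h7 : 3 / 10 ≤ a'.yh v i
      · rw [F.ph_zero _ (by nlinarith), F.ph_zero _ (by nlinarith), sub_zero, abs_zero]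
        exact h5
      · refine (F.ph_lip _ _).trans ?_
        rw [← sub_mul, abs_mul, abs_of_nonneg hy']
        refine mul_le_mul_of_nonneg_left ?_ (abs_nonneg _)
        have h8 := B'.yh_lo' v i d2
        have h9 : om k * a'.yh v i ≤ 1 / 10 ^ 6 * a'.yh v i :=
          mul_le_mul_of_nonneg_right F.om_le hy'
        linarith
    linarith [abs_sub_le (ph k (s' * a'.yh v i)) (ph k (s * a'.yh v i)) (ph k (s * a.yh v i))]

theorem lz_le (B : a.Basic k) (z : ℝ) (c : L) (u : List (Option L)) :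
    0 ≤ a.lz k z c u ∧ a.lz k z c u ≤ a.lo k c u := by
  have h1 : 0 ≤ a.lo k c u := add_nonneg (B.bb_nonneg _) (B.mx_nonneg _ _)
  have h2 : 0 ≤ a.Xt k u z * a.pit k (some c :: u) :=
    mul_nonneg (le_max_left _ _) (B.pit_nonneg _)
  have h3 := B.ee_pos u
  exact ⟨le_max_left _ _, max_le h1 (by linarith)⟩

theorem lz_slope (B : a.Basic k) {z z' : ℝ} (h : z ≤ z') (c : L) (u : List (Option L)) :
    0 ≤ a.lz k z' c u - a.lz k z c u ∧
      a.lz k z' c u - a.lz k z c u ≤ a.pit k (some c :: u) * (z' - z) := by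
  have hp := B.pit_nonneg (some c :: u)
  have h1 : a.Xt k u z' ≤ a.Xt k u z := max_le_max le_rfl (by linarith)
  have h2 : a.Xt k u z - a.Xt k u z' ≤ z' - z := by
    refine (le_abs_self _).trans ((max0_lip _ _).trans ?_)
    rw [abs_le]
    constructor <;> linarith
  have h3 := mul_le_mul_of_nonneg_right h1 hp
  have h4 := mul_le_mul_of_nonneg_left h2 hp
  refine ⟨sub_nonneg.2 (max_le_max le_rfl (by linarith)), ?_⟩
  refine (le_abs_self _).trans ((max0_lip _ _).trans ?_)
  rw [abs_le]
  constructor <;> linarith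

theorem pit_lip (F : Facts k) (B' : a'.Basic k) (c : L) (u : List (Option L))
    (h : a'.cl (some c :: u) = a.cl (some c :: u)) :
    a'.SS k a'.y u * |a'.pit k (some c :: u) - a.pit k (some c :: u)| ≤ 2 * a.D4 k a' c u := by
  unfold TS.pit TS.D4
  rw [h]
  by_cases hL : Lt k (a.cl (some c :: u))
  · rw [if_pos hL, if_pos hL, if_pos ⟨hL, rfl⟩, ← mul_sub, abs_mul, mul_left_comm]
    have h1 := F.om_eta (a.cl (some c :: u)) (by linarith [hL.2])
    have h2 := mul_pos F.om_pos (F.eta_pos (a.cl (some c :: u)))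
    refine mul_le_mul ?_ (mul_le_mul_of_nonneg_left ((max0_lip _ _).trans (le_of_eq ?_))
      (B'.SS_nonneg u)) (mul_nonneg (B'.SS_nonneg u) (abs_nonneg _)) (by norm_num)
    · rw [abs_of_nonneg (by linarith)]
      linarith
    · congr 1
      ring
  · rw [if_neg hL, if_neg hL, if_neg fun h => hL h.1]
    simp

end TMoveNode

open TMoveNode in
theorem moveNode (hF : ParamStmt) (hB : BasicStmt) (hI : InvStmt) (hP : PayStmt) :
    MoveNodeStmt := by
  refine ⟨100, by norm_num, fun k L _ a a' hk P A P' A' Tr u => ?_⟩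
  have F := hF k hk
  have B := hB k L a hk P A
  have B' := hB k L a' hk P' A'
  have I := (hI k L a hk P A).1
  have I' := (hI k L a' hk P' A').1
  have Pay := fun c => hP k L a a' hk P A P' A' Tr c u
  have hel : (1 : ℝ) ≤ el k := by
    have : (5 : ℝ) ≤ el k := by exact_mod_cast F.el_ge
    linarith
  have hw := F.om_pos
  have hw1 := F.om_le
  obtain ⟨Q, hQ⟩ : ∃ Q : L → ℝ, ∀ c, Q c = a.D1 k a' (some c :: u) + a.D2 k a' (some c :: u) +
    a.D3 k a' (some c :: u) + a.D4 k a' c u + om k * a.D5 k a' c u + el k * a.D6 k a' c u :=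
    ⟨_, fun _ => rfl⟩
  simp only [← hQ]
  have q1 := fun c => D1_nonneg (k := k) (a := a) (a' := a') (some c :: u)
  have q2 := fun c => D2_nonneg (k := k) (a := a) (a' := a') (some c :: u)
  have q3 := fun c => D3_nonneg (k := k) (a := a) (a' := a') (some c :: u)
  have q4 : ∀ c, 0 ≤ a.D4 k a' c u := fun c => by
    unfold TS.D4
    split_ifs
    exacts [mul_nonneg (B'.SS_nonneg u) (abs_nonneg _), le_rfl]
  have q5 : ∀ c, 0 ≤ om k * a.D5 k a' c u := fun c =>
    mul_nonneg hw.le (mul_nonneg (P'.nu_nonneg _) (abs_nonneg _))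
  have q6 : ∀ c, 0 ≤ el k * a.D6 k a' c u := fun c => mul_nonneg (by linarith) (Pay c).1
  have q0 : ∀ c, 0 ≤ Q c := fun c => by
    linarith [hQ c, q1 c, q2 c, q3 c, q4 c, q5 c, q6 c]
  have hS0 : 0 ≤ ∑ c, Q c := sum_nonneg fun c _ => q0 c
  have hdz := abs_nonneg (a'.Zv k u - a.Zv k u)
  by_cases hA : ∃ c, ¬ (a.cl (some c :: u) = 0 ↔ a'.cl (some c :: u) = 0)
  · obtain ⟨c, hc⟩ := hA
    have h1 : ∑ c, |a'.Zv k (some c :: u) - a.Zv k (some c :: u)| ≤
        ∑ c, (a'.Zv k (some c :: u) + a.Zv k (some c :: u)) := sum_le_sum fun c _ => by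
      rw [abs_le]
      constructor <;> linarith [I.nonneg (some c :: u), I'.nonneg (some c :: u)]
    rw [sum_add_distrib] at h1
    have h2 := (Pay c).2.2.2.1 hc
    have h3 : a.D6 k a' c u ≤ el k * a.D6 k a' c u := le_mul_of_one_le_left (Pay c).1 hel
    have h4 : Q c ≤ ∑ c, Q c := single_le_sum (fun c _ => q0 c) (mem_univ c)
    linarith [I.cons u, I'.cons u, I'.le_nu u, neg_abs_le (a'.Zv k u - a.Zv k u), hQ c, q1 c, q2 c,
      q3 c, q4 c, q5 c]
  have hH : ∀ c, a'.cl (some c :: u) = 0 ↔ a.cl (some c :: u) = 0 := fun c =>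
    (not_not.1 fun h => hA ⟨c, h⟩).symm
  obtain ⟨dl, hdl⟩ : ∃ dl, dl = |lam k a'.cl u - lam k a.cl u| := ⟨_, rfl⟩
  have hdl0 : 0 ≤ dl := hdl ▸ abs_nonneg _
  have hD5 : ∀ c, om k * a.D5 k a' c u = om k * dl * a'.nu (some c :: u) := fun c => by
    rw [TS.D5, ← hdl]
    ring
  have hs : |ss k a'.cl u - ss k a.cl u| ≤ 4 * om k * dl :=
    hdl ▸ F.ss_lip _ _ (by linarith [B.lam_le u]) (by linarith [B'.lam_le u])
  have he : |ee k a'.cl u - ee k a.cl u| ≤ om k * dl := hdl ▸ F.ee_lip _ _ (B.lam_le u) (B'.lam_le u)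
  have s1 := B.ss_lo u
  have s2 := B.ss_hi u
  have s3 := B'.ss_lo u
  have hmx : ∀ (c : L) (f : ℝ), 99 / 100 ≤ f → f ≤ 101 / 100 →
      |a'.bb k (some c :: u) + a'.mx k (ss k a'.cl u * f) (some c :: u) -
        (a.bb k (some c :: u) + a.mx k (ss k a.cl u * f) (some c :: u))| ≤ 5 * Q c := by
    intro c f f1 f2
    have h1 := mx_lip F A P' A' B' (some c :: u) (s := ss k a.cl u * f) (s' := ss k a'.cl u * f)
      (by nlinarith) (by nlinarith) (by nlinarith)
    have h2 := bb_lip (k := k) (a := a) (a' := a') (some c :: u)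
    have h3 : |ss k a'.cl u * f - ss k a.cl u * f| ≤ 5 * (om k * dl) := by
      rw [← sub_mul, abs_mul, abs_of_nonneg (show 0 ≤ f by linarith)]
      have := mul_le_mul hs f2 (by linarith) (by positivity)
      linarith [mul_nonneg hw.le hdl0]
    have h4 := mul_le_mul_of_nonneg_right h3 (P'.nu_nonneg (some c :: u))
    have h5 := abs_add_le (a'.bb k (some c :: u) - a.bb k (some c :: u))
      (a'.mx k (ss k a'.cl u * f) (some c :: u) - a.mx k (ss k a.cl u * f) (some c :: u))
    rw [← add_sub_add_comm] at h5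
    linarith [hQ c, hD5 c, q1 c, q2 c, q3 c, q4 c, q5 c, q6 c]
  have hlo : ∀ c, |a'.lo k c u - a.lo k c u| ≤ 5 * Q c := fun c =>
    hmx c _ (by linarith) (by linarith)
  have hhi : ∀ c, |a'.hi k c u - a.hi k c u| ≤ 5 * Q c := fun c =>
    hmx c _ (by linarith) (by linarith)
  have hdem : ∀ c, |a'.dem k c u - a.dem k c u| ≤ 20 * Q c := fun c => by
    unfold TS.dem
    by_cases h : a.cl (some c :: u) = 0
    · rw [if_pos h, if_pos ((hH c).2 h)]
      have h1 := sg_lip (a := a) (a' := a') F (some c :: u)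
      have h2 : |ss k a'.cl u - ss k a.cl u| * a'.sg k (some c :: u) ≤
          4 * om k * dl * (2 * a'.nu (some c :: u)) :=
        mul_le_mul hs (B'.sg_le c u) (B'.sg_nonneg _) (by positivity)
      have h3 : ss k a.cl u * |a'.sg k (some c :: u) - a.sg k (some c :: u)| ≤
          4 * (4 / 3 * a.D1 k a' (some c :: u) + a.D3 k a' (some c :: u)) :=
        mul_le_mul (by linarith) h1 (abs_nonneg _) (by norm_num)
      have h4 : |ss k a'.cl u * a'.sg k (some c :: u) - ss k a.cl u * a.sg k (some c :: u)| ≤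
          |ss k a'.cl u - ss k a.cl u| * a'.sg k (some c :: u) +
            ss k a.cl u * |a'.sg k (some c :: u) - a.sg k (some c :: u)| := by
        have e : ss k a'.cl u * a'.sg k (some c :: u) - ss k a.cl u * a.sg k (some c :: u) =
            (ss k a'.cl u - ss k a.cl u) * a'.sg k (some c :: u) +
              ss k a.cl u * (a'.sg k (some c :: u) - a.sg k (some c :: u)) := by ring
        rw [e]
        refine (abs_add_le _ _).trans (le_of_eq ?_)
        rw [abs_mul, abs_mul, abs_of_nonneg (B'.sg_nonneg _),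
          abs_of_nonneg (show 0 ≤ ss k a.cl u by linarith)]
      have h5 : |mb k * ss k a'.cl u * a'.sg k (some c :: u) -
          mb k * ss k a.cl u * a.sg k (some c :: u)| ≤
          |ss k a'.cl u * a'.sg k (some c :: u) - ss k a.cl u * a.sg k (some c :: u)| := by
        rw [mul_assoc, mul_assoc, ← mul_sub, abs_mul,
          abs_of_nonneg (show 0 ≤ mb k by linarith [F.mb_lo])]
        exact mul_le_of_le_one_left (abs_nonneg _) F.mb_hi
      have h6 := abs_add_le (a'.hi k c u - a.hi k c u)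
        (mb k * ss k a'.cl u * a'.sg k (some c :: u) - mb k * ss k a.cl u * a.sg k (some c :: u))
      rw [← add_sub_add_comm] at h6
      linarith [hhi c, hQ c, hD5 c, q1 c, q2 c, q3 c, q4 c, q5 c, q6 c]
    · rw [if_neg h, if_neg fun h' => h ((hH c).1 h')]
      linarith [hlo c, q0 c]
  have hX : |a'.Xt k u (a'.Zv k u) - a.Xt k u (a'.Zv k u)| ≤ 20 * ∑ c, Q c + om k * dl := by
    refine (max0_lip _ _).trans ?_
    have h1 : |∑ c, a'.dem k c u - ∑ c, a.dem k c u| ≤ 20 * ∑ c, Q c := by
      rw [← sum_sub_distrib, mul_sum]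
      exact (abs_sum_le_sum_abs _ _).trans (sum_le_sum fun c _ => hdem c)
    have h2 := abs_le.1 h1
    have h3 := abs_le.1 he
    rw [abs_le]
    constructor <;> linarith [h2.1, h2.2, h3.1, h3.2]
  have hW : ∀ c, |a'.lz k (a'.Zv k u) c u - a.lz k (a'.Zv k u) c u| ≤
      20 * Q c + a.pit k (some c :: u) * (20 * ∑ c, Q c) := by
    intro c
    have hp := B.pit_nonneg (some c :: u)
    have h0 : 0 ≤ a.pit k (some c :: u) * (20 * ∑ c, Q c) := by positivity
    have l1 := lz_le B (a'.Zv k u) c u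
    have l2 := lz_le B' (a'.Zv k u) c u
    have l3 := abs_le.1 (hlo c)
    have hcap : (3 : ℝ) ≤ ss k a'.cl u * (1 + 3 * om k) := by nlinarith
    by_cases h1 : a'.cl (some c :: u) = a.cl (some c :: u)
    · by_cases h2 : 0 < a'.lo k c u
      · have h3 := B'.cap_pos _ _ hcap h2
        have h4 : a.pit k (some c :: u) ≤ 6 / 5 :=
          (single_le_sum (f := fun c => a.pit k (some c :: u)) (fun c _ => B.pit_nonneg _)
            (mem_univ c)).trans (B.pit_sum u)
        have h5 : om k * dl * (16 / 25) ≤ om k * dl * a'.nu (some c :: u) :=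
          mul_le_mul_of_nonneg_left h3 (by positivity)
        have h6 : a'.Xt k u (a'.Zv k u) * |a'.pit k (some c :: u) - a.pit k (some c :: u)| ≤
            8 * a.D4 k a' c u := by
          have := mul_le_mul_of_nonneg_right (I'.Xt_le u)
            (abs_nonneg (a'.pit k (some c :: u) - a.pit k (some c :: u)))
          linarith [pit_lip F B' c u h1]
        have h7 := mul_le_mul_of_nonneg_left hX hp
        have h8 : a.pit k (some c :: u) * (om k * dl) ≤ 6 / 5 * (om k * dl) :=
          mul_le_mul_of_nonneg_right h4 (by positivity)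
        have h9 : |a'.Xt k u (a'.Zv k u) * a'.pit k (some c :: u) -
            a.Xt k u (a'.Zv k u) * a.pit k (some c :: u)| ≤
            a'.Xt k u (a'.Zv k u) * |a'.pit k (some c :: u) - a.pit k (some c :: u)| +
            a.pit k (some c :: u) * |a'.Xt k u (a'.Zv k u) - a.Xt k u (a'.Zv k u)| := by
          have e : a'.Xt k u (a'.Zv k u) * a'.pit k (some c :: u) -
              a.Xt k u (a'.Zv k u) * a.pit k (some c :: u) =
              a'.Xt k u (a'.Zv k u) * (a'.pit k (some c :: u) - a.pit k (some c :: u)) +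
              a.pit k (some c :: u) * (a'.Xt k u (a'.Zv k u) - a.Xt k u (a'.Zv k u)) := by ring
          rw [e]
          refine (abs_add_le _ _).trans (le_of_eq ?_)
          rw [abs_mul, abs_mul, abs_of_nonneg hp,
            abs_of_nonneg (show 0 ≤ a'.Xt k u (a'.Zv k u) from le_max_left _ _)]
        have h10 := abs_le.1 h9
        have h11 := abs_le.1 he
        refine (max0_lip _ _).trans ?_
        rw [abs_le]
        constructor <;> linarith [h10.1, h10.2, h11.1, h11.2, l3.1, l3.2, hQ c, hD5 c, q1 c, q2 c,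
          q3 c, q4 c, q5 c, q6 c]
      · rw [abs_le]
        constructor <;> linarith [l1.1, l1.2, l2.1, l2.2, l3.1, l3.2, q0 c]
    · have h2 := (Pay c).2.1 h1
      have h3 : a'.lo k c u ≤ 25 / 16 * a'.nu (some c :: u) := B'.cap _ _ hcap
      rw [abs_le]
      constructor <;> linarith [l1.1, l1.2, l2.1, l2.2, l3.1, l3.2, hQ c, q1 c, q2 c, q3 c, q4 c,
        q5 c, q6 c]
  have hWs : (∑ c, if a.cl (some c :: u) = 0 then 0 else
      |a'.lz k (a'.Zv k u) c u - a.lz k (a'.Zv k u) c u|) ≤ 44 * ∑ c, Q c := by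
    have h1 : (∑ c, if a.cl (some c :: u) = 0 then 0 else
        |a'.lz k (a'.Zv k u) c u - a.lz k (a'.Zv k u) c u|) ≤
        ∑ c, (20 * Q c + a.pit k (some c :: u) * (20 * ∑ c, Q c)) := sum_le_sum fun c _ => by
      split_ifs
      exacts [(abs_nonneg _).trans (hW c), hW c]
    rw [sum_add_distrib, ← mul_sum, ← sum_mul] at h1
    have h2 := mul_le_mul_of_nonneg_right (B.pit_sum u) (show 0 ≤ 20 * ∑ c, Q c by positivity)
    linarith
  have hhs : ∑ c, |a'.hi k c u - a.hi k c u| ≤ 5 * ∑ c, Q c := by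
    rw [mul_sum]
    exact sum_le_sum fun c _ => hhi c
  have hmain := comb (fun c => a.cl (some c :: u) = 0) (fun c c' => B.heavy_unique c c' u)
    (fun c => a.lz k (a.Zv k u) c u) (fun c => a'.lz k (a'.Zv k u) c u)
    (fun c => a.lz k (a'.Zv k u) c u) (fun c => a.hi k c u) (fun c => a'.hi k c u)
    (fun c => a.pit k (some c :: u)) (a.Zv k u) (a'.Zv k u) (fun c => B.pit_nonneg _)
    (B.pit_sum u) (fun h c => lz_slope B h c u) (fun h c => lz_slope B h c u)
  have e : ∀ c, |a'.Zv k (some c :: u) - a.Zv k (some c :: u)| =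
      |(if a.cl (some c :: u) = 0 then min (a'.Zv k u - ∑ c', if a.cl (some c' :: u) = 0 then 0
        else a'.lz k (a'.Zv k u) c' u) (a'.hi k c u) else a'.lz k (a'.Zv k u) c u) -
      (if a.cl (some c :: u) = 0 then min (a.Zv k u - ∑ c', if a.cl (some c' :: u) = 0 then 0
        else a.lz k (a.Zv k u) c' u) (a.hi k c u) else a.lz k (a.Zv k u) c u)| := by
    intro c
    simp only [TS.Zv, TS.cz, hH]
  simp only [e]
  refine hmain.trans ?_
  linarith

end Vale.Agent.P304
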