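import Vale.Agent.P304.StmtsT
import Vale.Agent.P304.Move

/-! Movement of the final allocation, summed over the tree. -/

namespace Vale.Agent.P304

open Finset
open scoped Classical

namespace TMoveT

/-- a recursion with factor `3 / 2` against halving weights -/
theorem geo (D : ℕ) (M Q : ℕ → ℝ) (h0 : M 0 = 0) (hM : ∀ d, 0 ≤ M d)
    (h : ∀ d, M (d + 1) ≤ 3 / 2 * M d + Q d) :
    ∑ d ∈ range D, (1 / 2 : ℝ) ^ d * M (d + 1) ≤ 4 * ∑ d ∈ range D, (1 / 2 : ℝ) ^ d * Q d := by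
  have key : ∀ D : ℕ, ∑ d ∈ range D, (1 / 2 : ℝ) ^ d * M (d + 1) +
      6 * (1 / 2 : ℝ) ^ D * M D ≤ 4 * ∑ d ∈ range D, (1 / 2 : ℝ) ^ d * Q d := by
    intro D
    induction D with
    | zero => simp [h0]
    | succ D ih =>
      rw [Finset.sum_range_succ, Finset.sum_range_succ (fun j => (1 / 2 : ℝ) ^ j * Q j), pow_succ]
      have h1 := mul_le_mul_of_nonneg_left (h D) (by positivity : (0 : ℝ) ≤ (1 / 2) ^ D)
      linarith
  have h1 := key D
  have h2 : 0 ≤ 6 * (1 / 2 : ℝ) ^ D * M D := mul_nonneg (by positivity) (hM D)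
  linarith

variable {L : Type} [Fintype L]

theorem Zf_some {k : ℕ} (hk : 2 ≤ k) (a a' : TS L) (c : L) (u : List (Option L)) :
    |a'.Zf k (some c :: u) - a.Zf k (some c :: u)| ≤
      9 / 4 * |a'.Zv k (some c :: u) - a.Zv k (some c :: u)| := by
  have hk' : (2 : ℝ) ≤ k := by exact_mod_cast hk
  have h1 : (1 : ℝ) / (4 * k) ≤ 1 / 8 := one_div_le_one_div_of_le (by norm_num) (by linarith)
  have h2 : (0 : ℝ) ≤ 1 / (4 * k) := by positivity
  rw [TS.Zf, TS.Zf]
  refine (Move.sig_lip _ _).trans ?_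
  rw [← mul_sub, abs_mul, abs_of_nonneg (by linarith)]
  have h3 := mul_le_mul_of_nonneg_right h1
    (abs_nonneg (a'.Zv k (some c :: u) - a.Zv k (some c :: u)))
  linarith

theorem Zf_none (k : ℕ) (a : TS L) (u : List (Option L)) :
    a.Zf k (none :: u) = a.Zf k u - ∑ c, a.Zf k (some c :: u) := by
  simp only [TS.Zf]

theorem Zv_sum (k : ℕ) (a a' : TS L) (u : List (Option L)) :
    ∑ x, |a'.Zv k (x :: u) - a.Zv k (x :: u)| =
      ∑ c, |a'.Zv k (some c :: u) - a.Zv k (some c :: u)| := by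
  rw [Fintype.sum_option]
  have e : ∀ b : TS L, b.Zv k (none :: u) = 0 := fun b => by simp only [TS.Zv]
  rw [e, e, sub_self, abs_zero, zero_add]

theorem Zf_step {k : ℕ} (hk : 2 ≤ k) (a a' : TS L) (u : List (Option L)) :
    ∑ x, |a'.Zf k (x :: u) - a.Zf k (x :: u)| ≤
      |a'.Zf k u - a.Zf k u| + 5 * ∑ x, |a'.Zv k (x :: u) - a.Zv k (x :: u)| := by
  rw [Zv_sum, Fintype.sum_option, Zf_none, Zf_none]
  have h1 : ∑ c, |a'.Zf k (some c :: u) - a.Zf k (some c :: u)| ≤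
      ∑ c, 9 / 4 * |a'.Zv k (some c :: u) - a.Zv k (some c :: u)| :=
    Finset.sum_le_sum fun c _ => Zf_some hk a a' c u
  rw [← Finset.mul_sum] at h1
  have h2 := Finset.abs_sum_le_sum_abs
    (fun c => a'.Zf k (some c :: u) - a.Zf k (some c :: u)) univ
  have h3 := abs_sub (a'.Zf k u - a.Zf k u)
    (∑ c, (a'.Zf k (some c :: u) - a.Zf k (some c :: u)))
  have h4 : a'.Zf k u - ∑ c, a'.Zf k (some c :: u) - (a.Zf k u - ∑ c, a.Zf k (some c :: u)) =
      a'.Zf k u - a.Zf k u - ∑ c, (a'.Zf k (some c :: u) - a.Zf k (some c :: u)) := by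
    rw [Finset.sum_sub_distrib]; ring
  have h5 : 0 ≤ ∑ c, |a'.Zv k (some c :: u) - a.Zv k (some c :: u)| :=
    Finset.sum_nonneg fun _ _ => abs_nonneg _
  rw [h4]
  linarith

end TMoveT

open TMoveT in
theorem moveT (_hI : InvStmt) (hN : MoveNodeStmt) : MoveTStmt := by
  obtain ⟨C, hC, hN⟩ := hN
  refine ⟨40 * C, by positivity, ?_⟩
  intro k L _ a a' hk hP hA hP' hA' hT D
  set f : L → List (Option L) → ℝ := fun c u => a.D1 k a' (some c :: u) +
    a.D2 k a' (some c :: u) + a.D3 k a' (some c :: u) + a.D4 k a' c u + om k * a.D5 k a' c u +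
    el k * a.D6 k a' c u with hf
  set M : ℕ → ℝ := fun d => ∑ u ∈ lists (Option L) d, |a'.Zv k u - a.Zv k u| with hM
  set Q : ℕ → ℝ := fun d => ∑ u ∈ lists (Option L) d, ∑ c, f c u with hQ
  have hM0 : ∀ d, 0 ≤ M d := fun d => Finset.sum_nonneg fun _ _ => abs_nonneg _
  have hMz : M 0 = 0 := by
    simp only [hM]
    rw [lists_zero, Finset.sum_singleton]
    simp [TS.Zv]
  have hMs : ∀ d, M (d + 1) ≤ 3 / 2 * M d + C * Q d := by
    intro d
    simp only [hM, hQ]
    rw [sum_lists_succ, Finset.mul_sum, Finset.mul_sum, ← Finset.sum_add_distrib]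
    refine Finset.sum_le_sum fun u _ => ?_
    rw [Zv_sum]
    exact hN k L a a' hk hP hA hP' hA' hT u
  have hA1 := geo D M (fun d => C * Q d) hMz hM0 hMs
  have key : ∀ d, ∑ u ∈ lists (Option L) d, |a'.Zf k u - a.Zf k u| ≤
      5 * ∑ j ∈ range d, M (j + 1) := by
    intro d
    induction d with
    | zero =>
      rw [lists_zero, Finset.sum_singleton]
      simp [TS.Zf]
    | succ d ih =>
      rw [sum_lists_succ, Finset.sum_range_succ]
      have h1 : ∑ u ∈ lists (Option L) d, ∑ x, |a'.Zf k (x :: u) - a.Zf k (x :: u)| ≤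
          ∑ u ∈ lists (Option L) d, (|a'.Zf k u - a.Zf k u| +
            5 * ∑ x, |a'.Zv k (x :: u) - a.Zv k (x :: u)|) :=
        Finset.sum_le_sum fun u _ => Zf_step hk a a' u
      rw [Finset.sum_add_distrib, ← Finset.mul_sum,
        ← sum_lists_succ d fun u => |a'.Zv k u - a.Zv k u|] at h1
      simp only [hM] at ih ⊢
      linarith
  have h1 : ∑ d ∈ range D, (1 / 2 : ℝ) ^ d *
      ∑ u ∈ lists (Option L) (d + 1), |a'.Zf k u - a.Zf k u| ≤
      ∑ d ∈ range D, 5 * ((1 / 2 : ℝ) ^ d * ∑ j ∈ range (d + 1), M (j + 1)) := by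
    refine Finset.sum_le_sum fun d _ => ?_
    have h3 := mul_le_mul_of_nonneg_left (key (d + 1)) (by positivity : (0 : ℝ) ≤ (1 / 2) ^ d)
    linarith
  rw [← Finset.mul_sum] at h1
  have h2 := sum_half_cum D (fun j => M (j + 1)) fun j => hM0 _
  have h3 : ∑ d ∈ range D, (1 / 2 : ℝ) ^ d * (C * Q d) = C * wsum D f := by
    unfold wsum
    rw [Finset.mul_sum]
    exact Finset.sum_congr rfl fun d _ => by ring
  rw [h3] at hA1
  linarith

end Vale.Agent.P304
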