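import Vale.Agent.P304.StmtsT

/-! Numerical facts about the parameters of the tree allocation. -/

namespace Vale.Agent.P304

open Finset
open scoped Classical

namespace TParam

variable {k : ℕ}

theorem log_pos (hk : 2 ≤ k) : 1 ≤ Nat.log 2 k := Nat.log_pos one_lt_two hk

theorem el_ge (hk : 2 ≤ k) : 5 ≤ el k := by
  have := log_pos hk
  unfold el
  omega

theorem el_ge' (hk : 2 ≤ k) : (5 : ℝ) ≤ el k := by exact_mod_cast el_ge hk

theorem pow_log (hk : 2 ≤ k) : (2 : ℝ) ^ Nat.log 2 k ≤ k := by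
  exact_mod_cast Nat.pow_log_le_self 2 (by omega : k ≠ 0)

theorem el_le (hk : 2 ≤ k) : (el k : ℝ) ≤ 8 * Real.log k := by
  have h1 := Real.log_le_log (by positivity) (pow_log hk)
  have h2 : (1 : ℝ) ≤ Nat.log 2 k := by exact_mod_cast log_pos hk
  rw [Real.log_pow] at h1
  have h3 := Real.log_two_gt_d9
  unfold el
  push_cast
  nlinarith

theorem pow_el : 8 * (k : ℝ) ≤ 2 ^ el k := by
  have h : (k : ℝ) < 2 ^ (Nat.log 2 k + 1) := by
    exact_mod_cast Nat.lt_pow_succ_log_self one_lt_two k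
  rw [el, pow_add]
  rw [pow_add] at h
  linarith

theorem pow_el' (hk : 2 ≤ k) : (2 : ℝ) ^ el k ≤ 16 * k := by
  rw [el, pow_add]
  linarith [pow_log hk]

theorem jm_hi (hk : 2 ≤ k) : (2 : ℝ) ^ jm k ≤ 2 * el k := by
  have h0 : 1 < el k := by linarith [el_ge hk]
  have h1 := Nat.pow_pred_clog_lt_self one_lt_two h0
  have h2 := Nat.succ_pred_eq_of_pos (Nat.clog_pos one_lt_two h0)
  have h3 : 2 ^ jm k ≤ 2 * el k := by
    rw [jm, ← h2, pow_succ]
    omega
  exact_mod_cast h3

theorem om_pos (hk : 2 ≤ k) : 0 < om k := by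
  have := el_ge' hk
  unfold om
  positivity

theorem om_el (hk : 2 ≤ k) : om k * el k = 1 / 10 ^ 6 := by
  have := el_ge' hk
  unfold om
  field_simp

theorem om_le (hk : 2 ≤ k) : om k ≤ 1 / 10 ^ 6 := by
  rw [← om_el hk]
  exact le_mul_of_one_le_right (om_pos hk).le (by linarith [el_ge' hk])

theorem wd_pos (j : ℕ) : 0 < wd k j := lt_max_of_lt_left (by positivity)

theorem tt_lo (j : ℕ) : 1 ≤ tt k j :=
  le_add_of_nonneg_right (sum_nonneg fun i _ => (wd_pos i).le)

theorem tt_hi (hk : 2 ≤ k) (j : ℕ) (hj : j ≤ nn k + 1) : tt k j ≤ 103 / 100 := by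
  have h0 := om_pos hk
  have h1 : ∑ i ∈ range j, wd k i ≤ ∑ i ∈ range j, (1 / 100 * (1 / 2) ^ i + 30 * om k) :=
    sum_le_sum fun i _ => max_le (le_add_of_nonneg_right (by positivity))
      (le_add_of_nonneg_left (by positivity))
  rw [sum_add_distrib, ← mul_sum, sum_const, card_range, nsmul_eq_mul] at h1
  have h2 := sum_geometric_two_le j
  have h3 : (j : ℝ) ≤ 8 * el k := by
    have := el_ge hk
    exact_mod_cast (by unfold nn at hj; omega : j ≤ 8 * el k)
  have h4 := mul_le_mul_of_nonneg_right h3 h0.le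
  have h5 := om_el hk
  unfold tt
  nlinarith

theorem quarter (n : ℕ) : ∑ j ∈ range n, (1 / 4 : ℝ) ^ j ≤ 4 / 3 := by
  have h : ∑ j ∈ range n, (1 / 4 : ℝ) ^ j = 4 / 3 - 4 / 3 * (1 / 4) ^ n := by
    induction n with
    | zero => simp
    | succ n ih =>
      rw [sum_range_succ, ih]
      ring
  rw [h]
  exact sub_le_self _ (by positivity)

theorem one_le_Q (n : ℕ) : 1 ≤ ∑ j ∈ range (n + 1), (1 / 4 : ℝ) ^ j := by
  rw [sum_range_succ', pow_zero]
  exact le_add_of_nonneg_left (by positivity)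

theorem Q_le : ∑ j ∈ range (nn k + 1), (1 / 4 : ℝ) ^ j ≤ ZZ k :=
  sum_le_sum fun j _ => le_mul_of_one_le_right (by positivity) (tt_lo j)

theorem ZZ_le (hk : 2 ≤ k) : ZZ k ≤ (∑ j ∈ range (nn k + 1), (1 / 4 : ℝ) ^ j) * (103 / 100) := by
  rw [sum_mul]
  exact sum_le_sum fun j hj =>
    mul_le_mul_of_nonneg_left (tt_hi hk j (mem_range.1 hj).le) (by positivity)

theorem ZZ_pos : 0 < ZZ k := one_pos.trans_le ((one_le_Q _).trans Q_le)

theorem ph_anti : Antitone (ph k) := fun _ _ h =>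
  div_le_div_of_nonneg_right (sum_le_sum fun _ _ => mul_le_mul_of_nonneg_left
    (max_le_max le_rfl (sub_le_sub_left h _)) (by positivity)) ZZ_pos.le

theorem ph_lin (u : ℝ) (hu : u ≤ 1) : ph k u = 1 - mb k * u := by
  have h : ∑ j ∈ range (nn k + 1), (1 / 4 : ℝ) ^ j * max 0 (tt k j - u) =
      ZZ k - (∑ j ∈ range (nn k + 1), (1 / 4 : ℝ) ^ j) * u := by
    rw [ZZ, sum_mul, ← sum_sub_distrib]
    exact sum_congr rfl fun j _ => by
      rw [max_eq_right (sub_nonneg.2 (hu.trans (tt_lo j))), mul_sub]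
  rw [ph, h, mb, sub_div, div_self ZZ_pos.ne', div_mul_eq_mul_div]

theorem ph_lip (u v : ℝ) : |ph k u - ph k v| ≤ |u - v| := by
  rw [ph, ph, ← sub_div, ← sum_sub_distrib, abs_div, abs_of_pos ZZ_pos, div_le_iff₀' ZZ_pos]
  refine (abs_sum_le_sum_abs _ _).trans (le_trans ?_
    (mul_le_mul_of_nonneg_right Q_le (abs_nonneg _)))
  rw [sum_mul]
  refine sum_le_sum fun j _ => ?_
  rw [← mul_sub, abs_mul, abs_of_nonneg (by positivity), max_comm 0, max_comm 0]
  refine mul_le_mul_of_nonneg_left ((abs_max_sub_max_le_abs _ _ _).trans_eq ?_) (by positivity)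
  rw [sub_sub_sub_cancel_left, abs_sub_comm]

theorem exp_lip {c C a b : ℝ} (hc : 0 ≤ c) (ha : c * Real.exp a ≤ C) (hb : c * Real.exp b ≤ C) :
    |c * Real.exp a - c * Real.exp b| ≤ C * |a - b| := by
  have key : ∀ a b : ℝ, c * Real.exp a ≤ C → c * Real.exp a - c * Real.exp b ≤ C * |a - b| :=
    fun a b ha => by
      have h1 : 0 ≤ c * Real.exp a := by positivity
      have h2 : Real.exp b = Real.exp a * Real.exp (b - a) := by
        rw [← Real.exp_add, add_sub_cancel]
      have h3 := mul_le_mul_of_nonneg_left (Real.add_one_le_exp (b - a)) h1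
      have h4 := mul_le_mul_of_nonneg_left (le_abs_self (a - b)) h1
      have h5 := mul_le_mul_of_nonneg_right ha (abs_nonneg (a - b))
      rw [h2]
      linarith
  refine abs_sub_le_iff.2 ⟨key a b ha, ?_⟩
  rw [abs_sub_comm]
  exact key b a hb

theorem ss_hi (hk : 2 ≤ k) (x : ℝ) (hx : x ≤ 20 * el k) : ssf k x ≤ 351 / 100 := by
  have h1 : om k * x ≤ 1 / 1000 := by
    have := mul_le_mul_of_nonneg_left hx (om_pos hk).le
    linarith [om_el hk]
  have h2 := (Real.exp_le_exp.2 h1).trans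
    (Real.exp_bound_div_one_sub_of_interval (by norm_num) (by norm_num))
  unfold ssf
  linarith

theorem ss_inv (x : ℝ) : 1 / ssf k x = 2 / 7 * Real.exp (-(om k * x)) := by
  rw [ssf, Real.exp_neg]
  field_simp

theorem ee_key (x : ℝ) (hx : x ≤ 18 * el k) : eef k x ≤ 1 / (2 ^ 23 * 2 ^ el k) := by
  have h1 : Real.exp (x / 4) ≤ (2 ^ el k) ^ 8 := by
    have h2 : Real.exp 5 ≤ 2 ^ 8 := by
      have h3 := pow_le_pow_left₀ (Real.exp_pos 1).le Real.exp_one_lt_three.le 5
      rw [← Real.exp_nat_mul] at h3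
      norm_num at h3 ⊢
      linarith
    have h4 : (0 : ℝ) ≤ el k := Nat.cast_nonneg _
    calc Real.exp (x / 4) ≤ Real.exp (el k * 5) := Real.exp_le_exp.2 (by linarith)
      _ ≤ (2 ^ 8) ^ el k := by
          rw [Real.exp_nat_mul]
          exact pow_le_pow_left₀ (Real.exp_pos 5).le h2 _
      _ = _ := by rw [← pow_mul, ← pow_mul, mul_comm]
  have h2 : (1 / 4 : ℝ) ^ nn k = 1 / ((2 ^ el k) ^ 10 * 2 ^ 20) := by
    rw [nn, one_div_pow, ← pow_mul, ← pow_add, show (4 : ℝ) = 2 ^ 2 by norm_num, ← pow_mul,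
      show 2 * (5 * el k + 10) = el k * 10 + 20 by ring]
  have h3 : (k : ℝ) ≤ 2 ^ el k / 8 := by linarith [pow_el (k := k)]
  have h4 : (0 : ℝ) < 2 ^ el k := by positivity
  rw [eef, h2]
  generalize (2 : ℝ) ^ el k = P at h1 h3 h4
  calc _ ≤ P / 8 * (1 / (P ^ 10 * 2 ^ 20)) * P ^ 8 := by gcongr
    _ = _ := by
      field_simp
      norm_num

theorem ee_om (hk : 2 ≤ k) (x : ℝ) (hx : x ≤ 18 * el k) : eef k x ≤ om k := by
  have h1 : (el k : ℝ) ≤ 2 ^ el k := by exact_mod_cast Nat.lt_two_pow_self.le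
  have h2 := el_ge' hk
  exact (ee_key x hx).trans (one_div_le_one_div_of_le (by positivity) (by linarith))

theorem two_le (i : ℕ) : (2 : ℝ) ≤ 2 ^ 2 ^ i := le_self_pow₀ one_le_two (by positivity)

theorem tlo_succ (i : ℕ) : tlo (i + 1) = 2 ^ 2 ^ i := if_neg i.succ_ne_zero

theorem thi_succ (i : ℕ) : thi (i + 1) = 2 ^ 2 ^ i * 2 ^ 2 ^ i := by
  rw [thi, if_neg i.succ_ne_zero, pow_succ, pow_mul, sq]

theorem tlo_zero : tlo 0 = 3 / 2 := if_pos rfl

theorem thi_zero : thi 0 = 9 / 5 := if_pos rfl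

theorem eta_succ (i : ℕ) : eta (i + 1) = 2 ^ i := by
  rw [eta, pow_succ, mul_div_cancel_right₀ _ two_ne_zero]

theorem exp_log (i : ℕ) : Real.exp (Real.log 2 * 2 ^ i) = 2 ^ 2 ^ i := by
  rw [mul_comm, ← Real.exp_log (show (0 : ℝ) < 2 ^ 2 ^ i by positivity), Real.log_pow]
  push_cast
  rfl

theorem thi_pow : ∀ i, (2 : ℝ) ^ i ≤ thi i
  | 0 => by
    rw [thi_zero]
    norm_num
  | i + 1 => by
    rw [thi, if_neg i.succ_ne_zero]
    exact pow_le_pow_right₀ one_le_two Nat.lt_two_pow_self.le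

theorem thi_pos (i : ℕ) : 0 < thi i := lt_of_lt_of_le (by positivity) (thi_pow i)

theorem tlo_thi : ∀ i, tlo i ≤ 5 / 6 * thi i
  | 0 => by
    rw [tlo_zero, thi_zero]
    norm_num
  | i + 1 => by
    rw [tlo_succ, thi_succ]
    nlinarith [two_le i]

theorem thi_tlo : ∀ i, thi i ≤ tlo (i + 1)
  | 0 => by
    rw [tlo_succ, thi_zero]
    norm_num
  | i + 1 => by rw [tlo_succ, thi, if_neg i.succ_ne_zero]

theorem thi_double : ∀ i, 2 * thi i ≤ thi (i + 1)
  | 0 => by
    rw [thi_succ, thi_zero]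
    norm_num
  | i + 1 => by
    rw [thi_succ (i + 1), thi, if_neg i.succ_ne_zero]
    exact mul_le_mul_of_nonneg_right (two_le _) (by positivity)

theorem thi_mono : Monotone thi :=
  monotone_nat_of_le_succ fun i => by linarith [thi_double i, thi_pos i]

theorem tlo_mono : Monotone tlo :=
  monotone_nat_of_le_succ fun i => by linarith [tlo_thi i, thi_tlo i, thi_pos i]

theorem tlo_eta (i : ℕ) : (2 : ℝ) ^ 2 ^ i ≤ Real.exp (7 / 10 * 2 ^ i) := by
  rw [← exp_log]
  exact Real.exp_le_exp.2 (mul_le_mul_of_nonneg_right (by linarith [Real.log_two_lt_d9])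
    (by positivity))

theorem eta_tlo : ∀ j, Real.exp (Real.log 2 / 2 * eta (j + 1)) ≤ tlo j
  | 0 => by
    rw [eta_succ, tlo_zero, pow_zero, mul_one]
    refine le_of_pow_le_pow_left₀ two_ne_zero (by norm_num) ?_
    rw [sq, ← Real.exp_add, add_halves, Real.exp_log two_pos]
    norm_num
  | j + 1 => by
    rw [eta_succ, tlo_succ, ← exp_log]
    exact le_of_eq (congrArg _ (by ring))

theorem eta_pos (j : ℕ) : 0 < eta j := by
  unfold eta
  positivity

theorem tht_log (i : ℕ) : Real.log (1 + 1 / tht (i + 1)) ≤ 12 * eta (i + 1) := by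
  have h0 : (1 : ℝ) ≤ 2 ^ i := one_le_pow₀ one_le_two
  have h1 := tlo_eta i
  have h2 := two_le i
  have h3 : (3600 : ℝ) ≤ Real.exp (9 * 2 ^ i) := by
    have h4 := pow_le_pow_left₀ (by norm_num : (0 : ℝ) ≤ 27 / 10)
      (by linarith [Real.exp_one_gt_d9] : 27 / 10 ≤ Real.exp 1) 9
    rw [← Real.exp_nat_mul] at h4
    refine le_trans (by norm_num) (h4.trans (Real.exp_le_exp.2 ?_))
    push_cast
    linarith
  have h4 : (2 : ℝ) ^ i ≤ Real.exp (2 ^ i) := by linarith [Real.add_one_le_exp ((2 : ℝ) ^ i)]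
  rw [tht, one_div_one_div, eta_succ, thi_succ]
  generalize (2 : ℝ) ^ 2 ^ i = T at h1 h2
  generalize (2 : ℝ) ^ i = y at h0 h1 h3 h4
  have h5 : 1 ≤ y * (T * T) := one_le_mul_of_one_le_of_one_le h0 (by nlinarith)
  refine (Real.log_le_iff_le_exp (by positivity)).2 ?_
  calc 1 + 1800 * y * (T * T) ≤ 3600 * y * (T * T) := by linarith
    _ ≤ Real.exp (9 * y) * Real.exp y * (Real.exp (7 / 10 * y) * Real.exp (7 / 10 * y)) := by
        gcongr
    _ ≤ _ := by
        simp only [← Real.exp_add]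
        exact Real.exp_le_exp.2 (by linarith)

theorem ratio : ∀ i, tlo i / thi i ≤ (1 / 2) ^ i
  | 0 => by
    rw [tlo_zero, thi_zero]
    norm_num
  | i + 1 => by
    rw [tlo_succ, thi_succ, div_mul_cancel_left₀ (by positivity), one_div_pow, one_div]
    exact inv_anti₀ (by positivity) (pow_le_pow_right₀ one_le_two Nat.lt_two_pow_self)

end TParam

open Vale.Agent.P304.TParam in
theorem param : ParamStmt := fun k hk =>
  have h0 := om_pos hk
  have hk0 : (0 : ℝ) < k := by exact_mod_cast (by omega : 0 < k)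
  { el_ge := el_ge hk
    el_le := el_le hk
    pow_el := pow_el
    pow_el' := pow_el' hk
    jm_lo := by exact_mod_cast Nat.le_pow_clog one_lt_two (el k)
    jm_hi := jm_hi hk
    om_pos := h0
    om_el := om_el hk
    om_le := om_le hk
    om_eta := fun j hj => by
      have h1 : (2 : ℝ) ^ j ≤ 2 ^ (jm k + 2) := pow_le_pow_right₀ one_le_two hj
      have h2 : eta j ≤ 4 * el k := by
        rw [pow_add] at h1
        unfold eta
        linarith [jm_hi hk]
      linarith [mul_le_mul_of_nonneg_left h2 h0.le, om_el hk]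
    wd_lo := fun _ => le_max_right _ _
    wd_lo' := fun _ => le_max_left _ _
    wd_hi := fun j => max_le
      (mul_le_of_le_one_right (by norm_num) (pow_le_one₀ (by norm_num) (by norm_num)))
      (by linarith [om_le hk])
    tt_succ := fun j => by rw [tt, tt, sum_range_succ, add_assoc]
    tt_lo := tt_lo
    tt_hi := tt_hi hk
    ZZ_lo := (one_le_Q _).trans Q_le
    ZZ_hi := by linarith [ZZ_le hk, quarter (nn k + 1)]
    mb_ZZ := by
      rw [mb, div_mul_cancel₀ _ ZZ_pos.ne']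
      exact one_le_Q _
    mb_lo := (le_div_iff₀ ZZ_pos).2 (by linarith [ZZ_le hk, one_le_Q (nn k)])
    mb_hi := (div_le_one ZZ_pos).2 Q_le
    quarter := quarter _
    ph_anti := ph_anti
    ph_nonneg := fun u => div_nonneg (sum_nonneg fun j _ => by positivity) ZZ_pos.le
    ph_lin := ph_lin
    ph_le := fun u hu => (ph_anti hu).trans_eq (by rw [ph_lin 0 zero_le_one, mul_zero, sub_zero])
    ph_zero := fun u hu => by
      rw [ph, sum_eq_zero, zero_div]
      intro j hj
      rw [max_eq_left (sub_nonpos.2 ((tt_hi hk j (mem_range.1 hj).le).trans hu)), mul_zero]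
    ph_lip := ph_lip
    ss_lo := fun x hx => le_mul_of_one_le_right (by norm_num) (Real.one_le_exp (by positivity))
    ss_hi := ss_hi hk
    ss_lip := fun x x' hx hx' => by
      refine (exp_lip (by norm_num) (ss_hi hk x' hx') (ss_hi hk x hx)).trans ?_
      rw [← mul_sub, abs_mul, abs_of_pos h0, mul_assoc]
      exact mul_le_mul_of_nonneg_right (by norm_num) (by positivity)
    ss_inv_lip := fun x x' hx hx' => by
      have h1 : ∀ y, 0 ≤ y → 2 / 7 * Real.exp (-(om k * y)) ≤ 1 / 3 := fun y hy => by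
        linarith [Real.exp_le_one_iff.2 (neg_nonpos.2 (mul_nonneg h0.le hy))]
      rw [ss_inv, ss_inv]
      refine (exp_lip (by norm_num) (h1 x' hx') (h1 x hx)).trans_eq ?_
      rw [neg_sub_neg, ← mul_sub, abs_mul, abs_of_pos h0, abs_sub_comm]
      ring
    ee_lo := fun x hx => le_mul_of_one_le_right (by positivity) (Real.one_le_exp (by positivity))
    ee_om := ee_om hk
    ee_k := fun x hx => (ee_key x hx).trans (one_div_le_one_div_of_le (by positivity)
      (pow_el.trans (le_mul_of_one_le_left (by positivity) (by norm_num))))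
    ee_lip := fun x x' hx hx' => by
      refine (exp_lip (by positivity) (ee_om hk x' hx') (ee_om hk x hx)).trans ?_
      refine mul_le_mul_of_nonneg_left ?_ h0.le
      rw [← sub_div, abs_div]
      exact div_le_self (abs_nonneg _) (by norm_num)
    tlo_mono := tlo_mono
    thi_mono := thi_mono
    tlo_ge := fun i => tlo_zero.ge.trans (tlo_mono i.zero_le)
    tlo_thi := tlo_thi
    thi_tlo := thi_tlo
    thi_double := thi_double
    thi_pow := thi_pow
    tlo_dead := by
      rw [tlo_succ]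
      exact pow_el.trans (pow_le_pow_right₀ one_le_two (Nat.le_pow_clog one_lt_two (el k)))
    tlo_eta := fun j hj => by
      obtain ⟨i, rfl⟩ := Nat.exists_eq_add_of_le' hj
      rw [tlo_succ, eta_succ]
      exact tlo_eta i
    eta_tlo := fun j hj => by
      obtain ⟨i, rfl⟩ := Nat.exists_eq_add_of_le' hj
      exact eta_tlo i
    eta_pos := eta_pos
    tht_pos := fun j => one_div_pos.2 (mul_pos (mul_pos (by norm_num) (eta_pos j)) (thi_pos j))
    tht_anti := fun i j h => one_div_le_one_div_of_le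
      (mul_pos (mul_pos (by norm_num) (eta_pos i)) (thi_pos i)) (mul_le_mul
        (mul_le_mul_of_nonneg_left (div_le_div_of_nonneg_right (pow_le_pow_right₀ one_le_two h)
          two_pos.le) (by norm_num)) (thi_mono h) (thi_pos i).le
        (mul_pos (by norm_num) (eta_pos j)).le)
    tht_log := fun j hj => by
      obtain ⟨i, rfl⟩ := Nat.exists_eq_add_of_le' hj
      exact tht_log i
    ratio_sum := (sum_le_sum fun i _ => ratio i).trans
      ((sum_geometric_two_le _).trans (by norm_num)) }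

end Vale.Agent.P304
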