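import Vale.Agent.P304.StmtsT

/-! What a class change pays for, and the movement of the slack. -/

namespace Vale.Agent.P304

open Finset
open scoped Classical

namespace TPay

variable {k : ℕ}

theorem thi_pos (F : Facts k) (i : ℕ) : 0 < thi i :=
  lt_of_lt_of_le (by positivity) (F.thi_pow i)

theorem el_one (F : Facts k) : (1 : ℝ) ≤ el k := by
  have : (5 : ℝ) ≤ el k := by exact_mod_cast F.el_ge
  linarith

theorem eta_mono {i j : ℕ} (h : i ≤ j) : eta i ≤ eta j := by
  unfold eta
  have : (2 : ℝ) ^ i ≤ 2 ^ j := pow_le_pow_right₀ (by norm_num) h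
  linarith

theorem eta_le (F : Facts k) {j : ℕ} (h : j ≤ jm k + 2) : eta j ≤ 4 * el k := by
  refine (eta_mono h).trans ?_
  have := F.jm_hi
  unfold eta
  rw [pow_add]
  linarith

theorem gl_nonneg (F : Facts k) (j : ℕ) : 0 ≤ gl k j := by
  unfold gl
  have := thi_pos F j
  split_ifs
  · positivity
  · exact le_rfl

theorem gl_le (F : Facts k) {i j : ℕ} (h : i ≤ j) : gl k j ≤ 1 / thi i := by
  unfold gl
  have := thi_pos F i
  split_ifs
  · exact one_div_le_one_div_of_le this (F.thi_mono h)
  · positivity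

theorem gl_diff (F : Facts k) {i j j' : ℕ} (h : i ≤ j) (h' : i ≤ j') :
    |gl k j' - gl k j| ≤ 1 / thi i := by
  have h1 := gl_nonneg F j
  have h2 := gl_nonneg F j'
  have h3 := gl_le F h
  have h4 := gl_le F h'
  rw [abs_le]
  constructor <;> linarith

theorem pay_num (F : Facts k) {j j' : ℕ} {A B : ℝ} (hB : 0 ≤ B) (hBA : B ≤ A)
    (hj' : j' ≤ jm k + 2) (up : j < j' → thi (j' - 1) * B ≤ A)
    (down : j' < j → A < tlo j' * B) :
    0 ≤ pay k j j' A B ∧ (j' ≠ j → B ≤ el k * pay k j j' A B) ∧
      (j < j' → B ≤ pay k j j' A B) ∧ (¬ (j = 0 ↔ j' = 0) → A ≤ 2 * pay k j j' A B) ∧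
      B * |eta j' - eta j| ≤ 4 * el k * pay k j j' A B ∧
      A * |gl k j' - gl k j| ≤ el k * pay k j j' A B := by
  have hel := el_one F
  have hA : 0 ≤ A := hB.trans hBA
  rcases lt_trichotomy j j' with h | h | h
  · have e : pay k j j' A B = A / thi j := by unfold pay; rw [if_pos h]
    have ht := thi_pos F j
    have h0 : 0 ≤ A / thi j := div_nonneg hA ht.le
    have h1 : B ≤ A / thi j := by
      rw [le_div_iff₀ ht]
      have h2 : thi j ≤ thi (j' - 1) := F.thi_mono (by omega)
      have h3 := mul_le_mul_of_nonneg_right h2 hB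
      have h4 := up h
      linarith
    have h2 : A / thi j ≤ el k * (A / thi j) := le_mul_of_one_le_left h0 hel
    rw [e]
    refine ⟨h0, fun _ => h1.trans h2, fun _ => h1, fun hn => ?_, ?_, ?_⟩
    · have hj : j = 0 := by
        by_contra hj
        exact hn ⟨fun h5 => absurd h5 hj, fun h5 => by omega⟩
      have e2 : thi j = 9 / 5 := by unfold thi; rw [if_pos hj]
      rw [e2]
      linarith
    · have h3 : |eta j' - eta j| ≤ 4 * el k := by
        have h4 := eta_mono h.le
        have h5 := F.eta_pos j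
        have h6 := eta_le F hj'
        rw [abs_le]
        constructor <;> linarith
      calc B * |eta j' - eta j| ≤ A / thi j * (4 * el k) :=
            mul_le_mul h1 h3 (abs_nonneg _) h0
        _ = 4 * el k * (A / thi j) := by ring
    · have h3 := mul_le_mul_of_nonneg_left (gl_diff F (le_refl j) h.le) hA
      rw [mul_one_div] at h3
      exact h3.trans h2
  · subst h
    have e : pay k j j A B = 0 := by unfold pay; rw [if_neg (lt_irrefl _), if_neg (lt_irrefl _)]
    rw [e]
    refine ⟨le_rfl, fun h => absurd rfl h, fun h => absurd h (lt_irrefl _),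
      fun h => absurd Iff.rfl h, ?_, ?_⟩ <;> simp
  · have e : pay k j j' A B = B * ((1 / 2) ^ j' + 2 ^ j / el k) := by
      unfold pay; rw [if_neg (by omega), if_pos h]
    have hp1 : (0 : ℝ) < (1 / 2) ^ j' := by positivity
    have hp2 : (1 : ℝ) ≤ 2 ^ j := one_le_pow₀ (by norm_num)
    have hp3 : (0 : ℝ) ≤ 2 ^ j / el k := by positivity
    have h0 : 0 ≤ B * ((1 / 2) ^ j' + 2 ^ j / el k) := mul_nonneg hB (by linarith)
    have h1 : B * 2 ^ j ≤ el k * (B * ((1 / 2) ^ j' + 2 ^ j / el k)) := by
      have e2 : el k * (B * ((1 / 2) ^ j' + 2 ^ j / el k)) =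
          B * 2 ^ j + el k * (B * (1 / 2 : ℝ) ^ j') := by
        field_simp
        ring
      have h2 : 0 ≤ el k * (B * (1 / 2 : ℝ) ^ j') := by positivity
      linarith
    have h2 : B ≤ B * 2 ^ j := le_mul_of_one_le_right hB hp2
    rw [e]
    refine ⟨h0, fun _ => h2.trans h1, fun h5 => by omega, fun hn => ?_, ?_, ?_⟩
    · have hj : j' = 0 := by
        by_contra hj
        exact hn ⟨fun h5 => by omega, fun h5 => absurd h5 hj⟩
      have e2 : tlo j' = 3 / 2 := by unfold tlo; rw [if_pos hj]
      have h3 := down h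
      rw [e2] at h3
      have h4 : 0 ≤ B * (2 ^ j / el k) := mul_nonneg hB hp3
      rw [hj, pow_zero]
      linarith
    · have h3 : |eta j' - eta j| ≤ 2 ^ j := by
        have h4 := eta_mono h.le
        have h5 := F.eta_pos j'
        have h6 : eta j = 2 ^ j / 2 := rfl
        rw [abs_le]
        constructor <;> linarith
      have h4 := mul_le_mul_of_nonneg_left h3 hB
      have h5 : 0 ≤ el k * (B * ((1 / 2) ^ j' + 2 ^ j / el k)) := mul_nonneg (by linarith) h0
      linarith
    · have ht := thi_pos F j'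
      have h3 := mul_le_mul_of_nonneg_left (gl_diff F h.le (le_refl j')) hA
      have h4 : A * (1 / thi j') ≤ B := by
        rw [mul_one_div, div_le_iff₀ ht]
        have h5 := down h
        have h6 := mul_le_mul_of_nonneg_right (F.tlo_thi j') hB
        have h7 := mul_nonneg ht.le hB
        linarith
      linarith

variable {L : Type} [Fintype L] {a a' : TS L}

theorem inc_range (F : Facts k) (hA : a.Acc k) (B : a.Basic k) (c : L) (u : List (Option L)) :
    0 ≤ inc k a.cl c u ∧ inc k a.cl c u ≤ 36 * el k := by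
  have hel := el_one F
  unfold inc
  split_ifs
  · exact ⟨B.dl_nonneg u, (B.dl_le u).trans (by linarith)⟩
  · have h1 := F.eta_pos (a.cl (some c :: u))
    have h2 := eta_le F (hA.cl_le c u)
    constructor <;> linarith

theorem lam_diff (cl cl' : List (Option L) → ℕ) (u : List (Option L)) :
    |lam k cl' u - lam k cl u| ≤ |La k cl' u - La k cl u| := by
  unfold lam
  have := abs_min_sub_min_le_max (La k cl' u) (18 * (el k : ℝ)) (La k cl u) (18 * (el k : ℝ))
  rwa [sub_self, abs_zero, max_eq_left (abs_nonneg _)] at this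

end TPay

theorem payS (hF : ParamStmt) (hB : BasicStmt) : PayStmt := by
  intro k L _ a a' hk _ _ hP' hA' hT c u
  exact TPay.pay_num (hF k hk) (hP'.nu_nonneg _) ((hB k L a' hk hP' hA').nu_child c u)
    (hA'.cl_le c u) (hT.up c u) (hT.down c u)

theorem lamS (hF : ParamStmt) (hB : BasicStmt) (hP : PayStmt) : LamStmt := by
  refine ⟨146, by norm_num, ?_⟩
  intro k L _ a a' hk hPo hA hPo' hA' hT D
  have F := hF k hk
  have B := hB k L a hk hPo hA
  have B' := hB k L a' hk hPo' hA'
  have P := hP k L a a' hk hPo hA hPo' hA' hT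
  have hel := TPay.el_one F
  have hdl : ∀ u, a'.nu u * |dl k a'.cl u - dl k a.cl u| ≤ el k * ∑ c, a.D6 k a' c u := by
    intro u
    unfold dl
    rw [← sum_sub_distrib, mul_sum]
    refine (mul_le_mul_of_nonneg_left (abs_sum_le_sum_abs _ _) (hPo'.nu_nonneg u)).trans ?_
    rw [mul_sum]
    exact sum_le_sum fun c _ => (P c u).2.2.2.2.2
  have hinc : ∀ c u, a'.nu (some c :: u) * |inc k a'.cl c u - inc k a.cl c u| ≤
      72 * el k * a.D6 k a' c u + a'.nu (some c :: u) * |dl k a'.cl u - dl k a.cl u| := by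
    intro c u
    obtain ⟨p1, -, -, p4, p5, -⟩ := P c u
    have n0 := hPo'.nu_nonneg (some c :: u)
    have q1 : 0 ≤ el k * a.D6 k a' c u := mul_nonneg (by linarith) p1
    have q2 : 0 ≤ a'.nu (some c :: u) * |dl k a'.cl u - dl k a.cl u| :=
      mul_nonneg n0 (abs_nonneg _)
    by_cases h : (a.cl (some c :: u) = 0 ↔ a'.cl (some c :: u) = 0)
    · by_cases h0 : a.cl (some c :: u) = 0
      · unfold inc
        rw [if_pos h0, if_pos (h.1 h0)]
        linarith
      · unfold inc
        rw [if_neg h0, if_neg fun h1 => h0 (h.2 h1), ← mul_sub, abs_mul,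
          abs_of_pos (by norm_num : (0 : ℝ) < 9)]
        linarith
    · have r1 := TPay.inc_range F hA B c u
      have r2 := TPay.inc_range F hA' B' c u
      have r3 : |inc k a'.cl c u - inc k a.cl c u| ≤ 36 * el k := by
        rw [abs_le]
        constructor <;> linarith [r1.1, r1.2, r2.1, r2.2]
      have r4 : a'.nu (some c :: u) ≤ 2 * a.D6 k a' c u := (B'.nu_child c u).trans (p4 h)
      have r5 := mul_le_mul r4 r3 (abs_nonneg _) (by linarith)
      linarith
  have hnode : ∀ u, ∑ x, a'.nu (x :: u) * |La k a'.cl (x :: u) - La k a.cl (x :: u)| ≤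
      a'.nu u * |La k a'.cl u - La k a.cl u| + 73 * el k * ∑ c, a.D6 k a' c u := by
    intro u
    rw [Fintype.sum_option, hPo'.nu_none, zero_mul, zero_add]
    have h1 : ∑ c, a'.nu (some c :: u) * |La k a'.cl (some c :: u) - La k a.cl (some c :: u)| ≤
        ∑ c, (a'.nu (some c :: u) * (|La k a'.cl u - La k a.cl u| +
          |dl k a'.cl u - dl k a.cl u|) + 72 * el k * a.D6 k a' c u) := by
      refine sum_le_sum fun c _ => ?_
      have e : La k a'.cl (some c :: u) - La k a.cl (some c :: u) =
          (La k a'.cl u - La k a.cl u) + (inc k a'.cl c u - inc k a.cl c u) := by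
        simp only [La]
        ring
      rw [e]
      have h2 := mul_le_mul_of_nonneg_left (abs_add_le (La k a'.cl u - La k a.cl u)
        (inc k a'.cl c u - inc k a.cl c u)) (hPo'.nu_nonneg (some c :: u))
      have h3 := hinc c u
      linarith
    rw [sum_add_distrib, ← sum_mul, ← mul_sum] at h1
    have h2 := mul_le_mul_of_nonneg_right (hPo'.child u)
      (add_nonneg (abs_nonneg (La k a'.cl u - La k a.cl u))
        (abs_nonneg (dl k a'.cl u - dl k a.cl u)))
    have h3 := hdl u
    linarith
  set Q : ℕ → ℝ := fun d => ∑ u ∈ lists (Option L) d, ∑ c, a.D6 k a' c u with hQ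
  have hQ0 : ∀ j, 0 ≤ Q j := fun j => sum_nonneg fun u _ => sum_nonneg fun c _ => (P c u).1
  have hM : ∀ d, ∑ u ∈ lists (Option L) d, a'.nu u * |La k a'.cl u - La k a.cl u| ≤
      73 * el k * ∑ j ∈ range d, Q j := by
    intro d
    induction d with
    | zero => simp [lists_zero, La]
    | succ d ih =>
      rw [sum_lists_succ, sum_range_succ]
      have h1 := sum_le_sum fun u (_ : u ∈ lists (Option L) d) => hnode u
      rw [sum_add_distrib, ← mul_sum] at h1
      simp only [hQ] at ih ⊢
      linarith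
  have h1 : (wsum D fun c u => a.D5 k a' c u) ≤
      ∑ d ∈ range D, 73 * el k * ((1 / 2 : ℝ) ^ d * ∑ j ∈ range (d + 1), Q j) := by
    refine sum_le_sum fun d _ => ?_
    have h2 : ∑ u ∈ lists (Option L) d, ∑ c, a.D5 k a' c u ≤
        ∑ u ∈ lists (Option L) d, a'.nu u * |La k a'.cl u - La k a.cl u| := by
      refine sum_le_sum fun u _ => ?_
      unfold TS.D5
      rw [← sum_mul]
      exact mul_le_mul (hPo'.child u) (TPay.lam_diff _ _ u) (abs_nonneg _) (hPo'.nu_nonneg u)
    have h3 : 73 * el k * ∑ j ∈ range d, Q j ≤ 73 * el k * ∑ j ∈ range (d + 1), Q j := by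
      refine mul_le_mul_of_nonneg_left ?_ (by linarith)
      rw [sum_range_succ]
      linarith [hQ0 d]
    have h4 := mul_le_mul_of_nonneg_left ((h2.trans (hM d)).trans h3)
      (show (0 : ℝ) ≤ (1 / 2) ^ d by positivity)
    linarith
  rw [← mul_sum] at h1
  have h2 := mul_le_mul_of_nonneg_left (sum_half_cum D Q hQ0)
    (show (0 : ℝ) ≤ 73 * el k by linarith)
  change _ ≤ 146 * (el k : ℝ) * ∑ j ∈ range D, (1 / 2 : ℝ) ^ j * Q j
  linarith

end Vale.Agent.P304
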