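import Vale.Agent.P304.StmtsT

/-! P304: the number of switches of a toggle with hysteresis. -/

namespace Vale.Agent.P304

open Finset
open scoped Classical

namespace TTog

/-- the potential; `M` is the sum of the two thresholds -/
noncomputable def Φ (s : Prop) (M x : ℝ) : ℝ := if s then (1 - M / 2) * x else M / 2 * (1 - x)

theorem Φ_nonneg (s : Prop) {M x : ℝ} (h0 : 0 ≤ M) (h1 : M ≤ 1) (hx : 0 ≤ x) (hx1 : x ≤ 1) :
    0 ≤ Φ s M x := by
  unfold Φ
  split_ifs
  · exact mul_nonneg (by linarith) hx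
  · exact mul_nonneg (by linarith) (by linarith)

theorem Φ_step (s : Prop) {M : ℝ} (h0 : 0 ≤ M) (h1 : M ≤ 1) (x x' : ℝ) :
    Φ s M x' ≤ Φ s M x + |x' - x| := by
  have h2 := le_abs_self (x' - x)
  have h3 := neg_abs_le (x' - x)
  have h4 := abs_nonneg (x' - x)
  unfold Φ
  split_ifs <;> nlinarith

theorem Φ_jump {s s' : Prop} {g lo hi M x : ℝ} (h : s' ↔ x ≤ lo ∨ (x < hi ∧ s)) (hg : 0 < g)
    (hg1 : g ≤ 1 / 5) (hlo : lo + g ≤ hi) (hhi : hi ≤ 2 / 5) (hM : M ≤ 4 / 5) (hx : 0 ≤ x)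
    (hx1 : x ≤ 1) : g / 2 * (if (s ↔ s') then 0 else 1) + Φ s' (lo + hi) x ≤
      Φ s M x + |lo + hi - M| * (1 - x) := by
  have h2 := le_abs_self (lo + hi - M)
  have h3 := neg_abs_le (lo + hi - M)
  have h4 := abs_nonneg (lo + hi - M)
  generalize |lo + hi - M| = A at *
  have h5 : 0 ≤ 1 - x := by linarith
  unfold Φ
  by_cases hs : s <;> by_cases hs' : s'
  · have h6 : x ≤ 2 / 5 := by
      rcases h.1 hs' with h6 | h6
      · linarith
      · linarith [h6.1]
    rw [if_pos (iff_of_true hs hs'), if_pos hs, if_pos hs']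
    nlinarith [mul_nonneg hx (show 0 ≤ A + (lo + hi - M) by linarith),
      mul_nonneg h4 (show 0 ≤ 2 / 5 - x by linarith)]
  · have h6 : hi ≤ x := by
      by_contra h6
      exact hs' (h.2 (Or.inr ⟨not_le.1 h6, hs⟩))
    rw [if_neg fun h' => hs' (h'.1 hs), if_pos hs, if_neg hs']
    rcases le_total x (1 / 2) with h7 | h7
    · nlinarith [mul_nonneg hx (show 0 ≤ A + (lo + hi - M) by linarith),
        mul_nonneg h4 (show 0 ≤ 1 / 2 - x by linarith)]
    · nlinarith [mul_nonneg h5 (show 0 ≤ A - (lo + hi - M) by linarith), mul_nonneg h4 h5]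
  · have h6 : x ≤ lo := (h.1 hs').resolve_right fun h' => hs h'.2
    rw [if_neg fun h' => hs (h'.2 hs'), if_neg hs, if_pos hs']
    nlinarith [mul_nonneg h5 (show 0 ≤ A - (lo + hi - M) by linarith), mul_nonneg h4 h5]
  · rw [if_pos (iff_of_false hs hs'), if_neg hs, if_neg hs']
    nlinarith [mul_nonneg h5 (show 0 ≤ A - (lo + hi - M) by linarith), mul_nonneg h4 h5]

theorem ce_Φ {k : ℕ} {Y Ω : Type} [Fintype Ω] (G : Game k Y Ω) {l : List Y} (h : G.Reach l)
    (s : Prop) (M : ℝ) (X : Ω → ℝ) : G.ce l (fun ω => Φ s M (X ω)) = Φ s M (G.ce l X) := by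
  unfold Φ
  split_ifs
  · exact G.ce_mul l _ X
  · rw [G.ce_mul, G.ce_sub, G.ce_const h]

end TTog

open TTog

theorem togS : TogStmt := by
  intro k Y Ω _ G X x lo hi g T hx hX hX0 hg hg1 hlo hlh hhi
  have h0 : ∀ t ω, 0 ≤ X t ω := fun t ω => by rcases hX t ω with h | h <;> simp [h]
  have h1 : ∀ t ω, X t ω ≤ 1 := fun t ω => by rcases hX t ω with h | h <;> simp [h]
  have hM0 : ∀ l, 0 ≤ lo l + hi l := fun l => by linarith [hlo l, hlh l]
  have hM : ∀ l, lo l + hi l ≤ 4 / 5 := fun l => by linarith [hhi l, hlh l]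
  have hM1 : ∀ l, lo l + hi l ≤ 1 := fun l => by linarith [hM l]
  have hstep : ∀ t, (G.E fun ω => g / 2 *
      (if (tog x lo hi (G.hist t ω) ↔ tog x lo hi (G.hist (t + 1) ω)) then 0 else 1) +
      Φ (tog x lo hi (G.hist (t + 1) ω)) (lo (G.hist (t + 1) ω) + hi (G.hist (t + 1) ω))
        (X (t + 1) ω)) ≤
      G.E fun ω => Φ (tog x lo hi (G.hist t ω)) (lo (G.hist t ω) + hi (G.hist t ω)) (X t ω) +
        (|X (t + 1) ω - X t ω| + |(lo (G.hist (t + 1) ω) + hi (G.hist (t + 1) ω)) -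
          (lo (G.hist t ω) + hi (G.hist t ω))| * (1 - X (t + 1) ω)) := by
    intro t
    refine le_trans (G.E_le_of_ce (t + 1)
      (fun l ω => g / 2 * (if (tog x lo hi l.tail ↔ tog x lo hi l) then 0 else 1) +
        Φ (tog x lo hi l) (lo l + hi l) (X (t + 1) ω))
      (fun l ω => Φ (tog x lo hi l.tail) (lo l.tail + hi l.tail) (X (t + 1) ω) +
        |(lo l + hi l) - (lo l.tail + hi l.tail)| * (1 - X (t + 1) ω)) fun ω => ?_)
      (G.E_mono fun ω => ?_)
    · have hr := G.reach_hist (t + 1) ω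
      have h2 := hx (G.hist (t + 1) ω)
      rw [G.hist_length] at h2
      rw [G.ce_add, G.ce_add, G.ce_const hr, ce_Φ G hr, ce_Φ G hr, G.ce_mul, G.ce_sub,
        G.ce_const hr, ← h2]
      exact Φ_jump Iff.rfl hg hg1 (hlh _) (hhi _) (hM _)
        (h2 ▸ G.ce_nonneg fun ω _ => h0 _ _) (h2 ▸ G.ce_le_const zero_le_one fun ω _ => h1 _ _)
    · have := Φ_step (tog x lo hi (G.hist t ω)) (hM0 (G.hist t ω)) (hM1 _) (X t ω) (X (t + 1) ω)
      simp only [G.hist_succ, List.tail_cons]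
      linarith
  have hsum : ∀ T, g / 2 * (G.E fun ω => ∑ t ∈ range T,
      if (tog x lo hi (G.hist t ω) ↔ tog x lo hi (G.hist (t + 1) ω)) then 0 else 1) +
      (G.E fun ω => Φ (tog x lo hi (G.hist T ω)) (lo (G.hist T ω) + hi (G.hist T ω)) (X T ω)) ≤
      G.E fun ω => ∑ t ∈ range T, (|X (t + 1) ω - X t ω| +
        |(lo (G.hist (t + 1) ω) + hi (G.hist (t + 1) ω)) - (lo (G.hist t ω) + hi (G.hist t ω))| *
          (1 - X (t + 1) ω)) := by
    intro T
    induction T with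
    | zero =>
      have h2 : ∀ ω, x [] = X 0 ω := fun ω => by
        rw [hx, List.length_nil, G.ce_congr (X' := fun _ => X 0 ω) fun ω' _ => hX0 ω' ω,
          G.ce_const G.reach_nil]
      have h3 : (fun ω => Φ (tog x lo hi (G.hist 0 ω)) (lo (G.hist 0 ω) + hi (G.hist 0 ω))
          (X 0 ω)) = fun _ => 0 := by
        funext ω
        rw [G.hist_zero, tog, h2 ω, Φ]
        rcases hX 0 ω with h | h
        · rw [h, if_pos (hlo _), mul_zero]
        · rw [h, if_neg (by linarith [hlh [], hhi []]), sub_self, mul_zero]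
      rw [h3]
      simp [G.E_const]
    | succ T ih =>
      have h2 := hstep T
      simp only [sum_range_succ, G.E_add, G.E_mul] at h2 ih ⊢
      linarith
  have h2 := hsum T
  have h3 : 0 ≤ G.E fun ω =>
      Φ (tog x lo hi (G.hist T ω)) (lo (G.hist T ω) + hi (G.hist T ω)) (X T ω) :=
    G.E_nonneg fun ω => Φ_nonneg _ (hM0 _) (hM1 _) (h0 _ _) (h1 _ _)
  linarith

end Vale.Agent.P304
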