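import Vale.Agent.P304.StmtsT
import Vale.Agent.P304.TA
import Vale.Agent.P304.Alloc

/-! The state process is accurate. -/

namespace Vale.Agent.P304

open Finset
open scoped Classical

namespace TTs

theorem tog_hi {Y : Type} {x lo hi : List Y → ℝ} {l : List Y} (h : lo l ≤ hi l)
    (ht : tog x lo hi l) : x l ≤ hi l := by
  cases l with
  | nil => exact le_trans ht h
  | cons r l => exact Or.elim ht (fun h1 => h1.trans h) fun h1 => h1.1.le

theorem tog_lo {Y : Type} {x lo hi : List Y → ℝ} {l : List Y} (h : x l ≤ lo l) :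
    tog x lo hi l := by
  cases l with
  | nil => exact h
  | cons r l => exact Or.inl h

theorem lt_cntUp {k : ℕ} {f : ℕ → ℝ} (hf : Monotone f) {A B : ℝ} (hB : 0 ≤ B) (i : ℕ) :
    i < cntUp k f A B ↔ i < jm k + 2 ∧ f i * B ≤ A := by
  unfold cntUp
  constructor
  · intro h
    by_contra h1
    have : ((range (jm k + 2)).filter fun i => f i * B ≤ A) ⊆ range i := by
      intro j hj
      rw [mem_filter, mem_range] at hj
      rw [mem_range]
      by_contra h2
      exact h1 ⟨by omega, (mul_le_mul_of_nonneg_right (hf (not_lt.1 h2)) hB).trans hj.2⟩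
    have := card_le_card this
    rw [card_range] at this
    omega
  · rintro ⟨h1, h2⟩
    have : range (i + 1) ⊆ ((range (jm k + 2)).filter fun i => f i * B ≤ A) := by
      intro j hj
      rw [mem_range] at hj
      rw [mem_filter, mem_range]
      exact ⟨by omega, (mul_le_mul_of_nonneg_right (hf (by omega)) hB).trans h2⟩
    have := card_le_card this
    rw [card_range] at this
    omega

theorem cntUp_le (k : ℕ) (f : ℕ → ℝ) (A B : ℝ) : cntUp k f A B ≤ jm k + 2 :=
  (card_filter_le _ _).trans (card_range _).le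

theorem cnt_le_cnt {k : ℕ} (F : Facts k) (A : ℝ) {B : ℝ} (hB : 0 ≤ B) :
    cntUp k thi A B ≤ cntUp k tlo A B := by
  refine card_le_card fun i hi => ?_
  rw [mem_filter] at hi ⊢
  have h1 := F.tlo_thi i
  have h2 := F.tlo_ge i
  exact ⟨hi.1, (mul_le_mul_of_nonneg_right (by linarith) hB).trans hi.2⟩

theorem cls_ge {Y : Type} (k : ℕ) (A B : List Y → ℝ) (l : List Y) :
    cntUp k thi (A l) (B l) ≤ clsP k A B l := by
  cases l with
  | nil => exact le_rfl
  | cons r l => exact le_max_left _ _

theorem cls_le {Y : Type} {k : ℕ} (F : Facts k) (A : List Y → ℝ) {B : List Y → ℝ}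
    (hB : ∀ l, 0 ≤ B l) (l : List Y) : clsP k A B l ≤ cntUp k tlo (A l) (B l) := by
  cases l with
  | nil => exact cnt_le_cnt F _ (hB _)
  | cons r l => exact max_le (cnt_le_cnt F _ (hB _)) (min_le_left _ _)

theorem pihP_mem {Y : Type} (k : ℕ) (cl : List Y → ℕ) {p : List Y → ℝ}
    (hp : ∀ l, 0 ≤ p l ∧ p l ≤ 1) (l : List Y) : 0 ≤ pihP k cl p l ∧ pihP k cl p l ≤ 1 := by
  induction l with
  | nil => exact hp []
  | cons r l ih =>
    unfold pihP
    split_ifs
    · exact ih
    · exact hp _

theorem pihP_near {Y : Type} {k : ℕ} (F : Facts k) (cl : List Y → ℕ) {p : List Y → ℝ}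
    (hp : ∀ l, 0 ≤ p l ∧ p l ≤ 1) (l : List Y) :
    |p l - pihP k cl p l| ≤ om k * eta (cl l) * (pihP k cl p l + tht (cl l)) := by
  have h0 : 0 ≤ om k * eta (cl l) * (pihP k cl p l + tht (cl l)) :=
    mul_nonneg (mul_nonneg F.om_pos.le (F.eta_pos _).le)
      (add_nonneg (pihP_mem k cl hp l).1 (F.tht_pos _).le)
  cases l with
  | nil => simpa [pihP] using h0
  | cons r l =>
    by_cases h : cl (r :: l) = cl l ∧
        |p (r :: l) - pihP k cl p l| ≤ om k * eta (cl l) * (pihP k cl p l + tht (cl l))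
    · have : pihP k cl p (r :: l) = pihP k cl p l := by rw [pihP, if_pos h]
      rw [this, h.1]
      exact h.2
    · have : pihP k cl p (r :: l) = p (r :: l) := by rw [pihP, if_neg h]
      rw [this] at h0 ⊢
      simpa using h0

theorem pihP_step {Y : Type} (k : ℕ) (cl : List Y → ℕ) (p : List Y → ℝ) (r : Y) (l : List Y) :
    (cl (r :: l) = cl l ∧ pihP k cl p (r :: l) = pihP k cl p l) ∨
      (pihP k cl p (r :: l) = p (r :: l) ∧ (cl (r :: l) = cl l →
        om k * eta (cl l) * (pihP k cl p l + tht (cl l)) < |p (r :: l) - pihP k cl p l|)) := by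
  by_cases h : cl (r :: l) = cl l ∧
      |p (r :: l) - pihP k cl p l| ≤ om k * eta (cl l) * (pihP k cl p l + tht (cl l))
  · exact Or.inl ⟨h.1, by rw [pihP, if_pos h]⟩
  · exact Or.inr ⟨by rw [pihP, if_neg h], fun h3 => not_le.1 fun h4 => h ⟨h3, h4⟩⟩

variable {k : ℕ} {Y Ω L : Type} [Fintype Ω] [Fintype L] (G : Game k Y Ω)
  (lab : ℕ → List Y → Y → L)

omit [Fintype L] in
theorem hid_nonneg (t : ℕ) (ω : Ω) (v : List (Option L)) (i : ℕ) : 0 ≤ G.hid lab t ω v i := by
  unfold Game.hid
  split_ifs <;> norm_num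

omit [Fintype L] in
theorem hid_le (t : ℕ) (ω : Ω) (v : List (Option L)) (i : ℕ) : G.hid lab t ω v i ≤ 1 := by
  unfold Game.hid
  split_ifs <;> norm_num

omit [Fintype L] in
theorem yP_nonneg (l : List Y) (v : List (Option L)) (i : ℕ) : 0 ≤ G.yP lab l v i :=
  G.ce_nonneg fun _ _ => hid_nonneg G lab _ _ _ _

omit [Fintype L] in
theorem nuP_nonneg (l : List Y) (v : List (Option L)) : 0 ≤ G.nuP lab l v :=
  G.ce_nonneg fun _ _ => Nat.cast_nonneg _

omit [Fintype L] in
theorem sum_hid (t : ℕ) (ω : Ω) (v : List (Option L)) (S : Finset ℕ) :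
    ∑ i ∈ S, G.hid lab t ω v i = (S.filter fun i => G.NN lab t ω v ≤ i).card := by
  simp only [Game.hid, sum_boole]

omit [Fintype L] in
theorem sum_yP (l : List Y) (v : List (Option L)) (S : Finset ℕ) :
    ∑ i ∈ S, G.yP lab l v i =
      G.ce l fun ω => ((S.filter fun i => G.NN lab l.length ω v ≤ i).card : ℝ) := by
  simp only [Game.yP, ← G.ce_sum, sum_hid]

theorem sup {l : List Y} (hl : G.Reach l) (u : List (Option L)) (t : ℝ) (ht : t ≤ 1) :
    ∑ c, ∑ i ∈ range k, max 0 (t - G.yP lab l (some c :: u) i) ≤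
      ∑ i ∈ range k, max 0 (t - G.yP lab l u i) := by
  let T : L → Finset ℕ := fun c => (range k).filter fun i => 0 < t - G.yP lab l (some c :: u) i
  have h2 : ∀ c, ∑ i ∈ range k, max 0 (t - G.yP lab l (some c :: u) i) =
      t * (T c).card - ∑ i ∈ T c, G.yP lab l (some c :: u) i := by
    intro c
    have h3 : ∑ i ∈ range k, max 0 (t - G.yP lab l (some c :: u) i) =
        ∑ i ∈ T c, (t - G.yP lab l (some c :: u) i) := by
      rw [sum_filter]
      refine sum_congr rfl fun i _ => ?_
      split_ifs with h4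
      · exact max_eq_right h4.le
      · exact max_eq_left (not_lt.1 h4)
    rw [h3, sum_sub_distrib, sum_const, nsmul_eq_mul, mul_comm]
  have hge : ∀ J : ℕ, ∑ i ∈ range J, (t - G.yP lab l u i) ≤
      ∑ i ∈ range k, max 0 (t - G.yP lab l u i) := by
    intro J
    calc ∑ i ∈ range J, (t - G.yP lab l u i)
        ≤ ∑ i ∈ range J, max 0 (t - G.yP lab l u i) := sum_le_sum fun i _ => le_max_right _ _
      _ ≤ ∑ i ∈ range (J + k), max 0 (t - G.yP lab l u i) :=
          sum_le_sum_of_subset_of_nonneg (range_subset_range.2 (by omega))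
            fun _ _ _ => le_max_left _ _
      _ = ∑ i ∈ range k, max 0 (t - G.yP lab l u i) := by
          symm
          refine sum_subset (range_subset_range.2 (by omega)) fun i _ hi => ?_
          have : G.yP lab l u i = 1 := by
            rw [← G.ce_const hl 1]
            refine G.ce_congr fun ω _ => if_pos ?_
            exact (TA.NN_le G lab _ _ _).trans (by simpa using hi)
          rw [this]
          exact max_eq_left (by linarith)
  refine le_trans ?_ (hge (∑ c, (T c).card))
  rw [sum_sub_distrib, sum_const, nsmul_eq_mul, card_range, sum_congr rfl fun c _ => h2 c,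
    sum_sub_distrib, ← mul_sum, Nat.cast_sum, mul_comm _ t]
  refine sub_le_sub_left ?_ _
  simp only [sum_yP, ← G.ce_sum]
  refine G.ce_mono fun ω _ => ?_
  have h5 := Alloc.card_range_le (∑ c, (T c).card) (G.NN lab l.length ω u)
  have h6 : ∑ c, (T c).card ≤ ∑ c, (G.NN lab l.length ω (some c :: u) +
      ((T c).filter fun i => G.NN lab l.length ω (some c :: u) ≤ i).card) :=
    sum_le_sum fun c _ => Alloc.card_le_add _ _
  rw [sum_add_distrib, TA.NN_some] at h6
  have h7 : ((range (∑ c, (T c).card)).filter fun i => G.NN lab l.length ω u ≤ i).card ≤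
      ∑ c, ((T c).filter fun i => G.NN lab l.length ω (some c :: u) ≤ i).card := by omega
  exact_mod_cast h7

theorem post {l : List Y} (hl : G.Reach l) : (G.ts lab l).Post k where
  y_nonneg := yP_nonneg G lab l
  y_le _ _ := G.ce_le_const zero_le_one fun _ _ => hid_le G lab _ _ _ _
  nu_nonneg := nuP_nonneg G lab l
  slots v := by
    show ∑ i ∈ range k, (1 - G.yP lab l v i) ≤ G.nuP lab l v
    rw [sum_sub_distrib, sum_yP, sum_const, card_range, nsmul_eq_mul, mul_one,
      ← G.ce_const hl (k : ℝ), ← G.ce_sub]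
    refine G.ce_mono fun ω _ => ?_
    have h6 := Alloc.card_le_add (range k) (G.NN lab l.length ω v)
    rw [card_range] at h6
    have h7 : (k : ℝ) ≤ G.NN lab l.length ω v +
        (((range k).filter fun i => G.NN lab l.length ω v ≤ i).card : ℝ) := by exact_mod_cast h6
    linarith
  child u := by
    show ∑ c, G.nuP lab l (some c :: u) ≤ G.nuP lab l u
    simp only [Game.nuP, ← G.ce_sum, ← Nat.cast_sum, TA.NN_some, le_refl]
  nu_none u := by
    show G.nuP lab l (none :: u) = 0
    simp only [Game.nuP, TA.NN_none, Nat.cast_zero, G.ce_zero]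
  nu_root := by
    show G.nuP lab l [] = k
    simp only [Game.nuP, TA.NN_nil, G.ce_const hl]
  sup := sup G lab hl

theorem share_mem (v : List (Option L)) (c : L) (l : List Y) :
    0 ≤ (G.pre lab l).EY k (G.yP lab l) (some c :: v) / (G.pre lab l).SS k (G.yP lab l) v ∧
      (G.pre lab l).EY k (G.yP lab l) (some c :: v) / (G.pre lab l).SS k (G.yP lab l) v ≤ 1 := by
  have h1 : ∀ w, 0 ≤ (G.pre lab l).EY k (G.yP lab l) w := fun w =>
    sum_nonneg fun i _ => by
      split_ifs
      exacts [yP_nonneg G lab _ _ _, le_rfl]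
  have h2 : ∀ w, 0 ≤ (G.pre lab l).sg k w := fun w =>
    sum_nonneg fun i _ => by
      split_ifs
      · exact le_rfl
      · exact sum_nonneg fun j _ => by split_ifs <;> positivity
  have h3 : ∀ c, 0 ≤ (if (G.pre lab l).cl (some c :: v) = 0 then
      (G.pre lab l).sg k (some c :: v) else 0) := fun c => by
    split_ifs
    exacts [h2 _, le_rfl]
  have h4 : (G.pre lab l).EY k (G.yP lab l) (some c :: v) ≤ (G.pre lab l).SS k (G.yP lab l) v :=
    (le_add_of_nonneg_right (h3 c)).trans (single_le_sum (f := fun c =>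
      (G.pre lab l).EY k (G.yP lab l) (some c :: v) + if (G.pre lab l).cl (some c :: v) = 0 then
      (G.pre lab l).sg k (some c :: v) else 0) (fun c _ => add_nonneg (h1 _) (h3 c)) (mem_univ c))
  exact ⟨div_nonneg (h1 _) ((h1 _).trans h4), div_le_one_of_le₀ h4 ((h1 _).trans h4)⟩

theorem ss_pos (cl : List (Option L) → ℕ) (u : List (Option L)) : 0 < ss k cl u := by
  unfold ss ssf
  positivity

omit [Fintype L] in
theorem clP_le (F : Facts k) (l : List Y) (v : List (Option L)) : G.clP lab l v ≤ jm k + 2 :=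
  (cls_le F _ (fun l => nuP_nonneg G lab l v) l).trans (cntUp_le _ _ _ _)

theorem acc (F : Facts k) (l : List Y) : (G.ts lab l).Acc k where
  dp_hi v i h := tog_hi (x := fun l => G.yP lab l v i) (lo := fun _ => 1 / 20)
    (hi := fun _ => 3 / 20) (by norm_num) h
  dp_lo v i h := tog_lo (x := fun l => G.yP lab l v i) (lo := fun _ => 1 / 20) h
  yh_nonneg v i := G.trk_nonneg _ _ (fun _ _ => hid_nonneg G lab _ _ _ _) l
  yh_near v i := G.trk_approx (X := fun t ω => G.hid lab t ω v i) F.om_pos.le (by norm_num)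
    (fun _ _ => hid_nonneg G lab _ _ _ _) l
  cl_le c u := clP_le G lab F l _
  cl_hi c u h := by
    have h1 := cls_ge k (fun l => G.nuP lab l u) (fun l => G.nuP lab l (some c :: u)) l
    by_contra h2
    have h3 := (lt_cntUp (k := k) F.thi_mono (nuP_nonneg G lab l (some c :: u))
      (G.clP lab l (some c :: u))).2 ⟨Nat.lt_succ_of_le h, not_lt.1 h2⟩
    exact absurd (h3.trans_le h1) (lt_irrefl _)
  cl_lo c u h := by
    have h1 := cls_le F (fun l => G.nuP lab l u) (fun l => nuP_nonneg G lab l (some c :: u)) l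
    exact ((lt_cntUp (k := k) F.tlo_mono (nuP_nonneg G lab l (some c :: u))
      (G.clP lab l (some c :: u) - 1)).1 ((Nat.sub_lt h one_pos).trans_le h1)).2
  on_hi c u i j h := by
    have h0 := ss_pos (k := k) (G.clP lab l) u
    have hw : 0 ≤ wd k j := le_trans (by positivity) (F.wd_lo' j)
    have h1 := tog_hi (x := fun l => G.yP lab l (some c :: u) i)
      (lo := fun l => (tt k j + 1 / 3 * wd k j) / ss k (G.clP lab l) u)
      (hi := fun l => (tt k j + 2 / 3 * wd k j) / ss k (G.clP lab l) u)
      (div_le_div_of_nonneg_right (by linarith) h0.le) h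
    rw [le_div_iff₀ h0, mul_comm] at h1
    exact h1
  on_lo c u i j h := by
    have h0 := ss_pos (k := k) (G.clP lab l) u
    refine tog_lo (x := fun l => G.yP lab l (some c :: u) i)
      (lo := fun l => (tt k j + 1 / 3 * wd k j) / ss k (G.clP lab l) u) ?_
    rw [le_div_iff₀ h0, mul_comm]
    exact h
  pih_nonneg c u := (pihP_mem k _ (share_mem G lab u c) l).1
  pih_le c u := (pihP_mem k _ (share_mem G lab u c) l).2
  pih_near c u := pihP_near F (fun l => G.clP lab l (some c :: u)) (share_mem G lab u c) l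

theorem ts_cl (l : List Y) (v : List (Option L)) : (G.ts lab l).cl v = G.clP lab l v := rfl

theorem ts_pih (l : List Y) (c : L) (u : List (Option L)) : (G.ts lab l).pih (some c :: u) =
    pihP k (fun l => G.clP lab l (some c :: u)) (fun l =>
      (G.pre lab l).EY k (G.yP lab l) (some c :: u) / (G.pre lab l).SS k (G.yP lab l) u) l := rfl

theorem ts_pi (l : List Y) (c : L) (u : List (Option L)) : (G.ts lab l).pi k c u =
    (G.pre lab l).EY k (G.yP lab l) (some c :: u) / (G.pre lab l).SS k (G.yP lab l) u := rfl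

theorem trans (F : Facts k) (r : Y) (l : List Y) :
    (G.ts lab l).Trans k (G.ts lab (r :: l)) where
  up c u h := by
    have h1 : G.clP lab (r :: l) (some c :: u) =
      max (cntUp k thi (G.nuP lab (r :: l) u) (G.nuP lab (r :: l) (some c :: u)))
        (min (cntUp k tlo (G.nuP lab (r :: l) u) (G.nuP lab (r :: l) (some c :: u)))
          (G.clP lab l (some c :: u))) := rfl
    have h2 : G.clP lab l (some c :: u) < G.clP lab (r :: l) (some c :: u) := h
    exact ((lt_cntUp (k := k) (A := G.nuP lab (r :: l) u) F.thi_mono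
      (nuP_nonneg G lab (r :: l) (some c :: u))
      (G.clP lab (r :: l) (some c :: u) - 1)).1 (by omega)).2
  down c u h := by
    have h1 : G.clP lab (r :: l) (some c :: u) =
      max (cntUp k thi (G.nuP lab (r :: l) u) (G.nuP lab (r :: l) (some c :: u)))
        (min (cntUp k tlo (G.nuP lab (r :: l) u) (G.nuP lab (r :: l) (some c :: u)))
          (G.clP lab l (some c :: u))) := rfl
    have h2 : G.clP lab (r :: l) (some c :: u) < G.clP lab l (some c :: u) := h
    have h3 := clP_le G lab F l (some c :: u)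
    by_contra h4
    have h5 := (lt_cntUp (k := k) (A := G.nuP lab (r :: l) u) F.tlo_mono
      (nuP_nonneg G lab (r :: l) (some c :: u))
      (G.clP lab (r :: l) (some c :: u))).2 ⟨by omega, not_lt.1 h4⟩
    omega
  pih c u := by
    rw [ts_cl, ts_cl, ts_pih, ts_pih, ts_pi]
    exact pihP_step k (fun l => G.clP lab l (some c :: u)) (fun l =>
      (G.pre lab l).EY k (G.yP lab l) (some c :: u) / (G.pre lab l).SS k (G.yP lab l) u) r l

end TTs

theorem tsS (hF : ParamStmt) : TsStmt := fun k _ _ _ _ _ G lab hk =>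
  ⟨fun l hl => ⟨TTs.post G lab hl, TTs.acc G lab (hF k hk) l⟩,
    fun r l _ => TTs.trans G lab (hF k hk) r l⟩

end Vale.Agent.P304
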