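import Vale.Agent.P304.StmtsT
import Vale.Agent.P304.Track

/-! One child: reset of the share and change of the class. -/

namespace Vale.Agent.P304

open Finset
open scoped Classical

namespace TVChild

noncomputable def Wf (θ p q : ℝ) : ℝ := (q + θ) * Real.log ((1 + θ) / (p + θ)) + p

theorem Vc_eq {k j : ℕ} (h : Lt k j) (p q S : ℝ) :
    Vc k j p (q * S) S = 1 / (om k * eta j) * (S * Wf (tht j) p q) := by
  rw [Vc, if_pos h, Wf]
  ring

theorem Wf_sub {θ p q : ℝ} (hθ : 0 < θ) (hp : 0 ≤ p) (hq : 0 ≤ q) :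
    Wf θ p q = Wf θ q q + Track.Φ θ q p := by
  unfold Wf Track.Φ
  rw [Real.log_div (by linarith) (by linarith), Real.log_div (by linarith) (by linarith)]
  ring

theorem Wf_nonneg {θ p q : ℝ} (hθ : 0 < θ) (hp : 0 ≤ p) (hp1 : p ≤ 1) (hq : 0 ≤ q) :
    0 ≤ Wf θ p q :=
  add_nonneg (mul_nonneg (by linarith) (Real.log_nonneg
    ((one_le_div (by linarith)).2 (by linarith)))) hp

theorem Wf_le_one {θ q : ℝ} (hθ : 0 < θ) (hq : 0 ≤ q) : Wf θ q q ≤ 1 := by
  have := Track.key (x := q + θ) (y := 1 + θ) (by linarith) (by linarith)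
  unfold Wf
  rw [Real.log_div (by linarith) (by linarith)]
  linarith

theorem Wf_mono {θ θ' q : ℝ} (hθ : 0 < θ') (h : θ' ≤ θ) (hq : 0 ≤ q) : Wf θ' q q ≤ Wf θ q q := by
  obtain ⟨r, hr⟩ : ∃ r, r = (1 + θ) / (q + θ) := ⟨_, rfl⟩
  have hr0 : 0 < r := hr ▸ div_pos (by linarith) (by linarith)
  have h1 := Track.key (x := q + θ') (y := (1 + θ') / r) (by linarith)
    (div_pos (by linarith) hr0)
  have h2 := mul_le_mul_of_nonneg_left (Real.log_le_sub_one_of_pos (inv_pos.2 hr0))
    (sub_nonneg.2 h)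
  have h3 : (1 + θ') / r + (θ - θ') * r⁻¹ = q + θ := by
    have : (1 + θ') / r + (θ - θ') * r⁻¹ = (1 + θ) / r := by ring
    rw [this, hr]
    have : 1 + θ ≠ 0 := by linarith
    have : q + θ ≠ 0 := by linarith
    field_simp
  rw [Real.log_div (by linarith) hr0.ne'] at h1
  rw [Real.log_inv] at h2
  unfold Wf
  rw [← hr, Real.log_div (by linarith) (by linarith)]
  linarith

theorem zz_ge {b A : ℝ} (hb : 0 ≤ b) (hA : b ≤ A) : 0 ≤ Real.log (A / b) := by
  rcases hb.eq_or_lt with rfl | h
  · simp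
  · exact Real.log_nonneg ((one_le_div h).2 hA)

theorem frac_mono {x y z : ℝ} (hx : 0 < x) (hxy : x ≤ y) (hz : 0 ≤ z) :
    x / (x + 1 + z) ≤ y / (y + 1 + z) := by
  rw [div_le_div_iff₀ (by linarith) (by linarith)]
  nlinarith

theorem eta_pos (j : ℕ) : 0 < eta j := by
  unfold eta
  positivity

theorem eta_double {j j' : ℕ} (h : j' < j) : 2 * eta j' ≤ eta j := by
  have : (2 : ℝ) ^ (j' + 1) ≤ 2 ^ j := pow_le_pow_right₀ (by norm_num) h
  unfold eta
  rw [pow_succ] at this
  linarith

theorem eta_ge {j : ℕ} (h : 1 ≤ j) : 1 ≤ eta j := by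
  have : (2 : ℝ) ^ 1 ≤ 2 ^ j := pow_le_pow_right₀ (by norm_num) h
  unfold eta
  linarith

theorem xi_nonneg (j : ℕ) {b A : ℝ} (hb : 0 ≤ b) (hA : b ≤ A) : 0 ≤ xi j b A := by
  have := zz_ge hb hA
  have := eta_pos j
  unfold xi
  split_ifs
  · exact le_rfl
  · positivity

theorem xi_le (j : ℕ) {b A : ℝ} (hb : 0 ≤ b) (hA : b ≤ A) : xi j b A ≤ b := by
  have h1 := zz_ge hb hA
  have h2 := eta_pos j
  unfold xi
  split_ifs
  · exact hb
  · rw [mul_div_assoc]
    exact mul_le_of_le_one_right hb ((div_le_one (by linarith)).2 (by linarith))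

theorem xi_gap {j j' : ℕ} (h0 : 1 ≤ j') (h : j' < j) {b A : ℝ} (hb : 0 ≤ b) (hA : b ≤ A) :
    0 ≤ xi j b A - xi j' b A ∧ (1 + Real.log (A / b) ≤ 2 * eta j' →
      b * (1 + Real.log (A / b)) ≤ 12 * eta j' * (xi j b A - xi j' b A)) := by
  have h1 := zz_ge hb hA
  have h2 := eta_pos j'
  have h3 := eta_double h
  rw [xi, xi, if_neg (by omega), if_neg (by omega), mul_div_assoc, mul_div_assoc, ← mul_sub]
  generalize Real.log (A / b) = z at *
  generalize eta j' = x at *
  generalize eta j = y at *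
  refine ⟨mul_nonneg hb (sub_nonneg.2 (frac_mono h2 (by linarith) h1)), fun h4 => ?_⟩
  rw [mul_left_comm]
  refine mul_le_mul_of_nonneg_left ?_ hb
  have h5 := frac_mono (x := 2 * x) (by linarith) h3 h1
  have h6 : 2 * x / (2 * x + 1 + z) - x / (x + 1 + z) =
      x * (1 + z) / ((2 * x + 1 + z) * (x + 1 + z)) := by
    field_simp
    ring
  have h7 : x * (1 + z) / (4 * x * (3 * x)) ≤ x * (1 + z) / ((2 * x + 1 + z) * (x + 1 + z)) :=
    div_le_div_of_nonneg_left (by positivity) (by positivity)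
      (mul_le_mul (by linarith) (by linarith) (by positivity) (by positivity))
  have h8 : 12 * x * (x * (1 + z) / (4 * x * (3 * x))) = 1 + z := by
    field_simp
    norm_num
  have h9 : x * (1 + z) / (4 * x * (3 * x)) ≤ y / (y + 1 + z) - x / (x + 1 + z) := by linarith
  rw [← h8]
  exact mul_le_mul_of_nonneg_left h9 (by positivity)

theorem main_le {θ q S b A : ℝ} (hθ : 0 < θ) (hq : 0 ≤ q) (hq1 : q ≤ 1) (hS : 0 ≤ S)
    (hSA : S ≤ A) (hE : q * S ≤ b) (hbA : b ≤ A) :
    q * S * Real.log ((1 + θ) / (q + θ)) ≤ b * (1 + Real.log (A / b)) := by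
  have h0 := mul_nonneg hq hS
  have hb : 0 ≤ b := h0.trans hE
  have hz := zz_ge hb hbA
  rcases h0.eq_or_lt with h | h
  · rw [← h, zero_mul]
    positivity
  · have hq0 : 0 < q := lt_of_le_of_ne hq fun h' => by simp [← h'] at h
    have hb0 : 0 < b := h.trans_le hE
    have hA0 : 0 < A := hb0.trans_le hbA
    have h1 : (1 + θ) / (q + θ) ≤ A / (q * S) := by
      rw [div_le_div_iff₀ (by linarith) h]
      have h2 : (1 + θ) * q ≤ q + θ := by nlinarith
      nlinarith [mul_le_mul hSA h2 (by positivity) hA0.le]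
    have h2 := mul_le_mul_of_nonneg_left (Real.log_le_log (by positivity) h1) h.le
    have h3 := Track.key h hb0
    have h4 := mul_le_mul_of_nonneg_right hE hz
    rw [Real.log_div hA0.ne' h.ne'] at h2
    rw [Real.log_div hA0.ne' hb0.ne'] at h4 ⊢
    linarith

theorem small_b {x b A n : ℝ} (hx : 0 < x) (hb : 0 < b) (hA0 : 0 < A) (hn : 0 ≤ n)
    (hA : A ≤ 22 / 5 * (Real.exp (7 / 10 * x) * n)) (hz : 2 * x ≤ 1 + Real.log (A / b)) :
    x * b ≤ 12 * n := by
  have h1 : Real.exp (2 * x - 1) ≤ A / b := (Real.le_log_iff_exp_le (by positivity)).1 (by linarith)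
  rw [le_div_iff₀ hb] at h1
  have h2 : Real.exp (2 * x - 1) * Real.exp 1 = Real.exp (7 / 10 * x) * Real.exp (13 / 10 * x) := by
    rw [← Real.exp_add, ← Real.exp_add]
    congr 1
    ring
  have h3 : x ≤ Real.exp (13 / 10 * x) := by linarith [Real.add_one_le_exp (13 / 10 * x)]
  have h4 : Real.exp 1 ≤ 30 / 11 := Real.exp_one_lt_d9.le.trans (by norm_num)
  have h5 := Real.exp_pos (7 / 10 * x)
  refine le_of_mul_le_mul_left ?_ h5
  calc Real.exp (7 / 10 * x) * (x * b)
      ≤ Real.exp (7 / 10 * x) * (Real.exp (13 / 10 * x) * b) := by gcongr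
    _ = Real.exp (2 * x - 1) * b * Real.exp 1 := by rw [← mul_assoc, ← h2]; ring
    _ ≤ 22 / 5 * (Real.exp (7 / 10 * x) * n) * (30 / 11) :=
        mul_le_mul (h1.trans hA) h4 (Real.exp_pos 1).le (by positivity)
    _ = Real.exp (7 / 10 * x) * (12 * n) := by ring

theorem Vc_nonneg {k : ℕ} (F : Facts k) (j : ℕ) {p q S : ℝ} (hp : 0 ≤ p) (hp1 : p ≤ 1)
    (hq : 0 ≤ q) (hS : 0 ≤ S) : 0 ≤ Vc k j p (q * S) S := by
  by_cases h : Lt k j
  · rw [Vc_eq h]
    exact mul_nonneg (one_div_nonneg.2 (mul_pos F.om_pos (eta_pos j)).le)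
      (mul_nonneg hS (Wf_nonneg (F.tht_pos j) hp hp1 hq))
  · rw [Vc, if_neg h]

theorem inv_om {k : ℕ} (F : Facts k) (j : ℕ) : 1 / (om k * eta j) = 10 ^ 6 * el k / eta j := by
  have h1 := F.om_pos
  have h2 := eta_pos j
  have h3 := F.om_el
  field_simp
  linarith

/-- a down jump into a light class -/
theorem down_case {k : ℕ} (F : Facts k) {j j' : ℕ} (hL : Lt k j') (h : j' < j)
    {q S b A n N : ℝ} (hq : 0 ≤ q) (hq1 : q ≤ 1) (hS : 0 ≤ S) (hSA : S ≤ A) (hbA : b ≤ A)
    (hE : q * S ≤ 3 / 20 * b) (hb : b = 0 ∨ 1 ≤ b) (hbn : 17 / 20 * b ≤ n) (hnN : n ≤ N)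
    (hSN : S ≤ 3 * N) (hAN : A ≤ 1 + 16 / 5 * N) (hd : N < tlo j' * n) :
    Vc k j' q (q * S) S ≤ 12 * 10 ^ 6 * el k * (xi j b A - xi j' b A) +
      26 * 10 ^ 6 * el k * (n / eta j') := by
  have hθ := F.tht_pos j'
  have hx := eta_pos j'
  have hb0 : 0 ≤ b := by rcases hb with hb | hb <;> linarith
  have hn0 : 0 ≤ n := by linarith
  have hE0 := mul_nonneg hq hS
  have hthi : 0 < thi j' := by linarith [F.tlo_thi j', F.tlo_ge j']
  obtain ⟨g0, g1⟩ := xi_gap hL.1 h hb0 hbA
  have hLg : Real.log ((1 + tht j') / (q + tht j')) ≤ 12 * eta j' := by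
    refine le_trans (Real.log_le_log (by positivity) ?_) (F.tht_log j' hL.1)
    rw [add_comm 1 (1 / tht j'), div_add_one hθ.ne']
    exact div_le_div_of_nonneg_left (by positivity) hθ (by linarith)
  have h1 : tht j' * S * (12 * eta j') ≤ n := by
    have e : tht j' * S * (12 * eta j') = S / 150 / thi j' := by
      unfold tht
      field_simp
      ring
    rw [e, div_le_iff₀ hthi]
    have := mul_le_mul_of_nonneg_right (F.tlo_thi j') hn0
    have := mul_nonneg hthi.le hn0
    linarith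
  have h2 := mul_le_mul_of_nonneg_left hLg (mul_nonneg hθ.le hS)
  have h3 : q * S * Real.log ((1 + tht j') / (q + tht j')) ≤
      12 * eta j' * (xi j b A - xi j' b A) + 24 * n := by
    have g2 : 0 ≤ 12 * eta j' * (xi j b A - xi j' b A) := by positivity
    by_cases hz : 1 + Real.log (A / b) ≤ 2 * eta j'
    · linarith [main_le hθ hq hq1 hS hSA (show q * S ≤ b by linarith) hbA, g1 hz]
    · rcases hb with hb | hb
      · have : q * S = 0 := le_antisymm (by linarith) hE0
        rw [this, zero_mul]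
        linarith
      · have h4 := mul_le_mul_of_nonneg_right (F.tlo_eta j' hL.1) hn0
        have h5 := small_b (A := A) hx (show 0 < b by linarith) (by linarith) hn0 (by linarith)
          (not_le.1 hz).le
        have h6 := mul_le_mul_of_nonneg_left hLg hE0
        have h7 := mul_le_mul_of_nonneg_right hE (show 0 ≤ 12 * eta j' by positivity)
        linarith
  have h4 : S * Wf (tht j') q q ≤ 12 * eta j' * (xi j b A - xi j' b A) + 26 * n := by
    unfold Wf
    linarith
  have hel : (0 : ℝ) ≤ el k := Nat.cast_nonneg _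
  rw [Vc_eq hL, inv_om F]
  refine (mul_le_mul_of_nonneg_left h4 (by positivity)).trans (le_of_eq ?_)
  field_simp

end TVChild

open TVChild in
theorem vchild (hF : ParamStmt) (hB : BasicStmt) (hP : PayStmt) : VChildStmt := by
  refine ⟨12 * 10 ^ 6, 10 ^ 8, by norm_num, by norm_num,
    fun k L _ a a' hk P A P' A' Tr c u => ?_⟩
  have F := hF k hk
  have B' := hB k L a' hk P' A'
  obtain ⟨y1, -, y3, y4, -⟩ := hP k L a a' hk P A P' A' Tr c u
  have hel : (0 : ℝ) ≤ el k := Nat.cast_nonneg _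
  have hD := mul_nonneg hel y1
  have hq := B'.pi_nonneg c u
  have hq1 : a'.pi k c u ≤ 1 :=
    (single_le_sum (f := fun c => a'.pi k c u) (fun c _ => B'.pi_nonneg c u)
      (mem_univ c)).trans (B'.pi_sum u)
  have hS := B'.SS_nonneg u
  have hp := A.pih_nonneg c u
  have hp1 := A.pih_le c u
  have hb := B'.bb_nonneg (some c :: u)
  have hbA : a'.bb k (some c :: u) ≤ a'.AA k u := by
    have := single_le_sum (f := fun c => a'.bb k (some c :: u) + a'.sg k (some c :: u))
      (fun c _ => add_nonneg (B'.bb_nonneg _) (B'.sg_nonneg _)) (mem_univ c)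
    unfold TS.AA
    linarith [B'.sg_nonneg (some c :: u)]
  have hSA : a'.SS k a'.y u ≤ a'.AA k u := by
    have : a'.SS k a'.y u ≤ ∑ c, (a'.bb k (some c :: u) + a'.sg k (some c :: u)) := by
      refine sum_le_sum fun c _ => add_le_add ?_ ?_
      · linarith [B'.EY_le (some c :: u), B'.bb_nonneg (some c :: u)]
      · split_ifs
        exacts [le_rfl, B'.sg_nonneg _]
    unfold TS.AA
    linarith
  have hAN : a'.AA k u ≤ 1 + 16 / 5 * a'.nu u := by
    have : ∑ c, (a'.bb k (some c :: u) + a'.sg k (some c :: u)) ≤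
        ∑ c, 16 / 5 * a'.nu (some c :: u) := sum_le_sum fun c _ => by
      linarith [B'.bb_le (some c :: u), B'.sg_le c u, P'.nu_nonneg (some c :: u)]
    rw [← mul_sum] at this
    unfold TS.AA
    linarith [P'.child u]
  have hV := Vc_nonneg F (a.cl (some c :: u)) hp hp1 hq hS
  have hE := B'.EY_le (some c :: u)
  rw [← B'.pi_mul c u] at hE ⊢
  by_cases hj : a'.cl (some c :: u) = a.cl (some c :: u)
  · rcases Tr.pih c u with ⟨-, h⟩ | ⟨h, h'⟩
    · have : a.D4 k a' c u = 0 := by simp [TS.D4, h]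
      rw [this, h, hj]
      linarith
    · by_cases hL : Lt k (a.cl (some c :: u))
      · have hw := mul_pos F.om_pos (eta_pos (a.cl (some c :: u)))
        have hw1 := F.om_eta (a.cl (some c :: u)) (by linarith [hL.2])
        have hθ := F.tht_pos (a.cl (some c :: u))
        have h1 := Track.Φ_jump hw (by linarith) (by linarith) (by linarith) (h' hj)
        have h2 : a.D4 k a' c u = a'.SS k a'.y u * |a'.pi k c u - a.pih (some c :: u)| := by
          rw [TS.D4, if_pos ⟨hL, hj⟩, h]
        have h3 := mul_le_mul_of_nonneg_left (mul_le_mul_of_nonneg_left h1 hS)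
          (one_div_nonneg.2 hw.le)
        have h4 : 1 / (om k * eta (a.cl (some c :: u))) * (a'.SS k a'.y u *
            (om k * eta (a.cl (some c :: u)) / 4 * |a'.pi k c u - a.pih (some c :: u)|)) =
            1 / 4 * (a'.SS k a'.y u * |a'.pi k c u - a.pih (some c :: u)|) := by
          have := F.om_pos.ne'
          have := (eta_pos (a.cl (some c :: u))).ne'
          field_simp
        rw [h2, h, hj, Vc_eq hL, Vc_eq hL, Wf_sub hθ hp hq, mul_add, mul_add]
        linarith
      · have : a.D4 k a' c u = 0 := if_neg fun h => hL h.1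
        rw [this, hj, Vc, Vc, if_neg hL, if_neg hL]
        linarith
  have h4 : a.D4 k a' c u = 0 := if_neg fun h => hj h.2
  have h5 : a'.pih (some c :: u) = a'.pi k c u :=
    (Tr.pih c u).elim (fun h => absurd h.1 hj) fun h => h.1
  rw [h4, h5]
  have x0 := mul_nonneg hel (xi_nonneg (a.cl (some c :: u)) hb hbA)
  rcases lt_or_gt_of_ne hj with h | h
  · by_cases h0 : a'.cl (some c :: u) = 0
    · rw [h0, Vc, if_neg (by simp [Lt]), xi, if_pos rfl]
      linarith
    · have hL : Lt k (a'.cl (some c :: u)) := ⟨by omega, by linarith [A.cl_le c u]⟩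
      have h1 := down_case F hL h hq hq1 hS hSA hbA hE (B'.bb_nat _) (B'.bb_le _)
        (B'.nu_child c u) (B'.SS_le u) hAN (Tr.down c u h)
      have h2 : a'.nu (some c :: u) / eta (a'.cl (some c :: u)) ≤ 2 * a.D6 k a' c u := by
        have e : a'.nu (some c :: u) / eta (a'.cl (some c :: u)) =
            2 * (a'.nu (some c :: u) * (1 / 2) ^ a'.cl (some c :: u)) := by
          unfold eta
          rw [one_div, inv_pow]
          field_simp
        have h3 : 0 ≤ a'.nu (some c :: u) * (2 ^ a.cl (some c :: u) / el k) :=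
          mul_nonneg (P'.nu_nonneg _) (by positivity)
        rw [e, TS.D6, pay, if_neg (by omega), if_pos h]
        linarith
      have h3 := mul_le_mul_of_nonneg_left h2 hel
      linarith
  · have h1 : xi (a'.cl (some c :: u)) (a'.bb k (some c :: u)) (a'.AA k u) ≤
        2 * a.D6 k a' c u := by
      linarith [xi_le (a'.cl (some c :: u)) hb hbA, B'.bb_le (some c :: u), y3 h]
    have h2 := mul_le_mul_of_nonneg_left h1 hel
    suffices Vc k (a'.cl (some c :: u)) (a'.pi k c u) (a'.pi k c u * a'.SS k a'.y u)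
        (a'.SS k a'.y u) ≤ Vc k (a.cl (some c :: u)) (a.pih (some c :: u))
        (a'.pi k c u * a'.SS k a'.y u) (a'.SS k a'.y u) + 6 * 10 ^ 6 * (el k * a.D6 k a' c u) by
      linarith
    by_cases hL : Lt k (a'.cl (some c :: u))
    · by_cases h0 : a.cl (some c :: u) = 0
      · have h3 := y4 fun h' => by have := h'.1 h0; omega
        have h6 : a'.SS k a'.y u * Wf (tht (a'.cl (some c :: u))) (a'.pi k c u) (a'.pi k c u) ≤
            6 * a.D6 k a' c u := by
          linarith [mul_le_of_le_one_right hS (Wf_le_one (F.tht_pos (a'.cl (some c :: u))) hq),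
            B'.SS_le u]
        have h7 : 10 ^ 6 * (el k : ℝ) / eta (a'.cl (some c :: u)) ≤ 10 ^ 6 * el k :=
          div_le_self (by positivity) (eta_ge hL.1)
        have h8 := mul_le_mul h7 h6 (mul_nonneg hS (Wf_nonneg (F.tht_pos _) hq hq1 hq))
          (by positivity)
        rw [Vc_eq hL, inv_om F]
        linarith
      · have hL0 : Lt k (a.cl (some c :: u)) := ⟨by omega, by linarith [hL.2]⟩
        have hθ := F.tht_pos (a.cl (some c :: u))
        have h6 : Wf (tht (a'.cl (some c :: u))) (a'.pi k c u) (a'.pi k c u) ≤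
            Wf (tht (a.cl (some c :: u))) (a.pih (some c :: u)) (a'.pi k c u) := by
          rw [Wf_sub hθ hp hq]
          linarith [Wf_mono (F.tht_pos (a'.cl (some c :: u))) (F.tht_anti h.le) hq,
            Track.Φ_nonneg (δ := tht (a.cl (some c :: u))) (x := a'.pi k c u)
              (a := a.pih (some c :: u)) (by linarith) (by linarith)]
        have h7 : 1 / (om k * eta (a'.cl (some c :: u))) ≤ 1 / (om k * eta (a.cl (some c :: u))) :=
          one_div_le_one_div_of_le (mul_pos F.om_pos (eta_pos _))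
            (mul_le_mul_of_nonneg_left (by linarith [eta_double h, eta_pos (a.cl (some c :: u))])
              F.om_pos.le)
        have h8 := mul_le_mul h7 (mul_le_mul_of_nonneg_left h6 hS)
          (mul_nonneg hS (Wf_nonneg (F.tht_pos _) hq hq1 hq))
          (one_div_nonneg.2 (mul_pos F.om_pos (eta_pos _)).le)
        rw [Vc_eq hL, Vc_eq hL0]
        linarith
    · rw [Vc, if_neg hL]
      linarith

end Vale.Agent.P304
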