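import Vale.Agent.P304.StmtsT

/-! One node: jump of the share potentials. -/

namespace Vale.Agent.P304

open Finset
open scoped Classical

namespace VJump

variable {L : Type} [Fintype L] (a a' : TS L) (k : ℕ) (v : List (Option L))

theorem abs_sub_sum {ι : Type} (s : Finset ι) {f g h : ι → ℝ} (e : ∀ i ∈ s, |f i - g i| ≤ h i) :
    |∑ i ∈ s, f i - ∑ i ∈ s, g i| ≤ ∑ i ∈ s, h i := by
  rw [← sum_sub_distrib]
  exact (abs_sum_le_sum_abs _ _).trans (sum_le_sum e)

omit [Fintype L] in
theorem dE {h : List (Option L) → ℕ → ℝ} (h0 : ∀ i, 0 ≤ h v i) (h1 : ∀ i, h v i ≤ 1) :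
    |a'.EY k h v - a.EY k h v| ≤ a.D1 k a' v :=
  abs_sub_sum _ fun i _ => by
    by_cases e : a.dp v i <;> by_cases e' : a'.dp v i <;> simp [e, e', abs_of_nonneg (h0 i), h1 i]

omit [Fintype L] in
theorem dB : |a'.bb k v - a.bb k v| ≤ a.D1 k a' v :=
  dE a a' k v (h := fun _ _ => 1) (fun _ => zero_le_one) fun _ => le_rfl

omit [Fintype L] in
theorem dG (hF : Facts k) : |a'.sg k v - a.sg k v| ≤ 4 / 3 * a.D1 k a' v + a.D3 k a' v := by
  rw [TS.D1, TS.D3, mul_sum, ← sum_add_distrib]
  refine abs_sub_sum _ fun i _ => ?_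
  have h0 : 0 ≤ ∑ j ∈ range (nn k + 1), if (a.on v i j ↔ a'.on v i j) then 0 else (1 / 4 : ℝ) ^ j :=
    sum_nonneg fun j _ => by split_ifs <;> positivity
  have h1 (b : TS L) : |∑ j ∈ range (nn k + 1), if b.on v i j then (1 / 4 : ℝ) ^ j else 0| ≤ 4 / 3 :=
    (abs_sum_le_sum_abs _ _).trans ((sum_le_sum fun j _ => by split_ifs <;> simp).trans hF.quarter)
  by_cases e : a.dp v i <;> by_cases e' : a'.dp v i <;>
    simp only [e, e', if_true, if_false, iff_false, not_true, false_iff, sub_zero, zero_sub, abs_neg,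
      abs_zero, mul_zero, zero_add, mul_one]
  · exact h0
  · linarith [h1 a']
  · linarith [h1 a]
  · exact abs_sub_sum _ fun j _ => by
      by_cases e : a.on v i j <;> by_cases e' : a'.on v i j <;> simp [e, e']

end VJump

open VJump in
theorem vjump (hF : ParamStmt) (hB : BasicStmt) (hP : PayStmt) (h1 : VLipStmt) (h2 : XiLipStmt)
    (h3 : VChildStmt) : VJumpStmt := by
  obtain ⟨C, hC, h1⟩ := h1
  obtain ⟨C₁, C₂, c1, c2, h3⟩ := h3
  refine ⟨C₁, C₂ + 5 * C + 20 * C₁, c1, by positivity, fun k L _ a a' hk p q p' q' t u => ?_⟩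
  have F := hF k hk
  have B := hB k L a hk p q
  have B' := hB k L a' hk p' q'
  have P := fun c => hP k L a a' hk p q p' q' t c u
  have d1 (c : L) := (abs_nonneg _).trans (dB a a' k (some c :: u))
  have d3 (c : L) : 0 ≤ a.D3 k a' (some c :: u) :=
    sum_nonneg fun i _ => sum_nonneg fun j _ => by split_ifs <;> positivity
  have dE' (c : L) := dE a a' k (some c :: u) (p'.y_nonneg _) (p'.y_le _)
  have e1 := sum_le_sum fun c (_ : c ∈ univ) => h3 k L a a' hk p q p' q' t c u
  have e2 := h1 k L (fun c => a.cl (some c :: u)) (fun c => a.pih (some c :: u))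
    (fun c => a.EY k a'.y (some c :: u)) (fun c => a'.EY k a'.y (some c :: u)) (a.SS k a'.y u)
    (a'.SS k a'.y u) hk (fun c => q.pih_nonneg c u) (fun c => q.pih_le c u) (B.dl_le u) (B.pih_sum u)
  have hA {b : TS L} (h : b.Basic k) : 0 < b.AA k u ∧ ∑ c, b.bb k (some c :: u) ≤ b.AA k u := by
    have := sum_nonneg fun c (_ : c ∈ univ) => h.bb_nonneg (some c :: u)
    have := sum_nonneg fun c (_ : c ∈ univ) => h.sg_nonneg (some c :: u)
    rw [TS.AA, sum_add_distrib]
    constructor <;> linarith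
  have e3 := h2 L (fun c => a.cl (some c :: u)) (fun c => a.bb k (some c :: u))
    (fun c => a'.bb k (some c :: u)) (a.AA k u) (a'.AA k u) (fun c => B.bb_nonneg _)
    (fun c => B'.bb_nonneg _) (hA B).1 (hA B').1 (hA B).2 (hA B').2
  set T := ∑ c, (a.D1 k a' (some c :: u) + a.D3 k a' (some c :: u) + a.D6 k a' c u)
  have t1 : ∑ c, |a'.EY k a'.y (some c :: u) - a.EY k a'.y (some c :: u)| ≤ T :=
    sum_le_sum fun c _ => by linarith [dE' c, d3 c, (P c).1]
  have t2 : ∑ c, |a'.bb k (some c :: u) - a.bb k (some c :: u)| ≤ T :=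
    sum_le_sum fun c _ => by linarith [dB a a' k (some c :: u), d3 c, (P c).1]
  have t3 : ∑ c, a.D6 k a' c u ≤ T := sum_le_sum fun c _ => by linarith [d1 c, d3 c]
  have t4 : |a'.AA k u - a.AA k u| ≤ 3 * T := by
    rw [TS.AA, TS.AA, add_sub_add_left_eq_sub, mul_sum]
    refine abs_sub_sum _ fun c _ => ?_
    rw [add_sub_add_comm]
    linarith [abs_add_le (a'.bb k (some c :: u) - a.bb k (some c :: u))
      (a'.sg k (some c :: u) - a.sg k (some c :: u)), dB a a' k (some c :: u),
      dG a a' k (some c :: u) F, d1 c, d3 c, (P c).1]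
  have t5 : |a'.SS k a'.y u - a.SS k a'.y u| ≤ 4 * T := by
    rw [mul_sum]
    refine abs_sub_sum _ fun c _ => ?_
    obtain ⟨g1, g2⟩ := abs_le.1 (dG a a' k (some c :: u) F)
    obtain ⟨g3, g4⟩ := abs_le.1 (dE' c)
    have := d1 c
    have := d3 c
    have := (P c).1
    have := B.sg_nonneg (some c :: u)
    have := B'.sg_nonneg (some c :: u)
    have := B'.sg_le c u
    have := B'.nu_child c u
    have g5 := (P c).2.2.2.1
    rw [abs_le]
    split_ifs with e e' e'
    · constructor <;> linarith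
    · constructor <;> linarith [g5 fun h => e' (h.2 e)]
    · constructor <;> linarith [g5 fun h => e (h.1 e')]
    · constructor <;> linarith
  have l : (0 : ℝ) ≤ el k := Nat.cast_nonneg _
  simp only [sum_add_distrib, ← mul_sum] at e1
  have e4 := mul_le_mul_of_nonneg_left (e3.trans (mul_le_mul_of_nonneg_left (add_le_add t2 t4)
    (by norm_num))) (mul_nonneg c1 l)
  have e5 := e2.trans (mul_le_mul_of_nonneg_left (add_le_add t1 t5) (mul_nonneg hC l))
  have e6 := mul_le_mul_of_nonneg_left t3 (mul_nonneg c2 l)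
  rw [TS.VV, TS.VV, TS.Xi, TS.Xi]
  linarith

end Vale.Agent.P304
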