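import Vale.Agent.P304.StmtsT

/-! Lipschitz properties of the potentials `Vc` and `xi`. -/

namespace Vale.Agent.P304

open Finset
open scoped Classical

namespace TVLip

lemma eta_ge {j : ℕ} (hj : 1 ≤ j) : 1 ≤ eta j := by
  unfold eta
  have h : (2 : ℝ) ^ 1 ≤ 2 ^ j := pow_le_pow_right₀ (by norm_num) hj
  linarith

lemma vc_diff {k : ℕ} (F : Facts k) (j : ℕ) (p E E' S S' : ℝ) (hp0 : 0 ≤ p) (hp1 : p ≤ 1) :
    Vc k j p E' S' - Vc k j p E S ≤
      10 ^ 6 * el k * (12 * |E' - E| + 12 * gl k j * |S' - S| +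
        (if Lt k j then p else 0) * |S' - S|) := by
  have hel : (0 : ℝ) ≤ el k := Nat.cast_nonneg _
  by_cases h : Lt k j
  · simp only [Vc, gl, if_pos h]
    have hj : 1 ≤ j := h.1
    have he := eta_ge hj
    have hth := F.tht_pos j
    have hom := F.om_pos
    have hthi : 0 < thi j := lt_of_lt_of_le (by positivity) (F.thi_pow j)
    set th := tht j with hthdef
    set Lg := Real.log ((1 + th) / (p + th)) with hLg
    have hL0 : 0 ≤ Lg := by
      apply Real.log_nonneg
      rw [le_div_iff₀ (by linarith)]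
      linarith
    have hL1 : Lg ≤ 12 * eta j := by
      refine le_trans ?_ (F.tht_log j hj)
      apply Real.log_le_log (by positivity)
      have : 1 + 1 / th = (1 + th) / th := by field_simp; ring
      rw [this]
      apply div_le_div_of_nonneg_left (by linarith) hth (by linarith)
    have hthg : th ≤ 1 / thi j := by
      rw [hthdef]
      unfold tht
      apply one_div_le_one_div_of_le hthi
      nlinarith
    have hw : 1 / (om k * eta j) = 10 ^ 6 * el k * (1 / eta j) := by
      have h1 : (el k : ℝ) = 1 / 10 ^ 6 / om k := by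
        rw [eq_div_iff hom.ne', mul_comm]; exact F.om_el
      rw [h1]
      field_simp
    have key : (E' - E + th * (S' - S)) * Lg + p * (S' - S) ≤
        eta j * (12 * |E' - E| + 12 * (1 / thi j) * |S' - S| + p * |S' - S|) := by
      have a1 : E' - E ≤ |E' - E| := le_abs_self _
      have a2 : S' - S ≤ |S' - S| := le_abs_self _
      have a3 : 0 ≤ |E' - E| := abs_nonneg _
      have a4 : 0 ≤ |S' - S| := abs_nonneg _
      have b1 : th * (S' - S) ≤ 1 / thi j * |S' - S| :=
        le_trans (mul_le_mul_of_nonneg_left a2 hth.le) (mul_le_mul_of_nonneg_right hthg a4)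
      have b2 : 0 ≤ 1 / thi j * |S' - S| := by positivity
      have b3 : (E' - E + th * (S' - S)) * Lg ≤ (|E' - E| + 1 / thi j * |S' - S|) * Lg :=
        mul_le_mul_of_nonneg_right (by linarith) hL0
      have b4 : (|E' - E| + 1 / thi j * |S' - S|) * Lg ≤
          (|E' - E| + 1 / thi j * |S' - S|) * (12 * eta j) :=
        mul_le_mul_of_nonneg_left hL1 (by linarith)
      have b5 : p * (S' - S) ≤ p * |S' - S| := mul_le_mul_of_nonneg_left a2 hp0
      have b6 : p * |S' - S| ≤ eta j * (p * |S' - S|) :=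
        le_mul_of_one_le_left (by positivity) he
      nlinarith
    have hepos : 0 < eta j := by linarith
    calc 1 / (om k * eta j) * ((E' + th * S') * Lg + p * S') -
          1 / (om k * eta j) * ((E + th * S) * Lg + p * S)
        = 10 ^ 6 * el k * (1 / eta j) * ((E' - E + th * (S' - S)) * Lg + p * (S' - S)) := by
          rw [hw]; ring
      _ ≤ 10 ^ 6 * el k * (1 / eta j) *
          (eta j * (12 * |E' - E| + 12 * (1 / thi j) * |S' - S| + p * |S' - S|)) :=
          mul_le_mul_of_nonneg_left key (by positivity)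
      _ = _ := by field_simp
  · simp only [Vc, gl, if_neg h]
    have a3 : 0 ≤ |E' - E| := abs_nonneg _
    simp only [sub_self, mul_zero, zero_mul, add_zero]
    positivity

lemma frac_le {e x y : ℝ} (he : 0 < e) (hx : 0 ≤ x) (hxy : x ≤ y) :
    e / (e + 1 + x) - e / (e + 1 + y) ≤ y - x := by
  have h1 : 0 < e + 1 + x := by linarith
  have h2 : 0 < e + 1 + y := by linarith
  rw [div_sub_div _ _ h1.ne' h2.ne', div_le_iff₀ (mul_pos h1 h2)]
  have h3 : e ≤ (e + 1 + x) * (e + 1 + y) := by nlinarith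
  have h4 : 0 ≤ y - x := by linarith
  nlinarith [mul_le_mul_of_nonneg_left h3 h4]

lemma frac_anti {e x y : ℝ} (he : 0 < e) (hx : 0 ≤ x) (hxy : x ≤ y) :
    e / (e + 1 + y) ≤ e / (e + 1 + x) :=
  div_le_div_of_nonneg_left he.le (by linarith) (by linarith)

lemma frac_le_one {e x : ℝ} (he : 0 < e) (hx : 0 ≤ x) : e / (e + 1 + x) ≤ 1 := by
  rw [div_le_one (by linarith)]; linarith

lemma frac_nonneg {e x : ℝ} (he : 0 < e) (hx : 0 ≤ x) : 0 ≤ e / (e + 1 + x) :=
  div_nonneg he.le (by linarith)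

lemma eta_pos' (j : ℕ) : 0 < eta j := by unfold eta; positivity

lemma log_nn {b A : ℝ} (hb : 0 < b) (hA : b ≤ A) : 0 ≤ Real.log (A / b) := by
  apply Real.log_nonneg
  rw [le_div_iff₀ hb]; linarith

lemma xi_eq {j : ℕ} (hj : j ≠ 0) (b A : ℝ) :
    xi j b A = b * (eta j / (eta j + 1 + Real.log (A / b))) := by
  simp only [xi, if_neg hj]; ring

/-- `xi` decreases in `A` -/
lemma xi_anti (j : ℕ) {b A₁ A₂ : ℝ} (hb : 0 ≤ b) (h1 : b ≤ A₁) (h12 : A₁ ≤ A₂) :
    xi j b A₂ ≤ xi j b A₁ := by
  by_cases hj : j = 0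
  · simp [xi, hj]
  rw [xi_eq hj, xi_eq hj]
  rcases hb.eq_or_lt with hb0 | hb0
  · simp [← hb0]
  apply mul_le_mul_of_nonneg_left _ hb
  apply frac_anti (eta_pos' j) (log_nn hb0 h1)
  apply Real.log_le_log (div_pos (by linarith) hb0)
  exact div_le_div_of_nonneg_right h12 hb

lemma xi_A (j : ℕ) {b A₁ A₂ : ℝ} (hb : 0 ≤ b) (h1 : b ≤ A₁) (hA : 0 < A₁) (h12 : A₁ ≤ A₂) :
    xi j b A₁ - xi j b A₂ ≤ b * ((A₂ - A₁) / A₁) := by
  have hq : 0 ≤ (A₂ - A₁) / A₁ := div_nonneg (by linarith) hA.le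
  by_cases hj : j = 0
  · simp only [xi, if_pos hj, sub_self]; positivity
  rw [xi_eq hj, xi_eq hj]
  rcases hb.eq_or_lt with hb0 | hb0
  · simp [← hb0]
  rw [← mul_sub]
  apply mul_le_mul_of_nonneg_left _ hb
  have hl : Real.log (A₁ / b) ≤ Real.log (A₂ / b) :=
    Real.log_le_log (div_pos hA hb0) (div_le_div_of_nonneg_right h12 hb)
  refine le_trans (frac_le (eta_pos' j) (log_nn hb0 h1) hl) ?_
  have hA2 : 0 < A₂ := by linarith
  rw [← Real.log_div (div_pos hA2 hb0).ne' (div_pos hA hb0).ne']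
  have e1 : A₂ / b / (A₁ / b) = A₂ / A₁ := by field_simp
  have e2 : (A₂ - A₁) / A₁ = A₂ / A₁ - 1 := by field_simp
  rw [e1, e2]
  exact Real.log_le_sub_one_of_pos (div_pos hA2 hA)

lemma xi_b (j : ℕ) {b b' A : ℝ} (hb : 0 ≤ b) (hb' : 0 ≤ b') (h1 : b ≤ A) (h2 : b' ≤ A) :
    xi j b' A - xi j b A ≤ 2 * |b' - b| := by
  have habs : 0 ≤ |b' - b| := abs_nonneg _
  by_cases hj : j = 0
  · simp only [xi, if_pos hj, sub_self]; positivity
  rw [xi_eq hj, xi_eq hj]
  have he := eta_pos' j
  rcases hb'.eq_or_lt with hb0' | hb0'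
  · rcases hb.eq_or_lt with hb0 | hb0
    · simp [← hb0, ← hb0']
    · have := mul_nonneg hb (frac_nonneg he (log_nn hb0 h1))
      rw [← hb0'] at habs ⊢
      simp only [zero_mul]
      linarith
  have f1 := frac_le_one he (log_nn hb0' h2)
  have f0 := frac_nonneg he (log_nn hb0' h2)
  rcases hb.eq_or_lt with hb0 | hb0
  · rw [← hb0]
    simp only [zero_mul, sub_zero]
    rw [abs_of_nonneg hb']
    nlinarith
  have hA : 0 < A := by linarith
  rcases le_total b' b with hle | hle
  · have hl : Real.log (A / b) ≤ Real.log (A / b') :=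
      Real.log_le_log (div_pos hA hb0) (div_le_div_of_nonneg_left hA.le hb0' hle)
    have g1 := frac_anti he (log_nn hb0 h1) hl
    have g2 := mul_le_mul hle g1 f0 hb
    linarith
  · have hl : Real.log (A / b') ≤ Real.log (A / b) :=
      Real.log_le_log (div_pos hA hb0') (div_le_div_of_nonneg_left hA.le hb0 hle)
    have g1 := frac_le he (log_nn hb0' h2) hl
    have g2 : Real.log (A / b) - Real.log (A / b') ≤ (b' - b) / b := by
      rw [← Real.log_div (div_pos hA hb0).ne' (div_pos hA hb0').ne']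
      have e1 : A / b / (A / b') = b' / b := by field_simp
      have e2 : (b' - b) / b = b' / b - 1 := by field_simp
      rw [e1, e2]
      exact Real.log_le_sub_one_of_pos (div_pos hb0' hb0)
    have g3 := mul_le_mul_of_nonneg_left (le_trans g1 g2) hb
    have e3 : b * ((b' - b) / b) = b' - b := by field_simp
    rw [e3] at g3
    rw [abs_of_nonneg (by linarith : 0 ≤ b' - b)]
    have g4 := mul_le_mul_of_nonneg_left f1 (by linarith : 0 ≤ b' - b)
    nlinarith

end TVLip

theorem vlip (hF : ParamStmt) : VLipStmt := by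
  refine ⟨14 * 10 ^ 6, by norm_num, ?_⟩
  intro k L _ j p E E' S S' hk hp0 hp1 hg hp
  have F := hF k hk
  have hel : (0 : ℝ) ≤ el k := Nat.cast_nonneg _
  rw [← Finset.sum_sub_distrib]
  refine le_trans (Finset.sum_le_sum fun c _ =>
    TVLip.vc_diff F (j c) (p c) (E c) (E' c) S S' (hp0 c) (hp1 c)) ?_
  rw [← Finset.mul_sum, Finset.sum_add_distrib, Finset.sum_add_distrib, ← Finset.mul_sum,
    ← Finset.sum_mul, ← Finset.sum_mul, ← Finset.mul_sum]
  have a4 : 0 ≤ |S' - S| := abs_nonneg _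
  have a3 : 0 ≤ ∑ c, |E' c - E c| := Finset.sum_nonneg fun c _ => abs_nonneg _
  have b1 := mul_le_mul_of_nonneg_right hg a4
  have b2 := mul_le_mul_of_nonneg_right hp a4
  have b3 : 12 * ∑ c, |E' c - E c| + 12 * (∑ c, gl k (j c)) * |S' - S| +
      (∑ c, if Lt k (j c) then p c else 0) * |S' - S| ≤
      14 * (∑ c, |E' c - E c| + |S' - S|) := by nlinarith
  calc _ ≤ 10 ^ 6 * (el k : ℝ) * (14 * (∑ c, |E' c - E c| + |S' - S|)) :=
        mul_le_mul_of_nonneg_left b3 (by positivity)
    _ = _ := by ring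

theorem xilip : XiLipStmt := by
  intro L _ j b b' A A' hb hb' hA hA' hs hs'
  set M := max A A' with hM
  have hM1 : A ≤ M := le_max_left _ _
  have hM2 : A' ≤ M := le_max_right _ _
  have hM3 : M - A' ≤ |A' - A| := by
    rcases le_total A A' with h | h
    · rw [hM, max_eq_right h, sub_self]; exact abs_nonneg _
    · rw [hM, max_eq_left h, abs_sub_comm]; exact le_abs_self _
  have hbA : ∀ c, b c ≤ A := fun c =>
    le_trans (Finset.single_le_sum (fun i _ => hb i) (Finset.mem_univ c)) hs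
  have hbA' : ∀ c, b' c ≤ A' := fun c =>
    le_trans (Finset.single_le_sum (fun i _ => hb' i) (Finset.mem_univ c)) hs'
  have step : ∀ c, xi (j c) (b' c) A' - xi (j c) (b c) A ≤
      b' c * ((M - A') / A') + 2 * |b' c - b c| := by
    intro c
    have h1 := TVLip.xi_A (j c) (hb' c) (hbA' c) hA' hM2
    have h2 := TVLip.xi_b (j c) (hb c) (hb' c) (le_trans (hbA c) hM1) (le_trans (hbA' c) hM2)
    have h3 := TVLip.xi_anti (j c) (hb c) (hbA c) hM1
    linarith
  rw [← Finset.sum_sub_distrib]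
  refine le_trans (Finset.sum_le_sum fun c _ => step c) ?_
  rw [Finset.sum_add_distrib, ← Finset.sum_mul, ← Finset.mul_sum]
  have hq : 0 ≤ (M - A') / A' := div_nonneg (by linarith) hA'.le
  have h4 := mul_le_mul_of_nonneg_right hs' hq
  have e : A' * ((M - A') / A') = M - A' := by field_simp
  rw [e] at h4
  have a3 : 0 ≤ ∑ c, |b' c - b c| := Finset.sum_nonneg fun c _ => abs_nonneg _
  have a4 : 0 ≤ |A' - A| := abs_nonneg _
  linarith

end Vale.Agent.P304
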