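import Vale.Agent.P304.StmtsT
import Vale.Agent.P304.TA

/-! Movement of the share copies. -/

namespace Vale.Agent.P304

open Finset
open scoped Classical

namespace TVSum

section
variable {k : ℕ} {L : Type} [Fintype L]

theorem Vc_lin (j : ℕ) (p E S : ℝ) : Vc k j p E S = Vc k j p 1 0 * E + Vc k j p 0 1 * S := by
  unfold Vc
  split_ifs <;> ring

theorem Vc_nonneg (F : Facts k) (j : ℕ) {p E S : ℝ} (h0 : 0 ≤ p) (h1 : p ≤ 1) (hE : 0 ≤ E)
    (hS : 0 ≤ S) : 0 ≤ Vc k j p E S := by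
  unfold Vc
  have := F.om_pos
  have := F.eta_pos j
  have := F.tht_pos j
  have : 0 ≤ Real.log ((1 + tht j) / (p + tht j)) :=
    Real.log_nonneg ((one_le_div (by positivity)).2 (by linarith))
  split_ifs
  · positivity
  · exact le_rfl

theorem xi_nonneg (F : Facts k) (j : ℕ) {b A : ℝ} (hb : 0 ≤ b) (hA : b ≤ A) : 0 ≤ xi j b A := by
  unfold xi
  split_ifs
  · exact le_rfl
  · rcases hb.eq_or_lt with rfl | hb
    · simp
    · have := F.eta_pos j
      have : 0 ≤ Real.log (A / b) := Real.log_nonneg ((one_le_div hb).2 hA)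
      positivity

omit [Fintype L] in
theorem EY_nonneg (a : TS L) {h : List (Option L) → ℕ → ℝ} (hh : ∀ v i, 0 ≤ h v i)
    (v : List (Option L)) : 0 ≤ a.EY k h v :=
  sum_nonneg fun i _ => by split_ifs; exacts [hh v i, le_rfl]

theorem VV_nonneg (F : Facts k) {a : TS L} (hA : a.Acc k) (hB : a.Basic k)
    {h : List (Option L) → ℕ → ℝ} (hh : ∀ v i, 0 ≤ h v i) (u : List (Option L)) :
    0 ≤ a.VV k h u :=
  sum_nonneg fun c _ => Vc_nonneg F _ (hA.pih_nonneg c u) (hA.pih_le c u) (EY_nonneg a hh _)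
    (sum_nonneg fun c' _ => add_nonneg (EY_nonneg a hh _)
      (by split_ifs; exacts [hB.sg_nonneg _, le_rfl]))

theorem Xi_nonneg (F : Facts k) {a : TS L} (hB : a.Basic k) (u : List (Option L)) :
    0 ≤ a.Xi k u := by
  refine sum_nonneg fun c _ => xi_nonneg F _ (hB.bb_nonneg _) ?_
  have h := single_le_sum (f := fun c => a.bb k (some c :: u) + a.sg k (some c :: u))
    (fun c _ => add_nonneg (hB.bb_nonneg _) (hB.sg_nonneg _)) (mem_univ c)
  unfold TS.AA
  linarith [hB.sg_nonneg (some c :: u)]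

omit [Fintype L] in
theorem EY_lip (a : TS L) (h h' : List (Option L) → ℕ → ℝ) (v : List (Option L)) :
    |a.EY k h' v - a.EY k h v| ≤ ∑ i ∈ range k, |h' v i - h v i| := by
  unfold TS.EY
  rw [← sum_sub_distrib]
  refine (abs_sum_le_sum_abs _ _).trans (sum_le_sum fun i _ => ?_)
  split_ifs <;> simp

omit [Fintype L] in
theorem D1_nonneg (a a' : TS L) (v : List (Option L)) : 0 ≤ a.D1 k a' v :=
  sum_nonneg fun _ _ => by split_ifs <;> norm_num

omit [Fintype L] in
theorem D3_nonneg (a a' : TS L) (v : List (Option L)) : 0 ≤ a.D3 k a' v :=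
  sum_nonneg fun _ _ => sum_nonneg fun _ _ => by split_ifs <;> positivity

theorem D6_nonneg (F : Facts k) (a : TS L) {a' : TS L} (h : a'.Post k) (c : L)
    (u : List (Option L)) : 0 ≤ a.D6 k a' c u := by
  unfold TS.D6 pay
  split_ifs
  · exact div_nonneg (h.nu_nonneg _) ((by positivity : (0 : ℝ) ≤ 2 ^ _).trans (F.thi_pow _))
  · exact mul_nonneg (h.nu_nonneg _) (by positivity)
  · exact le_rfl

end

variable {k : ℕ} {Y Ω L : Type} [Fintype Ω] [Fintype L] (G : Game k Y Ω)
  (lab : ℕ → List Y → Y → L)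

omit [Fintype L] in
theorem hid_nonneg (t : ℕ) (ω : Ω) (v : List (Option L)) (i : ℕ) : 0 ≤ G.hid lab t ω v i := by
  unfold Game.hid
  split_ifs <;> norm_num

omit [Fintype L] in
theorem ce_EY (a : TS L) (l : List Y) (v : List (Option L)) :
    G.ce l (fun ω => a.EY k (G.hid lab l.length ω) v) = a.EY k (G.yP lab l) v := by
  unfold TS.EY
  rw [G.ce_sum]
  refine sum_congr rfl fun i _ => ?_
  split_ifs
  · rfl
  · exact G.ce_zero l

theorem ce_VV (a : TS L) {l : List Y} (hl : G.Reach l) (u : List (Option L)) :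
    G.ce l (fun ω => a.VV k (G.hid lab l.length ω) u) = a.VV k (G.yP lab l) u := by
  unfold TS.VV
  rw [G.ce_sum]
  refine sum_congr rfl fun c _ => ?_
  rw [Vc_lin, funext fun ω => Vc_lin (k := k) _ _ (a.EY k (G.hid lab l.length ω) (some c :: u)) _,
    G.ce_add, G.ce_mul, G.ce_mul, ce_EY]
  unfold TS.SS
  simp only [G.ce_sum, G.ce_add, ce_EY, G.ce_const hl]

theorem E_VV (a : List Y → TS L) (t : ℕ) (u : List (Option L)) :
    (G.E fun ω => (a (G.hist t ω)).VV k (G.yP lab (G.hist t ω)) u) =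
      G.E fun ω => (a (G.hist t ω)).VV k (G.hid lab t ω) u := by
  have h := G.E_ce t fun l ω => (a l).VV k (G.hid lab l.length ω) u
  simp only [ce_VV G lab _ (G.reach_hist t _)] at h
  simpa only [G.hist_length] using h

theorem start (F : Facts k) (hk : 2 ≤ k) (hA : (G.ts lab []).Acc k) (hB : (G.ts lab []).Basic k)
    (ω : Ω) (u : List (Option L)) :
    (G.ts lab []).VV k (G.hid lab 0 ω) u = 0 ∧ (G.ts lab []).Xi k u = 0 := by
  have hy : ∀ v i, (G.ts lab []).y v i = G.hid lab 0 ω v i := fun v i =>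
    G.ce_const G.reach_nil (G.hid lab 0 ω v i)
  have hnu : ∀ v, (G.ts lab []).nu v = G.NN lab 0 ω v := fun v =>
    G.ce_const G.reach_nil (G.NN lab 0 ω v : ℝ)
  have hdp : ∀ v i, (G.ts lab []).dp v i → i < G.NN lab 0 ω v := fun v i h => by
    by_contra h'
    have h1 := hA.dp_hi v i h
    rw [hy, Game.hid, if_pos (not_lt.1 h')] at h1
    norm_num at h1
  have hE : ∀ v, (G.ts lab []).EY k (G.hid lab 0 ω) v = 0 := fun v =>
    sum_eq_zero fun i _ => by
      split_ifs with h
      · exact if_neg (hdp v i h).not_ge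
      · rfl
  have hsg : ∀ c, (G.ts lab []).sg k (some c :: u) = 0 := fun c =>
    sum_eq_zero fun i _ => by
      split_ifs with h
      · rfl
      · refine sum_eq_zero fun j hj => if_neg fun ho => h (hA.dp_lo _ i ?_)
        have h1 := hA.on_hi c u i j ho
        have h2 := hB.ss_lo u
        have h3 := F.tt_hi j (mem_range.1 hj).le
        have h4 := F.wd_hi j
        rw [hy, Game.hid] at h1 ⊢
        split_ifs at h1 ⊢
        · linarith
        · norm_num
  constructor
  · refine sum_eq_zero fun c _ => ?_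
    rw [Vc_lin]
    simp [TS.SS, hE, hsg]
  · refine sum_eq_zero fun c _ => ?_
    unfold xi
    split_ifs with h
    · rfl
    · have hb : (G.ts lab []).bb k (some c :: u) = 0 := sum_eq_zero fun i _ => if_neg fun hd => by
        have h1 := hdp _ i hd
        have h2 : G.NN lab 0 ω (some c :: u) = k := by
          unfold Game.NN at h1 ⊢
          obtain ⟨i', hi'⟩ := card_pos.1 (Nat.zero_lt_of_lt h1)
          rw [filter_true_of_mem, card_univ, Fintype.card_fin]
          exact fun j _ => (mem_filter.1 hi').2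
        have h3 := hA.cl_lo c u (Nat.one_le_iff_ne_zero.2 h)
        have h4 := hB.nu_le u
        have h5 := F.tlo_ge ((G.ts lab []).cl (some c :: u) - 1)
        have h6 : (2 : ℝ) ≤ k := by exact_mod_cast hk
        rw [hnu (some c :: u), h2] at h3
        nlinarith
      rw [hb, zero_mul, zero_div]

end TVSum

open TVSum in
theorem vsum (hF : ParamStmt) (hB : BasicStmt) (hT : TsStmt) (h1 : VLipStmt) (h2 : VJumpStmt) :
    VSumStmt := by
  obtain ⟨C, hC, h1⟩ := h1
  obtain ⟨C₁, C₂, hC₁, hC₂, h2⟩ := h2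
  refine ⟨4 * (2 * C + C₂), by positivity, fun k Y Ω L _ _ G lab T u hk => ?_⟩
  have F := hF k hk
  obtain ⟨hP, hTr⟩ := hT k Y Ω L G lab hk
  have P := fun t ω => hP _ (G.reach_hist t ω)
  have B := fun t ω => hB k L _ hk (P t ω).1 (P t ω).2
  have hel : (0 : ℝ) ≤ el k := Nat.cast_nonneg _
  set Ψ : ℕ → ℝ := fun t => G.E fun ω => (G.ts lab (G.hist t ω)).VV k (G.hid lab t ω) u +
    C₁ * el k * (G.ts lab (G.hist t ω)).Xi k u with hΨ
  have step : ∀ t, 1 / 4 * (G.E fun ω => ∑ c,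
      (G.ts lab (G.hist t ω)).D4 k (G.ts lab (G.hist (t + 1) ω)) c u) ≤
      (2 * C + C₂) * el k * (G.E fun ω => ∑ c, (G.dN lab t ω (some c :: u) +
        (G.ts lab (G.hist t ω)).D1 k (G.ts lab (G.hist (t + 1) ω)) (some c :: u) +
        (G.ts lab (G.hist t ω)).D3 k (G.ts lab (G.hist (t + 1) ω)) (some c :: u) +
        (G.ts lab (G.hist t ω)).D6 k (G.ts lab (G.hist (t + 1) ω)) c u)) + (Ψ t - Ψ (t + 1)) := by
    intro t
    have e1 := E_VV G lab (G.ts lab) (t + 1) u
    have e2 : (G.E fun ω => (G.ts lab (G.hist t ω)).VV k (G.yP lab (G.hist (t + 1) ω)) u) =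
        G.E fun ω => (G.ts lab (G.hist t ω)).VV k (G.hid lab (t + 1) ω) u :=
      E_VV G lab (fun l => G.ts lab l.tail) (t + 1) u
    have a1 := G.E_mono fun ω => h2 k L (G.ts lab (G.hist t ω)) (G.ts lab (G.hist (t + 1) ω)) hk
      (P t ω).1 (P t ω).2 (P (t + 1) ω).1 (P (t + 1) ω).2 (hTr _ _ (G.reach_hist (t + 1) ω)) u
    have a2 : (G.E fun ω => (G.ts lab (G.hist t ω)).VV k (G.hid lab (t + 1) ω) u -
        (G.ts lab (G.hist t ω)).VV k (G.hid lab t ω) u) ≤
        G.E fun ω => 2 * C * el k * ∑ c, G.dN lab t ω (some c :: u) := G.E_mono fun ω => by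
      have b1 : ∀ c, |(G.ts lab (G.hist t ω)).EY k (G.hid lab (t + 1) ω) (some c :: u) -
          (G.ts lab (G.hist t ω)).EY k (G.hid lab t ω) (some c :: u)| ≤
          G.dN lab t ω (some c :: u) := fun c => (EY_lip _ _ _ _).trans (TA.sum_slot _ _ k)
      have b2 := sum_le_sum fun c (_ : c ∈ univ) => b1 c
      have b3 : |(G.ts lab (G.hist t ω)).SS k (G.hid lab (t + 1) ω) u -
          (G.ts lab (G.hist t ω)).SS k (G.hid lab t ω) u| ≤ ∑ c, G.dN lab t ω (some c :: u) := by
        unfold TS.SS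
        rw [← sum_sub_distrib]
        refine (abs_sum_le_sum_abs _ _).trans (sum_le_sum fun c _ => ?_)
        rw [add_sub_add_right_eq_sub]
        exact b1 c
      refine (h1 k L _ _ _ _ _ _ hk (fun c => (P t ω).2.pih_nonneg c u)
        (fun c => (P t ω).2.pih_le c u) ((B t ω).dl_le u) ((B t ω).pih_sum u)).trans ?_
      exact (mul_le_mul_of_nonneg_left (add_le_add b2 b3) (mul_nonneg hC hel)).trans_eq (by ring)
    have n1 : 0 ≤ G.E fun ω => ∑ c, G.dN lab t ω (some c :: u) :=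
      G.E_nonneg fun ω => sum_nonneg fun c _ => abs_nonneg _
    have n2 : 0 ≤ G.E fun ω => ∑ c,
        ((G.ts lab (G.hist t ω)).D1 k (G.ts lab (G.hist (t + 1) ω)) (some c :: u) +
        (G.ts lab (G.hist t ω)).D3 k (G.ts lab (G.hist (t + 1) ω)) (some c :: u) +
        (G.ts lab (G.hist t ω)).D6 k (G.ts lab (G.hist (t + 1) ω)) c u) :=
      G.E_nonneg fun ω => sum_nonneg fun c _ => add_nonneg (add_nonneg (D1_nonneg _ _ _)
        (D3_nonneg _ _ _)) (D6_nonneg F _ (P (t + 1) ω).1 c u)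
    have e3 : (G.E fun ω => ∑ c, (G.dN lab t ω (some c :: u) +
        (G.ts lab (G.hist t ω)).D1 k (G.ts lab (G.hist (t + 1) ω)) (some c :: u) +
        (G.ts lab (G.hist t ω)).D3 k (G.ts lab (G.hist (t + 1) ω)) (some c :: u) +
        (G.ts lab (G.hist t ω)).D6 k (G.ts lab (G.hist (t + 1) ω)) c u)) =
        (G.E fun ω => ∑ c, G.dN lab t ω (some c :: u)) + G.E fun ω => ∑ c,
        ((G.ts lab (G.hist t ω)).D1 k (G.ts lab (G.hist (t + 1) ω)) (some c :: u) +
        (G.ts lab (G.hist t ω)).D3 k (G.ts lab (G.hist (t + 1) ω)) (some c :: u) +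
        (G.ts lab (G.hist t ω)).D6 k (G.ts lab (G.hist (t + 1) ω)) c u) := by
      rw [← G.E_add]
      simp only [← sum_add_distrib, add_assoc]
    rw [G.E_sub, G.E_mul] at a2
    simp only [G.E_add, G.E_mul] at a1
    change (G.E fun ω => (G.ts lab (G.hist (t + 1) ω)).VV k (G.yP lab (G.hist (t + 1) ω)) u) + _ +
      _ ≤ (G.E fun ω => (G.ts lab (G.hist t ω)).VV k (G.yP lab (G.hist (t + 1) ω)) u) + _ + _ at a1
    rw [e1, e2] at a1
    simp only [hΨ, G.E_add, G.E_mul]
    rw [e3]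
    nlinarith [mul_nonneg (mul_nonneg hC hel) n2, mul_nonneg (mul_nonneg hC₂ hel) n1]
  have h0 : Ψ 0 = 0 := by
    have h := fun ω => start G lab F hk (P 0 ω).2 (B 0 ω) ω u
    simp only [hΨ, G.hist_zero, (h _).1, (h G.nonempty.some).2, mul_zero, add_zero, G.E_const]
  have hT : 0 ≤ Ψ T := G.E_nonneg fun ω => add_nonneg
    (VV_nonneg F (P T ω).2 (B T ω) (hid_nonneg G lab T ω) u)
    (mul_nonneg (mul_nonneg hC₁ hel) (Xi_nonneg F (B T ω) u))
  have h3 := sum_le_sum fun t (_ : t ∈ range T) => step t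
  rw [sum_add_distrib, sum_range_sub', ← mul_sum, ← mul_sum, ← G.E_sum, ← G.E_sum] at h3
  linarith

end Vale.Agent.P304
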