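import Vale.Agent.P304.StmtsT

/-! Bound on the deficiency of a node. -/

namespace Vale.Agent.P304

open Finset
open scoped Classical

namespace TX

variable {k : ℕ} {L : Type} [Fintype L] {a : TS L}

theorem ph_mul (s y : ℝ) (hs : 0 < s) :
    ph k (s * y) = ∑ j ∈ range (nn k + 1), (1 / 4) ^ j * s / ZZ k * max 0 (tt k j / s - y) := by
  unfold ph
  rw [Finset.sum_div]
  refine Finset.sum_congr rfl fun j _ => ?_
  have h : max 0 (tt k j - s * y) = s * max 0 (tt k j / s - y) := by
    rw [mul_max_of_nonneg _ _ hs.le, mul_zero, mul_sub, mul_div_cancel₀ _ hs.ne']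
  rw [h]
  ring

theorem slot_sup (F : Facts k) (hP : a.Post k) (u : List (Option L)) {s : ℝ} (hs : 2 ≤ s) :
    ∑ c, a.slot k s (some c :: u) ≤ a.slot k s u := by
  have hs0 : 0 < s := by linarith
  have hZ := F.ZZ_lo
  have e : ∀ v, a.slot k s v = ∑ j ∈ range (nn k + 1), (1 / 4) ^ j * s / ZZ k *
      ∑ i ∈ range k, max 0 (tt k j / s - a.y v i) := fun v => by
    unfold TS.slot
    simp only [ph_mul _ _ hs0, Finset.mul_sum]
    exact Finset.sum_comm
  simp only [e]
  rw [Finset.sum_comm]
  refine Finset.sum_le_sum fun j hj => ?_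
  rw [← Finset.mul_sum]
  refine mul_le_mul_of_nonneg_left (hP.sup u _ ?_) (by positivity)
  have := F.tt_hi j (by have := mem_range.1 hj; omega)
  rw [div_le_one hs0]
  linarith

theorem slot_eq (F : Facts k) (hP : a.Post k) (hA : a.Acc k) (v : List (Option L)) {s : ℝ}
    (hs0 : 0 ≤ s) (hs : s ≤ 4) :
    a.slot k s v = a.bb k v - mb k * s * a.EY k a.y v + a.mt k s v := by
  unfold TS.slot TS.bb TS.EY TS.mt
  rw [Finset.mul_sum, ← Finset.sum_sub_distrib, ← Finset.sum_add_distrib]
  refine Finset.sum_congr rfl fun i _ => ?_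
  by_cases h : a.dp v i
  · simp only [if_pos h]
    have h1 := hA.dp_hi v i h
    have h2 := hP.y_nonneg v i
    rw [F.ph_lin _ (by nlinarith)]
    ring
  · simp only [if_neg h]
    ring

theorem slot_nonneg (F : Facts k) (s : ℝ) (v : List (Option L)) : 0 ≤ a.slot k s v :=
  Finset.sum_nonneg fun _ _ => F.ph_nonneg _

theorem slot_anti (F : Facts k) (hP : a.Post k) {s s' : ℝ} (h : s ≤ s') (v : List (Option L)) :
    a.slot k s' v ≤ a.slot k s v :=
  Finset.sum_le_sum fun i _ => F.ph_anti (mul_le_mul_of_nonneg_right h (hP.y_nonneg v i))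

theorem mx_le_mt (F : Facts k) (B : a.Basic k) (v : List (Option L)) {s : ℝ} (hs : 0 ≤ s) :
    a.mx k (s * (1 + 3 * om k)) v ≤ a.mt k s v := by
  refine Finset.sum_le_sum fun i _ => ?_
  split_ifs with h
  · exact le_rfl
  · refine F.ph_anti ?_
    rw [mul_assoc]
    exact mul_le_mul_of_nonneg_left (B.yh_lo' v i h) hs

theorem ph_sub (U U' : ℝ) : ph k U - ph k U' =
    (∑ j ∈ range (nn k + 1), (1 / 4) ^ j * (max 0 (tt k j - U) - max 0 (tt k j - U'))) / ZZ k := by
  unfold ph
  rw [← sub_div, ← Finset.sum_sub_distrib]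
  simp only [mul_sub]

theorem exc_slot (F : Facts k) (hP : a.Post k) (hA : a.Acc k) (B : a.Basic k) (c : L)
    (u : List (Option L)) (i : ℕ) (h : ¬ a.dp (some c :: u) i) :
    ph k (ss k a.cl u * (1 - 3 * om k) * a.yh (some c :: u) i) -
      ph k (ss k a.cl u * a.y (some c :: u) i) ≤ 2 * om k * (mb k * ss k a.cl u *
        ∑ j ∈ range (nn k + 1), if a.on (some c :: u) i j then (1 / 4) ^ j else 0) := by
  have hw := F.om_pos
  have hw' := F.om_le
  have hs := B.ss_lo u
  have hy := hP.y_nonneg (some c :: u) i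
  have h1 := B.yh_lo _ i h
  have h2 := B.yh_hi' _ i h
  have hon := hA.on_lo c u i
  generalize ss k a.cl u = s at *
  generalize a.yh (some c :: u) i = yh at *
  generalize a.y (some c :: u) i = y at *
  have hU : 0 ≤ s * y := by positivity
  have h3 : s * (1 - 3 * om k) * yh ≤ s * y := by
    rw [mul_assoc]
    exact mul_le_mul_of_nonneg_left h2 (by linarith)
  have h4 : s * y * (1 - 5 * om k) ≤ s * (1 - 3 * om k) * yh := by
    have h5 : s * (1 - 3 * om k) * (y * (1 - 2 * om k)) ≤ s * (1 - 3 * om k) * yh :=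
      mul_le_mul_of_nonneg_left h1 (mul_nonneg (by linarith) (by linarith))
    nlinarith [mul_nonneg hU (mul_nonneg hw.le hw.le)]
  generalize s * (1 - 3 * om k) * yh = V at *
  generalize s * y = U at *
  have hσ : 0 ≤ ∑ j ∈ range (nn k + 1),
      (if a.on (some c :: u) i j then (1 / 4 : ℝ) ^ j else 0) :=
    Finset.sum_nonneg fun j _ => by split_ifs <;> positivity
  have h6 : ∑ j ∈ range (nn k + 1), (1 / 4 : ℝ) ^ j * (max 0 (tt k j - V) - max 0 (tt k j - U)) ≤
      7 * om k * ∑ j ∈ range (nn k + 1),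
        (if a.on (some c :: u) i j then (1 / 4 : ℝ) ^ j else 0) := by
    rw [Finset.mul_sum]
    refine Finset.sum_le_sum fun j hj => ?_
    have ht := F.tt_hi j (by have := mem_range.1 hj; omega)
    have hq : (0 : ℝ) < (1 / 4) ^ j := by positivity
    by_cases hV : tt k j ≤ V
    · rw [max_eq_left (by linarith), max_eq_left (by linarith), sub_self, mul_zero]
      split_ifs <;> positivity
    · have hU2 : U ≤ 11 / 10 := by nlinarith
      have hd : U - V ≤ 7 * om k := by nlinarith
      rw [if_pos (hon j (by linarith [F.wd_lo j])), mul_comm (7 * om k)]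
      refine mul_le_mul_of_nonneg_left ?_ hq.le
      rw [max_eq_right (by linarith)]
      linarith [le_max_right 0 (tt k j - U)]
  rw [ph_sub, div_le_iff₀ (by linarith [F.ZZ_lo])]
  refine h6.trans ?_
  generalize (∑ j ∈ range (nn k + 1),
      (if a.on (some c :: u) i j then (1 / 4 : ℝ) ^ j else 0)) = σ at *
  have h7 : 7 / 2 * 1 ≤ s * (mb k * ZZ k) := mul_le_mul hs F.mb_ZZ (by norm_num) (by linarith)
  nlinarith [mul_nonneg hw.le hσ]

theorem exc_bound (F : Facts k) (hP : a.Post k) (hA : a.Acc k) (B : a.Basic k) (c : L)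
    (u : List (Option L)) :
    0 ≤ a.mx k (ss k a.cl u * (1 - 3 * om k)) (some c :: u) - a.mt k (ss k a.cl u) (some c :: u) ∧
      a.mx k (ss k a.cl u * (1 - 3 * om k)) (some c :: u) - a.mt k (ss k a.cl u) (some c :: u) ≤
        2 * om k * (mb k * ss k a.cl u * a.sg k (some c :: u)) := by
  unfold TS.mx TS.mt TS.sg
  rw [← Finset.sum_sub_distrib, Finset.mul_sum, Finset.mul_sum]
  refine ⟨Finset.sum_nonneg fun i _ => ?_, Finset.sum_le_sum fun i _ => ?_⟩
  · split_ifs with h
    · simp
    · refine sub_nonneg.2 (F.ph_anti ?_)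
      rw [mul_assoc]
      exact mul_le_mul_of_nonneg_left (B.yh_hi' _ i h) (by linarith [B.ss_lo u])
  · split_ifs with h
    · simp
    · exact exc_slot F hP hA B c u i h

end TX

open TX in
theorem xbound (hF : ParamStmt) (hB : BasicStmt) : XStmt := by
  intro k L _ a hk hP hA u z hz
  have F := hF k hk
  have B := hB k L a hk hP hA
  have hs := B.ss_lo u
  have hs' := B.ss_hi u
  have hS := B.SS_nonneg u
  have hw := F.om_pos
  have hw' := F.om_le
  have hm := F.mb_lo
  have hm' := F.mb_hi
  have hexc := fun c => exc_bound F hP hA B c u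
  have hms : 0 ≤ mb k * ss k a.cl u := mul_nonneg (by linarith) (by linarith)
  have h1 : a.Xt k u z ≤ mb k * ss k a.cl u * a.SS k a.y u +
      (∑ c, if a.cl (some c :: u) = 0 then
        a.mx k (ss k a.cl u * (1 - 3 * om k)) (some c :: u) - a.mt k (ss k a.cl u) (some c :: u)
        else 0) := by
    refine max_le (add_nonneg (mul_nonneg hms hS) (Finset.sum_nonneg fun c _ => ?_)) ?_
    · split_ifs
      · exact (hexc c).1
      · exact le_rfl
    · have h2 := slot_sup F hP u (s := ss k a.cl u) (by linarith)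
      refine le_trans (b := ∑ c, (a.dem k c u - a.slot k (ss k a.cl u) (some c :: u))) ?_ ?_
      · rw [Finset.sum_sub_distrib]
        linarith
      · unfold TS.SS
        rw [Finset.mul_sum, ← Finset.sum_add_distrib]
        refine Finset.sum_le_sum fun c _ => ?_
        rw [slot_eq F hP hA _ (by linarith) (by linarith)]
        unfold TS.dem TS.hi TS.lo
        split_ifs
        · linarith
        · linarith [mx_le_mt F B (some c :: u) (s := ss k a.cl u) (by linarith)]
  have h3 : (∑ c, if a.cl (some c :: u) = 0 then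
        a.mx k (ss k a.cl u * (1 - 3 * om k)) (some c :: u) - a.mt k (ss k a.cl u) (some c :: u)
        else 0) ≤ 2 * om k * (mb k * ss k a.cl u * a.SS k a.y u) := by
    unfold TS.SS
    rw [Finset.mul_sum, Finset.mul_sum]
    refine Finset.sum_le_sum fun c _ => ?_
    have hE := mul_nonneg hw.le (mul_nonneg hms (B.EY_nonneg (some c :: u)))
    split_ifs
    · linarith [(hexc c).2]
    · linarith
  have h4 : a.Xt k u z ≤ (1 + 2 * om k) * (mb k * ss k a.cl u * a.SS k a.y u) := by linarith
  refine ⟨h1, hexc, h4, h4.trans ?_⟩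
  rw [← mul_assoc]
  refine mul_le_mul_of_nonneg_right ?_ hS
  have h5 : mb k * ss k a.cl u ≤ 1 * (351 / 100) := mul_le_mul hm' hs' (by linarith) (by norm_num)
  nlinarith

end Vale.Agent.P304
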