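import Vale.Agent.P304.Final
import Vale.Agent.P304.Outer2
import Vale.Agent.P304.Game2
import Vale.Agent.P304.TParam
import Vale.Agent.P304.TBasic
import Vale.Agent.P304.TX
import Vale.Agent.P304.TLight
import Vale.Agent.P304.THeavy
import Vale.Agent.P304.TInv
import Vale.Agent.P304.TPay
import Vale.Agent.P304.TMoveNode
import Vale.Agent.P304.TMoveT
import Vale.Agent.P304.TVLip
import Vale.Agent.P304.TVChild
import Vale.Agent.P304.TVJump
import Vale.Agent.P304.TTs
import Vale.Agent.P304.TTog
import Vale.Agent.P304.TCTog
import Vale.Agent.P304.TD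
import Vale.Agent.P304.TVSum
import Vale.Agent.P304.TA2
import Vale.Agent.P304.EBasic
import Vale.Agent.P304.EGeo
import Vale.Agent.P304.EFar
import Vale.Agent.P304.EStable
import Vale.Agent.P304.EAdd
import Vale.Agent.P304.EScaleK
import Vale.Agent.P304.EPKKT
import Vale.Agent.P304.EPull
import Vale.Agent.P304.EKill
import Vale.Agent.P304.ERec
import Vale.Agent.P304.EStep
import Vale.Agent.P304.EGrid
import Vale.Agent.P304.EOutMove
import Vale.Agent.P304.EPinMove
import Vale.Agent.P304.EMove
import Vale.Agent.P304.ECut
import Vale.Agent.P304.EClock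
import Vale.Agent.P304.ECores
import Vale.Agent.P304.EScaleOne
import Vale.Agent.P304.ESum

namespace Vale.Agent.P304

theorem ta2_final : TA2Stmt :=
  have hB := basic param
  have hX := xbound param hB
  have hL := light param hB hX
  have hI := inv param hB hX hL (heavy param hB hX hL)
  have hP := payS param hB
  have hT := tsS param
  ta2 param hI hT track (moveT hI (moveNode param hB hI hP)) (lamS param hB hP) (ctog param hB hT)
    (dS param track togS) (vsum param hB hT (vlip param)
      (vjump param hB hP (vlip param) xilip (vchild param hB hP)))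

theorem scaleOne2_final : ScaleOne2Stmt :=
  have hO := optS ebasic
  have hK := pkkt ebasic
  have hGr := grid ebasic
  scaleOne2 ebasic geo (cores2 ebasic geo hO
    (step2 ebasic geo (stable ebasic) (addS ebasic) (scaleK ebasic) hO (nearOpt ebasic geo)
      (kill ebasic geo hO) (birth ebasic geo hO) (recS ebasic geo hO))
    (move2 ebasic geo hO (pull ebasic geo hK) (outMove ebasic geo logS hGr)
      (pinMove ebasic geo hK logS hGr) (farS geo)) loS) (cut2 ebasic) clock loS

theorem bayes2 : Bayes2Stmt :=
  bayes_of_game2 (game2 (tree2 ta2_final (tb (round matchTree) derand) parkBound)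
    (scale2 scaleOne2_final) sum2 sums)

end Vale.Agent.P304
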