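import Vale.Agent.P304.Defs

/-! The Bayesian game: a hidden offline trajectory on a finite probability space. -/

namespace Vale.Agent.P304

open Finset
open scoped Classical

/-- A finite prior over (request sequence, offline service).  All servers start at `s0`. -/
structure Game (k : ℕ) (Y Ω : Type) [Fintype Ω] where
  p : Ω → ℝ
  p_pos : ∀ ω, 0 < p ω
  p_sum : ∑ ω, p ω = 1
  s0 : Y
  idx : ℕ → Ω → Fin k
  req : ℕ → Ω → Y

namespace Game

variable {k : ℕ} {Y Ω : Type} [Fintype Ω] (G : Game k Y Ω)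

/-- offline configuration after `t` requests -/
def o : ℕ → Ω → Fin k → Y
  | 0, _ => fun _ => G.s0
  | t + 1, ω => Function.update (o t ω) (G.idx t ω) (G.req t ω)

/-- the first `t` requests, newest first -/
def hist : ℕ → Ω → List Y
  | 0, _ => []
  | t + 1, ω => G.req t ω :: hist t ω

/-- expectation -/
noncomputable def E (X : Ω → ℝ) : ℝ := ∑ ω, G.p ω * X ω

/-- probability of the history `l` -/
noncomputable def mass (l : List Y) : ℝ := ∑ ω, if G.hist l.length ω = l then G.p ω else 0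

/-- posterior weight of `ω` given the history `l` -/
noncomputable def post (l : List Y) (ω : Ω) : ℝ :=
  if G.hist l.length ω = l then G.p ω / G.mass l else 0

/-- conditional expectation given the history `l` -/
noncomputable def ce (l : List Y) (X : Ω → ℝ) : ℝ := ∑ ω, G.post l ω * X ω

/-- histories of positive probability -/
def Reach (l : List Y) : Prop := ∃ ω, G.hist l.length ω = l

/-- offline movement at step `t` -/
noncomputable def ell [MetricSpace Y] (t : ℕ) (ω : Ω) : ℝ :=
  dist (G.o t ω (G.idx t ω)) (G.req t ω)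

/-- expected cost of the policy `A` on the first `T` requests -/
noncomputable def onCost [MetricSpace Y] (A : List Y → Fin k) (T : ℕ) : ℝ :=
  G.E fun ω => cost A (fun _ => G.s0) (G.hist T ω).reverse

/-- posterior expected number of offline servers at `y` (current configuration) -/
noncomputable def nu (l : List Y) (y : Y) : ℝ :=
  G.ce l fun ω => ∑ i, if G.o l.length ω i = y then 1 else 0

/-- posterior expected number of offline servers at `y` just before the last move -/
noncomputable def mu (l : List Y) (y : Y) : ℝ :=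
  G.ce l fun ω => ∑ i, if G.o (l.length - 1) ω i = y then 1 else 0

/-- lazy tracker of the posterior mean of the process `X` -/
noncomputable def trk (X : ℕ → Ω → ℝ) (w δ : ℝ) : List Y → ℝ
  | [] => G.ce [] (X 0)
  | r :: l =>
      if |G.ce (r :: l) (X (l.length + 1)) - trk X w δ l| ≤ w * (trk X w δ l + δ) then
        trk X w δ l
      else G.ce (r :: l) (X (l.length + 1))

@[simp] theorem o_zero (ω : Ω) (i : Fin k) : G.o 0 ω i = G.s0 := rfl

theorem o_succ (t : ℕ) (ω : Ω) :
    G.o (t + 1) ω = Function.update (G.o t ω) (G.idx t ω) (G.req t ω) := rfl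

theorem o_succ_idx (t : ℕ) (ω : Ω) : G.o (t + 1) ω (G.idx t ω) = G.req t ω := by
  simp [o_succ]

theorem o_succ_ne (t : ℕ) (ω : Ω) {i : Fin k} (h : i ≠ G.idx t ω) :
    G.o (t + 1) ω i = G.o t ω i := by
  simp [o_succ, Function.update_of_ne h]

/-- sums over the servers change only at the moving server -/
theorem sum_o_succ (t : ℕ) (ω : Ω) (g : Y → ℝ) :
    ∑ i, g (G.o (t + 1) ω i) =
      ∑ i, g (G.o t ω i) + (g (G.req t ω) - g (G.o t ω (G.idx t ω))) := by
  rw [← Finset.add_sum_erase _ _ (mem_univ (G.idx t ω)),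
    ← Finset.add_sum_erase univ (fun i => g (G.o t ω i)) (mem_univ (G.idx t ω)), o_succ_idx]
  have : ∑ x ∈ univ.erase (G.idx t ω), g (G.o (t + 1) ω x) =
      ∑ x ∈ univ.erase (G.idx t ω), g (G.o t ω x) :=
    Finset.sum_congr rfl fun i hi => by rw [G.o_succ_ne t ω (Finset.ne_of_mem_erase hi)]
  rw [this]; ring

@[simp] theorem hist_zero (ω : Ω) : G.hist 0 ω = [] := rfl

theorem hist_succ (t : ℕ) (ω : Ω) : G.hist (t + 1) ω = G.req t ω :: G.hist t ω := rfl

@[simp] theorem hist_length (t : ℕ) (ω : Ω) : (G.hist t ω).length = t := by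
  induction t with
  | zero => rfl
  | succ t ih => simp [hist_succ, ih]

theorem reach_hist (t : ℕ) (ω : Ω) : G.Reach (G.hist t ω) := ⟨ω, by simp⟩

include G in
theorem nonempty : Nonempty Ω := by
  by_contra h
  have := G.p_sum
  rw [not_nonempty_iff] at h
  simp at this

theorem reach_nil : G.Reach [] := by
  obtain ⟨ω⟩ := G.nonempty
  exact ⟨ω, rfl⟩

theorem reach_tail {r : Y} {l : List Y} (h : G.Reach (r :: l)) : G.Reach l := by
  obtain ⟨ω, h⟩ := h
  simp only [List.length_cons, hist_succ, List.cons.injEq] at h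
  exact ⟨ω, h.2⟩

theorem E_add (X X' : Ω → ℝ) : G.E (fun ω => X ω + X' ω) = G.E X + G.E X' := by
  simp [E, mul_add, Finset.sum_add_distrib]

theorem E_sub (X X' : Ω → ℝ) : G.E (fun ω => X ω - X' ω) = G.E X - G.E X' := by
  simp [E, mul_sub, Finset.sum_sub_distrib]

theorem E_mul (c : ℝ) (X : Ω → ℝ) : G.E (fun ω => c * X ω) = c * G.E X := by
  simp only [E, Finset.mul_sum]; exact Finset.sum_congr rfl fun _ _ => by ring

theorem E_const (c : ℝ) : G.E (fun _ => c) = c := by
  simp [E, ← Finset.sum_mul, G.p_sum]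

theorem E_sum {ι : Type*} (s : Finset ι) (X : ι → Ω → ℝ) :
    G.E (fun ω => ∑ i ∈ s, X i ω) = ∑ i ∈ s, G.E (X i) := by
  simp only [E, Finset.mul_sum]; exact Finset.sum_comm

theorem E_mono {X X' : Ω → ℝ} (h : ∀ ω, X ω ≤ X' ω) : G.E X ≤ G.E X' :=
  Finset.sum_le_sum fun ω _ => mul_le_mul_of_nonneg_left (h ω) (G.p_pos ω).le

theorem E_nonneg {X : Ω → ℝ} (h : ∀ ω, 0 ≤ X ω) : 0 ≤ G.E X :=
  Finset.sum_nonneg fun ω _ => mul_nonneg (G.p_pos ω).le (h ω)

theorem mass_nonneg (l : List Y) : 0 ≤ G.mass l :=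
  Finset.sum_nonneg fun ω _ => by split_ifs; exacts [(G.p_pos ω).le, le_rfl]

theorem mass_pos {l : List Y} (h : G.Reach l) : 0 < G.mass l := by
  obtain ⟨ω, h⟩ := h
  refine Finset.sum_pos' (fun ω _ => by split_ifs; exacts [(G.p_pos ω).le, le_rfl])
    ⟨ω, mem_univ _, ?_⟩
  rw [if_pos h]; exact G.p_pos ω

theorem post_nonneg (l : List Y) (ω : Ω) : 0 ≤ G.post l ω := by
  unfold post; split_ifs
  · exact div_nonneg (G.p_pos ω).le (G.mass_nonneg l)
  · exact le_rfl

theorem hist_of_post_pos {l : List Y} {ω : Ω} (h : 0 < G.post l ω) : G.hist l.length ω = l := by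
  by_contra h'
  simp [post, h'] at h

theorem sum_post {l : List Y} (h : G.Reach l) : ∑ ω, G.post l ω = 1 := by
  have : ∑ ω, G.post l ω = G.mass l / G.mass l := by
    conv_rhs => rw [mass, Finset.sum_div]
    refine Finset.sum_congr rfl fun ω _ => ?_
    unfold post; split_ifs <;> simp [mass]
  rw [this, div_self (G.mass_pos h).ne']

theorem sum_post_le (l : List Y) : ∑ ω, G.post l ω ≤ 1 := by
  by_cases h : G.Reach l
  · exact (G.sum_post h).le
  · have : ∀ ω, G.post l ω = 0 := fun ω => by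
      unfold post; rw [if_neg fun h' => h ⟨ω, h'⟩]
    simp [this]

theorem ce_add (l : List Y) (X X' : Ω → ℝ) :
    G.ce l (fun ω => X ω + X' ω) = G.ce l X + G.ce l X' := by
  simp [ce, mul_add, Finset.sum_add_distrib]

theorem ce_sub (l : List Y) (X X' : Ω → ℝ) :
    G.ce l (fun ω => X ω - X' ω) = G.ce l X - G.ce l X' := by
  simp [ce, mul_sub, Finset.sum_sub_distrib]

theorem ce_mul (l : List Y) (c : ℝ) (X : Ω → ℝ) : G.ce l (fun ω => c * X ω) = c * G.ce l X := by
  simp only [ce, Finset.mul_sum]; exact Finset.sum_congr rfl fun _ _ => by ring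

theorem ce_zero (l : List Y) : G.ce l (fun _ => 0) = 0 := by simp [ce]

theorem ce_const {l : List Y} (h : G.Reach l) (c : ℝ) : G.ce l (fun _ => c) = c := by
  simp [ce, ← Finset.sum_mul, G.sum_post h]

theorem ce_sum {ι : Type*} (l : List Y) (s : Finset ι) (X : ι → Ω → ℝ) :
    G.ce l (fun ω => ∑ i ∈ s, X i ω) = ∑ i ∈ s, G.ce l (X i) := by
  simp only [ce, Finset.mul_sum]; exact Finset.sum_comm

/-- monotonicity: only the outcomes compatible with `l` matter -/
theorem ce_mono {l : List Y} {X X' : Ω → ℝ} (h : ∀ ω, G.hist l.length ω = l → X ω ≤ X' ω) :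
    G.ce l X ≤ G.ce l X' := by
  refine Finset.sum_le_sum fun ω _ => ?_
  by_cases h' : G.hist l.length ω = l
  · exact mul_le_mul_of_nonneg_left (h ω h') (G.post_nonneg l ω)
  · simp [post, h']

theorem ce_congr {l : List Y} {X X' : Ω → ℝ} (h : ∀ ω, G.hist l.length ω = l → X ω = X' ω) :
    G.ce l X = G.ce l X' :=
  le_antisymm (G.ce_mono fun ω h' => (h ω h').le) (G.ce_mono fun ω h' => (h ω h').ge)

theorem ce_nonneg {l : List Y} {X : Ω → ℝ} (h : ∀ ω, G.hist l.length ω = l → 0 ≤ X ω) :
    0 ≤ G.ce l X := by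
  have := G.ce_mono (l := l) (X := fun _ => 0) h
  rwa [ce_zero] at this

theorem ce_le_const {l : List Y} {X : Ω → ℝ} {c : ℝ} (hc : 0 ≤ c)
    (h : ∀ ω, G.hist l.length ω = l → X ω ≤ c) : G.ce l X ≤ c := by
  refine (G.ce_mono (X' := fun _ => c) h).trans ?_
  simp only [ce, ← Finset.sum_mul]
  exact mul_le_of_le_one_left hc (G.sum_post_le l)

theorem exists_of_ce_pos {l : List Y} {X : Ω → ℝ} (h : 0 < G.ce l X) :
    ∃ ω, G.hist l.length ω = l ∧ 0 < X ω := by
  by_contra h'
  push Not at h'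
  have := G.ce_le_const (l := l) (X := X) le_rfl h'
  linarith

/-- tower property; the integrand may depend on the history -/
theorem E_ce (t : ℕ) (X : List Y → Ω → ℝ) :
    G.E (fun ω => G.ce (G.hist t ω) (X (G.hist t ω))) = G.E (fun ω => X (G.hist t ω) ω) := by
  simp only [E, ce, Finset.mul_sum]
  rw [Finset.sum_comm]
  refine Finset.sum_congr rfl fun ω' _ => ?_
  have h1 : ∀ ω, G.p ω * (G.post (G.hist t ω) ω' * X (G.hist t ω) ω') =
      (if G.hist (G.hist t ω').length ω = G.hist t ω' then G.p ω else 0) *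
        (G.p ω' / G.mass (G.hist t ω') * X (G.hist t ω') ω') := by
    intro ω
    simp only [post, hist_length]
    by_cases h : G.hist t ω = G.hist t ω'
    · simp [h]
    · rw [if_neg h, if_neg (Ne.symm h)]; simp
  simp only [h1, ← Finset.sum_mul]
  have := (G.mass_pos (G.reach_hist t ω')).ne'
  change G.mass (G.hist t ω') * _ = _
  field_simp

/-- if a conditional inequality holds on every reachable history, it holds in expectation -/
theorem E_le_of_ce (t : ℕ) (X X' : List Y → Ω → ℝ)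
    (h : ∀ ω, G.ce (G.hist t ω) (X (G.hist t ω)) ≤ G.ce (G.hist t ω) (X' (G.hist t ω))) :
    G.E (fun ω => X (G.hist t ω) ω) ≤ G.E (fun ω => X' (G.hist t ω) ω) := by
  rw [← G.E_ce t X, ← G.E_ce t X']; exact G.E_mono h

theorem nu_nonneg (l : List Y) (y : Y) : 0 ≤ G.nu l y :=
  G.ce_nonneg fun _ _ => Finset.sum_nonneg fun _ _ => by split_ifs <;> norm_num

theorem mu_nonneg (l : List Y) (y : Y) : 0 ≤ G.mu l y :=
  G.ce_nonneg fun _ _ => Finset.sum_nonneg fun _ _ => by split_ifs <;> norm_num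

theorem sum_cnt_mul [Fintype Y] (l : List Y) (C : Ω → Fin k → Y) (g : Y → ℝ) :
    ∑ y, G.ce l (fun ω => ∑ i, if C ω i = y then 1 else 0) * g y =
      G.ce l fun ω => ∑ i, g (C ω i) := by
  have : ∀ y, G.ce l (fun ω => ∑ i, if C ω i = y then 1 else 0) * g y =
      G.ce l (fun ω => ∑ i, if C ω i = y then g y else 0) := by
    intro y
    rw [mul_comm, ← ce_mul]
    refine G.ce_congr fun ω _ => ?_
    rw [Finset.mul_sum]
    exact Finset.sum_congr rfl fun i _ => by split_ifs <;> simp
  simp only [this]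
  rw [← ce_sum]
  refine G.ce_congr fun ω _ => ?_
  rw [Finset.sum_comm]
  exact Finset.sum_congr rfl fun i _ => by simp

theorem sum_nu_mul [Fintype Y] (l : List Y) (g : Y → ℝ) :
    ∑ y, G.nu l y * g y = G.ce l fun ω => ∑ i, g (G.o l.length ω i) :=
  G.sum_cnt_mul l _ g

theorem sum_mu_mul [Fintype Y] (l : List Y) (g : Y → ℝ) :
    ∑ y, G.mu l y * g y = G.ce l fun ω => ∑ i, g (G.o (l.length - 1) ω i) :=
  G.sum_cnt_mul l _ g

theorem sum_nu_le [Fintype Y] (l : List Y) : ∑ y, G.nu l y ≤ k := by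
  have := G.sum_nu_mul l fun _ => 1
  simp only [mul_one] at this
  rw [this]
  exact G.ce_le_const (by positivity) fun _ _ => by simp

theorem sum_mu_le [Fintype Y] (l : List Y) : ∑ y, G.mu l y ≤ k := by
  have := G.sum_mu_mul l fun _ => 1
  simp only [mul_one] at this
  rw [this]
  exact G.ce_le_const (by positivity) fun _ _ => by simp

theorem ell_nonneg [MetricSpace Y] (t : ℕ) (ω : Ω) : 0 ≤ G.ell t ω := dist_nonneg

theorem trk_nonneg {X : ℕ → Ω → ℝ} (w δ : ℝ) (hX : ∀ t ω, 0 ≤ X t ω) (l : List Y) :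
    0 ≤ G.trk X w δ l := by
  induction l with
  | nil => exact G.ce_nonneg fun ω _ => hX _ _
  | cons r l ih =>
    unfold trk; split_ifs
    · exact ih
    · exact G.ce_nonneg fun ω _ => hX _ _

theorem trk_le {X : ℕ → Ω → ℝ} (w δ : ℝ) {K : ℝ} (hK : 0 ≤ K) (hX : ∀ t ω, X t ω ≤ K)
    (l : List Y) : G.trk X w δ l ≤ K := by
  induction l with
  | nil => exact G.ce_le_const hK fun ω _ => hX _ _
  | cons r l ih =>
    unfold trk; split_ifs
    · exact ih
    · exact G.ce_le_const hK fun ω _ => hX _ _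

theorem trk_approx {X : ℕ → Ω → ℝ} {w δ : ℝ} (hw : 0 ≤ w) (hδ : 0 ≤ δ) (hX : ∀ t ω, 0 ≤ X t ω)
    (l : List Y) : |G.ce l (X l.length) - G.trk X w δ l| ≤ w * (G.trk X w δ l + δ) := by
  have h0 := G.trk_nonneg w δ hX l
  cases l with
  | nil =>
    have : G.ce [] (X ([] : List Y).length) - G.trk X w δ [] = 0 := by simp [trk]
    rw [this, abs_zero]; positivity
  | cons r l =>
    by_cases h : |G.ce (r :: l) (X (l.length + 1)) - G.trk X w δ l| ≤ w * (G.trk X w δ l + δ)
    · have : G.trk X w δ (r :: l) = G.trk X w δ l := by rw [trk, if_pos h]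
      rw [this]; exact h
    · have h1 : G.trk X w δ (r :: l) = G.ce (r :: l) (X (l.length + 1)) := by rw [trk, if_neg h]
      have : G.ce (r :: l) (X (r :: l).length) - G.trk X w δ (r :: l) = 0 := by
        rw [h1]; simp
      rw [this, abs_zero]; positivity

theorem trk_jump (X : ℕ → Ω → ℝ) (w δ : ℝ) (r : Y) (l : List Y)
    (h : G.trk X w δ (r :: l) ≠ G.trk X w δ l) :
    w * (G.trk X w δ l + δ) < |G.trk X w δ (r :: l) - G.trk X w δ l| ∧
      G.trk X w δ (r :: l) = G.ce (r :: l) (X (l.length + 1)) := by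
  by_cases h' : |G.ce (r :: l) (X (l.length + 1)) - G.trk X w δ l| ≤ w * (G.trk X w δ l + δ)
  · exact absurd (by rw [trk, if_pos h']) h
  · have h1 : G.trk X w δ (r :: l) = G.ce (r :: l) (X (l.length + 1)) := by rw [trk, if_neg h']
    exact ⟨by rw [h1]; exact not_le.mp h', h1⟩

/-- a constant process is tracked exactly along reachable histories -/
theorem trk_const (c w δ : ℝ) {l : List Y} (h : G.Reach l) :
    G.trk (fun _ _ => c) w δ l = c := by
  induction l with
  | nil => exact G.ce_const h c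
  | cons r l ih =>
    unfold trk; split_ifs
    · exact ih (G.reach_tail h)
    · exact G.ce_const h c

end Game

/-- all lists of length `d` -/
noncomputable def lists (Λ : Type) [Fintype Λ] (d : ℕ) : Finset (List Λ) :=
  (List.finite_length_eq Λ d).toFinset

@[simp] theorem mem_lists {Λ : Type} [Fintype Λ] {d : ℕ} {u : List Λ} :
    u ∈ lists Λ d ↔ u.length = d := by
  simp [lists]

theorem lists_zero (Λ : Type) [Fintype Λ] : lists Λ 0 = {[]} := by
  ext u; simp [List.length_eq_zero_iff]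

theorem sum_lists_succ {Λ : Type} [Fintype Λ] (d : ℕ) (f : List Λ → ℝ) :
    ∑ u ∈ lists Λ (d + 1), f u = ∑ u ∈ lists Λ d, ∑ c, f (c :: u) := by
  rw [← Finset.sum_product']
  symm
  refine Finset.sum_bij (fun x _ => x.2 :: x.1) ?_ ?_ ?_ ?_
  · intro x hx
    simp only [mem_product, mem_lists] at hx
    simp [hx.1]
  · intro x _ y _ h
    simp only [List.cons.injEq] at h
    exact Prod.ext h.2 h.1
  · intro u hu
    cases u with
    | nil => simp at hu
    | cons c u => exact ⟨(u, c), by simpa using hu, rfl⟩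
  · intro x _; rfl

/-- summation by parts against halving weights -/
theorem sum_half_cum (D : ℕ) (Q : ℕ → ℝ) (hQ : ∀ j, 0 ≤ Q j) :
    ∑ d ∈ range D, (1 / 2 : ℝ) ^ d * ∑ j ∈ range (d + 1), Q j ≤
      2 * ∑ j ∈ range D, (1 / 2 : ℝ) ^ j * Q j := by
  have key : ∀ D : ℕ, ∑ d ∈ range D, (1 / 2 : ℝ) ^ d * ∑ j ∈ range (d + 1), Q j +
      2 * (1 / 2 : ℝ) ^ D * ∑ j ∈ range D, Q j = 2 * ∑ j ∈ range D, (1 / 2 : ℝ) ^ j * Q j := by
    intro D
    induction D with
    | zero => simp
    | succ D ih =>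
      rw [Finset.sum_range_succ, Finset.sum_range_succ (fun j => (1 / 2 : ℝ) ^ j * Q j),
        Finset.sum_range_succ Q, mul_add 2, ← ih]
      ring
  have h := key D
  have : 0 ≤ 2 * (1 / 2 : ℝ) ^ D * ∑ j ∈ range D, Q j :=
    mul_nonneg (by positivity) (Finset.sum_nonneg fun j _ => hQ j)
  linarith

end Vale.Agent.P304
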