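import Vale.Agent.P304.GameFin
import Vale.Agent.P304.Sums

namespace Vale.Agent.P304.ScaleOne

open Finset
open scoped Classical

variable {Y : Type} [MetricSpace Y]

/-- active centres in arrival order -/
noncomputable def ctr (M : ℕ) (S : List Y → Finset Y) : List Y → List Y
  | [] => []
  | r :: l =>
      if (∃ a ∈ S (r :: l), dist r a ≤ 9) ∨ (∃ y ∈ ctr M S l, dist r y ≤ 1) then ctr M S l
      else if (ctr M S l).length < M then ctr M S l ++ [r] else [r]

def Keep (M : ℕ) (S : List Y → Finset Y) (r : Y) (l : List Y) : Prop :=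
  (∃ a ∈ S (r :: l), dist r a ≤ 9) ∨ (∃ y ∈ ctr M S l, dist r y ≤ 1)

def Reset (M : ℕ) (S : List Y → Finset Y) (r : Y) (l : List Y) : Prop :=
  ¬ Keep M S r l ∧ ¬ (ctr M S l).length < M

theorem ctr_keep {M : ℕ} {S : List Y → Finset Y} {r : Y} {l : List Y} (h : Keep M S r l) :
    ctr M S (r :: l) = ctr M S l := by
  rw [ctr]; exact if_pos h

theorem ctr_app {M : ℕ} {S : List Y → Finset Y} {r : Y} {l : List Y} (h : ¬ Keep M S r l)
    (h' : (ctr M S l).length < M) : ctr M S (r :: l) = ctr M S l ++ [r] := by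
  rw [ctr]; exact (if_neg h).trans (if_pos h')

theorem ctr_reset {M : ℕ} {S : List Y → Finset Y} {r : Y} {l : List Y} (h : Reset M S r l) :
    ctr M S (r :: l) = [r] := by
  rw [ctr]; exact (if_neg h.1).trans (if_neg h.2)

theorem ctr_length_le {M : ℕ} (hM : 1 ≤ M) (S : List Y → Finset Y) (l : List Y) :
    (ctr M S l).length ≤ M := by
  induction l with
  | nil => simp [ctr]
  | cons r l ih =>
    by_cases h : Keep M S r l
    · rwa [ctr_keep h]
    · by_cases h' : (ctr M S l).length < M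
      · rw [ctr_app h h']; simp; omega
      · rw [ctr_reset ⟨h, h'⟩]; simpa using hM

theorem ctr_cover (M : ℕ) (S : List Y → Finset Y) (r : Y) (l : List Y) :
    (∃ a ∈ S (r :: l), dist r a ≤ 9) ∨ (∃ y ∈ ctr M S (r :: l), dist r y ≤ 1) := by
  by_cases h : Keep M S r l
  · rw [ctr_keep h]; exact h
  · refine Or.inr ⟨r, ?_, by simp⟩
    by_cases h' : (ctr M S l).length < M
    · rw [ctr_app h h']; simp
    · rw [ctr_reset ⟨h, h'⟩]; simp

theorem ctr_ext {M : ℕ} {S : List Y → Finset Y} {r : Y} {l : List Y} (h : ¬ Reset M S r l) :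
    ∃ c', ctr M S (r :: l) = ctr M S l ++ c' := by
  by_cases h1 : Keep M S r l
  · exact ⟨[], by rw [ctr_keep h1]; simp⟩
  · by_cases h' : (ctr M S l).length < M
    · exact ⟨[r], ctr_app h1 h'⟩
    · exact absurd ⟨h1, h'⟩ h

/-- not covered by any centre -/
def Unc (rad : ℕ → ℝ) : ℕ → List Y → Y → Prop
  | _, [], _ => True
  | j, z :: c, y => ¬ dist y z ≤ rad j ∧ Unc rad (j + 1) c y

theorem cov_of_unc {rad : ℕ → ℝ} {y : Y} : ∀ {c : List Y} {j : ℕ}, Unc rad j c y →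
    cov rad j c y = y
  | [], _, _ => rfl
  | _ :: _, _, h => by rw [cov, if_neg h.1]; exact cov_of_unc h.2

theorem cov_append {rad : ℕ → ℝ} {y : Y} (c' : List Y) : ∀ {c : List Y} {j : ℕ},
    ¬ Unc rad j c y → cov rad j (c ++ c') y = cov rad j c y
  | [], _, h => absurd trivial h
  | z :: c, j, h => by
    rw [List.cons_append, cov, cov]
    split_ifs with h1
    · rfl
    · exact cov_append c' fun h2 => h ⟨h1, h2⟩

theorem unc_append {rad : ℕ → ℝ} {y : Y} (c' : List Y) : ∀ {c : List Y} {j : ℕ},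
    Unc rad j (c ++ c') y → Unc rad j c y
  | [], _, _ => trivial
  | _ :: _, _, h => ⟨h.1, unc_append c' h.2⟩

theorem not_unc {rad : ℕ → ℝ} (hr : ∀ j, 2 ≤ rad j) {y z : Y} (hz : dist y z ≤ 2) :
    ∀ {c : List Y} {j : ℕ}, z ∈ c → ¬ Unc rad j c y
  | [], _, h => by simp at h
  | w :: c, j, h => fun h2 => by
    rcases List.mem_cons.mp h with h | h
    · exact h2.1 (h ▸ hz.trans (hr j))
    · exact not_unc hr hz h h2.2

theorem dist_cov_le {rad : ℕ → ℝ} (hr : ∀ j, rad j ≤ 3) (y : Y) : ∀ (c : List Y) (j : ℕ),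
    dist y (cov rad j c y) ≤ 3
  | [], _ => by simp [cov]
  | z :: c, j => by
    rw [cov]
    split_ifs with h
    · exact h.trans (hr j)
    · exact dist_cov_le hr y c (j + 1)

/-- truncated minimum over a list -/
noncomputable def mdg (g : ℝ → ℝ) : List Y → Y → ℝ
  | [], _ => 1
  | z :: c, y => min (g (dist y z)) (mdg g c y)

theorem mdg_le_one (g : ℝ → ℝ) (y : Y) : ∀ c : List Y, mdg g c y ≤ 1
  | [] => le_rfl
  | _ :: c => (min_le_right _ _).trans (mdg_le_one g y c)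

theorem mdg_le (g : ℝ → ℝ) (y : Y) {z : Y} : ∀ {c : List Y}, z ∈ c → mdg g c y ≤ g (dist y z)
  | [], h => by simp at h
  | w :: c, h => by
    rcases List.mem_cons.mp h with h | h
    · exact h ▸ min_le_left _ _
    · exact (min_le_right _ _).trans (mdg_le g y h)

theorem le_mdg (g : ℝ → ℝ) (y : Y) {b : ℝ} (hb : b ≤ 1) : ∀ {c : List Y},
    (∀ z ∈ c, b ≤ g (dist y z)) → b ≤ mdg g c y
  | [], _ => hb
  | w :: _, h => le_min (h w (by simp)) (le_mdg g y hb fun z hz => h z (by simp [hz]))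

theorem mdg_lip (g : ℝ → ℝ) (hg : ∀ s s' e, s ≤ s' + e → 0 ≤ e → g s ≤ g s' + e) (c : List Y)
    (z x : Y) : mdg g c x ≤ mdg g c z + dist z x := by
  have : mdg g c x - dist z x ≤ mdg g c z := by
    refine le_mdg g z (by have := mdg_le_one g x c; have := dist_nonneg (x := z) (y := x); linarith)
      fun a ha => ?_
    have h1 := mdg_le g x ha
    have h2 := hg (dist x a) (dist z a) (dist z x)
      (by have := dist_triangle x z a; rw [dist_comm x z] at this; linarith) dist_nonneg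
    linarith
  linarith

noncomputable def md (c : List Y) (y : Y) : ℝ := mdg id c y

noncomputable def cd (S : Finset Y) (y : Y) : ℝ := mdg (fun s => max 0 (s - 8)) S.toList y

theorem md_nonneg (c : List Y) (y : Y) : 0 ≤ md c y :=
  le_mdg _ _ zero_le_one fun _ _ => dist_nonneg

theorem cd_nonneg (S : Finset Y) (y : Y) : 0 ≤ cd S y :=
  le_mdg _ _ zero_le_one fun _ _ => le_max_left _ _

theorem md_le_one (c : List Y) (y : Y) : md c y ≤ 1 := mdg_le_one _ _ _

theorem cd_le_one (S : Finset Y) (y : Y) : cd S y ≤ 1 := mdg_le_one _ _ _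

theorem md_lip (c : List Y) (z x : Y) : md c x ≤ md c z + dist z x :=
  mdg_lip _ (fun _ _ _ h _ => h) _ _ _

theorem cd_lip (S : Finset Y) (z x : Y) : cd S x ≤ cd S z + dist z x :=
  mdg_lip _ (fun s s' e h he => max_le (by have := le_max_left 0 (s' - 8); linarith)
    (by have := le_max_right 0 (s' - 8); linarith)) _ _ _

theorem md_append (c c' : List Y) (y : Y) : md (c ++ c') y ≤ md c y :=
  le_mdg _ _ (md_le_one _ _) fun z hz => mdg_le id y (by simp [hz])

theorem cd_eq_zero {S : Finset Y} {y a : Y} (ha : a ∈ S) (h : dist y a ≤ 8) : cd S y = 0 := by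
  refine le_antisymm ((mdg_le _ y (Finset.mem_toList.mpr ha)).trans ?_) (cd_nonneg _ _)
  exact max_le le_rfl (by linarith)

theorem cd_rel {S S' Zn : Finset Y} {tag tag' : Y → ℕ} (h : CoreRel S tag S' tag' Zn) {y : Y}
    (hy : y ∉ Zn) : cd S' y ≤ cd S y := by
  refine le_mdg _ _ (cd_le_one _ _) fun a ha => ?_
  rw [Finset.mem_toList] at ha
  by_cases h1 : dist y a ≤ 11
  · obtain ⟨a', ha', -, h2 | h2⟩ := h.fwd y hy a ha h1
    · exact h2 ▸ mdg_le _ y (Finset.mem_toList.mpr ha')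
    · rw [cd_eq_zero ha' (by linarith [h2.2.2])]; exact le_max_left _ _
  · exact (cd_le_one _ _).trans (le_max_of_le_right (by linarith))

noncomputable def aa (c : List Y) (S : Finset Y) (y : Y) : ℝ := md c y * cd S y

theorem aa_nonneg (c : List Y) (S : Finset Y) (y : Y) : 0 ≤ aa c S y :=
  mul_nonneg (md_nonneg _ _) (cd_nonneg _ _)

theorem aa_le_one (c : List Y) (S : Finset Y) (y : Y) : aa c S y ≤ 1 :=
  mul_le_one₀ (md_le_one _ _) (cd_nonneg _ _) (cd_le_one _ _)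

theorem aa_lip (c : List Y) (S : Finset Y) (z x : Y) :
    aa c S x ≤ aa c S z + 2 * min 1 (dist z x) := by
  rcases le_total 1 (dist z x) with h | h
  · rw [min_eq_left h]
    have := aa_le_one c S x
    have := aa_nonneg c S z
    linarith
  · rw [min_eq_right h]
    have h1 := md_lip c z x
    have h2 := cd_lip S z x
    have := md_nonneg c z
    have := cd_nonneg S x
    have := md_le_one c z
    have := cd_le_one S x
    have := dist_nonneg (x := z) (y := x)
    unfold aa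
    nlinarith

theorem aa_rel {S S' Zn : Finset Y} {tag tag' : Y → ℕ} (h : CoreRel S tag S' tag' Zn)
    (c c' : List Y) (y : Y) : aa (c ++ c') S' y ≤ aa c S y + if y ∈ Zn then 1 else 0 := by
  split_ifs with hy
  · have := aa_le_one (c ++ c') S' y
    have := aa_nonneg c S y
    linarith
  · rw [add_zero]
    exact mul_le_mul (md_append _ _ _) (cd_rel h hy) (cd_nonneg _ _) (md_nonneg _ _)

def tg (T n : ℕ) : Fin (T + 1) := ⟨min n T, by omega⟩

noncomputable def lab (T : ℕ) (S : Finset Y) (tag : Y → ℕ) (c : List Y) (R : ℝ) (rad : ℕ → ℝ)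
    (y : Y) : Y ⊕ Fin (T + 1) :=
  if h : ∃ a ∈ S, dist y a ≤ R then Sum.inr (tg T (tag h.choose)) else Sum.inl (cov rad 0 c y)

noncomputable def anc (T : ℕ) (s0 : Y) (S : Finset Y) (tag : Y → ℕ) : Y ⊕ Fin (T + 1) → Y
  | Sum.inl y => y
  | Sum.inr τ => if h : ∃ a ∈ S, tag a = τ then h.choose else s0

theorem core_unique {S : Finset Y} (hS : Sep S) {a a' : Y} (ha : a ∈ S) (ha' : a' ∈ S) (y : Y)
    (h : dist y a ≤ 25) (h' : dist y a' ≤ 25) : a = a' := by
  by_contra hne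
  have := hS a ha a' ha' hne
  have := dist_triangle_left a a' y
  linarith

theorem lab_core {T : ℕ} {S : Finset Y} (hS : Sep S) (tag : Y → ℕ) (c : List Y) {R : ℝ}
    (hR : R ≤ 11) (rad : ℕ → ℝ) {y a : Y} (ha : a ∈ S) (h : dist y a ≤ R) :
    lab T S tag c R rad y = Sum.inr (tg T (tag a)) := by
  have hex : ∃ a ∈ S, dist y a ≤ R := ⟨a, ha, h⟩
  rw [lab, dif_pos hex, core_unique hS hex.choose_spec.1 ha y
    (by linarith [hex.choose_spec.2]) (by linarith)]

theorem lab_base {T : ℕ} {S : Finset Y} (tag : Y → ℕ) (c : List Y) {R : ℝ}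
    (rad : ℕ → ℝ) {y : Y} (h : ¬ ∃ a ∈ S, dist y a ≤ R) :
    lab T S tag c R rad y = Sum.inl (cov rad 0 c y) := by
  rw [lab, dif_neg h]

omit [MetricSpace Y] in
theorem anc_core {T : ℕ} (s0 : Y) {S : Finset Y} {tag : Y → ℕ} (hi : Set.InjOn tag S) {a : Y}
    (ha : a ∈ S) (h : tag a ≤ T) : anc T s0 S tag (Sum.inr (tg T (tag a))) = a := by
  have hex : ∃ a' ∈ S, tag a' = (tg T (tag a) : ℕ) := ⟨a, ha, by simp [tg, h]⟩
  rw [anc, dif_pos hex]
  refine hi hex.choose_spec.1 ha (hex.choose_spec.2.trans ?_)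
  simp [tg, h]

/-- default labelled -/
def Df (S : Finset Y) (c : List Y) (R : ℝ) (rad : ℕ → ℝ) (y : Y) : Prop :=
  (¬ ∃ a ∈ S, dist y a ≤ R) ∧ Unc rad 0 c y

theorem core_iff {S S' Zn : Finset Y} {tag tag' : Y → ℕ} (h : CoreRel S tag S' tag' Zn) {R : ℝ}
    (hR : 10 ≤ R ∧ R ≤ 11) {y : Y} (hy : y ∉ Zn) :
    (∃ a ∈ S, dist y a ≤ R) ↔ ∃ a ∈ S', dist y a ≤ R := by
  constructor
  · rintro ⟨a, ha, h1⟩
    obtain ⟨a', ha', -, h2 | h2⟩ := h.fwd y hy a ha (by linarith [hR.2])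
    · exact ⟨a', ha', h2 ▸ h1⟩
    · exact ⟨a', ha', by linarith [h2.2.2, hR.1]⟩
  · rintro ⟨a', ha', h1⟩
    obtain ⟨a, ha, -, h2 | h2⟩ := h.bwd y hy a' ha' (by linarith [hR.2])
    · exact ⟨a, ha, h2 ▸ h1⟩
    · exact ⟨a, ha, by linarith [h2.2.1, hR.1]⟩

theorem relabel {T : ℕ} {S S' Zn : Finset Y} {tag tag' : Y → ℕ} (hS : Sep S) (hS' : Sep S')
    (h : CoreRel S tag S' tag' Zn) {R : ℝ} (hR : 10 ≤ R ∧ R ≤ 11) (rad : ℕ → ℝ)
    (c c' : List Y) {y : Y} (hy : y ∉ Zn) :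
    (if lab T S tag c R rad y = lab T S' tag' (c ++ c') R rad y then (0 : ℝ) else 1) +
      (if Df S' (c ++ c') R rad y then 1 else 0) ≤ if Df S c R rad y then 1 else 0 := by
  by_cases h1 : ∃ a ∈ S, dist y a ≤ R
  · obtain ⟨a, ha, h2⟩ := h1
    obtain ⟨a', ha', h3, h4⟩ := h.fwd y hy a ha (by linarith [hR.2])
    have h5 : dist y a' ≤ R := by
      rcases h4 with h4 | h4
      · exact h4 ▸ h2
      · linarith [h4.2.2, hR.1]
    rw [lab_core hS tag c hR.2 rad ha h2, lab_core hS' tag' _ hR.2 rad ha' h5, h3, if_pos rfl,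
      if_neg (fun h6 : Df S' (c ++ c') R rad y => h6.1 ⟨a', ha', h5⟩)]
    split_ifs <;> norm_num
  · have h2 : ¬ ∃ a ∈ S', dist y a ≤ R := fun h2 => h1 ((core_iff h hR hy).mpr h2)
    rw [lab_base tag c rad h1, lab_base tag' _ rad h2]
    by_cases h3 : Unc rad 0 c y
    · rw [if_pos (show Df S c R rad y from ⟨h1, h3⟩)]
      by_cases h4 : Unc rad 0 (c ++ c') y
      · rw [cov_of_unc h3, cov_of_unc h4, if_pos rfl]
        split_ifs <;> norm_num
      · rw [if_neg (fun h6 : Df S' (c ++ c') R rad y => h4 h6.2)]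
        split_ifs <;> norm_num
    · rw [cov_append c' h3, if_pos rfl,
        if_neg (fun h6 : Df S' (c ++ c') R rad y => h3 (unc_append c' h6.2))]
      split_ifs <;> norm_num

theorem good {T : ℕ} (s0 : Y) {S S' Zn : Finset Y} {tag tag' : Y → ℕ} (hS : Sep S)
    (hi : Set.InjOn tag S) (hi' : Set.InjOn tag' S') (hT : ∀ a ∈ S, tag a ≤ T)
    (h : CoreRel S tag S' tag' Zn) {R : ℝ} (hR : 10 ≤ R ∧ R ≤ 11) (rad : ℕ → ℝ)
    (c : List Y) {y : Y} (hy : y ∉ Zn) :
    anc T s0 S tag (lab T S tag c R rad y) = anc T s0 S' tag' (lab T S tag c R rad y) ∨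
      (4 * 1 ≤ dist y (anc T s0 S tag (lab T S tag c R rad y)) ∧
        dist y (anc T s0 S' tag' (lab T S tag c R rad y)) ≤ 3 * 1) := by
  by_cases h1 : ∃ a ∈ S, dist y a ≤ R
  · obtain ⟨a, ha, h2⟩ := h1
    obtain ⟨a', ha', h3, h4⟩ := h.fwd y hy a ha (by linarith [hR.2])
    have e : anc T s0 S' tag' (Sum.inr (tg T (tag a))) = a' := by
      rw [h3]; exact anc_core s0 hi' ha' (h3 ▸ hT a ha)
    rw [lab_core hS tag c hR.2 rad ha h2, anc_core s0 hi ha (hT a ha), e]
    rcases h4 with h4 | h4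
    · exact Or.inl h4
    · exact Or.inr ⟨by linarith [h4.1], by linarith [h4.2.2]⟩
  · rw [lab_base tag c rad h1]; exact Or.inl rfl

theorem near {T : ℕ} (s0 : Y) {S : Finset Y} {tag : Y → ℕ} (hS : Sep S)
    (hi : Set.InjOn tag S) (hT : ∀ a ∈ S, tag a ≤ T) {R : ℝ} (hR : 10 ≤ R ∧ R ≤ 11)
    {rad : ℕ → ℝ} (hr : ∀ j, rad j ≤ 3) (c : List Y) (y : Y) :
    dist y (anc T s0 S tag (lab T S tag c R rad y)) ≤ 11 := by
  by_cases h1 : ∃ a ∈ S, dist y a ≤ R
  · obtain ⟨a, ha, h2⟩ := h1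
    rw [lab_core hS tag c hR.2 rad ha h2, anc_core s0 hi ha (hT a ha)]
    linarith [hR.2]
  · rw [lab_base tag c rad h1]
    exact (dist_cov_le hr y c 0).trans (by norm_num)

theorem shift {T : ℕ} (s0 : Y) {S S' Zn : Finset Y} {tag tag' : Y → ℕ} (hS : Sep S)
    (hS' : Sep S') (hi : Set.InjOn tag S) (hi' : Set.InjOn tag' S') (hT : ∀ a ∈ S, tag a ≤ T)
    (hT' : ∀ a ∈ S', tag' a ≤ T) (h : CoreRel S tag S' tag' Zn) {R : ℝ} (hR : 10 ≤ R ∧ R ≤ 11)
    (rad : ℕ → ℝ) (c c' : List Y) (y y' : Y)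
    (hy : lab T S tag c R rad y = lab T S' tag' c' R rad y') :
    dist (anc T s0 S tag (lab T S tag c R rad y)) (anc T s0 S' tag' (lab T S tag c R rad y)) ≤
      50 := by
  by_cases h1 : ∃ a ∈ S, dist y a ≤ R
  · obtain ⟨a, ha, h2⟩ := h1
    by_cases h3 : ∃ a ∈ S', dist y' a ≤ R
    · obtain ⟨a', ha', h4⟩ := h3
      have e1 := lab_core (T := T) hS tag c hR.2 rad ha h2
      have e2 := lab_core (T := T) hS' tag' c' hR.2 rad ha' h4
      have e3 : tag a = tag' a' := by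
        rw [e1, e2] at hy
        have := congrArg Fin.val (Sum.inr.inj hy)
        simpa [tg, hT a ha, hT' a' ha'] using this
      have e4 : anc T s0 S' tag' (Sum.inr (tg T (tag a))) = a' := by
        rw [e3]; exact anc_core s0 hi' ha' (hT' a' ha')
      rw [e1, anc_core s0 hi ha (hT a ha), e4]
      exact h.shift a ha a' ha' e3
    · rw [lab_core hS tag c hR.2 rad ha h2, lab_base tag' c' rad h3] at hy
      exact absurd hy (by simp)
  · rw [lab_base tag c rad h1]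
    simp [anc]

theorem cut_le {T : ℕ} {S : Finset Y} (hS : Sep S) (tag : Y → ℕ) (c : List Y) {R : ℝ}
    (hR : 10 ≤ R ∧ R ≤ 11) (rad : ℕ → ℝ) {z x : Y} (hzx : dist z x ≤ 1) (a0 : Y)
    (h0 : ∀ a ∈ S, dist x a ≤ 12 → a = a0) :
    (if lab T S tag c R rad z = lab T S tag c R rad x then (0 : ℝ) else 1) ≤
      (if (dist x a0 ≤ R ↔ dist z a0 ≤ R) then 0 else 1) +
        if cov rad 0 c x = cov rad 0 c z then 0 else 1 := by
  by_cases h1 : (dist x a0 ≤ R ↔ dist z a0 ≤ R)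
  · rw [if_pos h1, zero_add]
    by_cases h2 : ∃ a ∈ S, dist x a ≤ R
    · obtain ⟨a, ha, h2⟩ := h2
      obtain rfl := h0 a ha (by linarith [hR.2])
      rw [lab_core hS tag c hR.2 rad ha h2, lab_core hS tag c hR.2 rad ha (h1.mp h2), if_pos rfl]
      split_ifs <;> norm_num
    · have h3 : ¬ ∃ a ∈ S, dist z a ≤ R := by
        rintro ⟨a, ha, h3⟩
        have := dist_triangle x z a
        rw [dist_comm x z] at this
        obtain rfl := h0 a ha (by linarith [hR.2])
        exact h2 ⟨a, ha, h1.mpr h3⟩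
      rw [lab_base tag c rad h2, lab_base tag c rad h3]
      by_cases h4 : cov rad 0 c x = cov rad 0 c z
      · rw [h4]; simp
      · rw [if_neg h4]; split_ifs <;> norm_num
  · rw [if_neg h1]; split_ifs <;> norm_num

end Vale.Agent.P304.ScaleOne
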