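import Vale.Agent.P304.Stmts

/-! P304: elementary facts on `serve`. -/

namespace Vale.Agent.P304.ServeAux

open Finset

variable {X : Type*} [MetricSpace X] {k : ℕ}

/-- configuration after serving a list of requests -/
def fin (A : List X → Fin k) : List X → (Fin k → X) → List X → Fin k → X
  | _, C, [] => C
  | past, C, r :: σ => fin A (past ++ [r]) (Function.update C (A (past ++ [r])) r) σ

theorem serve_nonneg (A : List X → Fin k) (σ : List X) :
    ∀ (past : List X) (C : Fin k → X), 0 ≤ serve A past C σ := by
  induction σ with
  | nil => exact fun _ _ => le_rfl
  | cons r σ ih => exact fun _ _ => add_nonneg dist_nonneg (ih _ _)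

theorem cost_nonneg (A : List X → Fin k) (s : Fin k → X) (σ : List X) : 0 ≤ cost A s σ :=
  serve_nonneg A σ _ _

theorem sum_dist_update (C P : Fin k → X) (j : Fin k) (r : X) :
    ∑ i, dist (Function.update C j r i) (P i) + dist (C j) (P j) =
      ∑ i, dist (C i) (P i) + dist r (P j) := by
  rw [← add_sum_erase _ _ (mem_univ j), ← add_sum_erase _ (fun i => dist (C i) (P i)) (mem_univ j),
    Function.update_self, sum_congr rfl (g := fun i => dist (C i) (P i))
      fun i hi => by rw [Function.update_of_ne (ne_of_mem_erase hi)]]
  ring

theorem serve_le (A : List X → Fin k) (σ : List X) : ∀ (past : List X) (C C' : Fin k → X),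
    serve A past C σ ≤ serve A past C' σ + ∑ i, dist (C i) (C' i) := by
  induction σ with
  | nil => exact fun _ _ _ => add_nonneg le_rfl (sum_nonneg fun _ _ => dist_nonneg)
  | cons r σ ih =>
    intro past C C'
    simp only [serve]
    set j := A (past ++ [r])
    have h1 := ih (past ++ [r]) (Function.update C j r) (Function.update C' j r)
    have h2 := sum_dist_update C (Function.update C' j r) j r
    have h3 := sum_dist_update C' C j r
    have h4 := dist_triangle (C j) (C' j) r
    simp only [Function.update_self, dist_self] at h2
    simp only [dist_comm _ (C _)] at h3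
    linarith

theorem serve_append (A : List X → Fin k) (σ τ : List X) : ∀ (past : List X) (C : Fin k → X),
    serve A past C (σ ++ τ) = serve A past C σ + serve A (past ++ σ) (fin A past C σ) τ := by
  induction σ with
  | nil => intro past C; simp [serve, fin]
  | cons r σ ih =>
    intro past C
    simp only [List.cons_append, serve, fin, ih, List.append_assoc, List.nil_append, add_assoc]

omit [MetricSpace X] in
theorem fin_snoc (A : List X → Fin k) (σ : List X) (r : X) : ∀ (past : List X) (C : Fin k → X),
    fin A past C (σ ++ [r]) = Function.update (fin A past C σ) (A (past ++ σ ++ [r])) r := by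
  induction σ with
  | nil => intro past C; simp [fin]
  | cons r' σ ih =>
    intro past C
    simp only [List.cons_append, fin, ih, List.append_assoc, List.nil_append]

theorem serve_snoc (A : List X → Fin k) (σ : List X) (r : X) (past : List X) (C : Fin k → X) :
    serve A past C (σ ++ [r]) =
      serve A past C σ + dist (fin A past C σ (A (past ++ σ ++ [r]))) r := by
  rw [serve_append]
  simp [serve]

theorem cost_le_append (A : List X → Fin k) (s : Fin k → X) (σ τ : List X) :
    cost A s σ ≤ cost A s (σ ++ τ) := by
  unfold cost
  rw [serve_append]
  exact le_add_of_nonneg_right (serve_nonneg _ _ _ _)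

end Vale.Agent.P304.ServeAux
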