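import Vale.Agent.P304.Game

/-! Internal definitions and interface statements for the randomized k-server bound.
See skel/P304/BLUEPRINT.md for the proofs. -/

namespace Vale.Agent.P304

open Finset MeasureTheory
open scoped Classical

/-! ### Part M: from the Bayesian game to the theorem -/

/-- the final statement -/
def MainStmt.{u} : Prop :=
  ∃ C : ℝ, ∀ k : ℕ, 2 ≤ k → ∀ (X : Type u) [MetricSpace X] (s : Fin k → X),
    ∃ (Ω : Type u) (_ : MeasurableSpace Ω) (P : Measure Ω) (_ : IsProbabilityMeasure P)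
      (A : Ω → List X → Fin k) (B : ℝ),
      (∀ l, Measurable fun ω => A ω l) ∧
      ∀ σ : List X, Integrable (fun ω => cost (A ω) s σ) P ∧
        ∫ ω, cost (A ω) s σ ∂P ≤ C * Real.log k ^ 4 * opt s σ + B

/-- deterministic best response against any finite prior on a finite metric space -/
def BayesStmt : Prop :=
  ∃ C : ℝ, 0 ≤ C ∧ ∀ k : ℕ, 2 ≤ k → ∀ (Y : Type) [Fintype Y] [MetricSpace Y] (Ω : Type)
    [Fintype Ω] (p : Ω → ℝ), (∀ ω, 0 ≤ p ω) → ∑ ω, p ω = 1 →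
    ∀ (s : Fin k → Y) (σ : Ω → List Y) (c : Ω → ℕ → Fin k) (y0 : Y), ∃ A : List Y → Fin k,
      ∑ ω, p ω * cost A s (σ ω) ≤ C * Real.log k ^ 4 *
        (∑ ω, p ω * cost (fun l => c ω l.length) s (σ ω) + ∑ i, dist (s i) y0)

/-- the bound in the game -/
def GameStmt : Prop :=
  ∃ C : ℝ, 0 ≤ C ∧ ∀ k : ℕ, 2 ≤ k → ∀ (Y Ω : Type) [Fintype Y] [MetricSpace Y] [Fintype Ω]
    (G : Game k Y Ω) (T : ℕ), ∃ A : List Y → Fin k,
      G.onCost A T ≤ C * Real.log k ^ 4 * G.E fun ω => ∑ t ∈ range T, G.ell t ω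

/-- derandomization of a step by step coupling of virtual states -/
def DerandStmt : Prop :=
  ∀ (k : ℕ) (Y Ω S : Type) [Fintype Y] [MetricSpace Y] [Fintype Ω] [Fintype S]
    (G : Game k Y Ω) (T : ℕ) (pos : List Y → S → Fin k → Y)
    (Bal : List Y → (S → ℝ) → Prop) (c : List Y → ℝ) (S0 : S),
    (∀ i, pos [] S0 i = G.s0) → Bal [] (fun x => if x = S0 then 1 else 0) →
    (∀ t < T, ∀ ω π, Bal (G.hist t ω) π → ∃ γ : S → S → ℝ,
      (∀ x y, 0 ≤ γ x y) ∧ (∀ x, ∑ y, γ x y = π x) ∧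
      Bal (G.hist (t + 1) ω) (fun y => ∑ x, γ x y) ∧
      (∀ x y, 0 < γ x y → ∃ i, pos (G.hist (t + 1) ω) y i = G.req t ω) ∧
      ∑ x, ∑ y, γ x y * ∑ i, dist (pos (G.hist t ω) x i) (pos (G.hist (t + 1) ω) y i) ≤
        c (G.hist (t + 1) ω)) →
    ∃ A : List Y → Fin k, G.onCost A T ≤ G.E fun ω => ∑ t ∈ range T, c (G.hist (t + 1) ω)

/-- movement of the lazy tracker -/
def TrackStmt : Prop :=
  ∀ (k : ℕ) (Y Ω : Type) [Fintype Ω] (G : Game k Y Ω) (X : ℕ → Ω → ℝ) (w δ K : ℝ) (T : ℕ),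
    0 < w → w ≤ 1 → 0 < δ → (∀ t ω, 0 ≤ X t ω) → (∀ t ω, X t ω ≤ K) →
    (∀ ω ω', X 0 ω = X 0 ω') →
    (G.E fun ω => ∑ t ∈ range T,
        |G.trk X w δ (G.hist (t + 1) ω) - G.trk X w δ (G.hist t ω)|) ≤
      4 / w * Real.log ((K + δ) / δ) * G.E fun ω => ∑ t ∈ range T, |X (t + 1) ω - X t ω|

/-! ### Part T: fractional allocation on a tree of label lists -/

/-- soft floor -/
noncomputable def sig (m : ℝ) : ℝ := (⌊m⌋ : ℝ) + 2 * max 0 (Int.fract m - 1 / 2)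

/-- bound on the number of light edges -/
def RR (k : ℕ) : ℕ := 2 * Nat.log 2 k + 4

/-- slot demand with slack level `ρ` -/
noncomputable def hh (k : ℕ) (ρ y : ℝ) : ℝ :=
  max 0 (1 + ρ / (2 * k * RR k) - (4 - ρ / RR k) * y)

/-- tracked data on the tree: `nu u` tracks the mean number of offline servers below `u`,
`yy u i` tracks the probability that at most `i` offline servers are below `u` -/
structure TD (L : Type) where
  nu : List (Option L) → ℝ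
  yy : List (Option L) → ℕ → ℝ

namespace TD

variable {L : Type} [Fintype L]

def Heavy (a : TD L) (c : L) (u : List (Option L)) : Prop :=
  1 / 4 ≤ a.nu (some c :: u) ∧ 3 / 5 * a.nu u < a.nu (some c :: u)

noncomputable def cnt (a : TD L) : List (Option L) → ℕ
  | [] => 0
  | none :: u => cnt a u + 1
  | some c :: u => if a.Heavy c u then cnt a u else cnt a u + 1

noncomputable def lightZ (a : TD L) (k : ℕ) (c : L) (u : List (Option L)) : ℝ :=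
  if a.cnt u + 1 ≤ RR k then
    sig (∑ i ∈ range k, hh k (RR k - a.cnt u - 1 / 2) (a.yy (some c :: u) i))
  else 0

noncomputable def realZ (a : TD L) (k : ℕ) (zu : ℝ) (c : L) (u : List (Option L)) : ℝ :=
  if a.Heavy c u then
    min (zu - ∑ c', if a.Heavy c' u then 0 else a.lightZ k c' u) (2 * a.nu (some c :: u))
  else a.lightZ k c u

/-- fractional allocation; the child `none` holds the parked remainder -/
noncomputable def Z (a : TD L) (k : ℕ) : List (Option L) → ℝ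
  | [] => k
  | some c :: u => a.realZ k (Z a k u) c u
  | none :: u => Z a k u - ∑ c, a.realZ k (Z a k u) c u

structure Good (a : TD L) (k : ℕ) : Prop where
  nu_nonneg : ∀ u, 0 ≤ a.nu u
  z_nonneg : ∀ u, 0 ≤ a.Z k u
  z_le : ∀ c u, a.Z k (some c :: u) ≤ 2 * a.nu (some c :: u)
  z_pos : ∀ c u, 0 < a.Z k (some c :: u) → 1 / 4 ≤ a.nu (some c :: u)
  heavy_unique : ∀ c c' u, a.Heavy c u → a.Heavy c' u → c = c'

theorem Z_cons (a : TD L) (k : ℕ) (u : List (Option L)) : ∑ x, a.Z k (x :: u) = a.Z k u := by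
  rw [Fintype.sum_option]
  simp [Z]

end TD

/-- static properties of the allocation -/
def AllocStmt : Prop :=
  ∀ (k : ℕ) (L Ω : Type) [Fintype L] [Fintype Ω] (a : TD L) (q : Ω → ℝ)
    (N : Ω → List (Option L) → ℕ), 2 ≤ k → (∀ ω, 0 ≤ q ω) → ∑ ω, q ω = 1 →
    (∀ ω, N ω [] = k) → (∀ ω u, ∑ c : L, N ω (some c :: u) = N ω u) →
    (∀ ω u, N ω (none :: u) = 0) →
    (∀ u, 0 ≤ a.nu u) → (∀ u, |∑ ω, q ω * N ω u - a.nu u| ≤ 1 / 20 * (a.nu u + 1 / 8)) →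
    (∀ u i, 0 ≤ a.yy u i) →
    (∀ u i, |∑ ω, q ω * (if N ω u ≤ i then 1 else 0) - a.yy u i| ≤
      1 / (16 * RR k) * (a.yy u i + 1 / k)) →
    a.Good k ∧ ∀ u (j : ℕ), 1 ≤ j → (∀ ω, 0 < q ω → j ≤ N ω u) → (j : ℝ) ≤ a.Z k u

/-- movement of the allocation in one step -/
def MoveStmt : Prop :=
  ∀ (k : ℕ) (L : Type) [Fintype L] (a a' : TD L) (D : ℕ), a.Good k → a'.Good k →
    a'.nu [] = a.nu [] → (∀ u, a'.nu (none :: u) = a.nu (none :: u)) →
    (∀ u, a'.nu u ≠ a.nu u → 1 / 20 * (a.nu u + 1 / 8) < |a'.nu u - a.nu u|) →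
    ∑ d ∈ range D, (1 / 2 : ℝ) ^ d * ∑ u ∈ lists (Option L) (d + 1), |a'.Z k u - a.Z k u| ≤
      400 * ∑ d ∈ range D, (1 / 2 : ℝ) ^ d * ∑ u ∈ lists (Option L) (d + 1),
        (|a'.nu u - a.nu u| + ∑ i ∈ range k, |a'.yy u i - a.yy u i|)

/-- virtual configurations: each server sits at a leaf (label list of length `D`) -/
abbrev Cfg (k : ℕ) (Λ : Type) (D : ℕ) : Type := Fin k → List.Vector Λ D

/-- number of servers below the node `u` (ancestors are suffixes) -/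
noncomputable def cntAt {k D : ℕ} {Λ : Type} (C : Cfg k Λ D) (u : List Λ) : ℕ :=
  (univ.filter fun i => u <:+ (C i).toList).card

/-- ancestor at depth `d` -/
def top {Λ : Type} (d : ℕ) (u : List Λ) : List Λ := u.drop (u.length - d)

/-- tree distance of two leaves -/
noncomputable def tdist {Λ : Type} (D : ℕ) (u v : List Λ) : ℝ :=
  ∑ d ∈ range D, (1 / 2 : ℝ) ^ d * if top (d + 1) u = top (d + 1) v then 0 else 1

/-- consistent fractional allocation -/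
def Cons {Λ : Type} [Fintype Λ] (k D : ℕ) (Z : List Λ → ℝ) : Prop :=
  Z [] = k ∧ (∀ u, 0 ≤ Z u) ∧ ∀ u, u.length < D → ∑ c, Z (c :: u) = Z u

/-- balanced distribution of configurations with mean `Z` -/
def Bal {k D : ℕ} {Λ : Type} [Fintype Λ] (Z : List Λ → ℝ) (π : Cfg k Λ D → ℝ) : Prop :=
  (∀ C, 0 ≤ π C) ∧ ∑ C, π C = 1 ∧
    (∀ C, 0 < π C → ∀ u, u.length ≤ D → ⌊Z u⌋₊ ≤ cntAt C u ∧ cntAt C u ≤ ⌊Z u⌋₊ + 1) ∧
    ∀ u, u.length ≤ D → ∑ C, π C * cntAt C u = Z u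

/-- moving labelled servers to prescribed node counts -/
def MatchStmt : Prop :=
  ∀ (k D : ℕ) (Λ : Type) [Fintype Λ] (C : Cfg k Λ D) (m : List Λ → ℕ), m [] = k →
    (∀ u, u.length < D → ∑ c, m (c :: u) = m u) →
    ∃ C' : Cfg k Λ D, (∀ u, u.length ≤ D → cntAt C' u = m u) ∧
      ∑ i, tdist D (C i).toList (C' i).toList ≤
        ∑ d ∈ range D, (1 / 2 : ℝ) ^ d * ∑ u ∈ lists Λ (d + 1), |(cntAt C u : ℝ) - m u|

/-- online balanced rounding, one step -/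
def RoundStmt : Prop :=
  ∀ (k D : ℕ) (Λ : Type) [Fintype Λ] (Z Z' : List Λ → ℝ) (π : Cfg k Λ D → ℝ),
    Cons k D Z' → Bal Z π → ∃ γ : Cfg k Λ D → Cfg k Λ D → ℝ,
      (∀ C C', 0 ≤ γ C C') ∧ (∀ C, ∑ C', γ C C' = π C) ∧ Bal Z' (fun C' => ∑ C, γ C C') ∧
      ∑ C, ∑ C', γ C C' * ∑ i, tdist D (C i).toList (C' i).toList ≤
        7 * ∑ d ∈ range D, (1 / 2 : ℝ) ^ d * ∑ u ∈ lists Λ (d + 1), |Z' u - Z u|

/-- scale of level `d` -/
noncomputable def rho (W : ℝ) (d : ℕ) : ℝ := W / 2 ^ (d + 1)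

/-- node of depth `d` of the point `y` at the history `l` -/
def path {Y L : Type} (lab : ℕ → List Y → Y → L) (l : List Y) (y : Y) : ℕ → List (Option L)
  | 0 => []
  | d + 1 => some (lab d l y) :: path lab l y d

/-- real position of a node -/
def pos {Y L : Type} (s0 : Y) (anc : ℕ → List Y → L → Y) (l : List Y) : List (Option L) → Y
  | [] => s0
  | none :: u => pos s0 anc l u
  | some c :: u => anc u.length l c

namespace Game

variable {k : ℕ} {Y Ω L : Type} [Fintype Ω] (G : Game k Y Ω)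

/-- number of offline servers below the node `u` at time `t` -/
noncomputable def NN (lab : ℕ → List Y → Y → L) (t : ℕ) (ω : Ω) (u : List (Option L)) : ℕ :=
  (univ.filter fun i => path lab (G.hist t ω) (G.o t ω i) u.length = u).card

/-- number of offline servers whose label changes at step `t` -/
noncomputable def lchg (lab : List Y → Y → L) (t : ℕ) (ω : Ω) : ℝ :=
  ∑ i, if lab (G.hist t ω) (G.o t ω i) = lab (G.hist (t + 1) ω) (G.o (t + 1) ω i) then 0 else 1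

/-- number of offline servers whose anchor shifts without moving towards them -/
noncomputable def lbad [MetricSpace Y] (lab : List Y → Y → L) (anc : List Y → L → Y) (ρ : ℝ)
    (t : ℕ) (ω : Ω) : ℝ :=
  ∑ i, if anc (G.hist t ω) (lab (G.hist t ω) (G.o t ω i)) =
        anc (G.hist (t + 1) ω) (lab (G.hist t ω) (G.o t ω i)) ∨
      (4 * ρ ≤ dist (G.o t ω i) (anc (G.hist t ω) (lab (G.hist t ω) (G.o t ω i))) ∧
        dist (G.o t ω i) (anc (G.hist (t + 1) ω) (lab (G.hist t ω) (G.o t ω i))) ≤ 3 * ρ)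
    then 0 else 1

noncomputable def chg [MetricSpace Y] (lab : List Y → Y → L) (anc : List Y → L → Y) (ρ : ℝ)
    (t : ℕ) (ω : Ω) : ℝ :=
  G.lchg lab t ω + G.lbad lab anc ρ t ω

end Game

/-- properties of the allocation process `Zf` and the mass tracker `nf` -/
structure ZProps {k : ℕ} {Y Ω L : Type} [Fintype Ω] [Fintype L] (G : Game k Y Ω)
    (lab : ℕ → List Y → Y → L) (Zf nf : List Y → List (Option L) → ℝ) : Prop where
  z_root : ∀ l, Zf l [] = k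
  z_cons : ∀ l u, ∑ x, Zf l (x :: u) = Zf l u
  z_nonneg : ∀ l, G.Reach l → ∀ u, 0 ≤ Zf l u
  n_nonneg : ∀ l u, 0 ≤ nf l u
  z_le : ∀ l, G.Reach l → ∀ c u, Zf l (some c :: u) ≤ 2 * nf l (some c :: u)
  z_pos : ∀ l, G.Reach l → ∀ c u, 0 < Zf l (some c :: u) → 1 / 4 ≤ nf l (some c :: u)
  n_approx : ∀ l u, |G.ce l (fun ω => G.NN lab l.length ω u) - nf l u| ≤ 1 / 20 * (nf l u + 1 / 8)
  z_req : ∀ r l, G.Reach (r :: l) → ∀ d, 1 ≤ Zf (r :: l) (path lab (r :: l) r d)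
  z_init : ∀ d, (k : ℝ) ≤ Zf [] (path lab [] G.s0 d)

/-- weighted movement of the allocation and of the mass tracker -/
noncomputable def mvZ {Y L : Type} [Fintype L] (D : ℕ) (Zf nf : List Y → List (Option L) → ℝ)
    (l l' : List Y) : ℝ :=
  ∑ d ∈ range D, (1 / 2 : ℝ) ^ d * ∑ u ∈ lists (Option L) (d + 1),
    (|Zf l' u - Zf l u| + |nf l' u - nf l u|)

/-- weighted parked mass at nodes whose anchor shifts -/
noncomputable def park {Y L : Type} [Fintype L] (D : ℕ) (anc : ℕ → List Y → L → Y)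
    (Zf : List Y → List (Option L) → ℝ) (l l' : List Y) : ℝ :=
  ∑ d ∈ range (D - 1), (1 / 2 : ℝ) ^ d * ∑ w ∈ lists (Option L) d, ∑ c : L,
    if anc d l c = anc d l' c then 0 else Zf l' (none :: some c :: w)

/-- geometric properties of the dynamic labelling -/
structure Emb {Y L : Type} [MetricSpace Y] (T D : ℕ) (W : ℝ) (lab : ℕ → List Y → Y → L)
    (anc : ℕ → List Y → L → Y) : Prop where
  D_pos : 0 < D
  W_pos : 0 < W
  diam : ∀ y y' : Y, dist y y' ≤ W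
  near : ∀ d < D, ∀ l : List Y, l.length ≤ T → ∀ y,
    dist y (anc d l (lab d l y)) ≤ 11 * rho W d
  shift : ∀ d < D, ∀ r (l : List Y), l.length < T → ∀ y y', lab d l y = lab d (r :: l) y' →
    dist (anc d l (lab d l y)) (anc d (r :: l) (lab d l y)) ≤ 50 * rho W d
  last : ∀ l y, anc (D - 1) l (lab (D - 1) l y) = y
  static : ∀ l l' c, anc (D - 1) l c = anc (D - 1) l' c

/-- the allocation process exists and moves little -/
def TAStmt : Prop :=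
  ∃ C : ℝ, 0 ≤ C ∧ ∀ k : ℕ, 2 ≤ k → ∀ (Y Ω L : Type) [Fintype Ω] [Fintype L] (G : Game k Y Ω)
    (lab : ℕ → List Y → Y → L) (T D : ℕ), ∃ Zf nf, ZProps G lab Zf nf ∧
      (G.E fun ω => ∑ t ∈ range T, mvZ D Zf nf (G.hist t ω) (G.hist (t + 1) ω)) ≤
        C * Real.log k ^ 2 *
          G.E fun ω => ∑ t ∈ range T, ∑ d ∈ range D, (1 / 2 : ℝ) ^ d * G.lchg (lab d) t ω

/-- from the allocation process to a policy -/
def TBStmt : Prop :=
  ∀ (k : ℕ) (Y Ω L : Type) [Fintype Y] [MetricSpace Y] [Fintype Ω] [Fintype L] (G : Game k Y Ω)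
    (T D : ℕ) (W : ℝ) (lab : ℕ → List Y → Y → L) (anc : ℕ → List Y → L → Y)
    (Zf nf : List Y → List (Option L) → ℝ), Emb T D W lab anc → ZProps G lab Zf nf →
    ∃ A : List Y → Fin k, G.onCost A T ≤ 700 * W * G.E fun ω => ∑ t ∈ range T,
      (mvZ D Zf nf (G.hist t ω) (G.hist (t + 1) ω) +
        park D anc Zf (G.hist t ω) (G.hist (t + 1) ω))

/-- the parking potential -/
def ParkStmt : Prop :=
  ∃ C : ℝ, 0 ≤ C ∧ ∀ k : ℕ, 2 ≤ k → ∀ (Y Ω L : Type) [MetricSpace Y] [Fintype Ω] [Fintype L]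
    (G : Game k Y Ω) (T D : ℕ) (W : ℝ) (lab : ℕ → List Y → Y → L) (anc : ℕ → List Y → L → Y)
    (Zf nf : List Y → List (Option L) → ℝ), 0 < W → ZProps G lab Zf nf →
    W * (G.E fun ω => ∑ t ∈ range T, park D anc Zf (G.hist t ω) (G.hist (t + 1) ω)) ≤
      C * (W * (G.E fun ω => ∑ t ∈ range T, mvZ D Zf nf (G.hist t ω) (G.hist (t + 1) ω)) +
        (G.E fun ω => ∑ t ∈ range T, ∑ d ∈ range D,
          rho W d * G.chg (lab d) (anc d) (rho W d) t ω) +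
        Real.log k * G.E fun ω => ∑ t ∈ range T, G.ell t ω)

/-- the tree theorem -/
def TreeStmt : Prop :=
  ∃ C : ℝ, 0 ≤ C ∧ ∀ k : ℕ, 2 ≤ k → ∀ (Y Ω L : Type) [Fintype Y] [MetricSpace Y] [Fintype Ω]
    [Fintype L] (G : Game k Y Ω) (T D : ℕ) (W : ℝ) (lab : ℕ → List Y → Y → L)
    (anc : ℕ → List Y → L → Y), Emb T D W lab anc →
    ∃ A : List Y → Fin k, G.onCost A T ≤
      C * Real.log k ^ 2 * ((G.E fun ω => ∑ t ∈ range T, ∑ d ∈ range D,
          rho W d * G.chg (lab d) (anc d) (rho W d) t ω) +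
        G.E fun ω => ∑ t ∈ range T, G.ell t ω)

/-! ### Part E: the labelling at one scale -/

noncomputable def ff (s : ℝ) : ℝ := min (s ^ 2) (32768 / s)

noncomputable def psi (s : ℝ) : ℝ := min s (1 / s)

noncomputable def chi (s : ℝ) : ℝ := max 0 (min 1 (11 - s))

/-- concentration index; `dx y` is the (scaled) distance of `y` to the request -/
noncomputable def qq {Y : Type} [Fintype Y] (μ dx : Y → ℝ) : ℝ :=
  if 1 / 2 ≤ ∑ y, μ y * chi (dx y) then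
    min 1 ((∑ y, μ y * psi (dx y)) / ∑ y, μ y * chi (dx y))
  else 0

section Cores

variable {Y : Type} [Fintype Y] [MetricSpace Y]

noncomputable def mm (μ : Y → ℝ) (a : Y) : ℝ := ∑ y, μ y * chi (dist y a)

noncomputable def FF (μ : Y → ℝ) (b : Y) : ℝ := ∑ y, μ y * ff (dist y b)

theorem exists_bst (μ : Y → ℝ) (a : Y) : ∃ b, dist a b ≤ 8 ∧
    ∀ b', dist a b' ≤ 8 → (1 + dist a b) * FF μ b ≤ (1 + dist a b') * FF μ b' := by
  obtain ⟨b, hb, h⟩ := Finset.exists_min_image (univ.filter fun b => dist a b ≤ 8)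
    (fun b => (1 + dist a b) * FF μ b) ⟨a, by simp⟩
  exact ⟨b, by simpa using hb, fun b' hb' => h b' (by simpa using hb')⟩

/-- best centre near `a` -/
noncomputable def bst (μ : Y → ℝ) (a : Y) : Y := (exists_bst μ a).choose

theorem bst_dist (μ : Y → ℝ) (a : Y) : dist a (bst μ a) ≤ 8 := (exists_bst μ a).choose_spec.1

noncomputable def WW (μ : Y → ℝ) (a : Y) : ℝ := (1 + dist a (bst μ a)) * FF μ (bst μ a)

theorem WW_le (μ : Y → ℝ) (a b : Y) (h : dist a b ≤ 8) : WW μ a ≤ (1 + dist a b) * FF μ b :=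
  (exists_bst μ a).choose_spec.2 b h

def Valid (μ : Y → ℝ) (a : Y) : Prop := 1 / 4 ≤ mm μ a ∧ WW μ a ≤ mm μ a / 4

def Hvy (μ : Y → ℝ) (x : Y) : Prop := 1 / 2 ≤ mm μ x ∧ FF μ x ≤ mm μ x / 50

/-- potential of one core -/
noncomputable def th (μ : Y → ℝ) (a : Y) : ℝ := 40 * WW μ a - 8 * mm μ a + 3

/-- change of the core potential when one unit of mass moves from `z` to `x` -/
noncomputable def mvc (μ : Y → ℝ) (S : Finset Y) (z x : Y) : ℝ :=
  ∑ a ∈ S, (40 * (1 + dist a (bst μ a)) * (ff (dist x (bst μ a)) - ff (dist z (bst μ a))) -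
    8 * (chi (dist x a) - chi (dist z a)))

end Cores

def Sep {Y : Type} [MetricSpace Y] (S : Finset Y) : Prop :=
  ∀ a ∈ S, ∀ a' ∈ S, a ≠ a' → 50 < dist a a'

/-- how the tagged cores `(S, tag)` evolve into `(S', tag')` outside the zone `Zn` -/
structure CoreRel {Y : Type} [MetricSpace Y] (S : Finset Y) (tag : Y → ℕ) (S' : Finset Y)
    (tag' : Y → ℕ) (Zn : Finset Y) : Prop where
  shift : ∀ a ∈ S, ∀ a' ∈ S', tag a = tag' a' → dist a a' ≤ 50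
  fwd : ∀ y, y ∉ Zn → ∀ a ∈ S, dist y a ≤ 11 → ∃ a' ∈ S', tag a = tag' a' ∧
    (a = a' ∨ (4 ≤ dist y a ∧ dist y a ≤ 9 ∧ dist y a' ≤ 3))
  bwd : ∀ y, y ∉ Zn → ∀ a' ∈ S', dist y a' ≤ 11 → ∃ a ∈ S, tag a = tag' a' ∧
    (a = a' ∨ (4 ≤ dist y a ∧ dist y a ≤ 9 ∧ dist y a' ≤ 3))

/-- one update of the cores: kill, birth, recentre -/
def CoreStepStmt : Prop :=
  ∀ (Y : Type) [Fintype Y] [MetricSpace Y] (μ : Y → ℝ) (S : Finset Y) (tag : Y → ℕ) (x : Y)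
    (n : ℕ), (∀ y, 0 ≤ μ y) → Sep S → Set.InjOn tag S → (∀ a ∈ S, tag a < n) →
    ∃ (S' : Finset Y) (tag' : Y → ℕ) (Zn : Finset Y), Sep S' ∧ Set.InjOn tag' S' ∧
      (∀ a ∈ S', tag' a ≤ n) ∧ (∀ a ∈ S', Valid μ a) ∧ (Hvy μ x → ∃ a ∈ S', dist x a ≤ 7) ∧
      CoreRel S tag S' tag' Zn ∧ ∑ a ∈ S', th μ a + ∑ y ∈ Zn, μ y ≤ ∑ a ∈ S, th μ a

def MoveGenStmt : Prop :=
  ∃ C : ℝ, 0 ≤ C ∧ ∀ k : ℕ, 2 ≤ k → ∀ (Y : Type) [Fintype Y] [MetricSpace Y] (μ : Y → ℝ)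
    (S : Finset Y) (z x : Y), (∀ y, 0 ≤ μ y) → ∑ y, μ y ≤ k → Sep S → (∀ a ∈ S, Valid μ a) →
    mvc μ S z x ≤ C * Real.log k * min 1 (dist z x)

def MoveHvyStmt : Prop :=
  ∃ C : ℝ, 0 ≤ C ∧ ∀ (Y : Type) [Fintype Y] [MetricSpace Y] (μ : Y → ℝ)
    (S : Finset Y) (z x : Y), (∀ y, 0 ≤ μ y) → Sep S → (∀ a ∈ S, Valid μ a) → Hvy μ x →
    (∃ a ∈ S, dist x a ≤ 7) → dist z x ≤ 1 →
    mvc μ S z x ≤ C * (dist z x * qq μ fun y => dist y x)

namespace Game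

variable {k : ℕ} {Y Ω : Type} [Fintype Y] [MetricSpace Y] [Fintype Ω] (G : Game k Y Ω)

/-- what step `t` may be charged at scale `ρ` -/
noncomputable def charge (ρ : ℝ) (t : ℕ) (ω : Ω) : ℝ :=
  min 1 ((G.ell t ω / ρ) ^ 2) +
    G.ell t ω / ρ * qq (G.mu (G.hist (t + 1) ω)) fun y => dist y (G.req t ω) / ρ

end Game

def NonHvyStmt : Prop :=
  ∃ C : ℝ, 0 ≤ C ∧ ∀ (k : ℕ) (Y Ω : Type) [Fintype Y] [MetricSpace Y] [Fintype Ω]
    (G : Game k Y Ω) (t : ℕ),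
    (G.E fun ω => if Hvy (G.mu (G.hist (t + 1) ω)) (G.req t ω) then 0 else min 1 (G.ell t ω)) ≤
      C * G.E (G.charge 1 t)

/-- the core process -/
def CoresStmt : Prop :=
  ∃ C : ℝ, 0 ≤ C ∧ ∀ k : ℕ, 2 ≤ k → ∀ (Y Ω : Type) [Fintype Y] [MetricSpace Y] [Fintype Ω]
    (G : Game k Y Ω) (T : ℕ), ∃ (S : List Y → Finset Y) (tag : List Y → Y → ℕ)
      (Zn : List Y → Finset Y), S [] = {G.s0} ∧ (∀ l, Sep (S l)) ∧
      (∀ l, Set.InjOn (tag l) (S l)) ∧ (∀ l, ∀ a ∈ S l, tag l a ≤ l.length) ∧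
      (∀ r l, CoreRel (S l) (tag l) (S (r :: l)) (tag (r :: l)) (Zn (r :: l))) ∧
      (∀ r l, Hvy (G.mu (r :: l)) r → ∃ a ∈ S (r :: l), dist r a ≤ 7) ∧
      (G.E fun ω => ∑ t ∈ range T, ∑ i, if G.o t ω i ∈ Zn (G.hist (t + 1) ω) then 1 else 0) ≤
        C * Real.log k * G.E fun ω => ∑ t ∈ range T, G.charge 1 t ω

/-- first centre of the list (the `j`-th entry has radius `rad j`) covering `y`; default `y` -/
noncomputable def cov {Y : Type} [MetricSpace Y] (rad : ℕ → ℝ) : ℕ → List Y → Y → Y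
  | _, [], y => y
  | j, z :: c, y => if dist y z ≤ rad j then z else cov rad (j + 1) c y

/-- a law of radii with small cut probabilities -/
def CutStmt : Prop :=
  ∀ (M : ℕ) (η : ℝ), 1 ≤ M → 0 < η → ∃ (Ξ : Type) (_ : Fintype Ξ) (w R : Ξ → ℝ)
    (rad : Ξ → ℕ → ℝ), (∀ ξ, 0 ≤ w ξ) ∧ ∑ ξ, w ξ = 1 ∧ (∀ ξ, 10 ≤ R ξ ∧ R ξ ≤ 11) ∧
    (∀ ξ j, 2 ≤ rad ξ j ∧ rad ξ j ≤ 3) ∧
    (∀ a b e : ℝ, η ≤ e → |a - b| ≤ e →
      ∑ ξ, w ξ * (if (a ≤ R ξ ↔ b ≤ R ξ) then 0 else 1) ≤ 8 * Real.log (M + 1) * e) ∧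
    ∀ (Y : Type) [MetricSpace Y] (c : List Y) (x z : Y), c.length ≤ M → η ≤ dist x z →
      (∃ y ∈ c, dist x y ≤ 2 ∧ dist z y ≤ 2) →
      ∑ ξ, w ξ * (if cov (rad ξ) 0 c x = cov (rad ξ) 0 c z then 0 else 1) ≤
        8 * Real.log (M + 1) * dist x z

/-- the labelling at unit scale -/
def ScaleOneStmt : Prop :=
  ∃ C : ℝ, 0 ≤ C ∧ ∀ k : ℕ, 2 ≤ k → ∀ (Y Ω : Type) [Fintype Y] [MetricSpace Y] [Fintype Ω]
    (G : Game k Y Ω) (T : ℕ), ∃ (lab : List Y → Y → Y ⊕ Fin (T + 1))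
      (anc : List Y → Y ⊕ Fin (T + 1) → Y),
      (∀ l : List Y, l.length ≤ T → ∀ y, dist y (anc l (lab l y)) ≤ 11) ∧
      (∀ r (l : List Y), l.length < T → ∀ y y', lab l y = lab (r :: l) y' →
        dist (anc l (lab l y)) (anc (r :: l) (lab l y)) ≤ 50) ∧
      (G.E fun ω => ∑ t ∈ range T, G.chg lab anc 1 t ω) ≤
        C * Real.log k * G.E fun ω => ∑ t ∈ range T, G.charge 1 t ω

/-- the labelling at scale `ρ` -/
def ScaleStmt : Prop :=
  ∃ C : ℝ, 0 ≤ C ∧ ∀ k : ℕ, 2 ≤ k → ∀ (Y Ω : Type) [Fintype Y] [MetricSpace Y] [Fintype Ω]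
    (G : Game k Y Ω) (T : ℕ) (ρ : ℝ), 0 < ρ → ∃ (lab : List Y → Y → Y ⊕ Fin (T + 1))
      (anc : List Y → Y ⊕ Fin (T + 1) → Y),
      (∀ l : List Y, l.length ≤ T → ∀ y, dist y (anc l (lab l y)) ≤ 11 * ρ) ∧
      (∀ r (l : List Y), l.length < T → ∀ y y', lab l y = lab (r :: l) y' →
        dist (anc l (lab l y)) (anc (r :: l) (lab l y)) ≤ 50 * ρ) ∧
      (G.E fun ω => ∑ t ∈ range T, G.chg lab anc ρ t ω) ≤
        C * Real.log k * G.E fun ω => ∑ t ∈ range T, G.charge ρ t ω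

/-- sums over the scales -/
def SumStmt : Prop :=
  (∀ (Y : Type) [Fintype Y] (μ dx : Y → ℝ) (K W : ℝ) (D : ℕ), (∀ y, 0 ≤ μ y) →
    (∀ y, 0 ≤ dx y) → ∑ y, μ y ≤ K → 0 < W →
    ∑ d ∈ range D, qq μ (fun y => dx y / rho W d) ≤ 36 * Real.log (24 * K + 1)) ∧
  ∀ (e W : ℝ) (D : ℕ), 0 ≤ e → 0 < W →
    ∑ d ∈ range D, rho W d * min 1 ((e / rho W d) ^ 2) ≤ 6 * e

end Vale.Agent.P304
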