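import Vale.Agent.P304.Stmts

/-! Part II of the log squared bound: an allocation on the tree that moves only `O(log k)` times
the offline movement.  Definitions and interface statements; see skel/P304/BLUEPRINT2.md. -/

namespace Vale.Agent.P304

open Finset
open scoped Classical

/-! ### Parameters -/

def el (k : ℕ) : ℕ := Nat.log 2 k + 4

noncomputable def om (k : ℕ) : ℝ := 1 / (10 ^ 6 * el k)

/-- classes are `0` (heavy), `1 .. jm k + 1` (light), `jm k + 2` (dead) -/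
def jm (k : ℕ) : ℕ := Nat.clog 2 (el k)

def nn (k : ℕ) : ℕ := 5 * el k + 10

noncomputable def wd (k j : ℕ) : ℝ := max (1 / 100 * (1 / 2) ^ j) (30 * om k)

noncomputable def tt (k j : ℕ) : ℝ := 1 + ∑ i ∈ range j, wd k i

noncomputable def ZZ (k : ℕ) : ℝ := ∑ j ∈ range (nn k + 1), (1 / 4) ^ j * tt k j

noncomputable def mb (k : ℕ) : ℝ := (∑ j ∈ range (nn k + 1), (1 / 4 : ℝ) ^ j) / ZZ k

/-- convex decreasing demand of one slot -/
noncomputable def ph (k : ℕ) (u : ℝ) : ℝ :=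
  (∑ j ∈ range (nn k + 1), (1 / 4) ^ j * max 0 (tt k j - u)) / ZZ k

noncomputable def tlo (i : ℕ) : ℝ := if i = 0 then 3 / 2 else 2 ^ (2 ^ (i - 1))

noncomputable def thi (i : ℕ) : ℝ := if i = 0 then 9 / 5 else 2 ^ (2 ^ i)

noncomputable def eta (j : ℕ) : ℝ := 2 ^ j / 2

noncomputable def tht (j : ℕ) : ℝ := 1 / (1800 * eta j * thi j)

/-- light classes -/
def Lt (k j : ℕ) : Prop := 1 ≤ j ∧ j ≤ jm k + 1

noncomputable def gl (k j : ℕ) : ℝ := if Lt k j then 1 / thi j else 0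

noncomputable def ssf (k : ℕ) (x : ℝ) : ℝ := 7 / 2 * Real.exp (om k * x)

noncomputable def eef (k : ℕ) (x : ℝ) : ℝ := k * (1 / 4) ^ nn k * Real.exp (x / 4)

/-- price of a class change from `j` to `j'`; `A` is the new mass of the parent and `B` the new
mass of the child -/
noncomputable def pay (k j j' : ℕ) (A B : ℝ) : ℝ :=
  if j < j' then A / thi j else if j' < j then B * ((1 / 2) ^ j' + 2 ^ j / el k) else 0

/-- numerical facts about the parameters -/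
structure Facts (k : ℕ) : Prop where
  el_ge : 5 ≤ el k
  el_le : (el k : ℝ) ≤ 8 * Real.log k
  pow_el : 8 * (k : ℝ) ≤ 2 ^ el k
  pow_el' : (2 : ℝ) ^ el k ≤ 16 * k
  jm_lo : (el k : ℝ) ≤ 2 ^ jm k
  jm_hi : (2 : ℝ) ^ jm k ≤ 2 * el k
  om_pos : 0 < om k
  om_el : om k * el k = 1 / 10 ^ 6
  om_le : om k ≤ 1 / 10 ^ 6
  om_eta : ∀ j, j ≤ jm k + 2 → om k * eta j ≤ 1 / 10 ^ 5
  wd_lo : ∀ j, 30 * om k ≤ wd k j
  wd_lo' : ∀ j, 1 / 100 * (1 / 2) ^ j ≤ wd k j
  wd_hi : ∀ j, wd k j ≤ 1 / 100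
  tt_succ : ∀ j, tt k (j + 1) = tt k j + wd k j
  tt_lo : ∀ j, 1 ≤ tt k j
  tt_hi : ∀ j, j ≤ nn k + 1 → tt k j ≤ 103 / 100
  ZZ_lo : 1 ≤ ZZ k
  ZZ_hi : ZZ k ≤ 138 / 100
  mb_ZZ : 1 ≤ mb k * ZZ k
  mb_lo : 97 / 100 ≤ mb k
  mb_hi : mb k ≤ 1
  quarter : ∑ j ∈ range (nn k + 1), (1 / 4 : ℝ) ^ j ≤ 4 / 3
  ph_anti : Antitone (ph k)
  ph_nonneg : ∀ u : ℝ, 0 ≤ ph k u
  ph_lin : ∀ u : ℝ, u ≤ 1 → ph k u = 1 - mb k * u
  ph_le : ∀ u : ℝ, 0 ≤ u → ph k u ≤ 1
  ph_zero : ∀ u : ℝ, 103 / 100 ≤ u → ph k u = 0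
  ph_lip : ∀ u v : ℝ, |ph k u - ph k v| ≤ |u - v|
  ss_lo : ∀ x : ℝ, 0 ≤ x → 7 / 2 ≤ ssf k x
  ss_hi : ∀ x : ℝ, x ≤ 20 * el k → ssf k x ≤ 351 / 100
  ss_lip : ∀ x x' : ℝ, x ≤ 20 * el k → x' ≤ 20 * el k →
    |ssf k x' - ssf k x| ≤ 4 * om k * |x' - x|
  ss_inv_lip : ∀ x x' : ℝ, 0 ≤ x → 0 ≤ x' → |1 / ssf k x' - 1 / ssf k x| ≤ om k / 3 * |x' - x|
  ee_lo : ∀ x : ℝ, 0 ≤ x → k * (1 / 4 : ℝ) ^ nn k ≤ eef k x
  ee_om : ∀ x : ℝ, x ≤ 18 * el k → eef k x ≤ om k
  ee_k : ∀ x : ℝ, x ≤ 18 * el k → eef k x ≤ 1 / (8 * k)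
  ee_lip : ∀ x x' : ℝ, x ≤ 18 * el k → x' ≤ 18 * el k →
    |eef k x' - eef k x| ≤ om k * |x' - x|
  tlo_mono : Monotone tlo
  thi_mono : Monotone thi
  tlo_ge : ∀ i, 3 / 2 ≤ tlo i
  tlo_thi : ∀ i, tlo i ≤ 5 / 6 * thi i
  thi_tlo : ∀ i, thi i ≤ tlo (i + 1)
  thi_double : ∀ i, 2 * thi i ≤ thi (i + 1)
  thi_pow : ∀ i, (2 : ℝ) ^ i ≤ thi i
  tlo_dead : 8 * (k : ℝ) ≤ tlo (jm k + 1)
  tlo_eta : ∀ j, 1 ≤ j → tlo j ≤ Real.exp (7 / 10 * eta j)
  eta_tlo : ∀ j, 1 ≤ j → Real.exp (Real.log 2 / 2 * eta j) ≤ tlo (j - 1)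
  eta_pos : ∀ j, 0 < eta j
  tht_pos : ∀ j, 0 < tht j
  tht_anti : Antitone tht
  tht_log : ∀ j, 1 ≤ j → Real.log (1 + 1 / tht j) ≤ 12 * eta j
  ratio_sum : ∑ i ∈ range (jm k + 2), tlo i / thi i ≤ 3

def ParamStmt : Prop := ∀ k : ℕ, 2 ≤ k → Facts k

/-! ### The static state -/

section Cl

variable {L : Type} [Fintype L]

/-- total of `1 / thi` over the light children -/
noncomputable def dl (k : ℕ) (cl : List (Option L) → ℕ) (u : List (Option L)) : ℝ :=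
  ∑ c, gl k (cl (some c :: u))

noncomputable def inc (k : ℕ) (cl : List (Option L) → ℕ) (c : L) (u : List (Option L)) : ℝ :=
  if cl (some c :: u) = 0 then dl k cl u else 9 * eta (cl (some c :: u))

/-- accumulated slack along the path to the root -/
noncomputable def La (k : ℕ) (cl : List (Option L) → ℕ) : List (Option L) → ℝ
  | [] => 0
  | none :: u => La k cl u
  | some c :: u => La k cl u + inc k cl c u

noncomputable def lam (k : ℕ) (cl : List (Option L) → ℕ) (u : List (Option L)) : ℝ :=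
  min (La k cl u) (18 * el k)

noncomputable def ss (k : ℕ) (cl : List (Option L) → ℕ) (u : List (Option L)) : ℝ :=
  ssf k (lam k cl u)

noncomputable def ee (k : ℕ) (cl : List (Option L) → ℕ) (u : List (Option L)) : ℝ :=
  eef k (lam k cl u)

end Cl

/-- state at one history: `y v i` is the probability that at most `i` offline servers are below
`v`, `nu v` the mean number of them; the other fields are lazily maintained data -/
structure TS (L : Type) where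
  y : List (Option L) → ℕ → ℝ
  nu : List (Option L) → ℝ
  dp : List (Option L) → ℕ → Prop
  yh : List (Option L) → ℕ → ℝ
  cl : List (Option L) → ℕ
  on : List (Option L) → ℕ → ℕ → Prop
  pih : List (Option L) → ℝ

namespace TS

variable {L : Type} [Fintype L] (a : TS L) (k : ℕ)

/-- number of deep slots -/
noncomputable def bb (v : List (Option L)) : ℝ := ∑ i ∈ range k, if a.dp v i then 1 else 0

/-- estimated demand of the other slots -/
noncomputable def mx (s : ℝ) (v : List (Option L)) : ℝ :=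
  ∑ i ∈ range k, if a.dp v i then 0 else ph k (s * a.yh v i)

/-- slope proxy of the other slots -/
noncomputable def sg (v : List (Option L)) : ℝ :=
  ∑ i ∈ range k, if a.dp v i then 0 else
    ∑ j ∈ range (nn k + 1), if a.on v i j then (1 / 4) ^ j else 0

noncomputable def EY (h : List (Option L) → ℕ → ℝ) (v : List (Option L)) : ℝ :=
  ∑ i ∈ range k, if a.dp v i then h v i else 0

noncomputable def SS (h : List (Option L) → ℕ → ℝ) (u : List (Option L)) : ℝ :=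
  ∑ c, (a.EY k h (some c :: u) + if a.cl (some c :: u) = 0 then a.sg k (some c :: u) else 0)

/-- share of the child `c` of `u` -/
noncomputable def pi (c : L) (u : List (Option L)) : ℝ :=
  a.EY k a.y (some c :: u) / a.SS k a.y u

/-- lower estimate of the demand of a child -/
noncomputable def lo (c : L) (u : List (Option L)) : ℝ :=
  a.bb k (some c :: u) + a.mx k (ss k a.cl u * (1 + 3 * om k)) (some c :: u)

/-- upper estimate of the demand of a child -/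
noncomputable def hi (c : L) (u : List (Option L)) : ℝ :=
  a.bb k (some c :: u) + a.mx k (ss k a.cl u * (1 - 3 * om k)) (some c :: u)

noncomputable def dem (c : L) (u : List (Option L)) : ℝ :=
  if a.cl (some c :: u) = 0 then a.hi k c u + mb k * ss k a.cl u * a.sg k (some c :: u)
  else a.lo k c u

/-- deficiency at `u` when `u` holds the amount `z` -/
noncomputable def Xt (u : List (Option L)) (z : ℝ) : ℝ :=
  max 0 (∑ c, a.dem k c u - z - ee k a.cl u)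

noncomputable def pit (v : List (Option L)) : ℝ :=
  if Lt k (a.cl v) then (1 + 3 * (om k * eta (a.cl v))) *
    max 0 (a.pih v - 2 * (om k * eta (a.cl v)) * tht (a.cl v)) else 0

noncomputable def lz (z : ℝ) (c : L) (u : List (Option L)) : ℝ :=
  max 0 (a.lo k c u - a.Xt k u z * a.pit k (some c :: u) - 2 * ee k a.cl u)

/-- amount given to the child `c` of `u` when `u` holds `z` -/
noncomputable def cz (z : ℝ) (c : L) (u : List (Option L)) : ℝ :=
  if a.cl (some c :: u) = 0 then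
    min (z - ∑ c', if a.cl (some c' :: u) = 0 then 0 else a.lz k z c' u) (a.hi k c u)
  else a.lz k z c u

/-- virtual allocation -/
noncomputable def Zv : List (Option L) → ℝ
  | [] => k
  | none :: _ => 0
  | some c :: u => a.cz k (Zv u) c u

/-- final allocation; the child `none` holds the parked remainder -/
noncomputable def Zf : List (Option L) → ℝ
  | [] => k
  | some c :: u => sig ((1 + 1 / (4 * k)) * a.Zv k (some c :: u))
  | none :: u => Zf u - ∑ c, sig ((1 + 1 / (4 * k)) * a.Zv k (some c :: u))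

/-- true demand of the node `v` at slope `s` -/
noncomputable def slot (s : ℝ) (v : List (Option L)) : ℝ := ∑ i ∈ range k, ph k (s * a.y v i)

/-- properties of the posterior quantities -/
structure Post : Prop where
  y_nonneg : ∀ v i, 0 ≤ a.y v i
  y_le : ∀ v i, a.y v i ≤ 1
  nu_nonneg : ∀ v, 0 ≤ a.nu v
  slots : ∀ v, ∑ i ∈ range k, (1 - a.y v i) ≤ a.nu v
  child : ∀ u, ∑ c, a.nu (some c :: u) ≤ a.nu u
  nu_none : ∀ u, a.nu (none :: u) = 0
  nu_root : a.nu [] = k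
  sup : ∀ u (t : ℝ), t ≤ 1 → ∑ c, ∑ i ∈ range k, max 0 (t - a.y (some c :: u) i) ≤
    ∑ i ∈ range k, max 0 (t - a.y u i)

/-- accuracy of the lazily maintained data -/
structure Acc : Prop where
  dp_hi : ∀ v i, a.dp v i → a.y v i ≤ 3 / 20
  dp_lo : ∀ v i, a.y v i ≤ 1 / 20 → a.dp v i
  yh_nonneg : ∀ v i, 0 ≤ a.yh v i
  yh_near : ∀ v i, |a.y v i - a.yh v i| ≤ om k * (a.yh v i + 1 / 20)
  cl_le : ∀ c u, a.cl (some c :: u) ≤ jm k + 2
  cl_hi : ∀ c u, a.cl (some c :: u) ≤ jm k + 1 →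
    a.nu u < thi (a.cl (some c :: u)) * a.nu (some c :: u)
  cl_lo : ∀ c u, 1 ≤ a.cl (some c :: u) →
    tlo (a.cl (some c :: u) - 1) * a.nu (some c :: u) ≤ a.nu u
  on_hi : ∀ c u i j, a.on (some c :: u) i j →
    ss k a.cl u * a.y (some c :: u) i ≤ tt k j + 2 / 3 * wd k j
  on_lo : ∀ c u i j, ss k a.cl u * a.y (some c :: u) i ≤ tt k j + 1 / 3 * wd k j →
    a.on (some c :: u) i j
  pih_nonneg : ∀ c u, 0 ≤ a.pih (some c :: u)
  pih_le : ∀ c u, a.pih (some c :: u) ≤ 1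
  pih_near : ∀ c u, |a.pi k c u - a.pih (some c :: u)| ≤
    om k * eta (a.cl (some c :: u)) * (a.pih (some c :: u) + tht (a.cl (some c :: u)))

/-- first consequences of `Post` and `Acc` -/
structure Basic : Prop where
  heavy_unique : ∀ c c' u, a.cl (some c :: u) = 0 → a.cl (some c' :: u) = 0 → c = c'
  dl_nonneg : ∀ u, 0 ≤ dl k a.cl u
  dl_le : ∀ u, dl k a.cl u ≤ 1
  La_nonneg : ∀ u, 0 ≤ La k a.cl u
  La_big : ∀ v, 18 * (el k : ℝ) < La k a.cl v → a.nu v ≤ 1 / 8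
  lam_nonneg : ∀ u, 0 ≤ lam k a.cl u
  lam_le : ∀ u, lam k a.cl u ≤ 18 * el k
  ss_lo : ∀ u, 7 / 2 ≤ ss k a.cl u
  ss_hi : ∀ u, ss k a.cl u ≤ 351 / 100
  ee_pos : ∀ u, 0 < ee k a.cl u
  nu_le : ∀ v, a.nu v ≤ k
  nu_child : ∀ c u, a.nu (some c :: u) ≤ a.nu u
  dead : ∀ c u, a.cl (some c :: u) = jm k + 2 → a.nu (some c :: u) ≤ 1 / 8
  small_dp : ∀ v i, i < k → a.nu v ≤ 1 / 2 → ¬ a.dp v i
  small_slot : ∀ v (s : ℝ), 3 ≤ s → a.nu v ≤ 1 / 2 → a.slot k s v = 0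
  yh_lo : ∀ v i, ¬ a.dp v i → a.y v i * (1 - 2 * om k) ≤ a.yh v i
  yh_lo' : ∀ v i, ¬ a.dp v i → a.y v i ≤ (1 + 3 * om k) * a.yh v i
  yh_hi : ∀ v i, ¬ a.dp v i → a.yh v i ≤ a.y v i * (1 + 3 * om k)
  yh_hi' : ∀ v i, ¬ a.dp v i → (1 - 3 * om k) * a.yh v i ≤ a.y v i
  bb_nonneg : ∀ v, 0 ≤ a.bb k v
  bb_nat : ∀ v, a.bb k v = 0 ∨ 1 ≤ a.bb k v
  bb_le : ∀ v, 17 / 20 * a.bb k v ≤ a.nu v
  mx_nonneg : ∀ s v, 0 ≤ a.mx k s v
  cap : ∀ (s : ℝ) v, 3 ≤ s → a.bb k v + a.mx k s v ≤ 25 / 16 * a.nu v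
  cap_pos : ∀ (s : ℝ) v, 3 ≤ s → 0 < a.bb k v + a.mx k s v → 16 / 25 ≤ a.nu v
  lo_le_hi : ∀ c u, a.lo k c u ≤ a.hi k c u
  sg_nonneg : ∀ v, 0 ≤ a.sg k v
  sg_le : ∀ c u, a.sg k (some c :: u) ≤ 2 * a.nu (some c :: u)
  EY_nonneg : ∀ v, 0 ≤ a.EY k a.y v
  EY_le : ∀ v, a.EY k a.y v ≤ 3 / 20 * a.bb k v
  EY_le_SS : ∀ c u, a.EY k a.y (some c :: u) ≤ a.SS k a.y u
  SS_nonneg : ∀ u, 0 ≤ a.SS k a.y u
  SS_le : ∀ u, a.SS k a.y u ≤ 3 * a.nu u
  pi_nonneg : ∀ c u, 0 ≤ a.pi k c u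
  pi_sum : ∀ u, ∑ c, a.pi k c u ≤ 1
  pi_mul : ∀ c u, a.pi k c u * a.SS k a.y u = a.EY k a.y (some c :: u)
  pit_nonneg : ∀ v, 0 ≤ a.pit k v
  pit_hi : ∀ c u, a.pit k (some c :: u) ≤
    (1 + 5 * (om k * eta (a.cl (some c :: u)))) * a.pi k c u
  pit_lo : ∀ c u, a.cl (some c :: u) ≠ 0 →
    (1 + om k) * a.pi k c u - om k / 450 * gl k (a.cl (some c :: u)) ≤ a.pit k (some c :: u)
  pit_sum : ∀ u, ∑ c, a.pit k (some c :: u) ≤ 6 / 5
  pih_sum : ∀ u, ∑ c, (if Lt k (a.cl (some c :: u)) then a.pih (some c :: u) else 0) ≤ 2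

/-- true demand at the slope of `u` of the slots of `v` that are not deep -/
noncomputable def mt (s : ℝ) (v : List (Option L)) : ℝ :=
  ∑ i ∈ range k, if a.dp v i then 0 else ph k (s * a.y v i)

/-- the invariant of the virtual allocation -/
structure Inv : Prop where
  nonneg : ∀ v, 0 ≤ a.Zv k v
  cons : ∀ u, ∑ c, a.Zv k (some c :: u) ≤ a.Zv k u
  low : ∀ v, a.slot k (ss k a.cl v) v - ee k a.cl v ≤ a.Zv k v
  le_nu : ∀ v, a.Zv k v ≤ 25 / 16 * a.nu v
  pos_nu : ∀ c u, 0 < a.Zv k (some c :: u) → 16 / 25 ≤ a.nu (some c :: u)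
  Xt_le : ∀ u, a.Xt k u (a.Zv k u) ≤ 4 * a.SS k a.y u

/-- transition rules between consecutive states -/
structure Trans (a' : TS L) : Prop where
  up : ∀ c u, a.cl (some c :: u) < a'.cl (some c :: u) →
    thi (a'.cl (some c :: u) - 1) * a'.nu (some c :: u) ≤ a'.nu u
  down : ∀ c u, a'.cl (some c :: u) < a.cl (some c :: u) →
    a'.nu u < tlo (a'.cl (some c :: u)) * a'.nu (some c :: u)
  pih : ∀ c u, (a'.cl (some c :: u) = a.cl (some c :: u) ∧
      a'.pih (some c :: u) = a.pih (some c :: u)) ∨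
    (a'.pih (some c :: u) = a'.pi k c u ∧ (a'.cl (some c :: u) = a.cl (some c :: u) →
      om k * eta (a.cl (some c :: u)) * (a.pih (some c :: u) + tht (a.cl (some c :: u))) <
        |a'.pi k c u - a.pih (some c :: u)|))

variable (a' : TS L)

/-- changes of the deep set -/
noncomputable def D1 (v : List (Option L)) : ℝ :=
  ∑ i ∈ range k, if (a.dp v i ↔ a'.dp v i) then 0 else 1

noncomputable def D2 (v : List (Option L)) : ℝ := ∑ i ∈ range k, |a'.yh v i - a.yh v i|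

noncomputable def D3 (v : List (Option L)) : ℝ :=
  ∑ i ∈ range k, ∑ j ∈ range (nn k + 1),
    if (a.on v i j ↔ a'.on v i j) then 0 else (1 / 4) ^ j

noncomputable def D4 (c : L) (u : List (Option L)) : ℝ :=
  if Lt k (a.cl (some c :: u)) ∧ a'.cl (some c :: u) = a.cl (some c :: u) then
    a'.SS k a'.y u * |a'.pih (some c :: u) - a.pih (some c :: u)| else 0

noncomputable def D5 (c : L) (u : List (Option L)) : ℝ :=
  a'.nu (some c :: u) * |lam k a'.cl u - lam k a.cl u|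

noncomputable def D6 (c : L) (u : List (Option L)) : ℝ :=
  pay k (a.cl (some c :: u)) (a'.cl (some c :: u)) (a'.nu u) (a'.nu (some c :: u))

/-- potential of one child for the tracking of its share -/
noncomputable def _root_.Vale.Agent.P304.Vc (k j : ℕ) (p E S : ℝ) : ℝ :=
  if Lt k j then
    1 / (om k * eta j) * ((E + tht j * S) * Real.log ((1 + tht j) / (p + tht j)) + p * S)
  else 0

noncomputable def VV (h : List (Option L) → ℕ → ℝ) (u : List (Option L)) : ℝ :=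
  ∑ c, Vc k (a.cl (some c :: u)) (a.pih (some c :: u)) (a.EY k h (some c :: u)) (a.SS k h u)

/-- potential paying for down jumps of the class -/
noncomputable def _root_.Vale.Agent.P304.xi (j : ℕ) (b A : ℝ) : ℝ :=
  if j = 0 then 0 else b * eta j / (eta j + 1 + Real.log (A / b))

noncomputable def AA (u : List (Option L)) : ℝ :=
  1 + ∑ c, (a.bb k (some c :: u) + a.sg k (some c :: u))

noncomputable def Xi (u : List (Option L)) : ℝ :=
  ∑ c, xi (a.cl (some c :: u)) (a.bb k (some c :: u)) (a.AA k u)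

end TS

/-- weighted sum over the edges of the tree -/
noncomputable def wsum {L : Type} [Fintype L] (D : ℕ) (f : L → List (Option L) → ℝ) : ℝ :=
  ∑ d ∈ range D, (1 / 2 : ℝ) ^ d * ∑ u ∈ lists (Option L) d, ∑ c, f c u

/-! ### Static statements -/

def BasicStmt : Prop :=
  ∀ (k : ℕ) (L : Type) [Fintype L] (a : TS L), 2 ≤ k → a.Post k → a.Acc k → a.Basic k

/-- bound on the deficiency -/
def XStmt : Prop :=
  ∀ (k : ℕ) (L : Type) [Fintype L] (a : TS L), 2 ≤ k → a.Post k → a.Acc k →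
    ∀ u z, a.slot k (ss k a.cl u) u - ee k a.cl u ≤ z →
    a.Xt k u z ≤ mb k * ss k a.cl u * a.SS k a.y u +
      (∑ c, if a.cl (some c :: u) = 0 then
        a.mx k (ss k a.cl u * (1 - 3 * om k)) (some c :: u) - a.mt k (ss k a.cl u) (some c :: u)
        else 0) ∧
    (∀ c, 0 ≤ a.mx k (ss k a.cl u * (1 - 3 * om k)) (some c :: u) -
        a.mt k (ss k a.cl u) (some c :: u) ∧
      a.mx k (ss k a.cl u * (1 - 3 * om k)) (some c :: u) - a.mt k (ss k a.cl u) (some c :: u) ≤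
        2 * om k * (mb k * ss k a.cl u * a.sg k (some c :: u))) ∧
    a.Xt k u z ≤ (1 + 2 * om k) * (mb k * ss k a.cl u * a.SS k a.y u) ∧
    a.Xt k u z ≤ 4 * a.SS k a.y u

/-- children that are not heavy -/
def LightStmt : Prop :=
  ∀ (k : ℕ) (L : Type) [Fintype L] (a : TS L), 2 ≤ k → a.Post k → a.Acc k →
    ∀ u z, 0 ≤ z → a.slot k (ss k a.cl u) u - ee k a.cl u ≤ z →
    (∀ c, a.cl (some c :: u) ≠ 0 →
      0 ≤ a.lo k c u - a.Xt k u z * a.pit k (some c :: u) ∧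
      a.slot k (ss k a.cl (some c :: u)) (some c :: u) - ee k a.cl (some c :: u) ≤
        a.lz k z c u) ∧
    ((∀ c, a.cl (some c :: u) ≠ 0) → ∑ c, a.lz k z c u ≤ z)

/-- the heavy child -/
def HeavyStmt : Prop :=
  ∀ (k : ℕ) (L : Type) [Fintype L] (a : TS L), 2 ≤ k → a.Post k → a.Acc k →
    ∀ u z, 0 ≤ z → a.slot k (ss k a.cl u) u - ee k a.cl u ≤ z →
    ∀ c, a.cl (some c :: u) = 0 →
      0 ≤ a.cz k z c u ∧
      a.slot k (ss k a.cl (some c :: u)) (some c :: u) - ee k a.cl (some c :: u) ≤ a.cz k z c u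

/-- the invariant and the properties of the final allocation -/
def InvStmt : Prop :=
  ∀ (k : ℕ) (L : Type) [Fintype L] (a : TS L), 2 ≤ k → a.Post k → a.Acc k →
    a.Inv k ∧ (∀ u, ∑ x, a.Zf k (x :: u) = a.Zf k u) ∧ (∀ u, 0 ≤ a.Zf k u) ∧
    (∀ c u, a.Zf k (some c :: u) ≤ 9 / 5 * a.nu (some c :: u)) ∧
    (∀ c u, 0 < a.Zf k (some c :: u) → 16 / 25 ≤ a.nu (some c :: u)) ∧
    ∀ c u (j : ℕ), 1 ≤ j → j ≤ k → (∀ i < j, a.y (some c :: u) i = 0) →
      (j : ℝ) ≤ a.Zf k (some c :: u)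

/-- what a class change pays for -/
def PayStmt : Prop :=
  ∀ (k : ℕ) (L : Type) [Fintype L] (a a' : TS L), 2 ≤ k → a.Post k → a.Acc k → a'.Post k →
    a'.Acc k → a.Trans k a' → ∀ c u, 0 ≤ a.D6 k a' c u ∧
      (a'.cl (some c :: u) ≠ a.cl (some c :: u) →
        a'.nu (some c :: u) ≤ el k * a.D6 k a' c u) ∧
      (a.cl (some c :: u) < a'.cl (some c :: u) → a'.nu (some c :: u) ≤ a.D6 k a' c u) ∧
      (¬ (a.cl (some c :: u) = 0 ↔ a'.cl (some c :: u) = 0) → a'.nu u ≤ 2 * a.D6 k a' c u) ∧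
      a'.nu (some c :: u) * |eta (a'.cl (some c :: u)) - eta (a.cl (some c :: u))| ≤
        4 * el k * a.D6 k a' c u ∧
      a'.nu u * |gl k (a'.cl (some c :: u)) - gl k (a.cl (some c :: u))| ≤ el k * a.D6 k a' c u

/-- movement of the virtual allocation at one node -/
def MoveNodeStmt : Prop :=
  ∃ C : ℝ, 0 ≤ C ∧ ∀ (k : ℕ) (L : Type) [Fintype L] (a a' : TS L), 2 ≤ k → a.Post k → a.Acc k →
    a'.Post k → a'.Acc k → a.Trans k a' → ∀ u,
    ∑ c, |a'.Zv k (some c :: u) - a.Zv k (some c :: u)| ≤ 3 / 2 * |a'.Zv k u - a.Zv k u| +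
      C * ∑ c, (a.D1 k a' (some c :: u) + a.D2 k a' (some c :: u) + a.D3 k a' (some c :: u) +
        a.D4 k a' c u + om k * a.D5 k a' c u + el k * a.D6 k a' c u)

/-- movement of the final allocation -/
def MoveTStmt : Prop :=
  ∃ C : ℝ, 0 ≤ C ∧ ∀ (k : ℕ) (L : Type) [Fintype L] (a a' : TS L), 2 ≤ k → a.Post k → a.Acc k →
    a'.Post k → a'.Acc k → a.Trans k a' → ∀ D,
    ∑ d ∈ range D, (1 / 2 : ℝ) ^ d * ∑ u ∈ lists (Option L) (d + 1), |a'.Zf k u - a.Zf k u| ≤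
      C * wsum D fun c u => a.D1 k a' (some c :: u) + a.D2 k a' (some c :: u) +
        a.D3 k a' (some c :: u) + a.D4 k a' c u + om k * a.D5 k a' c u + el k * a.D6 k a' c u

/-- movement of the slack -/
def LamStmt : Prop :=
  ∃ C : ℝ, 0 ≤ C ∧ ∀ (k : ℕ) (L : Type) [Fintype L] (a a' : TS L), 2 ≤ k → a.Post k → a.Acc k →
    a'.Post k → a'.Acc k → a.Trans k a' → ∀ D,
    (wsum D fun c u => a.D5 k a' c u) ≤ C * el k * wsum D fun c u => a.D6 k a' c u

/-- Lipschitz property of the share potentials -/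
def VLipStmt : Prop :=
  ∃ C : ℝ, 0 ≤ C ∧ ∀ (k : ℕ) (L : Type) [Fintype L] (j : L → ℕ) (p E E' : L → ℝ) (S S' : ℝ),
    2 ≤ k → (∀ c, 0 ≤ p c) → (∀ c, p c ≤ 1) → ∑ c, gl k (j c) ≤ 1 →
    ∑ c, (if Lt k (j c) then p c else 0) ≤ 2 →
    ∑ c, Vc k (j c) (p c) (E' c) S' - ∑ c, Vc k (j c) (p c) (E c) S ≤
      C * el k * (∑ c, |E' c - E c| + |S' - S|)

/-- Lipschitz property of `xi` -/
def XiLipStmt : Prop :=
  ∀ (L : Type) [Fintype L] (j : L → ℕ) (b b' : L → ℝ) (A A' : ℝ), (∀ c, 0 ≤ b c) →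
    (∀ c, 0 ≤ b' c) → 0 < A → 0 < A' → ∑ c, b c ≤ A → ∑ c, b' c ≤ A' →
    ∑ c, xi (j c) (b' c) A' - ∑ c, xi (j c) (b c) A ≤ 5 * (∑ c, |b' c - b c| + |A' - A|)

/-- one child: reset of the share and change of the class -/
def VChildStmt : Prop :=
  ∃ C₁ C₂ : ℝ, 0 ≤ C₁ ∧ 0 ≤ C₂ ∧ ∀ (k : ℕ) (L : Type) [Fintype L] (a a' : TS L), 2 ≤ k →
    a.Post k → a.Acc k → a'.Post k → a'.Acc k → a.Trans k a' → ∀ c u,
    Vc k (a'.cl (some c :: u)) (a'.pih (some c :: u)) (a'.EY k a'.y (some c :: u))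
        (a'.SS k a'.y u) +
      C₁ * el k * xi (a'.cl (some c :: u)) (a'.bb k (some c :: u)) (a'.AA k u) +
      1 / 4 * a.D4 k a' c u ≤
    Vc k (a.cl (some c :: u)) (a.pih (some c :: u)) (a'.EY k a'.y (some c :: u))
        (a'.SS k a'.y u) +
      C₁ * el k * xi (a.cl (some c :: u)) (a'.bb k (some c :: u)) (a'.AA k u) +
      C₂ * el k * a.D6 k a' c u

/-- one node: jump of the potentials -/
def VJumpStmt : Prop :=
  ∃ C₁ C₂ : ℝ, 0 ≤ C₁ ∧ 0 ≤ C₂ ∧ ∀ (k : ℕ) (L : Type) [Fintype L] (a a' : TS L), 2 ≤ k →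
    a.Post k → a.Acc k → a'.Post k → a'.Acc k → a.Trans k a' → ∀ u,
    a'.VV k a'.y u + C₁ * el k * a'.Xi k u + 1 / 4 * ∑ c, a.D4 k a' c u ≤
      a.VV k a'.y u + C₁ * el k * a.Xi k u + C₂ * el k *
        ∑ c, (a.D1 k a' (some c :: u) + a.D3 k a' (some c :: u) + a.D6 k a' c u)

/-! ### The process -/

/-- toggle with hysteresis: switched on below `lo`, switched off from `hi` on -/
def tog {Y : Type} (x lo hi : List Y → ℝ) : List Y → Prop
  | [] => x [] ≤ lo []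
  | r :: l => x (r :: l) ≤ lo (r :: l) ∨ (x (r :: l) < hi (r :: l) ∧ tog x lo hi l)

noncomputable def cntUp (k : ℕ) (f : ℕ → ℝ) (A B : ℝ) : ℕ :=
  ((range (jm k + 2)).filter fun i => f i * B ≤ A).card

/-- class with hysteresis -/
noncomputable def clsP {Y : Type} (k : ℕ) (A B : List Y → ℝ) : List Y → ℕ
  | [] => cntUp k thi (A []) (B [])
  | r :: l => max (cntUp k thi (A (r :: l)) (B (r :: l)))
      (min (cntUp k tlo (A (r :: l)) (B (r :: l))) (clsP k A B l))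

/-- lazy copy of the share `p`, reset when the class changes -/
noncomputable def pihP {Y : Type} (k : ℕ) (cl : List Y → ℕ) (p : List Y → ℝ) : List Y → ℝ
  | [] => p []
  | r :: l =>
      if cl (r :: l) = cl l ∧
        |p (r :: l) - pihP k cl p l| ≤ om k * eta (cl l) * (pihP k cl p l + tht (cl l)) then
        pihP k cl p l
      else p (r :: l)

namespace Game

variable {k : ℕ} {Y Ω L : Type} [Fintype Ω] [Fintype L] (G : Game k Y Ω)
  (lab : ℕ → List Y → Y → L)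

/-- hidden indicator that at most `i` offline servers are below `v` -/
noncomputable def hid (t : ℕ) (ω : Ω) (v : List (Option L)) (i : ℕ) : ℝ :=
  if G.NN lab t ω v ≤ i then 1 else 0

noncomputable def yP (l : List Y) (v : List (Option L)) (i : ℕ) : ℝ :=
  G.ce l fun ω => G.hid lab l.length ω v i

noncomputable def nuP (l : List Y) (v : List (Option L)) : ℝ :=
  G.ce l fun ω => G.NN lab l.length ω v

noncomputable def clP (l : List Y) (v : List (Option L)) : ℕ :=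
  clsP k (fun l => G.nuP lab l v.tail) (fun l => G.nuP lab l v) l

/-- the state without the share copies -/
noncomputable def pre (l : List Y) : TS L where
  y := G.yP lab l
  nu := G.nuP lab l
  dp := fun v i => tog (fun l => G.yP lab l v i) (fun _ => 1 / 20) (fun _ => 3 / 20) l
  yh := fun v i => G.trk (fun t ω => G.hid lab t ω v i) (om k) (1 / 20) l
  cl := G.clP lab l
  on := fun v i j => tog (fun l => G.yP lab l v i)
    (fun l => (tt k j + 1 / 3 * wd k j) / ss k (G.clP lab l) v.tail)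
    (fun l => (tt k j + 2 / 3 * wd k j) / ss k (G.clP lab l) v.tail) l
  pih := fun _ => 0

/-- the state process -/
noncomputable def ts (l : List Y) : TS L :=
  { G.pre lab l with
    pih := fun v => pihP k (fun l => G.clP lab l v)
      (fun l => (G.pre lab l).EY k (G.yP lab l) v / (G.pre lab l).SS k (G.yP lab l) v.tail) l }

/-- change of the number of offline servers below `v` at step `t` -/
noncomputable def dN (t : ℕ) (ω : Ω) (v : List (Option L)) : ℝ :=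
  |(G.NN lab (t + 1) ω v : ℝ) - G.NN lab t ω v|

end Game

def TsStmt : Prop :=
  ∀ (k : ℕ) (Y Ω L : Type) [Fintype Ω] [Fintype L] (G : Game k Y Ω) (lab : ℕ → List Y → Y → L),
    2 ≤ k → (∀ l, G.Reach l → (G.ts lab l).Post k ∧ (G.ts lab l).Acc k) ∧
      ∀ r l, G.Reach (r :: l) → (G.ts lab l).Trans k (G.ts lab (r :: l))

/-- number of switches of a toggle -/
def TogStmt : Prop :=
  ∀ (k : ℕ) (Y Ω : Type) [Fintype Ω] (G : Game k Y Ω) (X : ℕ → Ω → ℝ) (x lo hi : List Y → ℝ)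
    (g : ℝ) (T : ℕ), (∀ l, x l = G.ce l (X l.length)) → (∀ t ω, X t ω = 0 ∨ X t ω = 1) →
    (∀ ω ω', X 0 ω = X 0 ω') → 0 < g → g ≤ 1 / 5 → (∀ l, 0 ≤ lo l) → (∀ l, lo l + g ≤ hi l) →
    (∀ l, hi l ≤ 2 / 5) →
    g / 2 * (G.E fun ω => ∑ t ∈ range T,
        if (tog x lo hi (G.hist t ω) ↔ tog x lo hi (G.hist (t + 1) ω)) then 0 else 1) ≤
      G.E fun ω => ∑ t ∈ range T, (|X (t + 1) ω - X t ω| +
        |(lo (G.hist (t + 1) ω) + hi (G.hist (t + 1) ω)) - (lo (G.hist t ω) + hi (G.hist t ω))| *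
          (1 - X (t + 1) ω))

/-- total price of the class changes -/
def CTogStmt : Prop :=
  ∃ C : ℝ, 0 ≤ C ∧ ∀ (k : ℕ) (Y Ω L : Type) [Fintype Ω] [Fintype L] (G : Game k Y Ω)
    (lab : ℕ → List Y → Y → L) (T : ℕ) (u : List (Option L)), 2 ≤ k →
    (G.E fun ω => ∑ t ∈ range T, ∑ c,
        (G.ts lab (G.hist t ω)).D6 k (G.ts lab (G.hist (t + 1) ω)) c u) ≤
      C * G.E fun ω => ∑ t ∈ range T, ∑ c, G.dN lab t ω (some c :: u)

/-- movement of the toggles and trackers of one node -/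
def DStmt : Prop :=
  ∃ C : ℝ, 0 ≤ C ∧ ∀ (k : ℕ) (Y Ω L : Type) [Fintype Ω] [Fintype L] (G : Game k Y Ω)
    (lab : ℕ → List Y → Y → L) (T : ℕ) (c : L) (u : List (Option L)), 2 ≤ k →
    (G.E fun ω => ∑ t ∈ range T,
        (G.ts lab (G.hist t ω)).D1 k (G.ts lab (G.hist (t + 1) ω)) (some c :: u)) ≤
      C * (G.E fun ω => ∑ t ∈ range T, G.dN lab t ω (some c :: u)) ∧
    (G.E fun ω => ∑ t ∈ range T,
        (G.ts lab (G.hist t ω)).D2 k (G.ts lab (G.hist (t + 1) ω)) (some c :: u)) ≤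
      C * el k * (G.E fun ω => ∑ t ∈ range T, G.dN lab t ω (some c :: u)) ∧
    (G.E fun ω => ∑ t ∈ range T,
        (G.ts lab (G.hist t ω)).D3 k (G.ts lab (G.hist (t + 1) ω)) (some c :: u)) ≤
      C * G.E fun ω => ∑ t ∈ range T, (G.dN lab t ω (some c :: u) +
        om k * (G.ts lab (G.hist t ω)).D5 k (G.ts lab (G.hist (t + 1) ω)) c u)

/-- movement of the share copies -/
def VSumStmt : Prop :=
  ∃ C : ℝ, 0 ≤ C ∧ ∀ (k : ℕ) (Y Ω L : Type) [Fintype Ω] [Fintype L] (G : Game k Y Ω)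
    (lab : ℕ → List Y → Y → L) (T : ℕ) (u : List (Option L)), 2 ≤ k →
    (G.E fun ω => ∑ t ∈ range T, ∑ c,
        (G.ts lab (G.hist t ω)).D4 k (G.ts lab (G.hist (t + 1) ω)) c u) ≤
      C * el k * G.E fun ω => ∑ t ∈ range T, ∑ c, (G.dN lab t ω (some c :: u) +
        (G.ts lab (G.hist t ω)).D1 k (G.ts lab (G.hist (t + 1) ω)) (some c :: u) +
        (G.ts lab (G.hist t ω)).D3 k (G.ts lab (G.hist (t + 1) ω)) (some c :: u) +
        (G.ts lab (G.hist t ω)).D6 k (G.ts lab (G.hist (t + 1) ω)) c u)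

/-- the allocation process exists and moves little -/
def TA2Stmt : Prop :=
  ∃ C : ℝ, 0 ≤ C ∧ ∀ k : ℕ, 2 ≤ k → ∀ (Y Ω L : Type) [Fintype Ω] [Fintype L] (G : Game k Y Ω)
    (lab : ℕ → List Y → Y → L) (T D : ℕ), ∃ Zf nf, ZProps G lab Zf nf ∧
      (G.E fun ω => ∑ t ∈ range T, mvZ D Zf nf (G.hist t ω) (G.hist (t + 1) ω)) ≤
        C * Real.log k *
          G.E fun ω => ∑ t ∈ range T, ∑ d ∈ range D, (1 / 2 : ℝ) ^ d * G.lchg (lab d) t ω

/-- the tree theorem with one logarithm -/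
def Tree2Stmt : Prop :=
  ∃ C : ℝ, 0 ≤ C ∧ ∀ k : ℕ, 2 ≤ k → ∀ (Y Ω L : Type) [Fintype Y] [MetricSpace Y] [Fintype Ω]
    [Fintype L] (G : Game k Y Ω) (T D : ℕ) (W : ℝ) (lab : ℕ → List Y → Y → L)
    (anc : ℕ → List Y → L → Y), Emb T D W lab anc →
    ∃ A : List Y → Fin k, G.onCost A T ≤
      C * Real.log k * ((G.E fun ω => ∑ t ∈ range T, ∑ d ∈ range D,
          rho W d * G.chg (lab d) (anc d) (rho W d) t ω) +
        G.E fun ω => ∑ t ∈ range T, G.ell t ω)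

end Vale.Agent.P304
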