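import Vale.Agent.P304.Stmts

/-! From the allocation process to a policy. -/

namespace Vale.Agent.P304

open Finset
open scoped Classical

namespace TB

section Lists

variable {Y L Λ : Type}

theorem path_length (lab : ℕ → List Y → Y → L) (l : List Y) (y : Y) (d : ℕ) :
    (path lab l y d).length = d := by
  induction d with
  | zero => rfl
  | succ d ih => simp [path, ih]

theorem eq_path_of_suffix (lab : ℕ → List Y → Y → L) (l : List Y) (y : Y) (d : ℕ)
    {u : List (Option L)} (h : u <:+ path lab l y d) : u = path lab l y u.length := by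
  induction d with
  | zero =>
    have : u = [] := by simpa [path] using h
    subst this; rfl
  | succ d ih =>
    rw [path, List.suffix_cons_iff] at h
    rcases h with h | h
    · rw [h, List.length_cons, path_length, path]
    · exact ih h

theorem path_suffix (lab : ℕ → List Y → Y → L) (l : List Y) (y : Y) {d D : ℕ} (h : d ≤ D) :
    path lab l y d <:+ path lab l y D := by
  induction D, h using Nat.le_induction with
  | base => exact List.suffix_refl _
  | succ D _ ih => exact ih.trans (List.suffix_cons _ _)

theorem top_suffix (d : ℕ) (u : List Λ) : top d u <:+ u := List.drop_suffix _ _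

theorem top_length {d : ℕ} {u : List Λ} (h : d ≤ u.length) : (top d u).length = d := by
  simp only [top, List.length_drop]; omega

theorem top_succ {d : ℕ} {u : List Λ} (h : d < u.length) : ∃ x, top (d + 1) u = x :: top d u := by
  have h1 : u.length - (d + 1) < u.length := by omega
  refine ⟨u[u.length - (d + 1)], ?_⟩
  rw [top, top, List.drop_eq_getElem_cons h1]
  congr 2
  omega

theorem exists_level {D : ℕ} {u v : List Λ} (hu : u.length = D) (hv : v.length = D) (h : u ≠ v) :
    ∃ j < D, top j u = top j v ∧ top (j + 1) u ≠ top (j + 1) v := by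
  by_contra hc
  push Not at hc
  have : ∀ j ≤ D, top j u = top j v := by
    intro j hj
    induction j with
    | zero => simp [top]
    | succ j ih => exact hc j (by omega) (ih (by omega))
  have h2 := this D le_rfl
  simp only [top, hu, hv, Nat.sub_self, List.drop_zero] at h2
  exact h h2

theorem tdist_nonneg (D : ℕ) (u v : List Λ) : 0 ≤ tdist D u v :=
  Finset.sum_nonneg fun d _ => mul_nonneg (by positivity) (by split_ifs <;> norm_num)

theorem le_tdist {D j : ℕ} {u v : List Λ} (hj : j < D) (h : top (j + 1) u ≠ top (j + 1) v) :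
    (1 / 2 : ℝ) ^ j ≤ tdist D u v := by
  have := Finset.single_le_sum (f := fun d => (1 / 2 : ℝ) ^ d *
      if top (d + 1) u = top (d + 1) v then (0 : ℝ) else 1) (s := range D)
    (fun d _ => mul_nonneg (by positivity) (by split_ifs <;> norm_num)) (mem_range.2 hj)
  simp only [if_neg h, mul_one] at this
  exact this

theorem cntAt_pos {k D : ℕ} {C : Cfg k Λ D} {u : List Λ} :
    0 < cntAt C u ↔ ∃ i, u <:+ (C i).toList := by
  simp [cntAt, Finset.card_pos, Finset.filter_nonempty_iff]

theorem cntAt_all {k D : ℕ} {C : Cfg k Λ D} {u : List Λ} (h : ∀ i, u <:+ (C i).toList) :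
    cntAt C u = k := by
  rw [cntAt, Finset.filter_true_of_mem fun i _ => h i]
  simp

/-- every real node above `u` is the node of some point -/
def Real (lab : ℕ → List Y → Y → L) (l : List Y) (u : List (Option L)) : Prop :=
  ∀ c w, some c :: w <:+ u → ∃ y, path lab l y (w.length + 1) = some c :: w

theorem Real.mono {lab : ℕ → List Y → Y → L} {l : List Y} {u w : List (Option L)}
    (h : Real lab l u) (hw : w <:+ u) : Real lab l w := fun c w' h' => h c w' (h'.trans hw)

theorem Real.lab {lab : ℕ → List Y → Y → L} {l : List Y} {u w : List (Option L)} {c : L}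
    (h : Real lab l u) (hw : some c :: w <:+ u) : ∃ y, lab w.length l y = c := by
  obtain ⟨y, hy⟩ := h c w hw
  rw [path] at hy
  exact ⟨y, Option.some.inj (List.cons.inj hy).1⟩

theorem Real.none {lab : ℕ → List Y → Y → L} {l : List Y} {u w : List (Option L)}
    {x : Option L} (h : Real lab l u) (hw : x :: none :: w <:+ u) : x = none := by
  cases x with
  | none => rfl
  | some c =>
    obtain ⟨y, hy⟩ := h c _ hw
    simp [path] at hy

end Lists

section Geo

variable {Y L : Type} [MetricSpace Y] {T D : ℕ} {W : ℝ} {lab : ℕ → List Y → Y → L}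
  {anc : ℕ → List Y → L → Y}

theorem rho_anti (hW : 0 < W) {d d' : ℕ} (h : d ≤ d') : rho W d' ≤ rho W d :=
  div_le_div_of_nonneg_left hW.le (by positivity) (pow_le_pow_right₀ (by norm_num) (by omega))

theorem near_anc (hE : Emb T D W lab anc) (s0 : Y) {l : List Y} (hl : l.length ≤ T)
    {u : List (Option L)} (hu : u.length ≤ D) (hr : Real lab l u) {c : L} {w : List (Option L)}
    (hw : some c :: w <:+ u) : dist (pos s0 anc l u) (anc w.length l c) ≤ 22 * rho W w.length := by
  induction u with
  | nil => simp at hw
  | cons x u ih =>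
    cases x with
    | none =>
      rw [List.suffix_cons_iff] at hw
      rcases hw with hw | hw
      · simp at hw
      · exact ih (by simp at hu; omega) (hr.mono (List.suffix_cons _ _)) hw
    | some c' =>
      obtain ⟨y, hy⟩ := hr c' u (List.suffix_refl _)
      have h1 : lab u.length l y = c' := by
        rw [path] at hy; exact Option.some.inj (List.cons.inj hy).1
      have h2 : lab w.length l y = c := by
        rw [← hy] at hw
        have := eq_path_of_suffix lab l y _ hw
        rw [List.length_cons, path] at this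
        exact (Option.some.inj (List.cons.inj this).1).symm
      have hle : w.length ≤ u.length := by simpa using hw.length_le
      simp only [List.length_cons] at hu
      have h3 := hE.near u.length (by omega) l hl y
      have h4 := hE.near w.length (by omega) l hl y
      have h5 := rho_anti hE.W_pos hle
      rw [h1] at h3
      rw [h2] at h4
      have h6 := dist_triangle_left (anc u.length l c') (anc w.length l c) y
      show dist (anc u.length l c') (anc w.length l c) ≤ _
      linarith

theorem shift_anc (hE : Emb T D W lab anc) {l : List Y} (hl : l.length < T) (r : Y)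
    {u v : List (Option L)} (hu : u.length ≤ D) (hr : Real lab l u) (hr' : Real lab (r :: l) v)
    {c : L} {w : List (Option L)} (hw : some c :: w <:+ u) (hw' : some c :: w <:+ v) :
    dist (anc w.length l c) (anc w.length (r :: l) c) ≤ 50 * rho W w.length := by
  obtain ⟨y, hy⟩ := hr.lab hw
  obtain ⟨y', hy'⟩ := hr'.lab hw'
  have hle := hw.length_le
  simp only [List.length_cons] at hle
  have := hE.shift w.length (by omega) r l hl y y' (hy.trans hy'.symm)
  rwa [hy] at this

variable [Fintype L]

/-- indicator version of the parked mass -/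
noncomputable def pk (D : ℕ) (anc : ℕ → List Y → L → Y) (l l' : List Y) (v : List (Option L)) :
    ℝ :=
  ∑ d ∈ range (D - 1), (1 / 2 : ℝ) ^ d * ∑ w ∈ lists (Option L) d, ∑ c : L,
    if anc d l c = anc d l' c then 0 else if none :: some c :: w <:+ v then 1 else 0

omit [MetricSpace Y] [Fintype L] in
theorem pk_term (anc : ℕ → List Y → L → Y) (l l' : List Y) (v w : List (Option L)) (d : ℕ)
    (c : L) : (0 : ℝ) ≤
      if anc d l c = anc d l' c then 0 else if none :: some c :: w <:+ v then 1 else 0 := by
  split_ifs <;> norm_num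

omit [MetricSpace Y] in
theorem pk_nonneg (D : ℕ) (anc : ℕ → List Y → L → Y) (l l' : List Y) (v : List (Option L)) :
    0 ≤ pk D anc l l' v :=
  Finset.sum_nonneg fun _ _ => mul_nonneg (by positivity)
    (Finset.sum_nonneg fun _ _ => Finset.sum_nonneg fun _ _ => pk_term _ _ _ _ _ _ _)

omit [MetricSpace Y] in
theorem le_pk {l l' : List Y} {v w : List (Option L)} {c : L} (hv : v.length ≤ D)
    (hw : none :: some c :: w <:+ v) (hne : anc w.length l c ≠ anc w.length l' c) :
    (1 / 2 : ℝ) ^ w.length ≤ pk D anc l l' v := by
  have hle := hw.length_le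
  simp only [List.length_cons] at hle
  refine le_trans ?_ (Finset.single_le_sum (f := fun d => (1 / 2 : ℝ) ^ d *
      ∑ w ∈ lists (Option L) d, ∑ c : L,
        if anc d l c = anc d l' c then (0 : ℝ) else if none :: some c :: w <:+ v then 1 else 0)
    (fun _ _ => mul_nonneg (by positivity)
      (Finset.sum_nonneg fun _ _ => Finset.sum_nonneg fun _ _ => pk_term _ _ _ _ _ _ _))
    (mem_range.2 (show w.length < D - 1 by omega)))
  refine le_mul_of_one_le_right (by positivity) ?_
  refine le_trans ?_ (Finset.single_le_sum (f := fun w' => ∑ c : L,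
      if anc w.length l c = anc w.length l' c then (0 : ℝ) else
        if none :: some c :: w' <:+ v then 1 else 0)
    (fun _ _ => Finset.sum_nonneg fun _ _ => pk_term _ _ _ _ _ _ _) (mem_lists.2 rfl))
  refine le_trans ?_ (Finset.single_le_sum (f := fun c : L =>
      if anc w.length l c = anc w.length l' c then (0 : ℝ) else
        if none :: some c :: w <:+ v then 1 else 0)
    (fun _ _ => pk_term _ _ _ _ _ _ _) (mem_univ c))
  simp only [if_neg hne, if_pos hw, le_refl]

theorem rho_eq (W : ℝ) (d : ℕ) : rho W d = W / 2 * (1 / 2 : ℝ) ^ d := by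
  rw [rho, one_div, inv_pow, pow_succ]
  field_simp

theorem same_node (hE : Emb T D W lab anc) (s0 : Y) {l : List Y} (hl : l.length < T) (r : Y)
    {v : List (Option L)} (hv : v.length ≤ D) (hr : Real lab l v) (hr' : Real lab (r :: l) v)
    {u : List (Option L)} (hu : none :: u <:+ v) :
    dist (pos s0 anc l u) (pos s0 anc (r :: l) u) ≤ 25 * W * pk D anc l (r :: l) v := by
  have hW := hE.W_pos
  have h0 : 0 ≤ 25 * W * pk D anc l (r :: l) v :=
    mul_nonneg (by positivity) (pk_nonneg _ _ _ _ _)
  induction u with
  | nil => simpa [pos] using h0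
  | cons x u ih =>
    cases x with
    | none => exact ih ((List.suffix_cons _ _).trans hu)
    | some c =>
      show dist (anc u.length l c) (anc u.length (r :: l) c) ≤ _
      by_cases hne : anc u.length l c = anc u.length (r :: l) c
      · rw [hne, dist_self]; exact h0
      · have h1 := shift_anc hE hl r hv hr hr' ((List.suffix_cons _ _).trans hu)
          ((List.suffix_cons _ _).trans hu)
        have h2 := mul_le_mul_of_nonneg_left (le_pk hv hu hne) (show 0 ≤ 25 * W by positivity)
        rw [rho_eq] at h1
        linarith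

theorem server (hE : Emb T D W lab anc) (s0 : Y) {l : List Y} (hl : l.length < T) (r : Y)
    {u v : List (Option L)} (hu : u.length = D) (hv : v.length = D) (hr : Real lab l u)
    (hr' : Real lab (r :: l) v) :
    dist (pos s0 anc l u) (pos s0 anc (r :: l) v) ≤
      94 * W * tdist D u v + 25 * W * pk D anc l (r :: l) v := by
  have hW := hE.W_pos
  have h0 : 0 ≤ 25 * W * pk D anc l (r :: l) v :=
    mul_nonneg (by positivity) (pk_nonneg _ _ _ _ _)
  have h1 : 0 ≤ 94 * W * tdist D u v := mul_nonneg (by positivity) (tdist_nonneg _ _ _)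
  by_cases huv : u = v
  · subst huv
    cases u with
    | nil => simp only [pos, dist_self]; linarith
    | cons x u =>
      cases x with
      | none =>
        have := same_node hE s0 hl r hu.le hr hr' (List.suffix_refl _)
        show dist (pos s0 anc l u) (pos s0 anc (r :: l) u) ≤ _
        linarith
      | some c =>
        have hd : u.length = D - 1 := by simp only [List.length_cons] at hu; omega
        show dist (anc u.length l c) (anc u.length (r :: l) c) ≤ _
        rw [hd, hE.static l (r :: l) c, dist_self]
        linarith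
  · obtain ⟨j, hj, he, hne⟩ := exists_level hu hv huv
    have h2 := mul_le_mul_of_nonneg_left (le_tdist hj hne) (show 0 ≤ 94 * W by positivity)
    cases j with
    | zero =>
      have := hE.diam (pos s0 anc l u) (pos s0 anc (r :: l) v)
      rw [pow_zero] at h2
      linarith
    | succ j =>
      obtain ⟨x, hx⟩ := top_succ (d := j) (u := u) (by omega)
      have hsu : x :: top j u <:+ u := hx ▸ top_suffix _ _
      have hsv : x :: top j u <:+ v := hx ▸ he ▸ top_suffix _ _
      cases x with
      | none =>
        exfalso
        obtain ⟨a, ha⟩ := top_succ (d := j + 1) (u := u) (by omega)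
        obtain ⟨b, hb⟩ := top_succ (d := j + 1) (u := v) (by omega)
        have ha' : a = none := hr.none (w := top j u) (by rw [← hx, ← ha]; exact top_suffix _ _)
        have hb' : b = none :=
          hr'.none (w := top j u) (by rw [← hx, he, ← hb]; exact top_suffix _ _)
        exact hne (by rw [ha, hb, ha', hb', he])
      | some c =>
        have h3 := near_anc hE s0 hl.le hu.le hr hsu
        have h4 := near_anc hE s0 (l := r :: l) (by simp only [List.length_cons]; omega) hv.le
          hr' hsv
        have h5 := shift_anc hE hl r hu.le hr hr' hsu hsv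
        have h6 := dist_triangle4_right (pos s0 anc l u) (pos s0 anc (r :: l) v)
          (anc (top j u).length l c) (anc (top j u).length (r :: l) c)
        rw [top_length (d := j) (u := u) (by omega)] at h3 h4 h5 h6
        rw [rho_eq] at h3 h4 h5
        rw [pow_succ] at h2
        linarith

end Geo

section Prob

variable {k : ℕ} {Y Ω L : Type} [Fintype Ω] [Fintype L] {G : Game k Y Ω}
  {lab : ℕ → List Y → Y → L} {Zf nf : List Y → List (Option L) → ℝ} {D : ℕ}

theorem real_of_pos (hZ : ZProps G lab Zf nf) {l : List Y} (hl : G.Reach l)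
    {π : Cfg k (Option L) D → ℝ} (hπ : Bal (Zf l) π) {C : Cfg k (Option L) D} (hC : 0 < π C)
    (i : Fin k) : Real lab l (C i).toList := by
  intro c w hw
  have hlen : (some c :: w).length ≤ D := by simpa using hw.length_le
  have h1 : 0 < Zf l (some c :: w) := by
    rw [← hπ.2.2.2 _ hlen]
    refine Finset.sum_pos' (fun C' _ => mul_nonneg (hπ.1 C') (Nat.cast_nonneg _))
      ⟨C, mem_univ _, mul_pos hC ?_⟩
    exact Nat.cast_pos.2 (cntAt_pos.2 ⟨i, hw⟩)
  have h2 := hZ.z_pos l hl c w h1
  have h3 := (abs_le.1 (hZ.n_approx l (some c :: w))).1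
  obtain ⟨ω, hω, h4⟩ := G.exists_of_ce_pos (l := l)
    (X := fun ω => (G.NN lab l.length ω (some c :: w) : ℝ)) (by linarith)
  obtain ⟨j, hj⟩ := Finset.card_pos.1 (Nat.cast_pos.1 h4)
  have h5 := (mem_filter.1 hj).2
  rw [hω] at h5
  exact ⟨_, h5⟩

theorem z_child (hZ : ZProps G lab Zf nf) {l : List Y} (hl : G.Reach l) (x : Option L)
    (u : List (Option L)) : Zf l (x :: u) ≤ Zf l u := by
  rw [← hZ.z_cons l u]
  exact Finset.single_le_sum (f := fun x => Zf l (x :: u)) (fun _ _ => hZ.z_nonneg l hl _)
    (mem_univ x)

theorem z_start (hZ : ZProps G lab Zf nf) (u : List (Option L)) :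
    Zf [] u = if u = path lab [] G.s0 u.length then (k : ℝ) else 0 := by
  have hl := G.reach_nil
  induction u with
  | nil => simp [path, hZ.z_root]
  | cons x u ih =>
    have h0 := hZ.z_nonneg [] hl (x :: u)
    have h1 := z_child hZ hl x u
    have h2 := hZ.z_init (u.length + 1)
    rw [List.length_cons]
    by_cases hu : u = path lab [] G.s0 u.length
    · rw [if_pos hu] at ih
      split_ifs with h
      · rw [← h] at h2; linarith
      · have hx : x ≠ some (lab u.length [] G.s0) := by
          rintro rfl
          exact h (by rw [path, ← hu])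
        have h3 := Finset.add_le_sum (f := fun x => Zf [] (x :: u)) (s := univ)
          (fun _ _ => hZ.z_nonneg [] hl _) (mem_univ x) (mem_univ _) hx
        rw [hZ.z_cons] at h3
        rw [path, ← hu] at h2
        linarith
    · rw [if_neg hu] at ih
      rw [if_neg fun h => hu (by rw [path] at h; exact (List.cons.inj h).2)]
      linarith

theorem bal_start (hZ : ZProps G lab Zf nf) (S0 : Cfg k (Option L) D)
    (hS : ∀ i, (S0 i).toList = path lab [] G.s0 D) (π : Cfg k (Option L) D → ℝ)
    (h1 : π S0 = 1) (h0 : ∀ C, C ≠ S0 → π C = 0) : Bal (Zf []) π := by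
  have hc : ∀ u : List (Option L), u.length ≤ D → (cntAt S0 u : ℝ) = Zf [] u := by
    intro u hu
    rw [z_start hZ]
    split_ifs with h
    · rw [cntAt_all]
      intro i
      rw [hS, h]
      exact path_suffix _ _ _ hu
    · rw [Nat.cast_eq_zero]
      by_contra hne
      obtain ⟨i, hi⟩ := cntAt_pos.1 (Nat.pos_of_ne_zero hne)
      rw [hS] at hi
      exact h (eq_path_of_suffix _ _ _ _ hi)
  refine ⟨fun C => ?_, ?_, fun C hC u hu => ?_, fun u hu => ?_⟩
  · by_cases h : C = S0
    · rw [h, h1]; norm_num
    · rw [h0 C h]
  · rw [Finset.sum_eq_single S0 (fun C _ h => h0 C h) (by simp), h1]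
  · have : C = S0 := by
      by_contra h
      rw [h0 C h] at hC
      exact lt_irrefl _ hC
    rw [this, ← hc u hu, Nat.floor_natCast]
    omega
  · rw [Finset.sum_eq_single S0 (fun C _ h => by rw [h0 C h, zero_mul]) (by simp), h1, one_mul,
      hc u hu]

theorem sum_pk (anc : ℕ → List Y → L → Y) (l l' : List Y) {π : Cfg k (Option L) D → ℝ}
    (hπ : Bal (Zf l') π) :
    ∑ C, π C * ∑ i, pk D anc l l' (C i).toList = park D anc Zf l l' := by
  have h1 : ∀ C : Cfg k (Option L) D, π C * ∑ i, pk D anc l l' (C i).toList =
      ∑ d ∈ range (D - 1), (1 / 2 : ℝ) ^ d * ∑ w ∈ lists (Option L) d, ∑ c : L,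
        if anc d l c = anc d l' c then 0 else π C * cntAt C (none :: some c :: w) := by
    intro C
    simp only [pk]
    rw [Finset.sum_comm, Finset.mul_sum]
    refine Finset.sum_congr rfl fun d _ => ?_
    rw [← Finset.mul_sum, mul_left_comm, Finset.sum_comm, Finset.mul_sum]
    congr 1
    refine Finset.sum_congr rfl fun w _ => ?_
    rw [Finset.sum_comm, Finset.mul_sum]
    refine Finset.sum_congr rfl fun c _ => ?_
    split_ifs
    · simp
    · rw [cntAt, Finset.card_filter]
      simp
  simp only [h1]
  rw [Finset.sum_comm, park]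
  refine Finset.sum_congr rfl fun d hd => ?_
  rw [← Finset.mul_sum, Finset.sum_comm]
  congr 1
  refine Finset.sum_congr rfl fun w hw => ?_
  rw [Finset.sum_comm]
  refine Finset.sum_congr rfl fun c _ => ?_
  split_ifs
  · simp
  · refine hπ.2.2.2 _ ?_
    have := mem_range.1 hd
    simp only [List.length_cons, mem_lists.1 hw]
    omega

end Prob

end TB

open TB in
theorem tb (h1 : RoundStmt) (h2 : DerandStmt) : TBStmt := by
  intro k Y Ω L _ _ _ _ G T D W lab anc Zf nf hE hZ
  have hW := hE.W_pos
  have hlast : ∀ l y, pos G.s0 anc l (path lab l y D) = y := by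
    intro l y
    obtain ⟨d, rfl⟩ := Nat.exists_eq_succ_of_ne_zero hE.D_pos.ne'
    have := hE.last l y
    simp only [Nat.succ_sub_one] at this
    simp only [path, pos, path_length, this]
  obtain ⟨A, hA⟩ := h2 k Y Ω (Cfg k (Option L) D) G T
    (fun l C i => pos G.s0 anc l (C i).toList) (fun l π => Bal (Zf l) π)
    (fun l' => 700 * W * (mvZ D Zf nf l'.tail l' + park D anc Zf l'.tail l'))
    (fun _ => ⟨path lab [] G.s0 D, path_length _ _ _ _⟩) (fun _ => hlast _ _)
    (bal_start hZ (fun _ => ⟨path lab [] G.s0 D, path_length _ _ _ _⟩) (fun _ => rfl) _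
      (if_pos rfl) fun _ h => if_neg h) (by
    intro t ht ω π hπ
    have hl := G.reach_hist t ω
    have hl' := G.reach_hist (t + 1) ω
    obtain ⟨γ, g0, g1, g2, g3⟩ := h1 k D (Option L) _ (Zf (G.hist (t + 1) ω)) π
      ⟨hZ.z_root _, hZ.z_nonneg _ hl', fun u _ => hZ.z_cons _ u⟩ hπ
    have p1 : ∀ x y, 0 < γ x y → 0 < π x := fun x y h => by
      rw [← g1 x]
      exact h.trans_le (Finset.single_le_sum (f := fun y => γ x y) (fun _ _ => g0 _ _)
        (mem_univ y))
    have p2 : ∀ x y, 0 < γ x y → 0 < ∑ x, γ x y := fun x y h =>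
      h.trans_le (Finset.single_le_sum (f := fun x => γ x y) (fun _ _ => g0 _ _) (mem_univ x))
    refine ⟨γ, g0, g1, g2, fun x y h => ?_, ?_⟩
    · have h3 := (g2.2.2.1 y (p2 x y h) (path lab (G.hist (t + 1) ω) (G.req t ω) D)
        (path_length _ _ _ _).le).1
      have h4 : 1 ≤ ⌊Zf (G.hist (t + 1) ω) (path lab (G.hist (t + 1) ω) (G.req t ω) D)⌋₊ :=
        Nat.le_floor (by rw [Nat.cast_one]; exact hZ.z_req _ _ hl' D)
      obtain ⟨i, hi⟩ := cntAt_pos.1 (h4.trans h3)
      have h5 := hi.eq_of_length (by simp [path_length])
      exact ⟨i, by rw [← h5]; exact hlast _ _⟩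
    · have h3 : ∀ x y, γ x y * ∑ i, dist (pos G.s0 anc (G.hist t ω) (x i).toList)
          (pos G.s0 anc (G.hist (t + 1) ω) (y i).toList) ≤
          94 * W * (γ x y * ∑ i, tdist D (x i).toList (y i).toList) +
          25 * W * (γ x y * ∑ i, pk D anc (G.hist t ω) (G.hist (t + 1) ω) (y i).toList) := by
        intro x y
        rcases (g0 x y).eq_or_lt with h | h
        · rw [← h]; simp
        · rw [mul_left_comm (94 * W), mul_left_comm (25 * W), ← mul_add, Finset.mul_sum univ _
            (94 * W), Finset.mul_sum univ _ (25 * W), ← Finset.sum_add_distrib]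
          refine mul_le_mul_of_nonneg_left (Finset.sum_le_sum fun i _ => ?_) h.le
          exact server hE G.s0 (by simpa using ht) _ (by simp) (by simp)
            (real_of_pos hZ hl hπ (p1 x y h) i) (real_of_pos hZ hl' g2 (p2 x y h) i)
      refine (Finset.sum_le_sum fun x _ => Finset.sum_le_sum fun y _ => h3 x y).trans ?_
      have h4 := sum_pk anc (G.hist t ω) (G.hist (t + 1) ω) g2
      simp only [Finset.sum_mul] at h4
      rw [Finset.sum_comm] at h4
      simp only [Finset.sum_add_distrib, ← Finset.mul_sum univ _ (94 * W),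
        ← Finset.mul_sum univ _ (25 * W)]
      rw [h4]
      have h5 : ∑ d ∈ range D, (1 / 2 : ℝ) ^ d * ∑ u ∈ lists (Option L) (d + 1),
          |Zf (G.hist (t + 1) ω) u - Zf (G.hist t ω) u| ≤
          mvZ D Zf nf (G.hist t ω) (G.hist (t + 1) ω) :=
        Finset.sum_le_sum fun d _ => mul_le_mul_of_nonneg_left
          (Finset.sum_le_sum fun u _ => le_add_of_nonneg_right (abs_nonneg _)) (by positivity)
      have h6 : 0 ≤ mvZ D Zf nf (G.hist t ω) (G.hist (t + 1) ω) :=
        Finset.sum_nonneg fun d _ => mul_nonneg (by positivity)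
          (Finset.sum_nonneg fun u _ => by positivity)
      have h7 : 0 ≤ park D anc Zf (G.hist t ω) (G.hist (t + 1) ω) :=
        Finset.sum_nonneg fun d _ => mul_nonneg (by positivity)
          (Finset.sum_nonneg fun u _ => Finset.sum_nonneg fun c _ => by
            split_ifs
            · exact le_rfl
            · exact hZ.z_nonneg _ hl' _)
      show _ ≤ 700 * W * (mvZ D Zf nf (G.hist t ω) (G.hist (t + 1) ω) +
        park D anc Zf (G.hist t ω) (G.hist (t + 1) ω))
      have h8 := mul_le_mul_of_nonneg_left (g3.trans (mul_le_mul_of_nonneg_left h5 (by norm_num)))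
        (show 0 ≤ 94 * W by positivity)
      nlinarith [mul_nonneg hW.le h6, mul_nonneg hW.le h7])
  refine ⟨A, hA.trans (le_of_eq ?_)⟩
  rw [← G.E_mul]
  congr 1
  funext ω
  rw [Finset.mul_sum]
  rfl

end Vale.Agent.P304
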