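import Vale.Agent.P304.StmtsT
import Vale.Agent.P304.TA

/-! Movement of the toggles and trackers of one node. -/

namespace Vale.Agent.P304

open Finset
open scoped Classical

namespace TDx

variable {k : ℕ} {Y Ω L : Type} [Fintype Ω] [Fintype L] (G : Game k Y Ω)
  (lab : ℕ → List Y → Y → L)

theorem E_swap {ι : Type} (T : ℕ) (s : Finset ι) (f : ι → ℕ → Ω → ℝ) :
    (G.E fun ω => ∑ t ∈ range T, ∑ i ∈ s, f i t ω) =
      ∑ i ∈ s, G.E fun ω => ∑ t ∈ range T, f i t ω := by
  rw [← G.E_sum]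
  exact congrArg _ (funext fun ω => sum_comm)

omit [Fintype L] in
theorem hid_01 (t : ℕ) (ω : Ω) (v : List (Option L)) (i : ℕ) :
    G.hid lab t ω v i = 0 ∨ G.hid lab t ω v i = 1 := by
  unfold Game.hid
  split_ifs <;> simp

omit [Fintype L] in
theorem sum_dhid (t : ℕ) (ω : Ω) (v : List (Option L)) :
    ∑ i ∈ range k, |G.hid lab (t + 1) ω v i - G.hid lab t ω v i| ≤ G.dN lab t ω v :=
  TA.sum_slot _ _ k

omit [Fintype L] in
theorem sum_hid (t : ℕ) (ω : Ω) (v : List (Option L)) :
    ∑ i ∈ range k, (1 - G.hid lab t ω v i) ≤ G.NN lab t ω v := by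
  have h := TA.sum_slot (G.NN lab t ω v) 0 k
  simp only [zero_le, if_true, Nat.cast_zero, zero_sub, abs_neg, Nat.abs_cast] at h
  exact (sum_le_sum fun i _ => le_abs_self _).trans h

theorem La_nonneg (F : Facts k) (cl : List (Option L) → ℕ) : ∀ u, 0 ≤ La k cl u
  | [] => le_rfl
  | none :: u => La_nonneg F cl u
  | some c :: u => by
    refine add_nonneg (La_nonneg F cl u) ?_
    unfold inc
    split_ifs
    · refine sum_nonneg fun c' _ => ?_
      unfold gl
      split_ifs
      · exact one_div_nonneg.2 ((by positivity : (0 : ℝ) ≤ 2 ^ _).trans (F.thi_pow _))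
      · exact le_rfl
    · linarith [F.eta_pos (cl (some c :: u))]

theorem lam_nonneg (F : Facts k) (cl : List (Option L) → ℕ) (u : List (Option L)) :
    0 ≤ lam k cl u := le_min (La_nonneg F cl u) (by positivity)

theorem ss_mem (F : Facts k) (cl : List (Option L) → ℕ) (u : List (Option L)) :
    7 / 2 ≤ ss k cl u ∧ ss k cl u ≤ 351 / 100 :=
  ⟨F.ss_lo _ (lam_nonneg F cl u), F.ss_hi _ ((min_le_right _ _).trans (by
    have : (0 : ℝ) ≤ el k := Nat.cast_nonneg _
    linarith))⟩

theorem d1 (h2 : TogStmt) (T : ℕ) (v : List (Option L)) :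
    (G.E fun ω => ∑ t ∈ range T, (G.ts lab (G.hist t ω)).D1 k (G.ts lab (G.hist (t + 1) ω)) v) ≤
      20 * G.E fun ω => ∑ t ∈ range T, G.dN lab t ω v := by
  unfold TS.D1
  rw [E_swap]
  refine (sum_le_sum (g := fun i => 20 * G.E fun ω => ∑ t ∈ range T,
    |G.hid lab (t + 1) ω v i - G.hid lab t ω v i|) fun i _ => ?_).trans ?_
  · have h := h2 k Y Ω G (fun t ω => G.hid lab t ω v i) (fun l => G.yP lab l v i) (fun _ => 1 / 20)
      (fun _ => 3 / 20) (1 / 10) T (fun _ => rfl) (fun t ω => hid_01 G lab t ω v i) (fun _ _ => rfl)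
      (by norm_num) (by norm_num) (fun _ => by norm_num) (fun _ => by norm_num)
      fun _ => by norm_num
    simp only [sub_self, abs_zero, zero_mul, add_zero] at h
    change _ * (G.E fun ω => ∑ t ∈ range T, if ((G.ts lab (G.hist t ω)).dp v i ↔
      (G.ts lab (G.hist (t + 1) ω)).dp v i) then 0 else 1) ≤ _ at h
    linarith
  · rw [← mul_sum, ← E_swap]
    exact mul_le_mul_of_nonneg_left
      (G.E_mono fun ω => sum_le_sum fun t _ => sum_dhid G lab t ω v) (by norm_num)

theorem d2 (F : Facts k) (h1 : TrackStmt) (T : ℕ) (v : List (Option L)) :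
    (G.E fun ω => ∑ t ∈ range T, (G.ts lab (G.hist t ω)).D2 k (G.ts lab (G.hist (t + 1) ω)) v) ≤
      10 ^ 8 * el k * G.E fun ω => ∑ t ∈ range T, G.dN lab t ω v := by
  unfold TS.D2
  rw [E_swap]
  have hc : 4 / om k * Real.log ((1 + 1 / 20) / (1 / 20)) ≤ 10 ^ 8 * el k := by
    have e : 4 / om k = 4 * 10 ^ 6 * el k := by
      rw [div_eq_iff F.om_pos.ne']
      linear_combination (-4 * 10 ^ 6) * F.om_el
    have h := Real.log_le_sub_one_of_pos (by norm_num : (0 : ℝ) < (1 + 1 / 20) / (1 / 20))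
    have h0 : (0 : ℝ) ≤ el k := Nat.cast_nonneg _
    rw [e]
    nlinarith
  refine (sum_le_sum (g := fun i => 10 ^ 8 * el k * G.E fun ω => ∑ t ∈ range T,
    |G.hid lab (t + 1) ω v i - G.hid lab t ω v i|) fun i _ => ?_).trans ?_
  · refine (h1 k Y Ω G (fun t ω => G.hid lab t ω v i) (om k) (1 / 20) 1 T F.om_pos
      (F.om_le.trans (by norm_num)) (by norm_num) (fun t ω => ?_) (fun t ω => ?_)
      fun _ _ => rfl).trans (mul_le_mul_of_nonneg_right hc
        (G.E_nonneg fun ω => sum_nonneg fun _ _ => abs_nonneg _))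
    · rcases hid_01 G lab t ω v i with h | h <;> simp [h]
    · rcases hid_01 G lab t ω v i with h | h <;> simp [h]
  · rw [← mul_sum, ← E_swap]
    exact mul_le_mul_of_nonneg_left
      (G.E_mono fun ω => sum_le_sum fun t _ => sum_dhid G lab t ω v) (by positivity)

theorem d3_one (F : Facts k) (h2 : TogStmt) (T : ℕ) (c : L) (u : List (Option L)) (i : ℕ) {j : ℕ}
    (hj : j ≤ nn k + 1) :
    (G.E fun ω => ∑ t ∈ range T, if ((G.ts lab (G.hist t ω)).on (some c :: u) i j ↔
        (G.ts lab (G.hist (t + 1) ω)).on (some c :: u) i j) then 0 else (1 / 4) ^ j) ≤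
      2200 * (1 / 2) ^ j * G.E fun ω => ∑ t ∈ range T,
        (|G.hid lab (t + 1) ω (some c :: u) i - G.hid lab t ω (some c :: u) i| +
          om k * |lam k (G.clP lab (G.hist (t + 1) ω)) u - lam k (G.clP lab (G.hist t ω)) u| *
            (1 - G.hid lab (t + 1) ω (some c :: u) i)) := by
  have w1 := F.wd_lo' j
  have w2 := F.wd_hi j
  have w0 : 0 < wd k j := lt_of_lt_of_le (by positivity) w1
  have t1 := F.tt_lo j
  have t2 := F.tt_hi j hj
  have s1 := fun l => ss_mem F (G.clP lab l) u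
  have h := h2 k Y Ω G (fun t ω => G.hid lab t ω (some c :: u) i)
    (fun l => G.yP lab l (some c :: u) i)
    (fun l => (tt k j + 1 / 3 * wd k j) / ss k (G.clP lab l) u)
    (fun l => (tt k j + 2 / 3 * wd k j) / ss k (G.clP lab l) u) (wd k j / 11) T (fun _ => rfl)
    (fun t ω => hid_01 G lab t ω _ i) (fun _ _ => rfl) (by positivity) (by linarith)
    (fun l => div_nonneg (by linarith) (by linarith [(s1 l).1])) (fun l => by
      rw [← le_sub_iff_add_le', ← sub_div, le_div_iff₀ (by linarith [(s1 l).1])]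
      nlinarith [(s1 l).2])
    fun l => by
      rw [div_le_iff₀ (by linarith [(s1 l).1])]
      linarith [(s1 l).1]
  change _ * (G.E fun ω => ∑ t ∈ range T, if ((G.ts lab (G.hist t ω)).on (some c :: u) i j ↔
      (G.ts lab (G.hist (t + 1) ω)).on (some c :: u) i j) then 0 else 1) ≤ _ at h
  have e : (G.E fun ω => ∑ t ∈ range T, if ((G.ts lab (G.hist t ω)).on (some c :: u) i j ↔
        (G.ts lab (G.hist (t + 1) ω)).on (some c :: u) i j) then 0 else (1 / 4 : ℝ) ^ j) =
      (1 / 4) ^ j * G.E fun ω => ∑ t ∈ range T,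
        if ((G.ts lab (G.hist t ω)).on (some c :: u) i j ↔
        (G.ts lab (G.hist (t + 1) ω)).on (some c :: u) i j) then 0 else 1 := by
    rw [← G.E_mul]
    simp only [mul_sum, mul_ite, mul_zero, mul_one]
  rw [e]
  refine le_trans ?_ (mul_le_mul_of_nonneg_left (h.trans (G.E_mono fun ω =>
    sum_le_sum fun t _ => add_le_add le_rfl (mul_le_mul_of_nonneg_right ?_ ?_))) (by positivity))
  · rw [← mul_assoc]
    refine mul_le_mul_of_nonneg_right ?_ (G.E_nonneg fun ω => sum_nonneg fun _ _ => by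
      split_ifs <;> norm_num)
    have e2 : (1 / 4 : ℝ) ^ j = (1 / 2) ^ j * (1 / 2) ^ j := by rw [← mul_pow]; norm_num
    have h0 : (0 : ℝ) < (1 / 2) ^ j := by positivity
    rw [e2]
    nlinarith
  · have h3 := F.ss_inv_lip _ _ (lam_nonneg F (G.clP lab (G.hist t ω)) u)
      (lam_nonneg F (G.clP lab (G.hist (t + 1) ω)) u)
    have e2 : ∀ s s' : ℝ, (tt k j + 1 / 3 * wd k j) / s' + (tt k j + 2 / 3 * wd k j) / s' -
        ((tt k j + 1 / 3 * wd k j) / s + (tt k j + 2 / 3 * wd k j) / s) =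
        (2 * tt k j + wd k j) * (1 / s' - 1 / s) := fun s s' => by ring
    rw [e2, abs_mul, abs_of_pos (by linarith)]
    refine (mul_le_mul (by linarith : 2 * tt k j + wd k j ≤ 3) h3 (abs_nonneg _)
      (by norm_num)).trans_eq (by ring)
  · rcases hid_01 G lab (t + 1) ω (some c :: u) i with h | h <;> simp [h]

theorem d3 (F : Facts k) (h2 : TogStmt) (T : ℕ) (c : L) (u : List (Option L)) :
    (G.E fun ω => ∑ t ∈ range T,
        (G.ts lab (G.hist t ω)).D3 k (G.ts lab (G.hist (t + 1) ω)) (some c :: u)) ≤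
      4400 * G.E fun ω => ∑ t ∈ range T, (G.dN lab t ω (some c :: u) +
        om k * (G.ts lab (G.hist t ω)).D5 k (G.ts lab (G.hist (t + 1) ω)) c u) := by
  unfold TS.D3
  rw [E_swap]
  refine (sum_le_sum (g := fun i => 4400 * G.E fun ω => ∑ t ∈ range T,
    (|G.hid lab (t + 1) ω (some c :: u) i - G.hid lab t ω (some c :: u) i| +
      om k * |lam k (G.clP lab (G.hist (t + 1) ω)) u - lam k (G.clP lab (G.hist t ω)) u| *
        (1 - G.hid lab (t + 1) ω (some c :: u) i))) fun i _ => ?_).trans ?_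
  · rw [E_swap]
    refine (sum_le_sum fun j hj => d3_one G lab F h2 T c u i (mem_range.1 hj).le).trans ?_
    rw [← sum_mul, ← mul_sum]
    refine mul_le_mul_of_nonneg_right (by linarith [sum_geometric_two_le (nn k + 1)])
      (G.E_nonneg fun ω => sum_nonneg fun t _ => add_nonneg (abs_nonneg _)
        (mul_nonneg (mul_nonneg F.om_pos.le (abs_nonneg _)) ?_))
    rcases hid_01 G lab (t + 1) ω (some c :: u) i with h | h <;> simp [h]
  · rw [← mul_sum, ← E_swap]
    refine mul_le_mul_of_nonneg_left ?_ (by norm_num)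
    refine (G.E_mono (X' := fun ω => ∑ t ∈ range T, (G.dN lab t ω (some c :: u) +
      om k * |lam k (G.clP lab (G.hist (t + 1) ω)) u - lam k (G.clP lab (G.hist t ω)) u| *
        G.NN lab (t + 1) ω (some c :: u))) fun ω => sum_le_sum fun t _ => ?_).trans_eq ?_
    · rw [sum_add_distrib, ← mul_sum]
      exact add_le_add (sum_dhid G lab t ω _) (mul_le_mul_of_nonneg_left (sum_hid G lab _ ω _)
        (mul_nonneg F.om_pos.le (abs_nonneg _)))
    · rw [G.E_sum, G.E_sum]
      refine sum_congr rfl fun t _ => ?_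
      rw [G.E_add, G.E_add]
      congr 1
      have h := G.E_ce (t + 1) fun l ω => om k * |lam k (G.clP lab l) u -
        lam k (G.clP lab l.tail) u| * G.NN lab l.length ω (some c :: u)
      simp only [G.ce_mul] at h
      refine Eq.trans ?_ (h.symm.trans (congrArg _ (funext fun ω => ?_)))
      · simp only [G.hist_length]
        rfl
      · rw [mul_assoc, mul_comm |_|]
        rfl

end TDx

theorem dS (hF : ParamStmt) (h1 : TrackStmt) (h2 : TogStmt) : DStmt := by
  refine ⟨10 ^ 8, by norm_num, fun k Y Ω L _ _ G lab T c u hk => ⟨?_, TDx.d2 G lab (hF k hk) h1 T _, ?_⟩⟩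
  · exact (TDx.d1 G lab h2 T _).trans (mul_le_mul_of_nonneg_right (by norm_num)
      (G.E_nonneg fun ω => sum_nonneg fun _ _ => abs_nonneg _))
  · refine (TDx.d3 G lab (hF k hk) h2 T c u).trans (mul_le_mul_of_nonneg_right (by norm_num)
      (G.E_nonneg fun ω => sum_nonneg fun _ _ => add_nonneg (abs_nonneg _)
        (mul_nonneg (hF k hk).om_pos.le (mul_nonneg ?_ (abs_nonneg _)))))
    exact G.ce_nonneg fun _ _ => Nat.cast_nonneg _

end Vale.Agent.P304
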