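import Vale.Agent.P304.Stmts

namespace Vale.Agent.P304

open Finset
open scoped Classical

theorem log_ge_of_two_le {k : ℕ} (hk : 2 ≤ k) : 0.69 ≤ Real.log k := by
  have h1 : Real.log 2 ≤ Real.log k :=
    Real.log_le_log (by norm_num) (by exact_mod_cast hk)
  have := Real.log_two_gt_d9
  linarith

theorem rho_pos {W : ℝ} (hW : 0 < W) (d : ℕ) : 0 < rho W d := by unfold rho; positivity

theorem rho_eq (W : ℝ) (d : ℕ) : W * (1 / 2 : ℝ) ^ d = 2 * rho W d := by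
  unfold rho; rw [one_div, inv_pow]; field_simp; ring

namespace Game

variable {k : ℕ} {Y Ω L : Type} [Fintype Ω] (G : Game k Y Ω)

theorem lchg_nonneg (lab : List Y → Y → L) (t : ℕ) (ω : Ω) : 0 ≤ G.lchg lab t ω :=
  Finset.sum_nonneg fun _ _ => by split_ifs <;> norm_num

theorem lbad_nonneg [MetricSpace Y] (lab : List Y → Y → L) (anc : List Y → L → Y) (ρ : ℝ)
    (t : ℕ) (ω : Ω) : 0 ≤ G.lbad lab anc ρ t ω :=
  Finset.sum_nonneg fun _ _ => by split_ifs <;> norm_num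

theorem chg_nonneg [MetricSpace Y] (lab : List Y → Y → L) (anc : List Y → L → Y) (ρ : ℝ)
    (t : ℕ) (ω : Ω) : 0 ≤ G.chg lab anc ρ t ω :=
  add_nonneg (G.lchg_nonneg _ _ _) (G.lbad_nonneg _ _ _ _ _)

end Game

theorem tree (h1 : TAStmt) (h2 : TBStmt) (h3 : ParkStmt) : TreeStmt := by
  obtain ⟨C1, hC1, h1⟩ := h1
  obtain ⟨C3, hC3, h3⟩ := h3
  refine ⟨700 * ((1 + C3) * (2 * C1) + 3 * C3), by positivity, ?_⟩
  intro k hk Y Ω L _ _ _ _ G T D W lab anc hE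
  obtain ⟨Zf, nf, hZ, hmv⟩ := h1 k hk Y Ω L G lab T D
  obtain ⟨A, hA⟩ := h2 k Y Ω L G T D W lab anc Zf nf hE hZ
  have hp := h3 k hk Y Ω L G T D W lab anc Zf nf hE.W_pos hZ
  refine ⟨A, hA.trans ?_⟩
  have hW := hE.W_pos
  have hL := log_ge_of_two_le hk
  set Lg := Real.log k
  set M := G.E fun ω => ∑ t ∈ range T, mvZ D Zf nf (G.hist t ω) (G.hist (t + 1) ω)
  set P := G.E fun ω => ∑ t ∈ range T, park D anc Zf (G.hist t ω) (G.hist (t + 1) ω)
  set Q := G.E fun ω => ∑ t ∈ range T, ∑ d ∈ range D,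
    rho W d * G.chg (lab d) (anc d) (rho W d) t ω with hQ
  set R := G.E fun ω => ∑ t ∈ range T, G.ell t ω
  have hsplit : (G.E fun ω => ∑ t ∈ range T, (mvZ D Zf nf (G.hist t ω) (G.hist (t + 1) ω) +
      park D anc Zf (G.hist t ω) (G.hist (t + 1) ω))) = M + P := by
    simp only [Finset.sum_add_distrib]; rw [G.E_add]
  have hQ0 : 0 ≤ Q := G.E_nonneg fun ω => Finset.sum_nonneg fun t _ =>
    Finset.sum_nonneg fun d _ => mul_nonneg (rho_pos hW d).le (G.chg_nonneg _ _ _ _ _)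
  have hR0 : 0 ≤ R := G.E_nonneg fun ω => Finset.sum_nonneg fun t _ => G.ell_nonneg t ω
  have hl : W * (G.E fun ω => ∑ t ∈ range T, ∑ d ∈ range D,
      (1 / 2 : ℝ) ^ d * G.lchg (lab d) t ω) ≤ 2 * Q := by
    rw [hQ, ← G.E_mul, ← G.E_mul]
    refine G.E_mono fun ω => ?_
    simp only [Finset.mul_sum]
    refine Finset.sum_le_sum fun t _ => Finset.sum_le_sum fun d _ => ?_
    rw [← mul_assoc, rho_eq, mul_assoc]
    refine mul_le_mul_of_nonneg_left (mul_le_mul_of_nonneg_left ?_ (rho_pos hW d).le)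
      (by norm_num)
    exact le_add_of_nonneg_right (G.lbad_nonneg _ _ _ _ _)
  have hM : W * M ≤ C1 * Lg ^ 2 * (2 * Q) := by
    calc W * M ≤ W * (C1 * Lg ^ 2 * G.E fun ω => ∑ t ∈ range T, ∑ d ∈ range D,
          (1 / 2 : ℝ) ^ d * G.lchg (lab d) t ω) := mul_le_mul_of_nonneg_left hmv hW.le
      _ = C1 * Lg ^ 2 * (W * G.E fun ω => ∑ t ∈ range T, ∑ d ∈ range D,
          (1 / 2 : ℝ) ^ d * G.lchg (lab d) t ω) := by ring
      _ ≤ _ := mul_le_mul_of_nonneg_left hl (by positivity)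
  have e1 : Q ≤ 3 * Lg ^ 2 * Q := le_mul_of_one_le_left hQ0 (by nlinarith)
  have e2 : Lg * R ≤ 3 * Lg ^ 2 * R := by
    refine mul_le_mul_of_nonneg_right ?_ hR0
    nlinarith
  have e3 : C3 * (W * M) ≤ C3 * (C1 * Lg ^ 2 * (2 * Q)) := mul_le_mul_of_nonneg_left hM hC3
  have e4 : C3 * Q ≤ C3 * (3 * Lg ^ 2 * Q) := mul_le_mul_of_nonneg_left e1 hC3
  have e5 : C3 * (Lg * R) ≤ C3 * (3 * Lg ^ 2 * R) := mul_le_mul_of_nonneg_left e2 hC3
  have e6 : 0 ≤ (1 + C3) * (2 * C1) * Lg ^ 2 * R := by positivity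
  rw [hsplit]
  nlinarith

end Vale.Agent.P304
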